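import Vale.Agent.P365.T2.SmoothS755

/-!
# P365 T2: common shift of the movable part of the uniform law.

`fM` = total density of the movable labels (good and marks).  Shifting the movable part by `t`
changes the density of the value by the factor `rt t`, and `rt t * rt (-t) ≥ 1 - C t²`.
-/

set_option linter.all false

namespace P365T1.C11

open MeasureTheory Set P365T1 P365T1.Bump P365T1.OneVar P365T1.Lab37 P365T1.Smooth755
open scoped ENNReal

/-! ### the movable density -/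

/-- total density of the movable labels -/
noncomputable def fM (lam τ v : ℝ) : ℝ := (1 - τ) * rhoS lam (lam * τ / 2) v

/-- Lipschitz constant -/
noncomputable def L1 (lam τ : ℝ) : ℝ := K1 lam (lam * τ / 2)

/-- constant of the second difference -/
noncomputable def L2 (lam τ : ℝ) : ℝ := K2 lam (lam * τ / 2)

/-- constant of `rt_mul` -/
noncomputable def Ct (lam τ : ℝ) : ℝ := 2 * lam * L2 lam τ + (2 * lam * L1 lam τ) ^ 2

variable {lam τ : ℝ}

theorem l_pos (hlam : 0 < lam) (hτ : 0 < τ) : 0 < lam * τ / 2 := by positivity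

theorem l_lt (hlam : 0 < lam) (hτ' : τ ≤ 1) : lam * τ / 2 < lam := by nlinarith

theorem L1_nonneg (hlam : 0 < lam) (hτ : 0 < τ) (hτ' : τ ≤ 1) : 0 ≤ L1 lam τ :=
  K1_nonneg (l_pos hlam hτ) (l_lt hlam hτ')

theorem L2_nonneg (hlam : 0 < lam) (hτ : 0 < τ) (hτ' : τ ≤ 1) : 0 ≤ L2 lam τ :=
  K2_nonneg (l_pos hlam hτ) (l_lt hlam hτ')

theorem Ct_nonneg (hlam : 0 < lam) (hτ : 0 < τ) (hτ' : τ ≤ 1) : 0 ≤ Ct lam τ := by
  have := L2_nonneg hlam hτ hτ'
  unfold Ct
  positivity

theorem fM_nonneg (hlam : 0 < lam) (hτ : 0 < τ) (hτ' : τ ≤ 1) (v : ℝ) : 0 ≤ fM lam τ v :=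
  mul_nonneg (by linarith) (rhoS_nonneg (l_pos hlam hτ) (l_lt hlam hτ') v)

theorem measurable_fM (lam τ : ℝ) : Measurable (fM lam τ) := (measurable_rhoS _ _).const_mul _

theorem fM_lip (hlam : 0 < lam) (hτ : 0 < τ) (hτ' : τ ≤ 1) (u v : ℝ) :
    |fM lam τ u - fM lam τ v| ≤ L1 lam τ * |u - v| := by
  have h := rhoS_lip (l_pos hlam hτ) (l_lt hlam hτ') u v
  unfold fM
  rw [← mul_sub, abs_mul, abs_of_nonneg (by linarith : (0 : ℝ) ≤ 1 - τ)]
  have h0 := abs_nonneg (rhoS lam (lam * τ / 2) u - rhoS lam (lam * τ / 2) v)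
  calc (1 - τ) * |rhoS lam (lam * τ / 2) u - rhoS lam (lam * τ / 2) v|
      ≤ 1 * |rhoS lam (lam * τ / 2) u - rhoS lam (lam * τ / 2) v| :=
        mul_le_mul_of_nonneg_right (by linarith) h0
    _ ≤ _ := by
        rw [one_mul]
        exact h

theorem continuous_fM (hlam : 0 < lam) (hτ : 0 < τ) (hτ' : τ ≤ 1) : Continuous (fM lam τ) := by
  have h1 := L1_nonneg hlam hτ hτ'
  refine LipschitzWith.continuous (K := ⟨L1 lam τ, h1⟩) (LipschitzWith.of_dist_le_mul fun u v => ?_)
  rw [Real.dist_eq, Real.dist_eq]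
  exact fM_lip hlam hτ hτ' u v

theorem fM_second (hlam : 0 < lam) (hτ : 0 < τ) (hτ' : τ ≤ 1) (v t : ℝ) :
    |fM lam τ (v + t) + fM lam τ (v - t) - 2 * fM lam τ v| ≤ L2 lam τ * t ^ 2 := by
  have h := rhoS_second (l_pos hlam hτ) (l_lt hlam hτ') v t
  unfold fM
  have e : (1 - τ) * rhoS lam (lam * τ / 2) (v + t) + (1 - τ) * rhoS lam (lam * τ / 2) (v - t) -
      2 * ((1 - τ) * rhoS lam (lam * τ / 2) v) = (1 - τ) * (rhoS lam (lam * τ / 2) (v + t) +
        rhoS lam (lam * τ / 2) (v - t) - 2 * rhoS lam (lam * τ / 2) v) := by ring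
  rw [e, abs_mul, abs_of_nonneg (by linarith : (0 : ℝ) ≤ 1 - τ)]
  have h0 := abs_nonneg (rhoS lam (lam * τ / 2) (v + t) +
        rhoS lam (lam * τ / 2) (v - t) - 2 * rhoS lam (lam * τ / 2) v)
  calc (1 - τ) * _ ≤ 1 * _ := mul_le_mul_of_nonneg_right (by linarith) h0
    _ ≤ _ := by
        rw [one_mul]
        exact h

theorem fM_supp (hlam : 0 < lam) (hτ : 0 < τ) (hτ' : τ ≤ 1) {v : ℝ} (hv : lam < |v|) :
    fM lam τ v = 0 := by
  unfold fM
  rw [rhoS_supp (l_pos hlam hτ) (l_lt hlam hτ') hv, mul_zero]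

/-- the movable density is below the uniform one -/
theorem fM_le (hlam : 0 < lam) (hτ : 0 < τ) (hτ' : τ ≤ 1) (v : ℝ) :
    fM lam τ v ≤ (2 * lam)⁻¹ := by
  have h1 := rhoS_le (l_pos hlam hτ) (l_lt hlam hτ') v
  have h2 : 0 < 1 - τ / 2 := by linarith
  have h3 : 0 < lam - lam * τ / 2 := by nlinarith
  unfold fM
  calc (1 - τ) * rhoS lam (lam * τ / 2) v ≤ (1 - τ) * (2 * (lam - lam * τ / 2))⁻¹ :=
        mul_le_mul_of_nonneg_left h1 (by linarith)
    _ ≤ (2 * lam)⁻¹ := by
        rw [← div_eq_mul_inv, inv_eq_one_div, div_le_div_iff₀ (by positivity) (by positivity)]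
        nlinarith

/-! ### the ratio -/

/-- density ratio of the value after the shift of the movable part by `t` -/
noncomputable def rt (lam τ t v : ℝ) : ℝ := 1 + 2 * lam * (fM lam τ (v - t) - fM lam τ v)

theorem measurable_rt (lam τ t : ℝ) : Measurable (rt lam τ t) := by
  unfold rt
  exact (((((measurable_fM lam τ).comp (measurable_id.sub_const t))).sub
    (measurable_fM lam τ)).const_mul _).const_add _

theorem continuous_rt2 (hlam : 0 < lam) (hτ : 0 < τ) (hτ' : τ ≤ 1) :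
    Continuous fun p : ℝ × ℝ => rt lam τ p.1 p.2 := by
  have h := continuous_fM hlam hτ hτ'
  unfold rt
  fun_prop

theorem rt_zero (v : ℝ) : rt lam τ 0 v = 1 := by
  unfold rt
  rw [sub_zero, sub_self, mul_zero, add_zero]

theorem rt_nonneg (hlam : 0 < lam) (hτ : 0 < τ) (hτ' : τ ≤ 1) (t v : ℝ) : 0 ≤ rt lam τ t v := by
  have h1 := fM_nonneg hlam hτ hτ' (v - t)
  have h2 := fM_le hlam hτ hτ' v
  have h3 : 2 * lam * fM lam τ v ≤ 1 := by
    calc 2 * lam * fM lam τ v ≤ 2 * lam * (2 * lam)⁻¹ :=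
          mul_le_mul_of_nonneg_left h2 (by positivity)
      _ = 1 := by field_simp
  have h4 : 0 ≤ 2 * lam * fM lam τ (v - t) := by positivity
  unfold rt
  rw [mul_sub]
  linarith

theorem abs_rt_sub_one (hlam : 0 < lam) (hτ : 0 < τ) (hτ' : τ ≤ 1) (t v : ℝ) :
    |rt lam τ t v - 1| ≤ 2 * lam * L1 lam τ * |t| := by
  have h := fM_lip hlam hτ hτ' (v - t) v
  have e : v - t - v = -t := by ring
  rw [e, abs_neg] at h
  have e2 : rt lam τ t v - 1 = 2 * lam * (fM lam τ (v - t) - fM lam τ v) := by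
    unfold rt
    ring
  rw [e2, abs_mul, abs_of_pos (by positivity : 0 < 2 * lam)]
  calc 2 * lam * _ ≤ 2 * lam * (L1 lam τ * |t|) := mul_le_mul_of_nonneg_left h (by positivity)
    _ = _ := by ring

/-- **the product of the two ratios** -/
theorem rt_mul (hlam : 0 < lam) (hτ : 0 < τ) (hτ' : τ ≤ 1) (t v : ℝ) :
    1 - Ct lam τ * t ^ 2 ≤ rt lam τ t v * rt lam τ (-t) v := by
  obtain ⟨α, hα⟩ : ∃ α, α = 2 * lam * (fM lam τ (v - t) - fM lam τ v) := ⟨_, rfl⟩
  obtain ⟨β, hβ⟩ : ∃ β, β = 2 * lam * (fM lam τ (v + t) - fM lam τ v) := ⟨_, rfl⟩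
  have e1 : rt lam τ t v = 1 + α := by rw [hα]; rfl
  have e2 : rt lam τ (-t) v = 1 + β := by
    rw [hβ]
    unfold rt
    rw [sub_neg_eq_add]
  have hl1 := L1_nonneg hlam hτ hτ'
  have h1 : |α| ≤ 2 * lam * L1 lam τ * |t| := by
    have h := abs_rt_sub_one hlam hτ hτ' t v
    rw [e1] at h
    simpa using h
  have h2 : |β| ≤ 2 * lam * L1 lam τ * |t| := by
    have h := abs_rt_sub_one hlam hτ hτ' (-t) v
    rw [e2, abs_neg] at h
    simpa using h
  have h3 : -(2 * lam * L2 lam τ * t ^ 2) ≤ α + β := by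
    have h := (abs_le.1 (fM_second hlam hτ hτ' v t)).1
    have e : α + β = 2 * lam * (fM lam τ (v + t) + fM lam τ (v - t) - 2 * fM lam τ v) := by
      rw [hα, hβ]
      ring
    rw [e]
    nlinarith
  have h4 : -((2 * lam * L1 lam τ) ^ 2 * t ^ 2) ≤ α * β := by
    have h5 : |α * β| ≤ (2 * lam * L1 lam τ * |t|) * (2 * lam * L1 lam τ * |t|) := by
      rw [abs_mul]
      exact mul_le_mul h1 h2 (abs_nonneg _) (by positivity)
    have h6 := (abs_le.1 h5).1
    have e : 2 * lam * L1 lam τ * |t| * (2 * lam * L1 lam τ * |t|) =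
        (2 * lam * L1 lam τ) ^ 2 * t ^ 2 := by
      rw [← sq_abs t]
      ring
    rw [e] at h6
    exact h6
  rw [e1, e2]
  unfold Ct
  nlinarith

/-! ### labels -/

/-- movable labels -/
def movL {Mk Wn : Type} : LabT Mk Wn → Prop
  | none => True
  | some none => False
  | some (some (Sum.inl _)) => True
  | some (some (Sum.inr _)) => False

open Classical in
/-- shift of the label `k` -/
noncomputable def sh {Mk Wn : Type} (t : ℝ) (k : LabT Mk Wn) : ℝ := if movL k then t else 0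

section labels

variable {Mk Wn : Type} (t : ℝ)

theorem sh_none : sh t (none : LabT Mk Wn) = t := if_pos trivial
theorem sh_rest : sh t (some none : LabT Mk Wn) = 0 := if_neg id
theorem sh_mark (i : Mk) : sh t (some (some (Sum.inl i)) : LabT Mk Wn) = t := if_pos trivial
theorem sh_win (a : Wn) : sh t (some (some (Sum.inr a)) : LabT Mk Wn) = 0 := if_neg id

variable [Fintype Mk] [Fintype Wn] {q : Mk ⊕ Wn → ℝ} {c w : Wn → ℝ}

theorem sum_dL_shift (h : Adm lam τ q c w) (v : ℝ) :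
    ∑ k, pL τ q k * dL lam τ q c w k (v - sh t k) = rhoU lam v + fM lam τ (v - t) - fM lam τ v := by
  rw [Fintype.sum_option, Fintype.sum_option, Fintype.sum_sum_type]
  simp only [sh_none, sh_rest, sh_mark, sh_win, sub_zero]
  simp only [pL, dL]
  have h1 : (τ - ∑ a, q (Sum.inr a)) * ((τ - ∑ a, q (Sum.inr a))⁻¹ * rhoR lam τ q c w v) =
      rhoR lam τ q c w v := by
    rw [← mul_assoc, mul_inv_cancel₀ h.rest_pos.ne', one_mul]
  rw [h1, rhoR, ← Finset.sum_mul]
  unfold fM
  ring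

/-- **law of the value after the shift of the movable part** -/
theorem mix_shift (h : Adm lam τ q c w) {g : ℝ → ℝ≥0∞} (hg : Measurable g) :
    ∑ k, ENNReal.ofReal (pL τ q k) * ∫⁻ v, g (v + sh t k) ∂(nuT lam τ q c w k) =
      ∫⁻ v, ENNReal.ofReal (rhoU lam v + fM lam τ (v - t) - fM lam τ v) * g v := by
  have h1 : ∀ k, ENNReal.ofReal (pL τ q k) * ∫⁻ v, g (v + sh t k) ∂(nuT lam τ q c w k) =
      ∫⁻ v, ENNReal.ofReal (pL τ q k * dL lam τ q c w k (v - sh t k)) * g v := by
    intro k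
    have hgm : Measurable fun v : ℝ => g (v + sh t k) := hg.comp (measurable_id.add_const _)
    have hdm : Measurable fun v : ℝ => ENNReal.ofReal (dL lam τ q c w k v) :=
      (h.measurable_dL k).ennreal_ofReal
    have hpm : Measurable fun u : ℝ => ENNReal.ofReal (dL lam τ q c w k u) * g (u + sh t k) :=
      hdm.mul hgm
    rw [nuT, lintegral_withDensity_eq_lintegral_mul _ hdm hgm]
    have e1 : ∀ v, ENNReal.ofReal (pL τ q k * dL lam τ q c w k (v - sh t k)) * g v =
        ENNReal.ofReal (pL τ q k) *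
          (fun u => ENNReal.ofReal (dL lam τ q c w k u) * g (u + sh t k)) (v - sh t k) := by
      intro v
      simp only [sub_add_cancel]
      rw [ENNReal.ofReal_mul (h.pL_pos k).le, mul_assoc]
    simp only [e1]
    have hpm2 : Measurable fun v : ℝ =>
        (fun u => ENNReal.ofReal (dL lam τ q c w k u) * g (u + sh t k)) (v - sh t k) :=
      hpm.comp (measurable_id.sub_const _)
    rw [lintegral_const_mul _ hpm2,
      lintegral_sub_right_eq_self (fun u => ENNReal.ofReal (dL lam τ q c w k u) * g (u + sh t k))]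
    rfl
  simp only [h1]
  have hm : ∀ k ∈ (Finset.univ : Finset (LabT Mk Wn)), Measurable fun v : ℝ =>
      ENNReal.ofReal (pL τ q k * dL lam τ q c w k (v - sh t k)) * g v := by
    intro k _
    have h2 : Measurable fun v : ℝ => dL lam τ q c w k (v - sh t k) :=
      (h.measurable_dL k).comp (measurable_id.sub_const _)
    exact (h2.const_mul _).ennreal_ofReal.mul hg
  rw [← lintegral_finsetSum _ hm]
  refine lintegral_congr fun v => ?_
  rw [← Finset.sum_mul, ← ENNReal.ofReal_sum_of_nonneg fun k _ =>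
    mul_nonneg (h.pL_pos k).le (h.dL_nonneg k _), sum_dL_shift t h]

/-- **the moved law dominates `rt t` times the uniform law** -/
theorem mix_shift_ge (h : Adm lam τ q c w) {g : ℝ → ℝ≥0∞} (hg : Measurable g) :
    ∫⁻ v, ENNReal.ofReal (rt lam τ t v) * g v ∂(P365L.TL.nuL lam) ≤
      ∑ k, ENNReal.ofReal (pL τ q k) * ∫⁻ v, g (v + sh t k) ∂(nuT lam τ q c w k) := by
  have hl := h.hlam
  have hm1 : Measurable fun v : ℝ => ENNReal.ofReal (rt lam τ t v) * g v :=
    (measurable_rt lam τ t).ennreal_ofReal.mul hg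
  have hm2 : Measurable fun v : ℝ => ENNReal.ofReal (rhoU lam v) :=
    (measurable_rhoU lam).ennreal_ofReal
  rw [mix_shift t h hg, nuL_eq hl, lintegral_withDensity_eq_lintegral_mul _ hm2 hm1]
  refine lintegral_mono fun v => ?_
  rw [Pi.mul_apply]
  by_cases hv : v ∈ Icc (-lam) lam
  · rw [rhoU_of_mem hv, ← mul_assoc, ← ENNReal.ofReal_mul (by positivity)]
    have e : (2 * lam)⁻¹ * rt lam τ t v = (2 * lam)⁻¹ + fM lam τ (v - t) - fM lam τ v := by
      unfold rt
      field_simp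
      ring
    rw [e]
  · rw [rhoU_of_notMem hv, ENNReal.ofReal_zero, zero_mul]
    exact bot_le

/-- without shift: the mixture is the uniform law -/
theorem mix_zero (h : Adm lam τ q c w) {g : ℝ → ℝ≥0∞} (hg : Measurable g) :
    ∑ k, ENNReal.ofReal (pL τ q k) * ∫⁻ v, g v ∂(nuT lam τ q c w k) =
      ∫⁻ v, g v ∂(P365L.TL.nuL lam) := by
  rw [← h.mix, lintegral_finset_sum_measure]
  refine Finset.sum_congr rfl fun k _ => ?_
  rw [lintegral_smul_measure, smul_eq_mul]

/-- mass of the labels which are not movable -/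
theorem not_mov_le (h : Adm lam τ q c w) :
    pL τ q (some none : LabT Mk Wn) + ∑ a : Wn, pL τ q (some (some (Sum.inr a)) : LabT Mk Wn) =
      τ := by
  simp only [pL]
  ring

end labels

end P365T1.C11
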