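import Vale.Agent.P365.T2.Para37
import Vale.Agent.P365.L1.Alg

/-!
# P365-T2: the pointwise generator drift of the truncated one-body entropy (helper844)

* `ent_drift` : the symmetrised drift for a symmetric flow matrix `Q`, kernels of `Para37`
  (helper37), positions in any real inner product space;
* `g3` : the pointwise Cauchy-Schwarz bound of the second order term (292 (G3));
* `ups_gen` : lower bound of the whole generator drift of `Ups`.
-/

set_option linter.all false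

namespace P365T2.H844

open Finset
open scoped RealInnerProductSpace ComplexConjugate

open P365T2.H37 (wk HH HD rho)

section Drift

variable {E : Type*} [NormedAddCommGroup E] [InnerProductSpace ℝ E]
variable {ι : Type*} [Fintype ι] (Φ : ι → E) (Q : ι → ι → ℝ)

/-- squared distance -/
def tt (x y : ι) : ℝ := ‖Φ x - Φ y‖ ^ 2

/-- row sum -/
noncomputable def pr (x : ι) : ℝ := ∑ y, Q x y

/-- `V_v = E_{P_v} |Φ_y - Φ_v|^2` -/
noncomputable def Vr (v : ι) : ℝ := ∑ y, Q v y / pr Q v * tt Φ y v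

/-- `mu_v = E_{P_v} (Φ_y - Φ_v)` -/
noncomputable def mur (v : ι) : E := ∑ y, (Q v y / pr Q v) • (Φ y - Φ v)

/-- `P_v w_k(x, .)` -/
noncomputable def Pw (J k : ℕ) (v x : ι) : ℝ := ∑ y, Q v y / pr Q v * wk J k (tt Φ x y)

/-- `u_{x,k}`, normalised -/
noncomputable def ur (J k : ℕ) (x : ι) : ℝ := Pw Φ Q J k x x / rho k

variable {Φ Q}

theorem tt_nonneg (x y : ι) : 0 ≤ tt Φ x y := by unfold tt; positivity

theorem tt_comm (x y : ι) : tt Φ x y = tt Φ y x := by unfold tt; rw [norm_sub_rev]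

theorem tt_self (x : ι) : tt Φ x x = 0 := by unfold tt; simp

theorem sum_P (x : ι) (hp : 0 < pr Q x) : ∑ y, Q x y / pr Q x = 1 := by
  rw [← sum_div]
  exact div_self hp.ne'

theorem Pw_nonneg {J k : ℕ} (hQ : ∀ x y, 0 ≤ Q x y) (hp : ∀ x, 0 < pr Q x) (v x : ι) :
    0 ≤ Pw Φ Q J k v x :=
  sum_nonneg fun y _ => mul_nonneg (div_nonneg (hQ v y) (hp v).le)
    (P365T2.H37.wk_nonneg (tt_nonneg x y))

theorem ur_nonneg {J k : ℕ} (hQ : ∀ x y, 0 ≤ Q x y) (hp : ∀ x, 0 < pr Q x) (x : ι) :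
    0 ≤ ur Φ Q J k x :=
  div_nonneg (Pw_nonneg hQ hp x x) (P365T2.H37.rho_pos k).le

theorem rho_ur {J k : ℕ} (x : ι) : rho k * ur Φ Q J k x = Pw Φ Q J k x x := by
  unfold ur
  have := (P365T2.H37.rho_pos k).ne'
  field_simp

theorem sum_Pw {J : ℕ} (v x : ι) (l : ℕ → ℝ) :
    ∑ k ∈ range (J + 2), l k * Pw Φ Q J k v x = ∑ y, Q v y / pr Q v * HH J l (tt Φ x y) := by
  unfold Pw HH
  simp only [mul_sum]
  rw [sum_comm]
  exact sum_congr rfl fun y _ => sum_congr rfl fun k _ => by ring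

theorem sum_Pw_one {J : ℕ} (v x : ι) :
    ∑ k ∈ range (J + 2), Pw Φ Q J k v x = ∑ y, Q v y / pr Q v * tt Φ x y := by
  have h := sum_Pw (Φ := Φ) (Q := Q) (J := J) v x (fun _ => 1)
  simp only [one_mul] at h
  rw [h]
  refine sum_congr rfl fun y _ => ?_
  unfold HH
  simp only [one_mul]
  rw [P365T2.H37.sum_wk]

theorem sum_Pw_self {J : ℕ} (x : ι) :
    ∑ k ∈ range (J + 2), Pw Φ Q J k x x = Vr Φ Q x := by
  rw [sum_Pw_one, Vr]
  exact sum_congr rfl fun y _ => by rw [tt_comm]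

theorem Vr_nonneg (hQ : ∀ x y, 0 ≤ Q x y) (hp : ∀ x, 0 < pr Q x) (v : ι) : 0 ≤ Vr Φ Q v :=
  sum_nonneg fun y _ => mul_nonneg (div_nonneg (hQ v y) (hp v).le) (tt_nonneg y v)

theorem pr_Vr (hp : ∀ x, 0 < pr Q x) (v : ι) : pr Q v * Vr Φ Q v = ∑ y, Q v y * tt Φ y v := by
  unfold Vr
  rw [mul_sum]
  refine sum_congr rfl fun y _ => ?_
  have := (hp v).ne'
  field_simp

theorem pr_symm (hs : ∀ x y, Q x y = Q y x) (v : ι) : pr Q v = ∑ x, Q x v := by
  unfold pr; exact sum_congr rfl fun x _ => hs v x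

/-- one row of the parallelogram -/
theorem row_par' {J : ℕ} {l : ℕ → ℝ} {c0 T : ℝ} (hQ : ∀ x y, 0 ≤ Q x y)
    (hp : ∀ x, 0 < pr Q x) (hl : ∀ k < J + 2, 0 ≤ l k) (hT : ∀ k < J + 2, l k ≤ T)
    (hm : ∀ k < J + 1, l k ≤ l (k + 1)) (hstep : ∀ k < J + 1, l (k + 1) ≤ l k + c0) (x v : ι) :
    HH J l (tt Φ x v) + ∑ k ∈ range (J + 2), l k * Pw Φ Q J k v v -
        2 * T * (‖Φ x - Φ v‖ * ‖mur Φ Q v‖) - 5 * c0 * Vr Φ Q v ≤
      ∑ y, Q v y / pr Q v * HH J l (tt Φ x y) := by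
  have h1 := P365T2.H37.para_mean hm hstep (p := fun y => Q v y / pr Q v)
    (fun y => div_nonneg (hQ v y) (hp v).le) (sum_P v (hp v)) Φ x v
  have h2 : HD J l (‖Φ x - Φ v‖ ^ 2) * ⟪Φ x - Φ v, mur Φ Q v⟫ ≤ T * (‖Φ x - Φ v‖ * ‖mur Φ Q v‖) := by
    have h3 : |HD J l (‖Φ x - Φ v‖ ^ 2)| ≤ T :=
      P365T2.H37.abs_HD_le (by positivity) fun k hk => by
        rw [abs_of_nonneg (hl k hk)]; exact hT k hk
    calc HD J l (‖Φ x - Φ v‖ ^ 2) * ⟪Φ x - Φ v, mur Φ Q v⟫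
        ≤ |HD J l (‖Φ x - Φ v‖ ^ 2) * ⟪Φ x - Φ v, mur Φ Q v⟫| := le_abs_self _
      _ = |HD J l (‖Φ x - Φ v‖ ^ 2)| * |⟪Φ x - Φ v, mur Φ Q v⟫| := abs_mul _ _
      _ ≤ T * (‖Φ x - Φ v‖ * ‖mur Φ Q v‖) :=
          mul_le_mul h3 (abs_real_inner_le_norm _ _) (abs_nonneg _) ((abs_nonneg _).trans h3)
  have h4 : ∑ k ∈ range (J + 2), l k * Pw Φ Q J k v v =
      ∑ y, Q v y / pr Q v * HH J l (‖Φ y - Φ v‖ ^ 2) := by
    rw [sum_Pw]
    refine sum_congr rfl fun y _ => ?_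
    rw [tt_comm]
    rfl
  rw [h4]
  have h5 : Vr Φ Q v = ∑ y, Q v y / pr Q v * ‖Φ y - Φ v‖ ^ 2 := rfl
  have h6 : mur Φ Q v = ∑ y, (Q v y / pr Q v) • (Φ y - Φ v) := rfl
  rw [← h6, ← h5] at h1
  unfold tt
  linarith

/-- Cauchy-Schwarz for the drift term -/
theorem cs_mur (hQ : ∀ x y, 0 ≤ Q x y) (hs : ∀ x y, Q x y = Q y x) (hp : ∀ x, 0 < pr Q x)
    {om : ι → ℝ} (ho : ∀ x, 0 ≤ om x) :
    ∑ x, ∑ v, om v * Q x v * (‖Φ x - Φ v‖ * ‖mur Φ Q v‖) ≤
      Real.sqrt (∑ v, om v * pr Q v * Vr Φ Q v) *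
        Real.sqrt (∑ v, om v * pr Q v * ‖mur Φ Q v‖ ^ 2) := by
  have h0 : ∀ x v, 0 ≤ om v * Q x v := fun x v => mul_nonneg (ho v) (hQ x v)
  have h1 := Real.sum_mul_le_sqrt_mul_sqrt (Finset.univ : Finset (ι × ι))
    (fun z => Real.sqrt (om z.2 * Q z.1 z.2) * ‖Φ z.1 - Φ z.2‖)
    (fun z => Real.sqrt (om z.2 * Q z.1 z.2) * ‖mur Φ Q z.2‖)
  have e1 : ∑ x, ∑ v, om v * Q x v * (‖Φ x - Φ v‖ * ‖mur Φ Q v‖) =
      ∑ z : ι × ι, Real.sqrt (om z.2 * Q z.1 z.2) * ‖Φ z.1 - Φ z.2‖ *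
        (Real.sqrt (om z.2 * Q z.1 z.2) * ‖mur Φ Q z.2‖) := by
    rw [Fintype.sum_prod_type]
    refine sum_congr rfl fun x _ => sum_congr rfl fun v _ => ?_
    have := Real.mul_self_sqrt (h0 x v)
    linear_combination (-(‖Φ x - Φ v‖ * ‖mur Φ Q v‖)) * this
  have e2 : ∑ z : ι × ι, (Real.sqrt (om z.2 * Q z.1 z.2) * ‖Φ z.1 - Φ z.2‖) ^ 2 =
      ∑ v, om v * pr Q v * Vr Φ Q v := by
    rw [Fintype.sum_prod_type, sum_comm]
    refine sum_congr rfl fun v _ => ?_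
    rw [mul_assoc, pr_Vr hp v, mul_sum]
    refine sum_congr rfl fun x _ => ?_
    rw [mul_pow, Real.sq_sqrt (h0 x v), hs x v]
    unfold tt
    ring
  have e3 : ∑ z : ι × ι, (Real.sqrt (om z.2 * Q z.1 z.2) * ‖mur Φ Q z.2‖) ^ 2 =
      ∑ v, om v * pr Q v * ‖mur Φ Q v‖ ^ 2 := by
    rw [Fintype.sum_prod_type, sum_comm]
    refine sum_congr rfl fun v _ => ?_
    rw [pr_symm hs v, mul_sum, sum_mul]
    refine sum_congr rfl fun x _ => ?_
    rw [mul_pow, Real.sq_sqrt (h0 x v)]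
  rw [e1]
  rw [e2, e3] at h1
  exact h1

/-- **the symmetrised drift**, deterministic; `lam` arbitrary nondecreasing in the scale -/
theorem ent_drift' {J : ℕ} {om : ι → ℝ} {lam : ι → ℕ → ℝ} {c0 T : ℝ}
    (hQ : ∀ x y, 0 ≤ Q x y) (hs : ∀ x y, Q x y = Q y x) (hp : ∀ x, 0 < pr Q x)
    (ho : ∀ x, 0 ≤ om x) (ho1 : ∀ x, om x ≤ 1)
    (hl : ∀ x, ∀ k < J + 2, 0 ≤ lam x k) (hT : ∀ x, ∀ k < J + 2, lam x k ≤ T)
    (hm : ∀ x, ∀ k < J + 1, lam x k ≤ lam x (k + 1))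
    (hL : ∀ x, ∀ k < J + 1, lam x (k + 1) ≤ lam x k + c0) :
    (1 / 2) * ∑ k ∈ range (J + 2), ∑ x, ∑ v,
        Q x v * ((lam x k - lam v k) * (Pw Φ Q J k v v - Pw Φ Q J k x x)) -
      5 * c0 * ∑ v, om v * pr Q v * Vr Φ Q v -
      2 * T * (Real.sqrt (∑ v, om v * pr Q v * Vr Φ Q v) *
        Real.sqrt (∑ v, om v * pr Q v * ‖mur Φ Q v‖ ^ 2)) -
      T * ∑ v, (1 - om v) * pr Q v * Vr Φ Q v ≤
    ∑ x, ∑ k ∈ range (J + 2), lam x k *
      (∑ v, om v * Q x v * (Pw Φ Q J k v x - wk J k (tt Φ x v)) -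
        om x * (pr Q x * Pw Φ Q J k x x)) := by
  classical
  -- rewrite the right-hand side with `HH`
  have eR : ∀ x, ∑ k ∈ range (J + 2), lam x k *
      (∑ v, om v * Q x v * (Pw Φ Q J k v x - wk J k (tt Φ x v)) -
        om x * (pr Q x * Pw Φ Q J k x x)) =
      ∑ v, om v * Q x v * (∑ y, Q v y / pr Q v * HH J (lam x) (tt Φ x y)) -
        ∑ v, om v * Q x v * HH J (lam x) (tt Φ x v) -
        om x * pr Q x * ∑ k ∈ range (J + 2), lam x k * Pw Φ Q J k x x := by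
    intro x
    have e1 : ∀ v, ∑ y, Q v y / pr Q v * HH J (lam x) (tt Φ x y) =
        ∑ k ∈ range (J + 2), lam x k * Pw Φ Q J k v x := fun v => (sum_Pw v x (lam x)).symm
    simp only [e1]
    simp only [mul_sub, sum_sub_distrib]
    congr 1
    · congr 1
      · simp only [mul_sum]
        rw [sum_comm]
        exact sum_congr rfl fun v _ => sum_congr rfl fun k _ => by ring
      · unfold HH
        simp only [mul_sum]
        rw [sum_comm]
        exact sum_congr rfl fun v _ => sum_congr rfl fun k _ => by ring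
    · rw [mul_sum]
      exact sum_congr rfl fun k _ => by ring
  simp only [eR]
  -- the parallelogram
  have h1 : ∀ x, ∑ v, om v * Q x v * HH J (lam x) (tt Φ x v) +
      ∑ v, om v * Q x v * (∑ k ∈ range (J + 2), lam x k * Pw Φ Q J k v v) -
      2 * T * ∑ v, om v * Q x v * (‖Φ x - Φ v‖ * ‖mur Φ Q v‖) -
      5 * c0 * ∑ v, om v * Q x v * Vr Φ Q v ≤
      ∑ v, om v * Q x v * (∑ y, Q v y / pr Q v * HH J (lam x) (tt Φ x y)) := by
    intro x
    have h2 : ∀ v, om v * Q x v * (HH J (lam x) (tt Φ x v) +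
        ∑ k ∈ range (J + 2), lam x k * Pw Φ Q J k v v -
        2 * T * (‖Φ x - Φ v‖ * ‖mur Φ Q v‖) - 5 * c0 * Vr Φ Q v) ≤
        om v * Q x v * (∑ y, Q v y / pr Q v * HH J (lam x) (tt Φ x y)) := fun v =>
      mul_le_mul_of_nonneg_left (row_par' hQ hp (hl x) (hT x) (hm x) (hL x) x v)
        (mul_nonneg (ho v) (hQ x v))
    refine le_trans (le_of_eq ?_) (sum_le_sum fun v (_ : v ∈ univ) => h2 v)
    rw [mul_sum, mul_sum, ← sum_add_distrib, ← sum_sub_distrib, ← sum_sub_distrib]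
    refine sum_congr rfl fun v _ => ?_
    ring
  have h4 : ∑ x, (∑ v, om v * Q x v * (∑ k ∈ range (J + 2), lam x k * Pw Φ Q J k v v) -
      2 * T * ∑ v, om v * Q x v * (‖Φ x - Φ v‖ * ‖mur Φ Q v‖) -
      5 * c0 * ∑ v, om v * Q x v * Vr Φ Q v -
      om x * pr Q x * (∑ k ∈ range (J + 2), lam x k * Pw Φ Q J k x x)) ≤
      ∑ x, (∑ v, om v * Q x v * (∑ y, Q v y / pr Q v * HH J (lam x) (tt Φ x y)) -
        ∑ v, om v * Q x v * HH J (lam x) (tt Φ x v) -
        om x * pr Q x * ∑ k ∈ range (J + 2), lam x k * Pw Φ Q J k x x) := by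
    refine sum_le_sum fun x _ => ?_
    linarith [h1 x]
  refine le_trans ?_ h4
  rw [sum_sub_distrib, sum_sub_distrib, sum_sub_distrib, ← mul_sum, ← mul_sum]
  have h5 := cs_mur (Φ := Φ) hQ hs hp ho
  have e5 : ∑ x, ∑ v, om v * Q x v * Vr Φ Q v = ∑ v, om v * pr Q v * Vr Φ Q v := by
    rw [sum_comm]
    refine sum_congr rfl fun v _ => ?_
    rw [pr_symm hs v, mul_sum, sum_mul]
  rw [e5]
  have hT0 : (∀ x : ι, False) ∨ 0 ≤ T := by
    by_cases hι : Nonempty ι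
    · obtain ⟨x⟩ := hι
      exact Or.inr ((hl x 0 (by omega)).trans (hT x 0 (by omega)))
    · exact Or.inl fun x => hι ⟨x⟩
  have h6 : 2 * T * ∑ x, ∑ v, om v * Q x v * (‖Φ x - Φ v‖ * ‖mur Φ Q v‖) ≤
      2 * T * (Real.sqrt (∑ v, om v * pr Q v * Vr Φ Q v) *
        Real.sqrt (∑ v, om v * pr Q v * ‖mur Φ Q v‖ ^ 2)) := by
    rcases hT0 with h0 | h0
    · haveI : IsEmpty ι := ⟨h0⟩
      simp
    · exact mul_le_mul_of_nonneg_left h5 (by linarith)
  -- symmetrisation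
  have e6 : ∑ x, ∑ v, om v * Q x v * (∑ k ∈ range (J + 2), lam x k * Pw Φ Q J k v v) -
      ∑ x, om x * pr Q x * (∑ k ∈ range (J + 2), lam x k * Pw Φ Q J k x x) =
      ∑ k ∈ range (J + 2), ∑ x, ∑ v, Q x v * (lam x k *
        (om v * Pw Φ Q J k v v - om x * Pw Φ Q J k x x)) := by
    rw [sum_comm (s := range (J + 2))]
    rw [← sum_sub_distrib]
    refine sum_congr rfl fun x _ => ?_
    rw [sum_comm (s := range (J + 2))]
    have : om x * pr Q x * (∑ k ∈ range (J + 2), lam x k * Pw Φ Q J k x x) =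
        ∑ v, Q x v * (om x * ∑ k ∈ range (J + 2), lam x k * Pw Φ Q J k x x) := by
      rw [← sum_mul]
      unfold pr
      ring
    rw [this, ← sum_sub_distrib]
    refine sum_congr rfl fun v _ => ?_
    rw [mul_sum, mul_sum, mul_sum, ← sum_sub_distrib]
    refine sum_congr rfl fun k _ => ?_
    ring
  have e7 : ∀ k, ∑ x, ∑ v, Q x v * (lam x k *
      (om v * Pw Φ Q J k v v - om x * Pw Φ Q J k x x)) =
      (1 / 2) * ∑ x, ∑ v, Q x v * ((lam x k - lam v k) *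
        (om v * Pw Φ Q J k v v - om x * Pw Φ Q J k x x)) := by
    intro k
    have hsw : ∑ x, ∑ v, Q x v * (lam v k *
        (om v * Pw Φ Q J k v v - om x * Pw Φ Q J k x x)) =
        -∑ x, ∑ v, Q x v * (lam x k * (om v * Pw Φ Q J k v v - om x * Pw Φ Q J k x x)) := by
      rw [sum_comm, ← sum_neg_distrib]
      refine sum_congr rfl fun v _ => ?_
      rw [← sum_neg_distrib]
      refine sum_congr rfl fun x _ => ?_
      rw [hs x v]
      ring
    have e8 : ∑ x, ∑ v, Q x v * ((lam x k - lam v k) *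
        (om v * Pw Φ Q J k v v - om x * Pw Φ Q J k x x)) =
        ∑ x, ∑ v, Q x v * (lam x k * (om v * Pw Φ Q J k v v - om x * Pw Φ Q J k x x)) -
        ∑ x, ∑ v, Q x v * (lam v k * (om v * Pw Φ Q J k v v - om x * Pw Φ Q J k x x)) := by
      rw [← sum_sub_distrib]
      refine sum_congr rfl fun x _ => ?_
      rw [← sum_sub_distrib]
      refine sum_congr rfl fun v _ => ?_
      ring
    rw [e8, hsw]
    ring
  have h7 : (1 / 2) * ∑ k ∈ range (J + 2), ∑ x, ∑ v,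
        Q x v * ((lam x k - lam v k) * (Pw Φ Q J k v v - Pw Φ Q J k x x)) -
      T * ∑ v, (1 - om v) * pr Q v * Vr Φ Q v ≤
      ∑ k ∈ range (J + 2), ∑ x, ∑ v, Q x v * (lam x k *
        (om v * Pw Φ Q J k v v - om x * Pw Φ Q J k x x)) := by
    have h8 : ∀ k ∈ range (J + 2), (1 / 2) * (∑ x, ∑ v,
        Q x v * ((lam x k - lam v k) * (Pw Φ Q J k v v - Pw Φ Q J k x x))) -
        T * ∑ v, (1 - om v) * pr Q v * Pw Φ Q J k v v ≤
        ∑ x, ∑ v, Q x v * (lam x k *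
          (om v * Pw Φ Q J k v v - om x * Pw Φ Q J k x x)) := by
      intro k hk
      have hk' : k < J + 2 := mem_range.1 hk
      rw [e7 k]
      have e9 : ∑ v, (1 - om v) * pr Q v * Pw Φ Q J k v v = (1 / 2) * ∑ x, ∑ v, Q x v *
          ((1 - om v) * Pw Φ Q J k v v + (1 - om x) * Pw Φ Q J k x x) := by
        have e10 : ∑ x, ∑ v, Q x v * ((1 - om v) * Pw Φ Q J k v v) =
            ∑ v, (1 - om v) * pr Q v * Pw Φ Q J k v v := by
          rw [sum_comm]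
          refine sum_congr rfl fun v _ => ?_
          rw [← sum_mul, ← pr_symm hs v]
          ring
        have e11 : ∑ x, ∑ v, Q x v * ((1 - om x) * Pw Φ Q J k x x) =
            ∑ v, (1 - om v) * pr Q v * Pw Φ Q J k v v := by
          refine sum_congr rfl fun x _ => ?_
          rw [← sum_mul]
          unfold pr
          ring
        have e12 : ∑ x, ∑ v, Q x v *
            ((1 - om v) * Pw Φ Q J k v v + (1 - om x) * Pw Φ Q J k x x) =
            ∑ x, ∑ v, Q x v * ((1 - om v) * Pw Φ Q J k v v) +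
            ∑ x, ∑ v, Q x v * ((1 - om x) * Pw Φ Q J k x x) := by
          rw [← sum_add_distrib]
          refine sum_congr rfl fun x _ => ?_
          rw [← sum_add_distrib]
          refine sum_congr rfl fun v _ => ?_
          ring
        rw [e12, e10, e11]
        ring
      rw [e9, mul_left_comm, ← mul_sub]
      refine mul_le_mul_of_nonneg_left ?_ (by norm_num)
      rw [mul_sum, ← sum_sub_distrib]
      refine sum_le_sum fun x _ => ?_
      rw [mul_sum, ← sum_sub_distrib]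
      refine sum_le_sum fun v _ => ?_
      have hu1 := Pw_nonneg (Φ := Φ) (J := J) (k := k) hQ hp x x
      have hu2 := Pw_nonneg (Φ := Φ) (J := J) (k := k) hQ hp v v
      have h9 : -T ≤ lam x k - lam v k := by
        linarith [hl x k hk', hT v k hk']
      have h10 : lam x k - lam v k ≤ T := by
        linarith [hl v k hk', hT x k hk']
      have h11 : 0 ≤ (1 - om v) * Pw Φ Q J k v v :=
        mul_nonneg (by linarith [ho1 v]) hu2
      have h12 : 0 ≤ (1 - om x) * Pw Φ Q J k x x :=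
        mul_nonneg (by linarith [ho1 x]) hu1
      have h13 : (lam x k - lam v k) * (Pw Φ Q J k v v - Pw Φ Q J k x x) -
          T * ((1 - om v) * Pw Φ Q J k v v + (1 - om x) * Pw Φ Q J k x x) ≤
          (lam x k - lam v k) * (om v * Pw Φ Q J k v v - om x * Pw Φ Q J k x x) := by
        have h14 := mul_le_mul_of_nonneg_right h10 h11
        have h15 := mul_le_mul_of_nonneg_right h9 h12
        nlinarith
      have h16 := mul_le_mul_of_nonneg_left h13 (hQ x v)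
      calc Q x v * ((lam x k - lam v k) * (Pw Φ Q J k v v - Pw Φ Q J k x x)) -
          T * (Q x v * ((1 - om v) * Pw Φ Q J k v v + (1 - om x) * Pw Φ Q J k x x))
          = Q x v * ((lam x k - lam v k) * (Pw Φ Q J k v v - Pw Φ Q J k x x) -
          T * ((1 - om v) * Pw Φ Q J k v v + (1 - om x) * Pw Φ Q J k x x)) := by ring
        _ ≤ _ := h16
    have h17 := sum_le_sum h8
    refine le_trans ?_ h17
    rw [sum_sub_distrib, ← mul_sum, ← mul_sum]
    have h18 : T * ∑ k ∈ range (J + 2), ∑ v, (1 - om v) * pr Q v * Pw Φ Q J k v v =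
        T * ∑ v, (1 - om v) * pr Q v * Vr Φ Q v := by
      congr 1
      rw [sum_comm]
      refine sum_congr rfl fun v _ => ?_
      rw [← mul_sum, sum_Pw_self]
    linarith
  linarith [h6, h7, e6]

/-- the second moment of a two step path -/
theorem two_step (hQ : ∀ x y, 0 ≤ Q x y) (hs : ∀ x y, Q x y = Q y x) (hp : ∀ x, 0 < pr Q x)
    {J : ℕ} {om : ι → ℝ} (ho : ∀ x, 0 ≤ om x) :
    ∑ k ∈ range (J + 2), ∑ x, ∑ v, om v * Q x v * Pw Φ Q J k v x ≤
      4 * ∑ v, om v * pr Q v * Vr Φ Q v := by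
  have e1 : ∑ k ∈ range (J + 2), ∑ x, ∑ v, om v * Q x v * Pw Φ Q J k v x =
      ∑ x, ∑ v, om v * Q x v * (∑ y, Q v y / pr Q v * tt Φ x y) := by
    rw [sum_comm]
    refine sum_congr rfl fun x _ => ?_
    rw [sum_comm]
    refine sum_congr rfl fun v _ => ?_
    rw [← mul_sum, sum_Pw_one]
  rw [e1]
  have h1 : ∀ x v, ∑ y, Q v y / pr Q v * tt Φ x y ≤ 2 * (tt Φ x v + Vr Φ Q v) := by
    intro x v
    have h2 : ∀ y, Q v y / pr Q v * tt Φ x y ≤
        Q v y / pr Q v * (2 * tt Φ x v) + 2 * (Q v y / pr Q v * tt Φ y v) := by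
      intro y
      have h3 : tt Φ x y ≤ 2 * tt Φ x v + 2 * tt Φ y v := by
        unfold tt
        have h4 : ‖Φ x - Φ y‖ ≤ ‖Φ x - Φ v‖ + ‖Φ y - Φ v‖ := by
          have : Φ x - Φ y = (Φ x - Φ v) - (Φ y - Φ v) := by abel
          rw [this]
          exact norm_sub_le _ _
        have h5 := norm_nonneg (Φ x - Φ y)
        have h6 : ‖Φ x - Φ y‖ ^ 2 ≤ (‖Φ x - Φ v‖ + ‖Φ y - Φ v‖) ^ 2 :=
          pow_le_pow_left₀ h5 h4 2
        nlinarith [sq_nonneg (‖Φ x - Φ v‖ - ‖Φ y - Φ v‖)]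
      have h7 := mul_le_mul_of_nonneg_left h3 (div_nonneg (hQ v y) (hp v).le)
      linarith
    refine (sum_le_sum fun y (_ : y ∈ univ) => h2 y).trans ?_
    rw [sum_add_distrib, ← sum_mul, sum_P v (hp v), one_mul, ← mul_sum]
    unfold Vr
    linarith
  have h8 : ∑ x, ∑ v, om v * Q x v * (∑ y, Q v y / pr Q v * tt Φ x y) ≤
      ∑ x, ∑ v, om v * Q x v * (2 * (tt Φ x v + Vr Φ Q v)) :=
    sum_le_sum fun x _ => sum_le_sum fun v _ =>
      mul_le_mul_of_nonneg_left (h1 x v) (mul_nonneg (ho v) (hQ x v))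
  refine h8.trans (le_of_eq ?_)
  rw [sum_comm, mul_sum]
  refine sum_congr rfl fun v _ => ?_
  have e2 : ∑ x, Q x v * tt Φ x v = pr Q v * Vr Φ Q v := by
    rw [pr_Vr hp v]
    exact sum_congr rfl fun x _ => by rw [hs x v]
  have e3 : ∑ x, om v * Q x v * (2 * (tt Φ x v + Vr Φ Q v)) =
      2 * om v * ∑ x, Q x v * tt Φ x v + 2 * om v * (∑ x, Q x v) * Vr Φ Q v := by
    rw [mul_sum, mul_sum, sum_mul, ← sum_add_distrib]
    exact sum_congr rfl fun x _ => by ring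
  rw [e3, e2, ← pr_symm hs v]
  ring

end Drift

/-! ### the entropy function -/

/-- `G(u) = u log(u + eps)` -/
noncomputable def Gf (ε u : ℝ) : ℝ := u * Real.log (u + ε)

/-- `G'` -/
noncomputable def Gf1 (ε u : ℝ) : ℝ := Real.log (u + ε) + u / (u + ε)

/-- `G''` -/
noncomputable def Gf2 (ε u : ℝ) : ℝ := 1 / (u + ε) + ε / (u + ε) ^ 2

/-- the multiplier -/
noncomputable def lamf (ε u : ℝ) : ℝ := Real.log 4 - Real.log (u + ε)

theorem Gf2_nonneg {ε u : ℝ} (hε : 0 < ε) (hu : 0 ≤ u) : 0 ≤ Gf2 ε u := by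
  unfold Gf2; positivity

theorem Gf2_mul_le {ε u : ℝ} (hε : 0 < ε) (hu : 0 ≤ u) : Gf2 ε u * u ≤ 2 := by
  unfold Gf2
  have h1 : 0 < u + ε := by positivity
  have h2 : 1 / (u + ε) * u ≤ 1 := by
    rw [div_mul_eq_mul_div, one_mul, div_le_one h1]; linarith
  have h3 : ε / (u + ε) ^ 2 * u ≤ 1 := by
    rw [div_mul_eq_mul_div, div_le_one (by positivity)]
    nlinarith [mul_nonneg hε.le hu, sq_nonneg u, sq_nonneg ε]
  nlinarith

theorem lamf_nonneg {ε u : ℝ} (hε : 0 < ε) (hε1 : ε ≤ 1) (hu : 0 ≤ u) (hu3 : u ≤ 3) :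
    0 ≤ lamf ε u := by
  unfold lamf
  have : Real.log (u + ε) ≤ Real.log 4 := Real.log_le_log (by positivity) (by linarith)
  linarith

theorem lamf_le {T u : ℝ} (hu : 0 ≤ u) : lamf (Real.exp (-T)) u ≤ T + Real.log 4 := by
  unfold lamf
  have h1 : Real.log (Real.exp (-T)) ≤ Real.log (u + Real.exp (-T)) :=
    Real.log_le_log (Real.exp_pos _) (by linarith)
  rw [Real.log_exp] at h1
  linarith

theorem lamf_anti {ε u u' : ℝ} (hε : 0 < ε) (hu : 0 ≤ u) (h : u ≤ u') :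
    lamf ε u' ≤ lamf ε u := by
  unfold lamf
  have : Real.log (u + ε) ≤ Real.log (u' + ε) := Real.log_le_log (by positivity) (by linarith)
  linarith

theorem lamf_step {ε u u' : ℝ} (hε : 0 < ε) (hu : 0 ≤ u) (hu' : 0 ≤ u') (h : u' ≤ 16 * u) :
    lamf ε u ≤ lamf ε u' + Real.log 16 := by
  unfold lamf
  have h1 : Real.log (u' + ε) ≤ Real.log (16 * (u + ε)) :=
    Real.log_le_log (by positivity) (by linarith)
  rw [Real.log_mul (by norm_num) (by positivity)] at h1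
  linarith

/-! ### the resolvent -/

section Res

open P365L

variable {E : Type*} [NormedAddCommGroup E] [InnerProductSpace ℝ E]
variable {ι : Type*} [Fintype ι] [DecidableEq ι] (Φ : ι → E) (A : Matrix ι ι ℝ) (W : ι → ℂ)

/-- `T_xy = e_x e_y |G_xy|^2` -/
noncomputable def TT (x y : ι) : ℝ := (-(W x).im) * (-(W y).im) * KK A W x y

/-- `(1/(2 m_y)) d/dv_y` of `u_{x,k}` -/
noncomputable def dthu (J k : ℕ) (y x : ι) : ℝ :=
  -(((-(W x).im) / (mm A W y * (rho k * pr (TT A W) x))) *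
    (Gr A W x y * ∑ b, (((-(W b).im) * (wk J k (tt Φ x b) -
      rho k * ur Φ (TT A W) J k x) : ℝ) : ℂ) * (conj (Gr A W x b) * Gr A W y b)).re)

/-- the generator at `y` of `rho_k pi_x G(u_{x,k})` -/
noncomputable def LLU (ε : ℝ) (J k : ℕ) (y x : ι) : ℝ :=
  if x = y then
    -(rho k * pr (TT A W) x * (Gf ε (ur Φ (TT A W) J k x) -
      TT A W x x / pr (TT A W) x * ur Φ (TT A W) J k x * Gf1 ε (ur Φ (TT A W) J k x)))
  else Gf1 ε (ur Φ (TT A W) J k x) *
      (TT A W x y * (Pw Φ (TT A W) J k y x - wk J k (tt Φ x y))) +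
    rho k * (2 * pr (TT A W) y * pr (TT A W) x * Gf2 ε (ur Φ (TT A W) J k x) *
      dthu Φ A W J k y x ^ 2)

variable {Φ A W}

theorem TT_symm (hA : A.IsSymm) (x y : ι) : TT A W x y = TT A W y x := by
  unfold TT
  rw [KK_symm hA]
  ring

theorem TT_nonneg (hW : ∀ x, (W x).im < 0) (x y : ι) : 0 ≤ TT A W x y := by
  unfold TT
  have h1 := hW x
  have h2 := hW y
  exact mul_nonneg (mul_nonneg (by linarith) (by linarith)) (KK_nonneg x y)

theorem pr_TT (hA : A.IsSymm) (hW : ∀ x, (W x).im < 0) (x : ι) :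
    pr (TT A W) x = (-(W x).im) * mm A W x := by
  rw [mm_eq hA hW]
  unfold pr TT
  rw [mul_sum]
  exact sum_congr rfl fun y _ => by ring

theorem pr_TT_pos (hA : A.IsSymm) (hW : ∀ x, (W x).im < 0) (x : ι) : 0 < pr (TT A W) x := by
  rw [pr_TT hA hW]
  have := hW x
  exact mul_pos (by linarith) (mm_pos hA hW x)

/-- weighted row sums: `Σ_b e_b (w(x,b) + c) |G_vb|^2 = m_v (P_v w(x,.) + c)` -/
theorem sum_wKK (hA : A.IsSymm) (hW : ∀ x, (W x).im < 0) {J k : ℕ} (c : ℝ) (v x : ι) :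
    ∑ b, (-(W b).im) * (wk J k (tt Φ x b) + c) * KK A W v b =
      mm A W v * (Pw Φ (TT A W) J k v x + c) := by
  have hv := (pr_TT_pos (A := A) hA hW v).ne'
  have hev : -(W v).im ≠ 0 := by have := hW v; intro h; linarith
  have e1 : mm A W v * (Pw Φ (TT A W) J k v x + c) =
      ∑ b, (-(W b).im) * wk J k (tt Φ x b) * KK A W v b +
        c * ∑ b, (-(W b).im) * KK A W v b := by
    rw [mul_add, mm_eq hA hW v, mul_comm _ c]
    congr 1
    rw [← mm_eq hA hW v]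
    unfold Pw
    rw [mul_sum]
    refine sum_congr rfl fun b _ => ?_
    rw [pr_TT hA hW v]
    unfold TT
    have hm := (mm_pos hA hW v).ne'
    have hev' : (W v).im ≠ 0 := (hW v).ne
    field_simp
  rw [e1, mul_sum, ← sum_add_distrib]
  exact sum_congr rfl fun b _ => by ring

/-- **292 (G3)**: the pointwise Cauchy-Schwarz bound -/
theorem g3 (hA : A.IsSymm) (hW : ∀ x, (W x).im < 0) {J k : ℕ} (y x : ι) :
    pr (TT A W) y * pr (TT A W) x * dthu Φ A W J k y x ^ 2 ≤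
      2 * TT A W x y * ur Φ (TT A W) J k x *
        (Pw Φ (TT A W) J k y x / rho k + ur Φ (TT A W) J k x) := by
  set Q := TT A W with hQ
  set u := ur Φ Q J k x with hu
  have hQ0 : ∀ x y, 0 ≤ Q x y := TT_nonneg hW
  have hp : ∀ x, 0 < pr Q x := pr_TT_pos hA hW
  have hu0 : 0 ≤ u := ur_nonneg hQ0 hp x
  have hr := P365T2.H37.rho_pos k
  have hex : 0 < -(W x).im := by linarith [hW x]
  have hey : 0 < -(W y).im := by linarith [hW y]
  have hmx := mm_pos hA hW x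
  have hmy := mm_pos hA hW y
  have hw : ∀ b, 0 ≤ wk J k (tt Φ x b) := fun b => P365T2.H37.wk_nonneg (tt_nonneg x b)
  set S : ℂ := ∑ b, (((-(W b).im) * (wk J k (tt Φ x b) - rho k * u) : ℝ) : ℂ) *
    (conj (Gr A W x b) * Gr A W y b) with hS
  -- Cauchy-Schwarz
  have h1 : ‖S‖ ^ 2 ≤ (mm A W x * (2 * (rho k * u))) * (mm A W y *
      (Pw Φ Q J k y x + rho k * u)) := by
    have h2 : ‖S‖ ≤ ∑ b, ((-(W b).im) * (wk J k (tt Φ x b) + rho k * u)) *
        (‖Gr A W x b‖ * ‖Gr A W y b‖) := by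
      refine (norm_sum_le _ _).trans (sum_le_sum fun b _ => ?_)
      rw [norm_mul, norm_mul, Complex.norm_conj, Complex.norm_real, Real.norm_eq_abs, abs_mul]
      have hb : 0 < -(W b).im := by linarith [hW b]
      rw [abs_of_pos hb]
      refine mul_le_mul_of_nonneg_right ?_ (by positivity)
      refine mul_le_mul_of_nonneg_left ?_ hb.le
      rw [abs_le]
      constructor <;> nlinarith [hw b, mul_nonneg hr.le hu0]
    have h3 : (∑ b, ((-(W b).im) * (wk J k (tt Φ x b) + rho k * u)) *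
        (‖Gr A W x b‖ * ‖Gr A W y b‖)) ^ 2 ≤
        (∑ b, (-(W b).im) * (wk J k (tt Φ x b) + rho k * u) * KK A W x b) *
        (∑ b, (-(W b).im) * (wk J k (tt Φ x b) + rho k * u) * KK A W y b) := by
      have hc : ∀ b, 0 ≤ (-(W b).im) * (wk J k (tt Φ x b) + rho k * u) := fun b =>
        mul_nonneg (by linarith [hW b]) (add_nonneg (hw b) (mul_nonneg hr.le hu0))
      have h4 := Finset.sum_mul_sq_le_sq_mul_sq (univ : Finset ι)
        (fun b => Real.sqrt ((-(W b).im) * (wk J k (tt Φ x b) + rho k * u)) * ‖Gr A W x b‖)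
        (fun b => Real.sqrt ((-(W b).im) * (wk J k (tt Φ x b) + rho k * u)) * ‖Gr A W y b‖)
      refine le_trans (le_of_eq ?_) (h4.trans (le_of_eq ?_))
      · congr 1
        refine sum_congr rfl fun b _ => ?_
        have := Real.mul_self_sqrt (hc b)
        linear_combination (-(‖Gr A W x b‖ * ‖Gr A W y b‖)) * this
      · congr 1
        · refine sum_congr rfl fun b _ => ?_
          rw [mul_pow, Real.sq_sqrt (hc b)]
          rfl
        · refine sum_congr rfl fun b _ => ?_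
          rw [mul_pow, Real.sq_sqrt (hc b)]
          rfl
    rw [sum_wKK hA hW, sum_wKK hA hW] at h3
    have h5 : Pw Φ Q J k x x + rho k * u = 2 * (rho k * u) := by
      rw [hu, rho_ur]; ring
    rw [← hQ, h5] at h3
    exact (pow_le_pow_left₀ (norm_nonneg _) h2 2).trans h3
  have h6 : (Gr A W x y * S).re ^ 2 ≤ KK A W x y * ‖S‖ ^ 2 := by
    have h7 := Complex.abs_re_le_norm (Gr A W x y * S)
    rw [norm_mul] at h7
    calc (Gr A W x y * S).re ^ 2 = |(Gr A W x y * S).re| ^ 2 := (sq_abs _).symm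
      _ ≤ (‖Gr A W x y‖ * ‖S‖) ^ 2 := pow_le_pow_left₀ (abs_nonneg _) h7 2
      _ = KK A W x y * ‖S‖ ^ 2 := by rw [mul_pow]; rfl
  have h8 : (Gr A W x y * S).re ^ 2 ≤ KK A W x y * ((mm A W x * (2 * (rho k * u))) * (mm A W y *
      (Pw Φ Q J k y x + rho k * u))) :=
    h6.trans (mul_le_mul_of_nonneg_left h1 (KK_nonneg x y))
  have e1 : dthu Φ A W J k y x = -(((-(W x).im) / (mm A W y * (rho k * pr Q x))) *
      (Gr A W x y * S).re) := rfl
  have hpx : pr Q x = (-(W x).im) * mm A W x := pr_TT hA hW x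
  have hpy : pr Q y = (-(W y).im) * mm A W y := pr_TT hA hW y
  have e2 : pr Q y * pr Q x * dthu Φ A W J k y x ^ 2 =
      ((-(W y).im) * (-(W x).im) / (mm A W y * mm A W x * rho k ^ 2)) *
        (Gr A W x y * S).re ^ 2 := by
    rw [e1, hpx, hpy]
    field_simp
  rw [e2]
  have h9 : 0 ≤ (-(W y).im) * (-(W x).im) / (mm A W y * mm A W x * rho k ^ 2) := by positivity
  refine (mul_le_mul_of_nonneg_left h8 h9).trans (le_of_eq ?_)
  rw [hQ]
  unfold TT
  field_simp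

/-- the generator of one summand, bounded below -/
theorem neg_LLU_ge (hA : A.IsSymm) (hW : ∀ x, (W x).im < 0) {ε : ℝ} (hε : 0 < ε) {J k : ℕ}
    (y x : ι) :
    -(Gf1 ε (ur Φ (TT A W) J k x) *
      (TT A W x y * (Pw Φ (TT A W) J k y x - wk J k (tt Φ x y)))) +
      (if x = y then rho k * pr (TT A W) x * Gf ε (ur Φ (TT A W) J k x) else 0) -
      8 * (TT A W x y * (Pw Φ (TT A W) J k y x + Pw Φ (TT A W) J k x x)) ≤
      -LLU Φ A W ε J k y x := by
  set Q := TT A W with hQ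
  set u := ur Φ Q J k x with hu
  have hQ0 : ∀ x y, 0 ≤ Q x y := TT_nonneg hW
  have hp : ∀ x, 0 < pr Q x := pr_TT_pos hA hW
  have hu0 : 0 ≤ u := ur_nonneg hQ0 hp x
  have hr := P365T2.H37.rho_pos k
  have hPy : 0 ≤ Pw Φ Q J k y x := Pw_nonneg hQ0 hp y x
  have hPx : 0 ≤ Pw Φ Q J k x x := Pw_nonneg hQ0 hp x x
  by_cases hxy : x = y
  · subst hxy
    unfold LLU
    rw [if_pos rfl, if_pos rfl, tt_self, P365T2.H37.wk_zero_arg, sub_zero, neg_neg,
      ← hQ, ← hu]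
    have e1 : Pw Φ Q J k x x = rho k * u := by rw [hu, rho_ur]
    have h1 : 0 ≤ 8 * (Q x x * (Pw Φ Q J k x x + Pw Φ Q J k x x)) := by
      have := hQ0 x x
      positivity
    have e2 : rho k * pr Q x * (Gf ε u - Q x x / pr Q x * u * Gf1 ε u) =
        rho k * pr Q x * Gf ε u - Gf1 ε u * (Q x x * (rho k * u)) := by
      have := (hp x).ne'
      field_simp
    rw [e2, ← e1]
    linarith
  · unfold LLU
    rw [if_neg hxy, if_neg hxy, ← hQ, ← hu]
    have h1 := g3 (Φ := Φ) (J := J) (k := k) hA hW y x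
    rw [← hQ, ← hu] at h1
    have h2 : rho k * (2 * pr Q y * pr Q x * Gf2 ε u * dthu Φ A W J k y x ^ 2) ≤
        8 * (Q x y * (Pw Φ Q J k y x + Pw Φ Q J k x x)) := by
      have h3 : rho k * (2 * pr Q y * pr Q x * Gf2 ε u * dthu Φ A W J k y x ^ 2) =
          (2 * rho k * Gf2 ε u) * (pr Q y * pr Q x * dthu Φ A W J k y x ^ 2) := by ring
      rw [h3]
      have hG := Gf2_nonneg hε hu0
      have h4 : 0 ≤ 2 * rho k * Gf2 ε u := by positivity
      refine (mul_le_mul_of_nonneg_left h1 h4).trans ?_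
      have h5 := Gf2_mul_le hε hu0
      have e1 : Pw Φ Q J k x x = rho k * u := by rw [hu, rho_ur]
      rw [e1]
      have h6 : (2 * rho k * Gf2 ε u) * (2 * Q x y * u * (Pw Φ Q J k y x / rho k + u)) =
          (Gf2 ε u * u) * (4 * (Q x y * (Pw Φ Q J k y x + rho k * u))) := by
        field_simp
        ring
      rw [h6]
      have h7 : 0 ≤ 4 * (Q x y * (Pw Φ Q J k y x + rho k * u)) := by
        have := hQ0 x y
        positivity
      nlinarith [mul_le_mul_of_nonneg_right h5 h7]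
    linarith

theorem ur_le_three (hA : A.IsSymm) (hW : ∀ x, (W x).im < 0) {J k : ℕ} (hk : k < J + 2)
    (ht4 : ∀ x y, tt Φ x y ≤ 4 ^ J) (x : ι) : ur Φ (TT A W) J k x ≤ 3 := by
  have hQ0 : ∀ x y, 0 ≤ TT A W x y := TT_nonneg hW
  have hp : ∀ x, 0 < pr (TT A W) x := pr_TT_pos hA hW
  have hr := P365T2.H37.rho_pos k
  unfold ur Pw
  rw [div_le_iff₀ hr]
  have h1 : ∀ y, TT A W x y / pr (TT A W) x * wk J k (tt Φ x y) ≤
      TT A W x y / pr (TT A W) x * (3 * rho k) := by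
    intro y
    refine mul_le_mul_of_nonneg_left ?_ (div_nonneg (hQ0 x y) (hp x).le)
    have h2 := P365T2.H37.uk_le_three hk (tt_nonneg (Φ := Φ) x y) (ht4 x y)
    unfold P365T2.H37.uk at h2
    rwa [div_le_iff₀ hr] at h2
  refine (sum_le_sum fun y (_ : y ∈ univ) => h1 y).trans (le_of_eq ?_)
  rw [← sum_mul, sum_P x (hp x), one_mul]

theorem ur_succ_le (hA : A.IsSymm) (hW : ∀ x, (W x).im < 0) {J k : ℕ} (hJ : 1 ≤ J)
    (hk : k < J + 1) (ht4 : ∀ x y, tt Φ x y ≤ 4 ^ J) (x : ι) :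
    ur Φ (TT A W) J (k + 1) x ≤ ur Φ (TT A W) J k x := by
  have hQ0 : ∀ x y, 0 ≤ TT A W x y := TT_nonneg hW
  have hp : ∀ x, 0 < pr (TT A W) x := pr_TT_pos hA hW
  unfold ur Pw
  rw [sum_div, sum_div]
  refine sum_le_sum fun y _ => ?_
  rw [mul_div_assoc, mul_div_assoc]
  exact mul_le_mul_of_nonneg_left
    (P365T2.H37.uk_le hJ hk (tt_nonneg (Φ := Φ) x y) (ht4 x y)) (div_nonneg (hQ0 x y) (hp x).le)

theorem ur_le_succ (hA : A.IsSymm) (hW : ∀ x, (W x).im < 0) {J k : ℕ} (hJ : 1 ≤ J)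
    (hk : k < J + 1) (ht : ∀ x y, tt Φ x y = 0 ∨ 1 ≤ tt Φ x y)
    (ht4 : ∀ x y, tt Φ x y ≤ 4 ^ J) (x : ι) :
    ur Φ (TT A W) J k x ≤ 16 * ur Φ (TT A W) J (k + 1) x := by
  have hQ0 : ∀ x y, 0 ≤ TT A W x y := TT_nonneg hW
  have hp : ∀ x, 0 < pr (TT A W) x := pr_TT_pos hA hW
  unfold ur Pw
  rw [sum_div, sum_div, mul_sum]
  refine sum_le_sum fun y _ => ?_
  rw [mul_div_assoc, mul_div_assoc, ← mul_assoc, mul_comm (16 : ℝ), mul_assoc]
  exact mul_le_mul_of_nonneg_left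
    (P365T2.H37.uk_ge hJ hk (ht x y) (ht4 x y)) (div_nonneg (hQ0 x y) (hp x).le)

/-- the gain of the entropy functional -/
noncomputable def Pos (Φ : ι → E) (Q : ι → ι → ℝ) (ε : ℝ) (J : ℕ) : ℝ :=
  ∑ k ∈ range (J + 2), ∑ x, ∑ v, Q x v * ((lamf ε (ur Φ Q J k x) - lamf ε (ur Φ Q J k v)) *
    (Pw Φ Q J k v v - Pw Φ Q J k x x))

theorem log_four_le : Real.log 4 ≤ 3 / 2 := by
  have h1 : Real.log 4 = 2 * Real.log 2 := by
    rw [show (4 : ℝ) = 2 ^ 2 by norm_num, Real.log_pow]; norm_num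
  have := Real.log_two_lt_d9
  linarith

theorem log_sixteen_le : Real.log 16 ≤ 3 := by
  have h1 : Real.log 16 = 4 * Real.log 2 := by
    rw [show (16 : ℝ) = 2 ^ 4 by norm_num, Real.log_pow]; norm_num
  have := Real.log_two_lt_d9
  linarith

/-- **the pointwise generator drift of the truncated one-body entropy**
`Ups = - Σ_x Σ_k rho_k pi_x G(u_{x,k})` -/
theorem ups_gen (hA : A.IsSymm) (hW : ∀ x, (W x).im < 0) {T : ℝ} (hT : 0 ≤ T) {J : ℕ}
    (hJ : 1 ≤ J) (ht : ∀ x y, tt Φ x y = 0 ∨ 1 ≤ tt Φ x y)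
    (ht4 : ∀ x y, tt Φ x y ≤ 4 ^ J) {om : ι → ℝ} (ho : ∀ x, 0 ≤ om x) (ho1 : ∀ x, om x ≤ 1) :
    (1 / 2) * Pos Φ (TT A W) (Real.exp (-T)) J - 65 * ∑ v, pr (TT A W) v * Vr Φ (TT A W) v -
      2 * (T + 2) * (Real.sqrt (∑ v, om v * pr (TT A W) v * Vr Φ (TT A W) v) *
        Real.sqrt (∑ v, om v * pr (TT A W) v * ‖mur Φ (TT A W) v‖ ^ 2)) -
      (T + 2) * ∑ v, (1 - om v) * pr (TT A W) v * Vr Φ (TT A W) v ≤
    -∑ y, om y * ∑ x, ∑ k ∈ range (J + 2), LLU Φ A W (Real.exp (-T)) J k y x := by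
  classical
  set ε := Real.exp (-T) with hεd
  have hε : 0 < ε := Real.exp_pos _
  have hε1 : ε ≤ 1 := by
    rw [hεd]
    exact Real.exp_le_one_iff.2 (by linarith)
  set Q := TT A W with hQ
  have hQ0 : ∀ x y, 0 ≤ Q x y := TT_nonneg hW
  have hs : ∀ x y, Q x y = Q y x := TT_symm hA
  have hp : ∀ x, 0 < pr Q x := pr_TT_pos hA hW
  have hu0 : ∀ x k, 0 ≤ ur Φ Q J k x := fun x k => ur_nonneg hQ0 hp x
  have hl4 := log_four_le
  have hl16 := log_sixteen_le
  have hl40 : 0 ≤ Real.log 4 := Real.log_nonneg (by norm_num)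
  have hl160 : 0 ≤ Real.log 16 := Real.log_nonneg (by norm_num)
  set lam : ι → ℕ → ℝ := fun x k => lamf ε (ur Φ Q J k x) with hlam
  -- the drift inequality
  have hD := ent_drift' (Φ := Φ) (J := J) (om := om) (lam := lam) (c0 := Real.log 16)
    (T := T + Real.log 4) hQ0 hs hp ho ho1
    (fun x k hk => lamf_nonneg hε hε1 (hu0 x k) (ur_le_three hA hW hk ht4 x))
    (fun x k _ => lamf_le (hu0 x k))
    (fun x k hk => lamf_anti hε (hu0 x (k + 1)) (ur_succ_le hA hW hJ hk ht4 x))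
    (fun x k hk => lamf_step hε (hu0 x (k + 1)) (hu0 x k) (ur_le_succ hA hW hJ hk ht ht4 x))
  -- the pointwise bound, summed
  have h1 : ∑ y, om y * ∑ x, ∑ k ∈ range (J + 2),
      (-(Gf1 ε (ur Φ Q J k x) * (Q x y * (Pw Φ Q J k y x - wk J k (tt Φ x y)))) +
      (if x = y then rho k * pr Q x * Gf ε (ur Φ Q J k x) else 0) -
      8 * (Q x y * (Pw Φ Q J k y x + Pw Φ Q J k x x))) ≤
      -∑ y, om y * ∑ x, ∑ k ∈ range (J + 2), LLU Φ A W ε J k y x := by
    rw [← sum_neg_distrib]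
    refine sum_le_sum fun y _ => ?_
    rw [← mul_neg, ← sum_neg_distrib]
    refine mul_le_mul_of_nonneg_left (sum_le_sum fun x _ => ?_) (ho y)
    rw [← sum_neg_distrib]
    exact sum_le_sum fun k _ => neg_LLU_ge hA hW hε y x
  refine le_trans ?_ h1
  -- reorganise the left-hand side
  have e1 : ∑ y, om y * ∑ x, ∑ k ∈ range (J + 2),
      (-(Gf1 ε (ur Φ Q J k x) * (Q x y * (Pw Φ Q J k y x - wk J k (tt Φ x y)))) +
      (if x = y then rho k * pr Q x * Gf ε (ur Φ Q J k x) else 0) -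
      8 * (Q x y * (Pw Φ Q J k y x + Pw Φ Q J k x x))) =
      ∑ x, ∑ k ∈ range (J + 2), (-(Gf1 ε (ur Φ Q J k x)) *
        (∑ y, om y * Q x y * (Pw Φ Q J k y x - wk J k (tt Φ x y))) +
        om x * (rho k * pr Q x * Gf ε (ur Φ Q J k x))) -
      8 * (∑ k ∈ range (J + 2), ∑ x, ∑ y, om y * Q x y * Pw Φ Q J k y x) -
      8 * (∑ x, (∑ y, om y * Q x y) * ∑ k ∈ range (J + 2), Pw Φ Q J k x x) := by
    have e2 : ∑ y, om y * ∑ x, ∑ k ∈ range (J + 2),
        (-(Gf1 ε (ur Φ Q J k x) * (Q x y * (Pw Φ Q J k y x - wk J k (tt Φ x y)))) +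
        (if x = y then rho k * pr Q x * Gf ε (ur Φ Q J k x) else 0) -
        8 * (Q x y * (Pw Φ Q J k y x + Pw Φ Q J k x x))) =
        ∑ x, ∑ k ∈ range (J + 2), ∑ y, om y *
        (-(Gf1 ε (ur Φ Q J k x) * (Q x y * (Pw Φ Q J k y x - wk J k (tt Φ x y)))) +
        (if x = y then rho k * pr Q x * Gf ε (ur Φ Q J k x) else 0) -
        8 * (Q x y * (Pw Φ Q J k y x + Pw Φ Q J k x x))) := by
      simp only [mul_sum]
      rw [sum_comm]
      refine sum_congr rfl fun x _ => ?_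
      rw [sum_comm]
    rw [e2]
    have e3 : ∀ x, ∀ k, ∑ y, om y *
        (-(Gf1 ε (ur Φ Q J k x) * (Q x y * (Pw Φ Q J k y x - wk J k (tt Φ x y)))) +
        (if x = y then rho k * pr Q x * Gf ε (ur Φ Q J k x) else 0) -
        8 * (Q x y * (Pw Φ Q J k y x + Pw Φ Q J k x x))) =
        (-(Gf1 ε (ur Φ Q J k x)) *
        (∑ y, om y * Q x y * (Pw Φ Q J k y x - wk J k (tt Φ x y))) +
        om x * (rho k * pr Q x * Gf ε (ur Φ Q J k x))) -
        8 * (∑ y, om y * Q x y * Pw Φ Q J k y x) -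
        8 * ((∑ y, om y * Q x y) * Pw Φ Q J k x x) := by
      intro x k
      have e4 : om x * (rho k * pr Q x * Gf ε (ur Φ Q J k x)) =
          ∑ y, om y * (if x = y then rho k * pr Q x * Gf ε (ur Φ Q J k x) else 0) := by
        rw [Finset.sum_eq_single x]
        · rw [if_pos rfl]
        · intro b _ hb
          rw [if_neg (Ne.symm hb), mul_zero]
        · intro h
          exact absurd (mem_univ x) h
      rw [e4, mul_sum, sum_mul, mul_sum, mul_sum, ← sum_add_distrib, ← sum_sub_distrib,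
        ← sum_sub_distrib]
      refine sum_congr rfl fun y _ => ?_
      ring
    simp only [e3]
    simp only [sum_sub_distrib]
    congr 1
    · congr 1
      rw [sum_comm, mul_sum]
      exact sum_congr rfl fun k _ => by rw [mul_sum]
    · simp only [← mul_sum]
  rw [e1]
  -- bounds
  have h2 := two_step (Φ := Φ) (J := J) hQ0 hs hp ho
  have h3 : ∑ x, (∑ y, om y * Q x y) * ∑ k ∈ range (J + 2), Pw Φ Q J k x x ≤
      ∑ v, pr Q v * Vr Φ Q v := by
    refine sum_le_sum fun x _ => ?_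
    rw [sum_Pw_self]
    refine mul_le_mul_of_nonneg_right ?_ (Vr_nonneg hQ0 hp x)
    unfold pr
    exact sum_le_sum fun y _ => mul_le_of_le_one_left (hQ0 x y) (ho1 y)
  have h4 : ∑ v, om v * pr Q v * Vr Φ Q v ≤ ∑ v, pr Q v * Vr Φ Q v := by
    refine sum_le_sum fun v _ => ?_
    refine mul_le_mul_of_nonneg_right ?_ (Vr_nonneg hQ0 hp v)
    exact mul_le_of_le_one_left (hp v).le (ho1 v)
  have h40 : 0 ≤ ∑ v, om v * pr Q v * Vr Φ Q v :=
    sum_nonneg fun v _ => mul_nonneg (mul_nonneg (ho v) (hp v).le) (Vr_nonneg hQ0 hp v)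
  have h5 : ∀ x, ∀ k ∈ range (J + 2), lam x k *
      (∑ v, om v * Q x v * (Pw Φ Q J k v x - wk J k (tt Φ x v)) -
        om x * (pr Q x * Pw Φ Q J k x x)) -
      (Real.log 4 + 1) * ∑ y, om y * Q x y * Pw Φ Q J k y x ≤
      -(Gf1 ε (ur Φ Q J k x)) *
        (∑ y, om y * Q x y * (Pw Φ Q J k y x - wk J k (tt Φ x y))) +
        om x * (rho k * pr Q x * Gf ε (ur Φ Q J k x)) := by
    intro x k _
    set u := ur Φ Q J k x with hu
    have e5 : rho k * u = Pw Φ Q J k x x := rho_ur x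
    have e6 : Gf ε u = u * (Real.log 4 - lam x k) := by
      rw [hlam]; simp only [lamf, Gf, ← hu]; ring
    have e7 : Gf1 ε u = Real.log 4 - lam x k + u / (u + ε) := by
      rw [hlam]; simp only [lamf, Gf1, ← hu]; ring
    have hth0 : 0 ≤ u / (u + ε) := div_nonneg (hu0 x k) (by linarith [hu0 x k])
    have hth1 : u / (u + ε) ≤ 1 := by
      rw [div_le_one (by linarith [hu0 x k])]; linarith
    have e8 : ∑ y, om y * Q x y * (Pw Φ Q J k y x - wk J k (tt Φ x y)) =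
        ∑ y, om y * Q x y * Pw Φ Q J k y x - ∑ y, om y * Q x y * wk J k (tt Φ x y) := by
      rw [← sum_sub_distrib]
      exact sum_congr rfl fun y _ => by ring
    have hS1 : 0 ≤ ∑ y, om y * Q x y * Pw Φ Q J k y x :=
      sum_nonneg fun y _ => mul_nonneg (mul_nonneg (ho y) (hQ0 x y)) (Pw_nonneg hQ0 hp y x)
    have hS2 : 0 ≤ ∑ y, om y * Q x y * wk J k (tt Φ x y) :=
      sum_nonneg fun y _ => mul_nonneg (mul_nonneg (ho y) (hQ0 x y))
        (P365T2.H37.wk_nonneg (tt_nonneg x y))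
    have e9 : om x * (rho k * pr Q x * Gf ε u) =
        (Real.log 4 - lam x k) * (om x * (pr Q x * Pw Φ Q J k x x)) := by
      rw [e6, ← e5]; ring
    rw [e9, e7, e8]
    set S1 := ∑ y, om y * Q x y * Pw Φ Q J k y x
    set S2 := ∑ y, om y * Q x y * wk J k (tt Φ x y)
    have hN : 0 ≤ om x * (pr Q x * Pw Φ Q J k x x) :=
      mul_nonneg (ho x) (mul_nonneg (hp x).le (Pw_nonneg hQ0 hp x x))
    have h6 : u / (u + ε) * S1 ≤ S1 := mul_le_of_le_one_left hS1 hth1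
    have h7 : 0 ≤ u / (u + ε) * S2 := mul_nonneg hth0 hS2
    have h8 : 0 ≤ Real.log 4 * S2 := mul_nonneg hl40 hS2
    have h9 : 0 ≤ Real.log 4 * (om x * (pr Q x * Pw Φ Q J k x x)) := mul_nonneg hl40 hN
    nlinarith [h6, h7, h8, h9]
  have h10 : ∑ x, ∑ k ∈ range (J + 2), (lam x k *
      (∑ v, om v * Q x v * (Pw Φ Q J k v x - wk J k (tt Φ x v)) -
        om x * (pr Q x * Pw Φ Q J k x x)) -
      (Real.log 4 + 1) * ∑ y, om y * Q x y * Pw Φ Q J k y x) ≤
      ∑ x, ∑ k ∈ range (J + 2), (-(Gf1 ε (ur Φ Q J k x)) *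
        (∑ y, om y * Q x y * (Pw Φ Q J k y x - wk J k (tt Φ x y))) +
        om x * (rho k * pr Q x * Gf ε (ur Φ Q J k x))) :=
    sum_le_sum fun x _ => sum_le_sum fun k hk => h5 x k hk
  have e10 : ∑ x, ∑ k ∈ range (J + 2), (lam x k *
      (∑ v, om v * Q x v * (Pw Φ Q J k v x - wk J k (tt Φ x v)) -
        om x * (pr Q x * Pw Φ Q J k x x)) -
      (Real.log 4 + 1) * ∑ y, om y * Q x y * Pw Φ Q J k y x) =
      ∑ x, ∑ k ∈ range (J + 2), lam x k *
      (∑ v, om v * Q x v * (Pw Φ Q J k v x - wk J k (tt Φ x v)) -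
        om x * (pr Q x * Pw Φ Q J k x x)) -
      (Real.log 4 + 1) * ∑ k ∈ range (J + 2), ∑ x, ∑ y, om y * Q x y * Pw Φ Q J k y x := by
    simp only [sum_sub_distrib]
    congr 1
    rw [mul_sum, sum_comm]
    refine sum_congr rfl fun k _ => ?_
    rw [mul_sum]
  rw [e10] at h10
  have hPos : Pos Φ Q ε J = ∑ k ∈ range (J + 2), ∑ x, ∑ v,
        Q x v * ((lam x k - lam v k) * (Pw Φ Q J k v v - Pw Φ Q J k x x)) := rfl
  rw [← hPos] at hD
  set D := ∑ v, pr Q v * Vr Φ Q v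
  set Dom := ∑ v, om v * pr Q v * Vr Φ Q v
  set R := Real.sqrt Dom * Real.sqrt (∑ v, om v * pr Q v * ‖mur Φ Q v‖ ^ 2)
  have hR : 0 ≤ R := by positivity
  set Z := ∑ v, (1 - om v) * pr Q v * Vr Φ Q v
  have hZ : 0 ≤ Z := sum_nonneg fun v _ =>
    mul_nonneg (mul_nonneg (by linarith [ho1 v]) (hp v).le) (Vr_nonneg hQ0 hp v)
  have h11 : (Real.log 4 + 1) * ∑ k ∈ range (J + 2), ∑ x, ∑ y, om y * Q x y * Pw Φ Q J k y x ≤
      (5 / 2) * (4 * Dom) := by
    refine (mul_le_mul_of_nonneg_left h2 (by linarith)).trans ?_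
    have : 0 ≤ 4 * Dom := by linarith
    nlinarith
  have h12 : 5 * Real.log 16 * Dom ≤ 15 * Dom := by nlinarith
  have h13 : 2 * (T + Real.log 4) * R ≤ 2 * (T + 2) * R := by nlinarith
  have h14 : (T + Real.log 4) * Z ≤ (T + 2) * Z := by nlinarith
  linarith

end Res

end P365T2.H844
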