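import Vale.Agent.P365.T2.H213.Spec
import Vale.Agent.P365.T2.UpsGen844
import Vale.Agent.P365.T2.H320.PhiR
import Vale.Agent.P365.H219.TL2

/-!
# P365 T2, XDefs: the concrete functionals of the X side over `StW` (helper629)

All functionals are numbers per site (`/ N ^ 2`).

* `nL S` = number of scales of the logarithmic energy, `nJ C1 S` = number of scales of the entropy
  and of the count (`R = 2 ^ nJ`, `R² ≥ exp (C1 S)`);
* the energy `EnX` and the loss `LossX` are those of the union family `uF N J` (320) = position field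
  `phi N` together with the truncated field `PhiR N J` (family `fR N J`);
* growth `GrX` and logarithmic energy `LX` (219): position field `phi N`;
* the ONE side (`MobX`, `PosX`, count, static step) lives in the metric of the truncated field;
* `ErrX` = hub sum + static share + far part + `1 / |S|` + `192 4^nJ / N` (small torus, 788), tiny
  by `StW.Ok`; so `12 * 2 ^ (2 nJ + 4) < N` or `1 ≤ ErrX`.
-/

set_option linter.all false

namespace P365T2.X629

open P365L P365O P365T1 P365L.TL Matrix Complex MeasureTheory Filter Topology Set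
open Vale.Agent.P365.J376 P365H219 P365T2.H213 P365T2.H320U
open scoped ComplexConjugate ENNReal

/-- number of scales of the logarithmic energy -/
noncomputable def nL (S : ℝ) : ℕ := ⌊S / 4⌋₊

/-- number of scales of the entropy and of the count; `2 ^ nJ` = radius of the truncated field -/
noncomputable def nJ (C1 S : ℝ) : ℕ := ⌈C1 * S⌉₊ + 1

/-- a state: a stage and a time -/
structure Sta (lam E C1 : ℝ) : Type 1 where
  /-- side of the torus -/
  N : ℕ
  /-- nonzero -/
  [hN : NeZero N]
  /-- the stage -/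
  W : StW N
  /-- basic properties, `η = 1` -/
  ok : W.Ok lam E C1 1
  /-- the time -/
  τ : ℝ
  /-- the time is in the good part -/
  hτ : τ ∈ Set.Icc 0 W.S

attribute [instance] Sta.hN

section stw

variable {N : ℕ} [NeZero N] (W : StW N) (E C1 : ℝ)

/-- weight of the moving absorption, `om = w e^{-τ} / e` -/
noncomputable def omX (τ : ℝ) (l : Tor N → W.Λ) (x : Tor N) : ℝ :=
  wT W.w τ l x / eT W.u W.w τ l x

/-- energy of the union family -/
noncomputable def EnX (τ : ℝ) : ℝ := W.Phi E (uF N (nJ C1 W.S)) τ / (N : ℝ) ^ 2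

/-- loss of the union family (`= 2 Av ∑ om_x e_x m_x ∑_k mu_k(x)²`) -/
noncomputable def LossX (τ : ℝ) : ℝ := W.LossF E (uF N (nJ C1 W.S)) τ / (N : ℝ) ^ 2

/-- the logarithmic energy (219) -/
noncomputable def LX (τ : ℝ) : ℝ :=
  LG (AT N) W.p W.ν E (phi N) (Finset.range (nL W.S)) (eT W.u W.w τ) / (N : ℝ) ^ 2

/-- growth rate of the logarithmic energy (219) -/
noncomputable def GrX (τ : ℝ) : ℝ :=
  GrG (AT N) W.p W.ν E (phi N) (Finset.range (nL W.S)) (eT W.u W.w τ) (wT W.w τ) / (N : ℝ) ^ 2

/-- energy of the mobile rows, truncated metric, weight `om` -/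
noncomputable def MobX (θ τ : ℝ) : ℝ :=
  MobG (AT N) W.p W.ν E (fR N (nJ C1 W.S)) (eT W.u W.w τ) (wT W.w τ) θ / (N : ℝ) ^ 2

/-- entropy production (844), truncated metric, truncation level `T` -/
noncomputable def PosX (T τ : ℝ) : ℝ :=
  (W.Av E τ fun _ V => P365T2.H844.Pos (PhiR N (nJ C1 W.S)) (P365T2.H844.TT (AT N) V)
    (Real.exp (-T)) (nJ C1 W.S)) / (N : ℝ) ^ 2

/-- hub sum + static share + far part, per site, plus `1 / |S|` (short stages are an error) plus
`192 4^nJ / N` (small tori are an error) -/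
noncomputable def ErrX (τ : ℝ) : ℝ :=
  (W.Yg E (uF N (nJ C1 W.S)) τ + 16 ^ nJ C1 W.S * W.EM E W.u τ +
    W.M4 E τ / 4 ^ nJ C1 W.S) / (N : ℝ) ^ 2 + 1 / |W.S| + 192 * 4 ^ nJ C1 W.S / (N : ℝ)

end stw

/-! ### as functions of the state -/

section state

variable {lam E C1 : ℝ}

/-- energy -/
noncomputable def Sta.En (s : Sta lam E C1) : ℝ := EnX s.W E C1 s.τ
/-- loss -/
noncomputable def Sta.Loss (s : Sta lam E C1) : ℝ := LossX s.W E C1 s.τ
/-- growth rate -/
noncomputable def Sta.Gr (s : Sta lam E C1) : ℝ := GrX s.W E s.τ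
/-- error -/
noncomputable def Sta.Err (s : Sta lam E C1) : ℝ := ErrX s.W E C1 s.τ
/-- entropy production -/
noncomputable def Sta.Pos (T : ℝ) (s : Sta lam E C1) : ℝ := PosX s.W E C1 T s.τ
/-- energy of the mobile rows plus the error (so that `Gr ≤ C Mob + ρ En`) -/
noncomputable def Sta.Mob (θ : ℝ) (s : Sta lam E C1) : ℝ := MobX s.W E C1 θ s.τ + ErrX s.W E C1 s.τ

end state

end P365T2.X629
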