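import Vale.Agent.P365.T2.UpsBd844

/-!
# P365-T2: the linear part of the drift of the one-body entropy with 37's
`G(u) = (u + eps) log (u + eps) - u - eps log eps` (helper844)
-/

set_option linter.all false

namespace P365T2.H844

open Finset P365L P365O
open scoped RealInnerProductSpace ComplexConjugate
open P365T2.H37 (wk HH HD rho)

/-- `G(u) = (u + ε) log (u + ε) - u - ε log ε`, `G' = log (u + ε)` -/
noncomputable def Gg (ε u : ℝ) : ℝ := (u + ε) * Real.log (u + ε) - u - ε * Real.log ε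

theorem Gg_zero (ε : ℝ) : Gg ε 0 = 0 := by unfold Gg; simp

theorem Gg_le {ε u : ℝ} (hε : 0 < ε) (hu : 0 ≤ u) : Gg ε u ≤ u * Real.log (u + ε) := by
  unfold Gg
  have h1 : Real.log (u + ε) - Real.log ε ≤ u / ε := by
    have h2 : Real.log ((u + ε) / ε) ≤ (u + ε) / ε - 1 :=
      Real.log_le_sub_one_of_pos (by positivity)
    rw [Real.log_div (by positivity) hε.ne'] at h2
    have h3 : (u + ε) / ε - 1 = u / ε := by field_simp; ring
    linarith
  have h4 : ε * (Real.log (u + ε) - Real.log ε) ≤ u := by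
    calc ε * (Real.log (u + ε) - Real.log ε) ≤ ε * (u / ε) :=
          mul_le_mul_of_nonneg_left h1 hε.le
      _ = u := by field_simp
  nlinarith

theorem le_Gg {ε u : ℝ} (hε : 0 < ε) (hu : 0 ≤ u) : u * Real.log (u + ε) - u ≤ Gg ε u := by
  unfold Gg
  have h1 : Real.log ε ≤ Real.log (u + ε) := Real.log_le_log hε (by linarith)
  nlinarith [mul_le_mul_of_nonneg_left h1 hε.le]

theorem hasDerivAt_Gg {ε u : ℝ} (h : 0 < u + ε) :
    HasDerivAt (Gg ε) (Real.log (u + ε)) u := by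
  unfold Gg
  have h1 : HasDerivAt (fun u : ℝ => u + ε) 1 u := (hasDerivAt_id u).add_const ε
  have h2 : HasDerivAt (fun u : ℝ => Real.log (u + ε)) (1 / (u + ε)) u := by
    simpa using h1.log h.ne'
  have h3 := ((h1.mul h2).sub (hasDerivAt_id u)).sub_const (ε * Real.log ε)
  refine h3.congr_deriv ?_
  simp only [one_mul]
  field_simp
  ring

section Ups

variable {E : Type*} [NormedAddCommGroup E] [InnerProductSpace ℝ E]
variable {ι : Type*} [Fintype ι] [DecidableEq ι] (Φ : ι → E) (A : Matrix ι ι ℝ) (W : ι → ℂ)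

/-- the truncated one-body entropy of an environment, 37's `G` -/
noncomputable def UpsG (ε : ℝ) (J : ℕ) : ℝ :=
  -∑ x, ∑ k ∈ range (J + 2), rho k * pr (TT A W) x * Gg ε (ur Φ (TT A W) J k x)

/-- linear part of the generator at `y` of `- rho_k pi_x G(u_{x,k})` -/
noncomputable def LinU (ε : ℝ) (J k : ℕ) (y x : ι) : ℝ :=
  if x = y then
    rho k * pr (TT A W) x * (Gg ε (ur Φ (TT A W) J k x) -
      TT A W x x / pr (TT A W) x * ur Φ (TT A W) J k x *
        Real.log (ur Φ (TT A W) J k x + ε))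
  else -(Real.log (ur Φ (TT A W) J k x + ε) *
      (TT A W x y * (Pw Φ (TT A W) J k y x - wk J k (tt Φ x y))))

variable {Φ A W}

theorem abs_summandG_le (hA : A.IsSymm) (hW : ∀ x, (W x).im < 0) {T : ℝ} (hT : 0 ≤ T)
    {J k : ℕ} (hk : k < J + 2) (ht4 : ∀ x y, tt Φ x y ≤ 4 ^ J) (x : ι) :
    |rho k * pr (TT A W) x * Gg (Real.exp (-T)) (ur Φ (TT A W) J k x)| ≤
      (T + 3) * (pr (TT A W) x * Pw Φ (TT A W) J k x x) := by
  have hQ0 : ∀ x y, 0 ≤ TT A W x y := TT_nonneg hW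
  have hp : ∀ x, 0 < pr (TT A W) x := pr_TT_pos hA hW
  have hr := P365T2.H37.rho_pos k
  have hε := Real.exp_pos (-T)
  set u := ur Φ (TT A W) J k x with hu
  have hu0 : 0 ≤ u := ur_nonneg hQ0 hp x
  have hu3 : u ≤ 3 := ur_le_three (Φ := Φ) hA hW hk ht4 x
  have h1 := abs_log_le hT hu0 hu3
  rw [abs_le] at h1
  have h2 : |Gg (Real.exp (-T)) u| ≤ (T + 3) * u := by
    have h3 := Gg_le hε hu0
    have h4 := le_Gg hε hu0
    have h5 := mul_le_mul_of_nonneg_left h1.1 hu0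
    have h6 := mul_le_mul_of_nonneg_left h1.2 hu0
    rw [abs_le]
    constructor <;> nlinarith
  rw [abs_mul, abs_mul, abs_of_pos hr, abs_of_pos (hp x)]
  calc rho k * pr (TT A W) x * |Gg (Real.exp (-T)) u|
      ≤ rho k * pr (TT A W) x * ((T + 3) * u) := by
        refine mul_le_mul_of_nonneg_left h2 ?_
        have := (hp x).le
        positivity
    _ = (T + 3) * (pr (TT A W) x * (rho k * u)) := by ring
    _ = _ := by rw [hu, rho_ur]

theorem abs_UpsG_le (hA : A.IsSymm) (hW : ∀ x, (W x).im < 0) {T : ℝ} (hT : 0 ≤ T) {J : ℕ}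
    (ht4 : ∀ x y, tt Φ x y ≤ 4 ^ J) :
    |UpsG Φ A W (Real.exp (-T)) J| ≤ (T + 3) * ∑ v, pr (TT A W) v * Vr Φ (TT A W) v := by
  unfold UpsG
  rw [abs_neg]
  refine (abs_sum_le_sum_abs _ _).trans ?_
  rw [mul_sum]
  refine sum_le_sum fun x _ => ?_
  refine (abs_sum_le_sum_abs _ _).trans ?_
  rw [← sum_Pw_self (J := J), mul_sum, mul_sum]
  exact sum_le_sum fun k hk => abs_summandG_le hA hW hT (mem_range.1 hk) ht4 x

/-- **the linear drift** of `UpsG` -/
theorem ups_lin (hA : A.IsSymm) (hW : ∀ x, (W x).im < 0) {T : ℝ} (hT : 0 ≤ T) {J : ℕ}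
    (hJ : 1 ≤ J) (ht : ∀ x y, tt Φ x y = 0 ∨ 1 ≤ tt Φ x y)
    (ht4 : ∀ x y, tt Φ x y ≤ 4 ^ J) {om : ι → ℝ} (ho : ∀ x, 0 ≤ om x) (ho1 : ∀ x, om x ≤ 1) :
    (1 / 2) * Pos Φ (TT A W) (Real.exp (-T)) J - 21 * ∑ v, pr (TT A W) v * Vr Φ (TT A W) v -
      2 * (T + 2) * (Real.sqrt (∑ v, om v * pr (TT A W) v * Vr Φ (TT A W) v) *
        Real.sqrt (∑ v, om v * pr (TT A W) v * ‖mur Φ (TT A W) v‖ ^ 2)) -
      (T + 2) * ∑ v, (1 - om v) * pr (TT A W) v * Vr Φ (TT A W) v ≤
    ∑ y, om y * ∑ x, ∑ k ∈ range (J + 2), LinU Φ A W (Real.exp (-T)) J k y x := by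
  classical
  set ε := Real.exp (-T) with hεd
  have hε : 0 < ε := Real.exp_pos _
  have hε1 : ε ≤ 1 := by
    rw [hεd]
    exact Real.exp_le_one_iff.2 (by linarith)
  set Q := TT A W with hQ
  have hQ0 : ∀ x y, 0 ≤ Q x y := TT_nonneg hW
  have hs : ∀ x y, Q x y = Q y x := TT_symm hA
  have hp : ∀ x, 0 < pr Q x := pr_TT_pos hA hW
  have hu0 : ∀ x k, 0 ≤ ur Φ Q J k x := fun x k => ur_nonneg hQ0 hp x
  have hl4 := log_four_le
  have hl16 := log_sixteen_le
  have hl41 : 1 ≤ Real.log 4 := by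
    have h1 : Real.log 4 = 2 * Real.log 2 := by
      rw [show (4 : ℝ) = 2 ^ 2 by norm_num, Real.log_pow]; norm_num
    have := Real.log_two_gt_d9
    linarith
  have hl160 : 0 ≤ Real.log 16 := Real.log_nonneg (by norm_num)
  set lam : ι → ℕ → ℝ := fun x k => lamf ε (ur Φ Q J k x) with hlam
  -- the drift inequality
  have hD := ent_drift' (Φ := Φ) (J := J) (om := om) (lam := lam) (c0 := Real.log 16)
    (T := T + Real.log 4) hQ0 hs hp ho ho1
    (fun x k hk => lamf_nonneg hε hε1 (hu0 x k) (ur_le_three hA hW hk ht4 x))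
    (fun x k _ => lamf_le (hu0 x k))
    (fun x k hk => lamf_anti hε (hu0 x (k + 1)) (ur_succ_le hA hW hJ hk ht4 x))
    (fun x k hk => lamf_step hε (hu0 x (k + 1)) (hu0 x k) (ur_le_succ hA hW hJ hk ht ht4 x))
  -- one summand
  have e0 : ∀ x y k, LinU Φ A W ε J k y x =
      -(Real.log (ur Φ Q J k x + ε) * (Q x y * (Pw Φ Q J k y x - wk J k (tt Φ x y)))) +
      (if x = y then rho k * pr Q x * Gg ε (ur Φ Q J k x) else 0) := by
    intro x y k
    unfold LinU
    by_cases hxy : x = y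
    · subst hxy
      rw [if_pos rfl, if_pos rfl, tt_self, P365T2.H37.wk_zero_arg, sub_zero, ← hQ]
      have e1 : Pw Φ Q J k x x = rho k * ur Φ Q J k x := by rw [rho_ur]
      rw [e1]
      have := (hp x).ne'
      field_simp
      ring
    · rw [if_neg hxy, if_neg hxy, add_zero, ← hQ]
  have e1 : ∑ y, om y * ∑ x, ∑ k ∈ range (J + 2), LinU Φ A W ε J k y x =
      ∑ x, ∑ k ∈ range (J + 2), (-(Real.log (ur Φ Q J k x + ε)) *
        (∑ y, om y * Q x y * (Pw Φ Q J k y x - wk J k (tt Φ x y))) +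
        om x * (rho k * pr Q x * Gg ε (ur Φ Q J k x))) := by
    simp only [e0]
    simp only [mul_sum]
    rw [sum_comm]
    refine sum_congr rfl fun x _ => ?_
    rw [sum_comm]
    refine sum_congr rfl fun k _ => ?_
    have e4 : om x * (rho k * pr Q x * Gg ε (ur Φ Q J k x)) =
        ∑ y, om y * (if x = y then rho k * pr Q x * Gg ε (ur Φ Q J k x) else 0) := by
      rw [Finset.sum_eq_single x]
      · rw [if_pos rfl]
      · intro b _ hb
        rw [if_neg (Ne.symm hb), mul_zero]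
      · intro h
        exact absurd (mem_univ x) h
    rw [e4, ← sum_add_distrib]
    refine sum_congr rfl fun y _ => ?_
    ring
  rw [e1]
  -- bounds
  have h2 := two_step (Φ := Φ) (J := J) hQ0 hs hp ho
  have h4 : ∑ v, om v * pr Q v * Vr Φ Q v ≤ ∑ v, pr Q v * Vr Φ Q v := by
    refine sum_le_sum fun v _ => ?_
    refine mul_le_mul_of_nonneg_right ?_ (Vr_nonneg hQ0 hp v)
    exact mul_le_of_le_one_left (hp v).le (ho1 v)
  have h40 : 0 ≤ ∑ v, om v * pr Q v * Vr Φ Q v :=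
    sum_nonneg fun v _ => mul_nonneg (mul_nonneg (ho v) (hp v).le) (Vr_nonneg hQ0 hp v)
  have h5 : ∀ x, ∀ k ∈ range (J + 2), lam x k *
      (∑ v, om v * Q x v * (Pw Φ Q J k v x - wk J k (tt Φ x v)) -
        om x * (pr Q x * Pw Φ Q J k x x)) -
      Real.log 4 * ∑ y, om y * Q x y * Pw Φ Q J k y x ≤
      -(Real.log (ur Φ Q J k x + ε)) *
        (∑ y, om y * Q x y * (Pw Φ Q J k y x - wk J k (tt Φ x y))) +
        om x * (rho k * pr Q x * Gg ε (ur Φ Q J k x)) := by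
    intro x k _
    set u := ur Φ Q J k x with hu
    have e5 : rho k * u = Pw Φ Q J k x x := rho_ur x
    have e7 : Real.log (u + ε) = Real.log 4 - lam x k := by
      rw [hlam]; simp only [lamf, ← hu]; ring
    have e8 : ∑ y, om y * Q x y * (Pw Φ Q J k y x - wk J k (tt Φ x y)) =
        ∑ y, om y * Q x y * Pw Φ Q J k y x - ∑ y, om y * Q x y * wk J k (tt Φ x y) := by
      rw [← sum_sub_distrib]
      exact sum_congr rfl fun y _ => by ring
    have hS2 : 0 ≤ ∑ y, om y * Q x y * wk J k (tt Φ x y) :=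
      sum_nonneg fun y _ => mul_nonneg (mul_nonneg (ho y) (hQ0 x y))
        (P365T2.H37.wk_nonneg (tt_nonneg x y))
    have hN : 0 ≤ om x * (pr Q x * Pw Φ Q J k x x) :=
      mul_nonneg (ho x) (mul_nonneg (hp x).le (Pw_nonneg hQ0 hp x x))
    have e9 : (Real.log 4 - lam x k) * (om x * (pr Q x * Pw Φ Q J k x x)) -
        om x * (pr Q x * Pw Φ Q J k x x) ≤ om x * (rho k * pr Q x * Gg ε u) := by
      have h6 := le_Gg hε (hu0 x k)
      rw [← hu, e7] at h6
      have h7 : 0 ≤ om x * (rho k * pr Q x) :=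
        mul_nonneg (ho x) (mul_nonneg (P365T2.H37.rho_pos k).le (hp x).le)
      have h8 := mul_le_mul_of_nonneg_left h6 h7
      rw [← e5]
      nlinarith [h8]
    rw [e7, e8]
    set S1 := ∑ y, om y * Q x y * Pw Φ Q J k y x
    set S2 := ∑ y, om y * Q x y * wk J k (tt Φ x y)
    have h8 : 0 ≤ Real.log 4 * S2 := mul_nonneg (by linarith) hS2
    have h9 : 0 ≤ (Real.log 4 - 1) * (om x * (pr Q x * Pw Φ Q J k x x)) :=
      mul_nonneg (by linarith) hN
    nlinarith [h8, h9, e9]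
  have h10 : ∑ x, ∑ k ∈ range (J + 2), (lam x k *
      (∑ v, om v * Q x v * (Pw Φ Q J k v x - wk J k (tt Φ x v)) -
        om x * (pr Q x * Pw Φ Q J k x x)) -
      Real.log 4 * ∑ y, om y * Q x y * Pw Φ Q J k y x) ≤
      ∑ x, ∑ k ∈ range (J + 2), (-(Real.log (ur Φ Q J k x + ε)) *
        (∑ y, om y * Q x y * (Pw Φ Q J k y x - wk J k (tt Φ x y))) +
        om x * (rho k * pr Q x * Gg ε (ur Φ Q J k x))) :=
    sum_le_sum fun x _ => sum_le_sum fun k hk => h5 x k hk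
  have e10 : ∑ x, ∑ k ∈ range (J + 2), (lam x k *
      (∑ v, om v * Q x v * (Pw Φ Q J k v x - wk J k (tt Φ x v)) -
        om x * (pr Q x * Pw Φ Q J k x x)) -
      Real.log 4 * ∑ y, om y * Q x y * Pw Φ Q J k y x) =
      ∑ x, ∑ k ∈ range (J + 2), lam x k *
      (∑ v, om v * Q x v * (Pw Φ Q J k v x - wk J k (tt Φ x v)) -
        om x * (pr Q x * Pw Φ Q J k x x)) -
      Real.log 4 * ∑ k ∈ range (J + 2), ∑ x, ∑ y, om y * Q x y * Pw Φ Q J k y x := by
    simp only [sum_sub_distrib]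
    congr 1
    rw [mul_sum, sum_comm]
    refine sum_congr rfl fun k _ => ?_
    rw [mul_sum]
  rw [e10] at h10
  have hPos : Pos Φ Q ε J = ∑ k ∈ range (J + 2), ∑ x, ∑ v,
        Q x v * ((lam x k - lam v k) * (Pw Φ Q J k v v - Pw Φ Q J k x x)) := rfl
  rw [← hPos] at hD
  set D := ∑ v, pr Q v * Vr Φ Q v
  set Dom := ∑ v, om v * pr Q v * Vr Φ Q v
  set R := Real.sqrt Dom * Real.sqrt (∑ v, om v * pr Q v * ‖mur Φ Q v‖ ^ 2)
  have hR : 0 ≤ R := by positivity
  set Z := ∑ v, (1 - om v) * pr Q v * Vr Φ Q v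
  have hZ : 0 ≤ Z := sum_nonneg fun v _ =>
    mul_nonneg (mul_nonneg (by linarith [ho1 v]) (hp v).le) (Vr_nonneg hQ0 hp v)
  have h11 : Real.log 4 * ∑ k ∈ range (J + 2), ∑ x, ∑ y, om y * Q x y * Pw Φ Q J k y x ≤
      (3 / 2) * (4 * Dom) := by
    refine (mul_le_mul_of_nonneg_left h2 (by linarith)).trans ?_
    have : 0 ≤ 4 * Dom := by linarith
    nlinarith
  have h12 : 5 * Real.log 16 * Dom ≤ 15 * Dom := by nlinarith
  have h13 : 2 * (T + Real.log 4) * R ≤ 2 * (T + 2) * R := by nlinarith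
  have h14 : (T + Real.log 4) * Z ≤ (T + 2) * Z := by nlinarith
  linarith

end Ups

end P365T2.H844
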