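import Vale.Agent.P365.T2.H417.GenInst
import Vale.Agent.P365.T2.UpsLin844

/-!
# P365-T2: 37's centre identity (C0) (helper844)

`- e_z dT_ab/de_z = (generator of T_ab at z) + 2 M_z (T_ab - T0_ab)`, pointwise, where `T0_ab` is the
mean of `T_ab` over the circle of `G_zz` (it does not depend on the potential of `z`).
-/

set_option linter.all false

namespace P365T2.H844

open Finset P365L P365O P365T1 Complex
open Vale.Agent.P365.T2.H789 Vale.Agent.P365.T2.H417
open scoped RealInnerProductSpace ComplexConjugate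
open P365T2.H37 (wk HH HD rho)

theorem c0_alg (g c : ℂ) (x y q : ℝ) (h : x ^ 2 + y ^ 2 = 2 * y * q) :
    2 * (conj (g + c * ((x : ℂ) + (y : ℂ) * I)) * (c * ((x : ℂ) + (y : ℂ) * I) *
      ((x : ℂ) + (y : ℂ) * I))).im =
    4 * y * q ^ 2 * ‖c‖ ^ 2 + 2 * y * (‖g + c * ((x : ℂ) + (y : ℂ) * I)‖ ^ 2 -
      (‖g + c * ((q : ℂ) * I)‖ ^ 2 + ‖c‖ ^ 2 * q ^ 2)) := by
  rw [← Complex.normSq_eq_norm_sq, ← Complex.normSq_eq_norm_sq, ← Complex.normSq_eq_norm_sq,
    Complex.normSq_apply, Complex.normSq_apply, Complex.normSq_apply]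
  simp only [map_add, map_mul, Complex.conj_ofReal, Complex.conj_I, Complex.add_re,
    Complex.add_im, Complex.mul_re, Complex.mul_im, Complex.ofReal_re, Complex.ofReal_im,
    Complex.I_re, Complex.I_im, Complex.conj_re, Complex.conj_im, Complex.neg_re,
    Complex.neg_im]
  linear_combination (2 * (g.re * c.im - g.im * c.re)) * h

section Site

variable {ι : Type*} [Fintype ι] [DecidableEq ι] (A : Matrix ι ι ℝ) (W : ι → ℂ)

/-- half the inverse flux: the centre of the circle of `G_zz` is `i qz` -/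
noncomputable def qz (z : ι) : ℝ := (2 * Sf A W z)⁻¹

/-- value of `G_ab` at the centre of the circle -/
noncomputable def Gc (z a b : ι) : ℂ :=
  Gi A W z a b + gw A W z a * gw A W z b * ((qz A W z : ℂ) * I)

/-- circle mean of `T_ab` -/
noncomputable def Tc (z a b : ι) : ℝ :=
  (-(W a).im) * (-(W b).im) *
    (‖Gc A W z a b‖ ^ 2 + (‖gw A W z a‖ ^ 2 * ‖gw A W z b‖ ^ 2) * qz A W z ^ 2)

variable {A W}

theorem qz_pos (hA : A.IsSymm) (hW : ∀ x, (W x).im < 0) (z : ι) : 0 < qz A W z := by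
  unfold qz
  have := Sf_pos hA hW z
  positivity

theorem qz_rel (hA : A.IsSymm) (hW : ∀ x, (W x).im < 0) (z : ι) :
    (Gr A W z z).re ^ 2 + mm A W z ^ 2 = 2 * mm A W z * qz A W z := by
  have h1 := mm_eq_Sf hA hW z
  have h2 := Sf_pos hA hW z
  have h3 : ‖Gr A W z z‖ ^ 2 = (Gr A W z z).re ^ 2 + mm A W z ^ 2 := by
    rw [← Complex.normSq_eq_norm_sq, Complex.normSq_apply]
    unfold mm
    ring
  unfold qz
  rw [← h3]
  rw [h1]
  field_simp

theorem Tc_nonneg (hW : ∀ x, (W x).im < 0) (z a b : ι) : 0 ≤ Tc A W z a b := by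
  unfold Tc
  have h1 : 0 < -(W a).im := neg_pos.2 (hW a)
  have h2 : 0 < -(W b).im := neg_pos.2 (hW b)
  positivity

theorem Tc_symm (hA : A.IsSymm) (hW : ∀ x, (W x).im < 0) (z a b : ι) :
    Tc A W z a b = Tc A W z b a := by
  unfold Tc Gc
  rw [Gi_symm hA hW z a b]
  rw [mul_comm (gw A W z a) (gw A W z b)]
  ring

/-- **(C0)** for the entries -/
theorem c0_T (hA : A.IsSymm) (hW : ∀ x, (W x).im < 0) (z a b : ι) :
    -(-(W z).im) * dT A W z a b = lT A W z a b +
      2 * ((-(W z).im) * mm A W z) * (TT A W a b - Tc A W z a b) := by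
  have hm := mm_pos hA hW z
  have he : 0 < -(W z).im := neg_pos.2 (hW z)
  have hrel := qz_rel hA hW z
  have ht : Gr A W z z = ((Gr A W z z).re : ℂ) + (mm A W z : ℂ) * I :=
    (Complex.re_add_im _).symm
  have hk := c0_alg (Gi A W z a b) (gw A W z a * gw A W z b) _ _ _ hrel
  rw [← ht] at hk
  have hG : Gi A W z a b + gw A W z a * gw A W z b * Gr A W z z = Gr A W a b :=
    (Gr_eq_Gi hA hW z a b).symm
  have hP : gw A W z a * gw A W z b * Gr A W z z * Gr A W z z = Gr A W a z * Gr A W z b := by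
    rw [Gr_eq_gw hA hW z a, Gr_eq_gw' hA hW z b]
    ring
  rw [hG, hP, norm_mul, mul_pow] at hk
  have hKz : ∀ a, KK A W a z = ‖gw A W z a‖ ^ 2 * (2 * mm A W z * qz A W z) := by
    intro a
    have h3 : ‖Gr A W z z‖ ^ 2 = (Gr A W z z).re ^ 2 + mm A W z ^ 2 := by
      rw [← Complex.normSq_eq_norm_sq, Complex.normSq_apply]
      unfold mm
      ring
    rw [← hrel, ← h3, KK, Gr_eq_gw hA hW, norm_mul, mul_pow]
  have hKz' : ∀ b, KK A W z b = ‖gw A W z b‖ ^ 2 * (2 * mm A W z * qz A W z) := by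
    intro b
    rw [← hKz b, KK, KK, Gr_symm hA]
  unfold dT lT Tc Gc
  rw [pr_TT hA hW z]
  unfold TT
  rw [hKz a, hKz' b]
  have hKab : KK A W a b = ‖Gr A W a b‖ ^ 2 := rfl
  rw [hKab]
  have e1 : (-2 : ℝ) * (conj (Gr A W a b) * (Gr A W a z * Gr A W z b)).im =
      -(2 * (conj (Gr A W a b) * (Gr A W a z * Gr A W z b)).im) := by ring
  rw [e1, hk]
  have e2 : (-(W a).im) * (-(W z).im) * (‖gw A W z a‖ ^ 2 * (2 * mm A W z * qz A W z)) *
      ((-(W z).im) * (-(W b).im) * (‖gw A W z b‖ ^ 2 * (2 * mm A W z * qz A W z)) /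
        ((-(W z).im) * mm A W z)) =
      4 * (-(W a).im) * (-(W b).im) * (-(W z).im) * mm A W z * qz A W z ^ 2 *
        (‖gw A W z a‖ ^ 2 * ‖gw A W z b‖ ^ 2) := by
    field_simp
    ring
  rw [e2]
  by_cases ha : a = z
  · by_cases hb : b = z
    · subst ha; subst hb
      simp only [if_true]
      ring
    · subst ha
      simp only [if_true, if_neg hb]
      ring
  · by_cases hb : b = z
    · subst hb
      simp only [if_true, if_neg ha]
      ring
    · simp only [if_neg ha, if_neg hb]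
      ring

/-! ### the summand of the entropy -/

section Ups

variable {E : Type*} [NormedAddCommGroup E] [InnerProductSpace ℝ E] (Φ : ι → E)
variable (A W)

/-- numerator `A_x = Σ_b w_k(x,b) T_xb` -/
noncomputable def An (J k : ℕ) (x : ι) : ℝ := ∑ b, wk J k (tt Φ x b) * TT A W x b

/-- circle mean (at `z`) of `A_x` -/
noncomputable def Ac (J k : ℕ) (z x : ι) : ℝ := ∑ b, wk J k (tt Φ x b) * Tc A W z x b

/-- circle mean (at `z`) of `pr x` -/
noncomputable def Mc (z x : ι) : ℝ := ∑ b, Tc A W z x b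

/-- absorption derivative (at `z`) of `rho_k pr_x G(u_{x,k})` -/
noncomputable def dUG (ε : ℝ) (J k : ℕ) (z x : ι) : ℝ :=
  rho k * (Real.log (ur Φ (TT A W) J k x + ε) *
      (∑ b, (wk J k (tt Φ x b) / rho k) * dT A W z x b) +
    (Gg ε (ur Φ (TT A W) J k x) -
      ur Φ (TT A W) J k x * Real.log (ur Φ (TT A W) J k x + ε)) * ∑ b, dT A W z x b)

/-- angular derivative (at `z`) of `rho_k pr_x G(u_{x,k})` -/
noncomputable def tUG (ε : ℝ) (J k : ℕ) (z x : ι) : ℝ :=
  rho k * (Real.log (ur Φ (TT A W) J k x + ε) *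
      (∑ b, (wk J k (tt Φ x b) / rho k) * tT A W z x b) +
    (Gg ε (ur Φ (TT A W) J k x) -
      ur Φ (TT A W) J k x * Real.log (ur Φ (TT A W) J k x + ε)) * ∑ b, tT A W z x b)

/-- the excess over the circle mean, with the actual slopes -/
noncomputable def CX (ε : ℝ) (J k : ℕ) (z x : ι) : ℝ :=
  -(Real.log (ur Φ (TT A W) J k x + ε) * (An A W Φ J k x - Ac A W Φ J k z x) +
    rho k * (Gg ε (ur Φ (TT A W) J k x) -
      ur Φ (TT A W) J k x * Real.log (ur Φ (TT A W) J k x + ε)) *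
        (pr (TT A W) x - Mc A W z x))

variable {A W Φ}

theorem hasDerivAt_logε {ε u : ℝ} (h : 0 < u + ε) :
    HasDerivAt (fun u : ℝ => Real.log (u + ε)) (1 / (u + ε)) u := by
  have h1 : HasDerivAt (fun u : ℝ => u + ε) 1 u := (hasDerivAt_id u).add_const ε
  simpa using h1.log h.ne'

theorem An_eq (hA : A.IsSymm) (hW : ∀ x, (W x).im < 0) (J k : ℕ) (x : ι) :
    An A W Φ J k x = rho k * (ur Φ (TT A W) J k x * pr (TT A W) x) := by
  have hp := (pr_TT_pos hA hW x).ne'
  have hr := (P365T2.H37.rho_pos k).ne'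
  unfold An ur Pw
  rw [div_mul_eq_mul_div, mul_div_assoc', mul_comm (rho k), mul_div_assoc, div_self hr, mul_one,
    Finset.sum_mul]
  refine Finset.sum_congr rfl fun b _ => ?_
  field_simp

/-- the generator structure of the summand with `Gg` -/
theorem gen_upsG (hA : A.IsSymm) {ε : ℝ} (hε : 0 < ε) (J k : ℕ) (z x : ι) :
    ∃ ll : (ι → ℂ) → ℝ, HasGen A z (fun W => rho k * pr (TT A W) x * Gg ε (ur Φ (TT A W) J k x))
      (fun W => tUG A W Φ ε J k z x) (fun W => dUG A W Φ ε J k z x) ll := by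
  have hpos : ∀ W ∈ Hm ι, 0 < pr (TT A W) x := fun W hW => pr_TT_pos hA hW x
  have hu0 : ∀ W ∈ Hm ι, 0 < NN Φ A W J k x / pr (TT A W) x + ε := by
    intro W hW
    rw [← ur_eq]
    have := ur_nonneg (Φ := Φ) (J := J) (k := k) (TT_nonneg hW) (fun x => pr_TT_pos hA hW x) x
    linarith
  have hN : HasGen A z (fun W => NN Φ A W J k x)
      (fun W => ∑ b, (wk J k (tt Φ x b) / rho k) * tT A W z x b)
      (fun W => ∑ b, (wk J k (tt Φ x b) / rho k) * dT A W z x b)
      (fun W => ∑ b, (wk J k (tt Φ x b) / rho k) * lT A W z x b) :=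
    gen_row hA z x fun b => wk J k (tt Φ x b) / rho k
  have hM := gen_pr hA z x
  have c2 : ContinuousOn (fun W => 1 / (NN Φ A W J k x / pr (TT A W) x + ε)) (Hm ι) :=
    continuousOn_const.div ((hN.cp.div hM.cp fun W hW => (hpos W hW).ne').add
      continuousOn_const) fun W hW => (hu0 W hW).ne'
  have h1 := HasGen.persp hA hN hM hpos (φ := Gg ε) (φ1 := fun u => Real.log (u + ε))
    (φ2 := fun u => 1 / (u + ε))
    (fun W hW => hasDerivAt_Gg (hu0 W hW)) (fun W hW => hasDerivAt_logε (hu0 W hW)) c2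
  refine ⟨_, (HasGen.smul (rho k) h1).congr (fun W hW => ?_) (fun W hW => ?_) (fun W hW => ?_)
    fun W hW => rfl⟩
  · rw [smul_eq_mul, ur_eq, mul_assoc]
  · rw [smul_eq_mul, ← ur_eq]
    rfl
  · rw [smul_eq_mul, ← ur_eq]
    rfl

/-- **(C0)** for the summand -/
theorem c0_ups (hA : A.IsSymm) (hW : ∀ x, (W x).im < 0) (ε : ℝ) (J k : ℕ) (z x : ι) :
    (-(W z).im) * dUG A W Φ ε J k z x = LinU Φ A W ε J k z x +
      2 * ((-(W z).im) * mm A W z) * CX A W Φ ε J k z x := by
  have hp := (pr_TT_pos hA hW x).ne'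
  have hpz := (pr_TT_pos hA hW z).ne'
  have hr := (P365T2.H37.rho_pos k).ne'
  set u := ur Φ (TT A W) J k x with hu
  set e := -(W z).im with he
  set m := mm A W z with hm
  set L := Real.log (u + ε) with hL
  -- the two sums
  have s1 : e * ∑ b, (wk J k (tt Φ x b) / rho k) * dT A W z x b =
      -((1 / rho k) * (∑ b, wk J k (tt Φ x b) * lT A W z x b) +
        (1 / rho k) * (2 * (e * m) * (An A W Φ J k x - Ac A W Φ J k z x))) := by
    unfold An Ac
    rw [← Finset.sum_sub_distrib, Finset.mul_sum, Finset.mul_sum, Finset.mul_sum, Finset.mul_sum,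
      ← Finset.sum_add_distrib, ← Finset.sum_neg_distrib]
    refine Finset.sum_congr rfl fun b _ => ?_
    have h1 := c0_T hA hW z x b
    rw [← he, ← hm] at h1
    have h2 : e * dT A W z x b = -(lT A W z x b + 2 * (e * m) * (TT A W x b - Tc A W z x b)) := by
      linarith
    calc e * ((wk J k (tt Φ x b) / rho k) * dT A W z x b)
        = (wk J k (tt Φ x b) / rho k) * (e * dT A W z x b) := by ring
      _ = _ := by rw [h2]; ring
  have s2 : e * ∑ b, dT A W z x b =
      -((∑ b, lT A W z x b) + 2 * (e * m) * (pr (TT A W) x - Mc A W z x)) := by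
    unfold Mc pr
    rw [← Finset.sum_sub_distrib, Finset.mul_sum, Finset.mul_sum,
      ← Finset.sum_add_distrib, ← Finset.sum_neg_distrib]
    refine Finset.sum_congr rfl fun b _ => ?_
    have h1 := c0_T hA hW z x b
    rw [← he, ← hm] at h1
    linarith
  have s3 := sum_lT hA hW z x fun b => wk J k (tt Φ x b)
  have s4 := sum_lT hA hW z x fun _ => (1 : ℝ)
  simp only [one_mul, mul_one] at s4
  rw [P365T2.H844.sum_P z (pr_TT_pos hA hW z), sub_self, mul_zero, zero_sub] at s4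
  have hAn := An_eq (Φ := Φ) hA hW J k x
  have hAn' : ∑ b, wk J k (tt Φ x b) * TT A W x b = rho k * (u * pr (TT A W) x) := hAn
  have hPw : ∑ b, TT A W z b / pr (TT A W) z * wk J k (tt Φ x b) = Pw Φ (TT A W) J k z x := rfl
  have hprs : ∑ b, TT A W x b = pr (TT A W) x := rfl
  rw [hAn', hPw] at s3
  rw [hprs] at s4
  rw [s3] at s1
  rw [s4] at s2
  have e1 : e * dUG A W Φ ε J k z x = rho k * (L *
      (e * ∑ b, (wk J k (tt Φ x b) / rho k) * dT A W z x b) +
      (Gg ε u - u * L) * (e * ∑ b, dT A W z x b)) := by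
    unfold dUG
    rw [← hu, ← hL]
    ring
  rw [e1, s1, s2]
  unfold CX LinU
  rw [← hu, ← hL]
  by_cases h : x = z
  · subst h
    rw [if_pos rfl, if_pos rfl]
    have hP2 : Pw Φ (TT A W) J k x x = rho k * u := by
      rw [hu]
      unfold ur
      field_simp
    rw [hP2, tt_self, P365T2.H37.wk_zero_arg]
    field_simp
    ring
  · rw [if_neg h, if_neg h]
    field_simp
    ring

end Ups

end Site

end P365T2.H844
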