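import Mathlib

set_option linter.all false

/-!
# P365 / T2 / Center37: the centre trick for the one-body entropy, real-variable part.

`A = A₀ + Re(α e^{iθ})`, `A₀ = Ah + a R`, `|α|² ≤ 4 Ah (a R)`, `M = M₀ + Re(α' e^{iθ})`,
`|α'| = a ≤ M₀`; `u = A / M`, `u₀ = A₀ / M₀`, `p = u + ε`, `p₀ = u₀ + ε`, `ℓ = log (p / p₀)`.

* `u0_le : u₀ ≤ 4 u + 3 R`.
* `gap_le : (G'(u) - G'(u₀)) (A - A₀) + (q(u₀) - q(u)) (M - M₀) ≤ 960 a (u + R + R ℓ⁻)`,
  `G u = u log (u + ε)`, `q u = u² / (u + ε)`.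
* `mult_le : |G'(u) - G'(u₀)| S ≤ 640 (a u + (1 + |ℓ|) a R)` for `S² ≤ Ah a R`.
-/

namespace P365T2.C37

/-- data of the two circles -/
structure Cen (Ah a R M0 A M : ℝ) : Prop where
  hAh : 0 ≤ Ah
  ha : 0 ≤ a
  hR : 0 ≤ R
  haM : a ≤ M0
  hA : 0 ≤ A
  hM : 0 < M
  hA2 : (A - (Ah + a * R)) ^ 2 ≤ 4 * Ah * (a * R)
  hM2 : |M - M0| ≤ a

variable {Ah a R M0 A M e : ℝ}

namespace Cen

theorem M_le (h : Cen Ah a R M0 A M) : M ≤ 2 * M0 := by
  have := (abs_le.1 h.hM2).2
  linarith [h.haM]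

theorem M0_pos (h : Cen Ah a R M0 A M) : 0 < M0 := by
  have := h.M_le
  linarith [h.hM]

theorem b_nonneg (h : Cen Ah a R M0 A M) : 0 ≤ a * R := mul_nonneg h.ha h.hR

theorem A0_nonneg (h : Cen Ah a R M0 A M) : 0 ≤ Ah + a * R := add_nonneg h.hAh h.b_nonneg

/-- `A₀ ≤ 2 A + 3 a R` -/
theorem A0_le (h : Cen Ah a R M0 A M) : Ah + a * R ≤ 2 * A + 3 * (a * R) := by
  by_contra hc
  push Not at hc
  have h1 : 0 ≤ a * R := h.b_nonneg
  have h2 := h.hA2
  have h3 : Ah - 2 * (a * R) > 2 * A := by linarith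
  have h4 : Ah + a * R - A > (Ah + 4 * (a * R)) / 2 := by linarith
  have h5 : (Ah + 4 * (a * R)) / 2 ≥ 0 := by linarith [h.hAh]
  have h6 : ((Ah + 4 * (a * R)) / 2) ^ 2 < (Ah + a * R - A) ^ 2 := by
    exact pow_lt_pow_left₀ h4 h5 (by norm_num)
  nlinarith [sq_nonneg (Ah - 4 * (a * R))]

/-- `A ≤ 2 A₀` -/
theorem A_le (h : Cen Ah a R M0 A M) : A ≤ 2 * (Ah + a * R) := by
  by_contra hc
  push Not at hc
  have h1 := h.b_nonneg
  have h2 := h.hA2
  have h3 : (Ah + a * R) < A - (Ah + a * R) := by linarith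
  have h4 : (Ah + a * R) ^ 2 < (A - (Ah + a * R)) ^ 2 :=
    pow_lt_pow_left₀ h3 h.A0_nonneg (by norm_num)
  nlinarith [sq_nonneg (Ah - a * R)]

/-- if `4 A ≤ A₀` then `A₀ ≤ 8 a R` -/
theorem A0_le_b (h : Cen Ah a R M0 A M) (hA : 4 * A ≤ Ah + a * R) :
    Ah + a * R ≤ 8 * (a * R) := by
  have h1 := h.b_nonneg
  have h0 := h.A0_nonneg
  rcases h0.eq_or_lt with h00 | h00
  · linarith
  have h2 := h.hA2
  have h3 : 3 / 4 * (Ah + a * R) ≤ (Ah + a * R) - A := by linarith
  have h4 : (3 / 4 * (Ah + a * R)) ^ 2 ≤ ((Ah + a * R) - A) ^ 2 :=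
    pow_le_pow_left₀ (by linarith) h3 2
  have h5 : 9 / 16 * (Ah + a * R) ^ 2 ≤ 4 * (Ah + a * R) * (a * R) := by
    nlinarith [mul_nonneg h1 h1]
  have h6 : (Ah + a * R) * (9 / 16 * (Ah + a * R)) ≤ (Ah + a * R) * (4 * (a * R)) := by
    nlinarith
  have h7 := le_of_mul_le_mul_left h6 h00
  linarith

/-- **the centre is dominated by every point of the circle** -/
theorem u0_le (h : Cen Ah a R M0 A M) : (Ah + a * R) / M0 ≤ 4 * (A / M) + 3 * R := by
  have hM0 := h.M0_pos
  have h1 := h.A0_le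
  have h2 : A / M0 ≤ 2 * (A / M) := by
    rw [div_le_iff₀ hM0]
    have h3 : A / M * M = A := div_mul_cancel₀ A h.hM.ne'
    have h4 : 0 ≤ A / M := div_nonneg h.hA h.hM.le
    nlinarith [h.M_le]
  have h3 : a * R / M0 ≤ R := by
    rw [div_le_iff₀ hM0]
    nlinarith [h.haM, h.hR]
  calc (Ah + a * R) / M0 ≤ (2 * A + 3 * (a * R)) / M0 := by gcongr
    _ = 2 * (A / M0) + 3 * (a * R / M0) := by ring
    _ ≤ 4 * (A / M) + 3 * R := by linarith

end Cen

/-! ### one variable inequalities -/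

/-- derivative of `u log (u + e)` -/
noncomputable def G1 (e u : ℝ) : ℝ := Real.log (u + e) + u / (u + e)

/-- `-(G - u G')` -/
noncomputable def qf (e u : ℝ) : ℝ := u ^ 2 / (u + e)

theorem log_div_le {p p0 : ℝ} (hp : 0 < p) (hp0 : 0 < p0) :
    Real.log (p / p0) ≤ (p - p0) / p0 := by
  have := Real.log_le_sub_one_of_pos (div_pos hp hp0)
  have e1 : p / p0 - 1 = (p - p0) / p0 := by field_simp
  linarith

theorem neg_log_div_le {p p0 : ℝ} (hp : 0 < p) (hp0 : 0 < p0) :
    -Real.log (p / p0) ≤ (p0 - p) / p := by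
  have h := log_div_le hp0 hp
  have e : Real.log (p0 / p) = -Real.log (p / p0) := by
    rw [← Real.log_inv, inv_div]
  linarith

/-- comparison of `u log (u+e)` with `(u+e) log (u+e)` -/
theorem coef_le {e p p0 : ℝ} (he : 0 < e) (hp : e ≤ p) (hp0 : e ≤ p0) :
    e * (p / p0 - 1) + (p - p0) ≤ (p + e) * Real.log (p / p0) := by
  have h0 : 0 < p0 := he.trans_le hp0
  have h1 : 0 < p := he.trans_le hp
  set z : ℝ := p / p0 with hz
  have hz0 : 0 < z := div_pos h1 h0
  have hpz : p = z * p0 := by rw [hz]; field_simp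
  rcases le_total 1 z with h | h
  · have h2 := Real.le_log_one_add_of_nonneg (x := z - 1) (by linarith)
    rw [show 1 + (z - 1) = z by ring, show z - 1 + 2 = z + 1 by ring] at h2
    have h3 : (p + e) * (2 * (z - 1) / (z + 1)) ≤ (p + e) * Real.log z :=
      mul_le_mul_of_nonneg_left h2 (by linarith)
    refine le_trans ?_ h3
    rw [mul_div_assoc', le_div_iff₀ (by linarith), hpz]
    nlinarith [mul_nonneg (mul_nonneg (sub_nonneg.2 h) (sub_nonneg.2 h)) (sub_nonneg.2 hp0)]
  · have h2 : 0 ≤ Real.log z⁻¹ := Real.log_nonneg ((one_le_inv₀ hz0).2 h)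
    have h3 := Real.self_le_sinh_iff.2 h2
    rw [Real.sinh_log (inv_pos.2 hz0), inv_inv, Real.log_inv] at h3
    have h4 : (z - z⁻¹) / 2 ≤ Real.log z := by linarith
    have h5 : (p + e) * ((z - z⁻¹) / 2) ≤ (p + e) * Real.log z :=
      mul_le_mul_of_nonneg_left h4 (by linarith)
    refine le_trans ?_ h5
    have h6 : z * ((p + e) * ((z - z⁻¹) / 2)) = (p + e) * (z ^ 2 - 1) / 2 := by
      field_simp
    have h7 : z * (e * (z - 1) + (p - p0)) ≤ z * ((p + e) * ((z - z⁻¹) / 2)) := by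
      rw [h6, hpz]
      have hpe : e ≤ z * p0 := by rw [← hpz]; exact hp
      nlinarith [mul_nonneg (mul_nonneg (sub_nonneg.2 h) (sub_nonneg.2 h)) (sub_nonneg.2 hpe)]
    exact le_of_mul_le_mul_left h7 hz0

/-- clean Bregman form -/
noncomputable def Dt (e u u0 M M0 : ℝ) : ℝ :=
  M * ((u + e) * Real.log ((u + e) / (u0 + e)) - (u - u0)) +
    M0 * ((u - u0) - (u0 + e) * Real.log ((u + e) / (u0 + e)))

/-- the symmetrised Bregman divergence of the perspective of `u log (u+e)` is at most twice the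
clean one -/
theorem breg_le_two {e u u0 M M0 : ℝ} (he : 0 < e) (hu : 0 ≤ u) (hu0 : 0 ≤ u0) (hM : 0 ≤ M)
    (hM0 : 0 ≤ M0) :
    (G1 e u - G1 e u0) * (M * u - M0 * u0) + (qf e u0 - qf e u) * (M - M0) ≤
      2 * Dt e u u0 M M0 := by
  have hp : 0 < u + e := by linarith
  have hp0 : 0 < u0 + e := by linarith
  have h1 := coef_le (p := u + e) (p0 := u0 + e) he (by linarith) (by linarith)
  have h2 := coef_le (p := u0 + e) (p0 := u + e) he (by linarith) (by linarith)
  have hl : Real.log (u + e) - Real.log (u0 + e) = Real.log ((u + e) / (u0 + e)) :=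
    (Real.log_div hp.ne' hp0.ne').symm
  have hl2 : Real.log ((u0 + e) / (u + e)) = -Real.log ((u + e) / (u0 + e)) := by
    rw [← Real.log_inv, inv_div]
  rw [hl2] at h2
  have e1 : u / (u + e) = 1 - e / (u + e) := by field_simp; ring
  have e2 : u0 / (u0 + e) = 1 - e / (u0 + e) := by field_simp; ring
  have e3 : qf e u = u - e + e * (e / (u + e)) := by unfold qf; field_simp; ring
  have e4 : qf e u0 = u0 - e + e * (e / (u0 + e)) := by unfold qf; field_simp; ring
  have e5 : (u + e) / (u0 + e) = e / (u0 + e) * ((u + e) / e) := by field_simp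
  unfold Dt G1
  rw [e1, e2, e3, e4]
  set L := Real.log ((u + e) / (u0 + e)) with hL
  have hL' : Real.log (u + e) = Real.log (u0 + e) + L := by linarith
  rw [hL']
  have e6 : e * ((u + e) / (u0 + e) - 1) = (u + e) * (e / (u0 + e)) - e := by ring
  have e7 : e * ((u0 + e) / (u + e) - 1) = (u0 + e) * (e / (u + e)) - e := by ring
  rw [e6] at h1
  rw [e7] at h2
  have k1 : (u + e) * (e / (u + e)) = e := by field_simp
  have k2 : (u0 + e) * (e / (u0 + e)) = e := by field_simp
  set X := e / (u + e) with hX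
  set Y := e / (u0 + e) with hY
  have h3 := mul_le_mul_of_nonneg_left h1 hM
  have h4 := mul_le_mul_of_nonneg_left h2 hM0
  have k3 : M * ((u + e) * X) = M * e := by rw [k1]
  have k4 : M0 * ((u0 + e) * Y) = M0 * e := by rw [k2]
  nlinarith

theorem Dt_le_sq {e u u0 M M0 : ℝ} (he : 0 < e) (hu : 0 ≤ u) (hu0 : 0 ≤ u0) (hM : 0 ≤ M)
    (hM0 : 0 ≤ M0) :
    Dt e u u0 M M0 ≤ (u - u0) ^ 2 * (M / (u0 + e) + M0 / (u + e)) := by
  have hp : 0 < u + e := by linarith
  have hp0 : 0 < u0 + e := by linarith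
  have h1 := log_div_le hp hp0
  have h2 := neg_log_div_le hp hp0
  have h3 := mul_le_mul_of_nonneg_left h1 (mul_nonneg hM hp.le)
  have h4 := mul_le_mul_of_nonneg_left h2 (mul_nonneg hM0 hp0.le)
  have e1 : M * (u + e) * ((u + e - (u0 + e)) / (u0 + e)) =
      M * (u - u0) + (u - u0) ^ 2 * (M / (u0 + e)) := by
    field_simp
    ring
  have e2 : M0 * (u0 + e) * ((u0 + e - (u + e)) / (u + e)) =
      -(M0 * (u - u0)) + (u - u0) ^ 2 * (M0 / (u + e)) := by
    field_simp
    ring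
  rw [e1] at h3
  rw [e2] at h4
  unfold Dt
  nlinarith

/-- crude bound of the clean form when `u ≤ u0` -/
theorem Dt_le_low {e u u0 M M0 : ℝ} (he : 0 < e) (hu : 0 ≤ u) (huu : u ≤ u0) (hM : 0 ≤ M)
    (hM0 : 0 ≤ M0) :
    Dt e u u0 M M0 ≤ M * u0 + M0 * u0 + M0 * u0 * (-Real.log ((u + e) / (u0 + e))) := by
  have hp : 0 < u + e := by linarith
  have hp0 : 0 < u0 + e := by linarith
  have h2 := neg_log_div_le hp hp0
  have hl : Real.log ((u + e) / (u0 + e)) ≤ 0 := by
    refine Real.log_nonpos (by positivity) ?_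
    rw [div_le_one hp0]; linarith
  set L := -Real.log ((u + e) / (u0 + e)) with hL
  have hL0 : 0 ≤ L := by linarith
  have h3 : e * L ≤ u0 := by
    have h4 := mul_le_mul_of_nonneg_left h2 he.le
    have h5 : e * ((u0 + e - (u + e)) / (u + e)) ≤ u0 - u := by
      rw [show e * ((u0 + e - (u + e)) / (u + e)) = (e * (u0 - u)) / (u + e) by ring,
        div_le_iff₀ hp]
      nlinarith
    linarith
  have e0 : Dt e u u0 M M0 = M * (-((u + e) * L) - (u - u0)) + M0 * ((u - u0) + (u0 + e) * L) := by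
    unfold Dt
    rw [hL]
    ring
  rw [e0]
  have h6 : M * (-((u + e) * L) - (u - u0)) ≤ M * u0 := by
    refine mul_le_mul_of_nonneg_left ?_ hM
    nlinarith [mul_nonneg hp.le hL0]
  have h7 : M0 * ((u - u0) + (u0 + e) * L) ≤ M0 * (u0 + u0 * L) := by
    refine mul_le_mul_of_nonneg_left ?_ hM0
    nlinarith
  nlinarith

/-- comparable masses and comparable `p` -/
theorem cmp_gap {u u0 : ℝ} (h : Cen Ah a R M0 A M) (he : 0 < e) (k1 : M * u = A)
    (k2 : M0 * u0 = Ah + a * R) (hun : 0 ≤ u) (hun0 : 0 ≤ u0) (hMh : M0 / 2 ≤ M)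
    (hpp : u0 + e ≤ 8 * (u + e)) :
    Dt e u u0 M M0 ≤ 272 * (a * R) + 68 * (u0 * a) := by
  have hM := h.hM
  have hM0 := h.M0_pos
  have ha := h.ha
  have hR := h.hR
  have hb := h.b_nonneg
  have hp : 0 < u + e := by linarith
  have hp0 : 0 < u0 + e := by linarith
  have h4 := Dt_le_sq he hun hun0 hM.le hM0.le
  have h5 : (M * (u - u0)) ^ 2 ≤ 8 * (Ah * (a * R)) + 2 * (u0 * a) ^ 2 := by
    have e1 : M * (u - u0) = (A - (Ah + a * R)) - u0 * (M - M0) := by
      rw [← k1, ← k2]; ring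
    have h6 : (u0 * (M - M0)) ^ 2 ≤ (u0 * a) ^ 2 := by
      rw [mul_pow, mul_pow]
      refine mul_le_mul_of_nonneg_left ?_ (sq_nonneg _)
      rw [← sq_abs (M - M0)]
      exact pow_le_pow_left₀ (abs_nonneg _) h.hM2 2
    have h7 := h.hA2
    rw [e1]
    have h8 := sq_nonneg ((A - (Ah + a * R)) + u0 * (M - M0))
    have e2 : ((A - (Ah + a * R)) - u0 * (M - M0)) ^ 2 +
        ((A - (Ah + a * R)) + u0 * (M - M0)) ^ 2 =
        2 * (A - (Ah + a * R)) ^ 2 + 2 * (u0 * (M - M0)) ^ 2 := by ring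
    linarith
  have h8 : M0 / (u + e) ≤ 16 * (M / (u0 + e)) := by
    rw [← mul_div_assoc, div_le_div_iff₀ hp hp0]
    have h9 : M0 * (u0 + e) ≤ M0 * (8 * (u + e)) := mul_le_mul_of_nonneg_left hpp hM0.le
    have h10 : M0 * (u + e) ≤ 2 * M * (u + e) := mul_le_mul_of_nonneg_right (by linarith) hp.le
    linarith
  have h9 : (u - u0) ^ 2 * (M / (u0 + e) + M0 / (u + e)) ≤
      (u - u0) ^ 2 * (17 * (M / (u0 + e))) :=
    mul_le_mul_of_nonneg_left (by linarith) (sq_nonneg _)
  have h10 : (u - u0) ^ 2 * (17 * (M / (u0 + e))) =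
      17 * (M * (u - u0)) ^ 2 / (M * (u0 + e)) := by
    field_simp
  have h11 : 17 * (M * (u - u0)) ^ 2 / (M * (u0 + e)) ≤ 272 * (a * R) + 68 * (u0 * a) := by
    rw [div_le_iff₀ (by positivity)]
    have h12 : 0 ≤ (272 * (a * R) + 68 * (u0 * a)) := by positivity
    have h13 : M0 / 2 * u0 ≤ M * (u0 + e) := by
      have h1 : M0 / 2 * u0 ≤ M * u0 := mul_le_mul_of_nonneg_right hMh hun0
      have h2 : 0 ≤ M * e := by positivity
      linarith
    have h15 : Ah * (a * R) ≤ (M0 * u0) * (a * R) := by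
      rw [k2]
      exact mul_le_mul_of_nonneg_right (by linarith) hb
    have h16 : (u0 * a) ^ 2 ≤ (u0 * a) * (M0 * u0) := by
      have h17 : u0 * a ≤ M0 * u0 := by
        have := mul_le_mul_of_nonneg_left h.haM hun0
        linarith
      have := mul_le_mul_of_nonneg_left h17 (mul_nonneg hun0 ha)
      linarith [this, (by ring : (u0 * a) ^ 2 = u0 * a * (u0 * a))]
    have e3 : (272 * (a * R) + 68 * (u0 * a)) * (M0 / 2 * u0) =
        136 * ((M0 * u0) * (a * R)) + 34 * ((u0 * a) * (M0 * u0)) := by ring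
    have h18 := mul_le_mul_of_nonneg_left h13 h12
    rw [e3] at h18
    linarith
  linarith

/-- `u ≥ u0` -/
theorem high_gap {u u0 : ℝ} (h : Cen Ah a R M0 A M) (he : 0 < e) (k1 : M * u = A)
    (k2 : M0 * u0 = Ah + a * R) (hun : 0 ≤ u) (hun0 : 0 ≤ u0) (h1 : u0 ≤ u) :
    Dt e u u0 M M0 ≤ 3 * (M0 * u) := by
  have hM := h.hM
  have hM0 := h.M0_pos
  have hA2 := h.A_le
  have hp : 0 < u + e := by linarith
  have hp0 : 0 < u0 + e := by linarith
  have hl : 0 ≤ Real.log ((u + e) / (u0 + e)) := by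
    refine Real.log_nonneg ?_
    rw [le_div_iff₀ hp0]; linarith
  have hl1 := log_div_le hp hp0
  set l := Real.log ((u + e) / (u0 + e)) with hldef
  rcases hun0.eq_or_lt with h00 | h00
  · have hA00 : Ah + a * R = 0 := by rw [← k2, ← h00, mul_zero]
    have hAz : A = 0 := le_antisymm (by linarith) h.hA
    have huz : u = 0 := by
      rw [hAz] at k1
      rcases mul_eq_zero.1 k1 with h' | h'
      · exact absurd h' hM.ne'
      · exact h'
    have : Dt e u u0 M M0 = 0 := by
      unfold Dt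
      rw [huz, ← h00]
      have : (0 + e) / (0 + e) = 1 := div_self (by linarith)
      rw [this, Real.log_one]
      ring
    rw [this]
    positivity
  · have h5 : (u + e - (u0 + e)) / (u0 + e) ≤ u / u0 := by
      rw [div_le_div_iff₀ hp0 h00]
      nlinarith
    have h6 : A * l ≤ 2 * (M0 * u) := by
      have h7 : A * l ≤ A * (u / u0) := mul_le_mul_of_nonneg_left (hl1.trans h5) h.hA
      have h8 : A * (u / u0) ≤ 2 * (M0 * u0) * (u / u0) := by
        refine mul_le_mul_of_nonneg_right ?_ (by positivity)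
        rw [k2]; exact hA2
      have h9 : 2 * (M0 * u0) * (u / u0) = 2 * (M0 * u) := by field_simp
      linarith
    have h10 : e * l ≤ u - u0 := by
      have h11 := mul_le_mul_of_nonneg_left hl1 he.le
      have h12 : e * ((u + e - (u0 + e)) / (u0 + e)) ≤ u - u0 := by
        rw [show e * ((u + e - (u0 + e)) / (u0 + e)) = (e * (u - u0)) / (u0 + e) by ring,
          div_le_iff₀ hp0]
        have h13 : 0 ≤ (u - u0) * u0 := mul_nonneg (by linarith) hun0
        linarith
      linarith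
    have e1 : Dt e u u0 M M0 = (M * u) * l + M * (e * l) - M * (u - u0) +
        M0 * (u - u0) - M0 * ((u0 + e) * l) := by
      unfold Dt
      rw [← hldef]
      ring
    rw [e1, k1]
    have h13 : M * (e * l) ≤ M * (u - u0) := mul_le_mul_of_nonneg_left h10 hM.le
    have h14 : 0 ≤ M0 * ((u0 + e) * l) := by positivity
    have h15 : 0 ≤ M0 * u0 := by positivity
    linarith

/-- **the pointwise gap** (clean form) -/
theorem Dt_le (h : Cen Ah a R M0 A M) (he : 0 < e) :
    Dt e (A / M) ((Ah + a * R) / M0) M M0 ≤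
      480 * a * (A / M + R + R * max 0 (-Real.log ((A / M + e) / ((Ah + a * R) / M0 + e)))) := by
  have hM := h.hM
  have hM0 := h.M0_pos
  have ha := h.ha
  have hR := h.hR
  have hb := h.b_nonneg
  have hA0 := h.A0_nonneg
  have hM2 := h.M_le
  obtain ⟨u, hu⟩ : ∃ u, u = A / M := ⟨_, rfl⟩
  obtain ⟨u0, hu0⟩ : ∃ u0, u0 = (Ah + a * R) / M0 := ⟨_, rfl⟩
  have k1 : M * u = A := by rw [hu]; field_simp
  have k2 : M0 * u0 = Ah + a * R := by rw [hu0]; field_simp
  have hun : 0 ≤ u := by rw [hu]; exact div_nonneg h.hA hM.le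
  have hun0 : 0 ≤ u0 := by rw [hu0]; exact div_nonneg hA0 hM0.le
  have h3 := h.u0_le
  rw [← hu, ← hu0] at h3 ⊢
  have hp : 0 < u + e := by linarith
  have hp0 : 0 < u0 + e := by linarith
  set Lg := max 0 (-Real.log ((u + e) / (u0 + e))) with hLg
  have hLg0 : 0 ≤ Lg := le_max_left _ _
  have hLg1 : -Real.log ((u + e) / (u0 + e)) ≤ Lg := le_max_right _ _
  have hRL : 0 ≤ R * Lg := mul_nonneg hR hLg0
  have haRL : 0 ≤ a * (R * Lg) := mul_nonneg ha hRL
  have hau : 0 ≤ a * u := mul_nonneg ha hun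
  -- A ≤ 2 A0
  have hA2 := h.A_le
  -- low estimate, used when A is small
  have low : u ≤ u0 → Ah + a * R ≤ 8 * (a * R) →
      Dt e u u0 M M0 ≤ 480 * a * (u + R + R * Lg) := by
    intro h1 h2
    have h4 := Dt_le_low he hun h1 hM.le hM0.le (M := M) (M0 := M0)
    have h5 : M * u0 ≤ 2 * (M0 * u0) := by nlinarith
    have h6 : M0 * u0 * (-Real.log ((u + e) / (u0 + e))) ≤ M0 * u0 * Lg :=
      mul_le_mul_of_nonneg_left hLg1 (by positivity)
    rw [k2] at h5 h6
    have h7 : (Ah + a * R) * Lg ≤ 8 * (a * R) * Lg := mul_le_mul_of_nonneg_right h2 hLg0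
    rw [k2] at h4
    nlinarith
  by_cases hMh : M0 / 2 ≤ M
  · by_cases hpp : u0 + e ≤ 8 * (u + e)
    · -- comparable
      have h4 := cmp_gap (u := u) (u0 := u0) h he k1 k2 hun hun0 hMh hpp
      nlinarith
    · push Not at hpp
      have h4 : u ≤ u0 / 8 := by linarith
      refine low (by linarith) (h.A0_le_b ?_)
      rw [← k1, ← k2]
      nlinarith
  · push Not at hMh
    have haM : M0 ≤ 2 * a := by
      have := (abs_le.1 h.hM2).1
      linarith
    rcases le_total u0 u with h1 | h1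
    · -- u ≥ u0
      have h4 := high_gap (u := u) (u0 := u0) h he k1 k2 hun hun0 h1
      have h5 : M0 * u ≤ 2 * a * u := mul_le_mul_of_nonneg_right haM hun
      nlinarith
    · by_cases hA4 : 4 * A ≤ Ah + a * R
      · exact low h1 (h.A0_le_b hA4)
      · push Not at hA4
        have h5 : u0 ≤ 2 * u := by
          have h6 : M0 * u0 ≤ M0 * (2 * u) := by
            have : M * u ≤ M0 / 2 * u := mul_le_mul_of_nonneg_right hMh.le hun
            nlinarith
          exact le_of_mul_le_mul_left h6 hM0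
        have h7 := neg_log_div_le hp hp0
        have h8 : (u0 + e - (u + e)) / (u + e) ≤ 1 := by
          rw [div_le_one hp]; linarith
        have h4 := Dt_le_low he hun h1 hM.le hM0.le (M := M) (M0 := M0)
        have h9 : M0 * u0 * (-Real.log ((u + e) / (u0 + e))) ≤ M0 * u0 * 1 :=
          mul_le_mul_of_nonneg_left (h7.trans h8) (by positivity)
        have h10 : M * u0 ≤ M0 * u0 := by nlinarith
        have h11 : M0 * u0 ≤ 2 * a * (2 * u) := by
          have : M0 * u0 ≤ 2 * a * u0 := by nlinarith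
          nlinarith
        nlinarith

/-- **the pointwise gap** -/
theorem gap_le (h : Cen Ah a R M0 A M) (he : 0 < e) :
    (G1 e (A / M) - G1 e ((Ah + a * R) / M0)) * (A - (Ah + a * R)) +
        (qf e ((Ah + a * R) / M0) - qf e (A / M)) * (M - M0) ≤
      960 * a * (A / M + R + R * max 0 (-Real.log ((A / M + e) / ((Ah + a * R) / M0 + e)))) := by
  have hM := h.hM
  have hM0 := h.M0_pos
  have h1 := breg_le_two (e := e) (u := A / M) (u0 := (Ah + a * R) / M0) (M := M) (M0 := M0) he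
    (div_nonneg h.hA hM.le) (div_nonneg h.A0_nonneg hM0.le) hM.le hM0.le
  have k1 : M * (A / M) = A := by field_simp
  have k2 : M0 * ((Ah + a * R) / M0) = Ah + a * R := by field_simp
  rw [k1, k2] at h1
  have h2 := Dt_le h he
  linarith

theorem abs_G1_sub_le {u u0 : ℝ} (he : 0 < e) (hu : 0 ≤ u) (hu0 : 0 ≤ u0) :
    |G1 e u - G1 e u0| ≤ 2 * |Real.log ((u + e) / (u0 + e))| := by
  have hp : 0 < u + e := by linarith
  have hp0 : 0 < u0 + e := by linarith
  have h1 := log_div_le hp hp0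
  have h2 := neg_log_div_le hp hp0
  have hl : Real.log (u + e) - Real.log (u0 + e) = Real.log ((u + e) / (u0 + e)) :=
    (Real.log_div hp.ne' hp0.ne').symm
  set l := Real.log ((u + e) / (u0 + e)) with hldef
  have e1 : u / (u + e) - u0 / (u0 + e) = e * (u - u0) / ((u + e) * (u0 + e)) := by
    field_simp
    ring
  have e2 : G1 e u - G1 e u0 = l + e * (u - u0) / ((u + e) * (u0 + e)) := by
    unfold G1
    linarith
  rw [e2]
  have h3 : |e * (u - u0) / ((u + e) * (u0 + e))| ≤ |l| := by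
    rcases le_total u0 u with h | h
    · have h4 : 0 ≤ u - u0 := by linarith
      have h5 : 0 ≤ l := Real.log_nonneg (by rw [le_div_iff₀ hp0]; linarith)
      rw [abs_of_nonneg (by positivity), abs_of_nonneg h5]
      have h6 : (u - u0) / (u + e) ≤ l := by
        have h7 : (u0 + e - (u + e)) / (u + e) = -((u - u0) / (u + e)) := by ring
        rw [h7] at h2
        linarith
      refine le_trans ?_ h6
      rw [div_le_div_iff₀ (by positivity) hp]
      nlinarith [mul_nonneg h4 (mul_nonneg hp.le hu0)]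
    · have h4 : 0 ≤ u0 - u := by linarith
      have h5 : l ≤ 0 := Real.log_nonpos (by positivity) (by rw [div_le_one hp0]; linarith)
      rw [show e * (u - u0) / ((u + e) * (u0 + e)) = -(e * (u0 - u) / ((u + e) * (u0 + e))) by
        ring, abs_neg, abs_of_nonneg (by positivity), abs_of_nonpos h5]
      have h6 : (u0 - u) / (u0 + e) ≤ -l := by
        have h7 : (u + e - (u0 + e)) / (u0 + e) = -((u0 - u) / (u0 + e)) := by ring
        rw [h7] at h1
        linarith
      refine le_trans ?_ h6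
      rw [div_le_div_iff₀ (by positivity) hp0]
      nlinarith [mul_nonneg h4 (mul_nonneg hp0.le hu)]
  calc |l + e * (u - u0) / ((u + e) * (u0 + e))| ≤ |l| + |e * (u - u0) / ((u + e) * (u0 + e))| :=
        abs_add_le _ _
    _ ≤ 2 * |l| := by linarith

/-- comparable masses -/
theorem cmp_mult {u u0 : ℝ} (h : Cen Ah a R M0 A M) (he : 0 < e) (k1 : M * u = A)
    (k2 : M0 * u0 = Ah + a * R) (hun : 0 ≤ u) (hu0p : 0 < u0) (hMq : M0 / 4 ≤ M)
    (h4 : u0 ≤ 16 * u) {S : ℝ} (hS : 0 ≤ S) (hS2 : S ^ 2 ≤ Ah * (a * R)) :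
    |Real.log ((u + e) / (u0 + e))| * S ≤ 160 * (a * R) + 32 * (a * (u0 + R)) := by
  have hM := h.hM
  have hM0 := h.M0_pos
  have ha := h.ha
  have hR := h.hR
  have hb := h.b_nonneg
  have hA0 := h.A0_nonneg
  have hp : 0 < u + e := by linarith
  have hp0 : 0 < u0 + e := by linarith
  have hl1 := log_div_le hp hp0
  have hl2 := neg_log_div_le hp hp0
  set l := Real.log ((u + e) / (u0 + e)) with hldef
  have hx0 : 0 ≤ |u - u0| := abs_nonneg _
  have h5 : |l| ≤ 16 * |u - u0| / u0 := by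
    rw [abs_le]
    constructor
    · have h6 : (u0 + e - (u + e)) / (u + e) ≤ 16 * |u - u0| / u0 := by
        rw [div_le_div_iff₀ hp hu0p]
        have h7 : u0 - u ≤ |u - u0| := by rw [abs_sub_comm]; exact le_abs_self _
        have h9 : (u0 - u) * u0 ≤ |u - u0| * u0 := mul_le_mul_of_nonneg_right h7 hu0p.le
        have h10 : |u - u0| * u0 ≤ |u - u0| * (16 * u) := mul_le_mul_of_nonneg_left h4 hx0
        have h11 : 0 ≤ |u - u0| * e := mul_nonneg hx0 he.le
        linarith
      linarith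
    · refine hl1.trans ?_
      rw [div_le_div_iff₀ hp0 hu0p]
      have h7 : u - u0 ≤ |u - u0| := le_abs_self _
      have h9 : (u - u0) * u0 ≤ |u - u0| * u0 := mul_le_mul_of_nonneg_right h7 hu0p.le
      have h11 : 0 ≤ |u - u0| * e := mul_nonneg hx0 he.le
      have h12 : 0 ≤ |u - u0| * u0 := mul_nonneg hx0 hu0p.le
      linarith
  have h6 : M0 * |u - u0| ≤ 4 * (|A - (Ah + a * R)| + u0 * a) := by
    have h7 : M * |u - u0| ≤ |A - (Ah + a * R)| + u0 * a := by
      have e1 : M * (u - u0) = (A - (Ah + a * R)) - u0 * (M - M0) := by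
        rw [← k1, ← k2]; ring
      calc M * |u - u0| = |M * (u - u0)| := by rw [abs_mul, abs_of_pos hM]
        _ = |(A - (Ah + a * R)) - u0 * (M - M0)| := by rw [e1]
        _ ≤ |A - (Ah + a * R)| + |u0 * (M - M0)| := abs_sub _ _
        _ ≤ |A - (Ah + a * R)| + u0 * a := by
            rw [abs_mul, abs_of_nonneg hu0p.le]
            have := mul_le_mul_of_nonneg_left h.hM2 hu0p.le
            linarith
    have := mul_le_mul_of_nonneg_right hMq hx0
    linarith
  have h8 : |A - (Ah + a * R)| * S ≤ 5 / 2 * ((Ah + a * R) * (a * R)) := by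
    have h9 : |A - (Ah + a * R)| ^ 2 ≤ 4 * Ah * (a * R) := by
      rw [sq_abs]; exact h.hA2
    have h10 := sq_nonneg (|A - (Ah + a * R)| - S)
    have h11 := mul_nonneg hb hb
    have e1 : (|A - (Ah + a * R)| - S) ^ 2 =
        |A - (Ah + a * R)| ^ 2 + S ^ 2 - 2 * (|A - (Ah + a * R)| * S) := by ring
    have e2 : (Ah + a * R) * (a * R) = Ah * (a * R) + a * R * (a * R) := by ring
    rw [e1] at h10
    rw [e2]
    linarith
  have h10 : S ≤ M0 * ((u0 + R) / 2) := by
    refine (abs_le_of_sq_le_sq' ?_ (by positivity)).2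
    have h11 : Ah * (a * R) ≤ (M0 * u0) * (M0 * R) := by
      rw [k2]
      have h12 : Ah ≤ Ah + a * R := by linarith
      have h13 : a * R ≤ M0 * R := mul_le_mul_of_nonneg_right h.haM hR
      exact mul_le_mul h12 h13 hb hA0
    have h14 : (M0 * u0) * (M0 * R) ≤ (M0 * ((u0 + R) / 2)) ^ 2 := by
      have e1 : (M0 * ((u0 + R) / 2)) ^ 2 = (M0 * u0) * (M0 * R) + (M0 * ((u0 - R) / 2)) ^ 2 := by
        ring
      rw [e1]
      have := sq_nonneg (M0 * ((u0 - R) / 2))
      linarith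
    exact hS2.trans (h11.trans h14)
  have h14 : M0 * u0 * (|l| * S) ≤ M0 * u0 * (160 * (a * R) + 32 * (a * (u0 + R))) := by
    have h15 : |l| * u0 ≤ 16 * |u - u0| := by
      rw [le_div_iff₀ hu0p] at h5
      exact h5
    have h16 : M0 * u0 * (|l| * S) ≤ 16 * (M0 * |u - u0|) * S := by
      have := mul_le_mul_of_nonneg_right h15 (mul_nonneg hM0.le hS)
      linarith [this, (by ring : M0 * u0 * (|l| * S) = |l| * u0 * (M0 * S)),
        (by ring : 16 * (M0 * |u - u0|) * S = 16 * |u - u0| * (M0 * S))]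
    have h17 : 16 * (M0 * |u - u0|) * S ≤ 64 * (|A - (Ah + a * R)| + u0 * a) * S := by
      refine mul_le_mul_of_nonneg_right ?_ hS
      linarith
    have h18 : 64 * (|A - (Ah + a * R)| + u0 * a) * S =
        64 * (|A - (Ah + a * R)| * S) + 64 * (u0 * a) * S := by ring
    have h19 : 64 * (u0 * a) * S ≤ 64 * (u0 * a) * (M0 * ((u0 + R) / 2)) :=
      mul_le_mul_of_nonneg_left h10 (by positivity)
    have h20 : 64 * (u0 * a) * (M0 * ((u0 + R) / 2)) = M0 * u0 * (32 * (a * (u0 + R))) := by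
      ring
    have h21 : 64 * (5 / 2 * ((Ah + a * R) * (a * R))) = M0 * u0 * (160 * (a * R)) := by
      rw [← k2]; ring
    have h22 := mul_le_mul_of_nonneg_left h8 (by norm_num : (0 : ℝ) ≤ 64)
    rw [h21] at h22
    rw [h20] at h19
    rw [mul_add]
    linarith
  exact le_of_mul_le_mul_left h14 (by positivity)

/-- **replacing the multiplier at the centre by the multiplier at the point** -/
theorem log_mult_le (h : Cen Ah a R M0 A M) (he : 0 < e) {S : ℝ} (hS : 0 ≤ S)
    (hS2 : S ^ 2 ≤ Ah * (a * R)) :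
    |Real.log ((A / M + e) / ((Ah + a * R) / M0 + e))| * S ≤
      320 * (a * (A / M)) +
        320 * (1 + |Real.log ((A / M + e) / ((Ah + a * R) / M0 + e))|) * (a * R) := by
  have hM := h.hM
  have hM0 := h.M0_pos
  have ha := h.ha
  have hR := h.hR
  have hb := h.b_nonneg
  have hA0 := h.A0_nonneg
  have hM2 := h.M_le
  obtain ⟨u, hu⟩ : ∃ u, u = A / M := ⟨_, rfl⟩
  obtain ⟨u0, hu0⟩ : ∃ u0, u0 = (Ah + a * R) / M0 := ⟨_, rfl⟩
  have k1 : M * u = A := by rw [hu]; field_simp
  have k2 : M0 * u0 = Ah + a * R := by rw [hu0]; field_simp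
  have hun : 0 ≤ u := by rw [hu]; exact div_nonneg h.hA hM.le
  have hun0 : 0 ≤ u0 := by rw [hu0]; exact div_nonneg hA0 hM0.le
  have h3 := h.u0_le
  rw [← hu, ← hu0] at h3 ⊢
  have hp : 0 < u + e := by linarith
  have hp0 : 0 < u0 + e := by linarith
  have hl1 := log_div_le hp hp0
  have hl2 := neg_log_div_le hp hp0
  set l := Real.log ((u + e) / (u0 + e)) with hldef
  have hau : 0 ≤ a * u := mul_nonneg ha hun
  have hla : 0 ≤ |l| := abs_nonneg l
  have hlb : 0 ≤ |l| * (a * R) := mul_nonneg hla hb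
  by_cases hb8 : Ah + a * R ≤ 8 * (a * R)
  · -- S ≤ 3 b
    have h4 : S ≤ 3 * (a * R) := by
      refine abs_le_of_sq_le_sq' ?_ (by positivity) |>.2
      nlinarith
    have h5 : |l| * S ≤ |l| * (3 * (a * R)) := mul_le_mul_of_nonneg_left h4 hla
    nlinarith
  push Not at hb8
  have hA0p : 0 < Ah + a * R := by linarith
  have hu0p : 0 < u0 := by
    rw [hu0]; exact div_pos hA0p hM0
  -- A ≥ A0 / 4
  have hAq : Ah + a * R ≤ 4 * A := by
    by_contra hc
    push Not at hc
    have := h.A0_le_b hc.le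
    linarith
  by_cases hMq : M0 / 4 ≤ M
  · -- comparable masses
    have h4 : u0 ≤ 16 * u := by
      have h5 : M0 * u0 ≤ M0 * (16 * u) := by
        rw [k2]
        have : M * u ≤ 2 * M0 * u := mul_le_mul_of_nonneg_right hM2 hun
        linarith
      exact le_of_mul_le_mul_left h5 hM0
    have h5 := cmp_mult (u := u) (u0 := u0) h he k1 k2 hun hu0p hMq h4 hS hS2
    rw [← hldef] at h5
    have h6 : a * (u0 + R) ≤ a * (4 * u + 4 * R) := mul_le_mul_of_nonneg_left (by linarith) ha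
    have e1 : a * (4 * u + 4 * R) = 4 * (a * u) + 4 * (a * R) := by ring
    rw [e1] at h6
    have e2 : 320 * (1 + |l|) * (a * R) = 320 * (a * R) + 320 * (|l| * (a * R)) := by ring
    rw [e2]
    linarith
  · push Not at hMq
    have haM : M0 ≤ 2 * a := by
      have := (abs_le.1 h.hM2).1
      linarith
    have h4 : u0 ≤ u := by
      have h5 : M0 * u0 ≤ M0 * u := by
        rw [k2]
        nlinarith
      exact le_of_mul_le_mul_left h5 hM0
    have hl0 : 0 ≤ l := Real.log_nonneg (by rw [le_div_iff₀ hp0]; linarith)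
    rw [abs_of_nonneg hl0] at hlb ⊢
    have h5 : u0 * l ≤ u := by
      have h6 := mul_le_mul_of_nonneg_left hl1 hun0
      have h7 : u0 * ((u + e - (u0 + e)) / (u0 + e)) ≤ u := by
        rw [show u0 * ((u + e - (u0 + e)) / (u0 + e)) = (u0 * (u - u0)) / (u0 + e) by ring,
          div_le_iff₀ hp0]
        nlinarith [mul_nonneg hun he.le, mul_nonneg hun hun0, mul_nonneg hun0 hun0]
      linarith
    have h8 : l * S ≤ a * u + a * R * l := by
      refine abs_le_of_sq_le_sq' ?_ (by positivity) |>.2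
      have h9 : Ah * (a * R) ≤ 2 * a * u0 * (a * R) := by
        refine mul_le_mul_of_nonneg_right ?_ hb
        have : Ah ≤ M0 * u0 := by rw [k2]; linarith
        nlinarith
      have h10 : (l * S) ^ 2 ≤ l ^ 2 * (2 * a * u0 * (a * R)) := by
        rw [mul_pow]
        exact mul_le_mul_of_nonneg_left (hS2.trans h9) (sq_nonneg l)
      have h11 : l ^ 2 * (2 * a * u0 * (a * R)) = 2 * (a * (u0 * l)) * (a * R * l) := by ring
      have h12 : 2 * (a * (u0 * l)) * (a * R * l) ≤ 2 * (a * u) * (a * R * l) := by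
        refine mul_le_mul_of_nonneg_right ?_ (by positivity)
        have := mul_le_mul_of_nonneg_left h5 ha
        linarith
      have e2 : (a * u + a * R * l) ^ 2 =
          2 * (a * u) * (a * R * l) + ((a * u) ^ 2 + (a * R * l) ^ 2) := by ring
      rw [e2]
      rw [h11] at h10
      linarith [sq_nonneg (a * u), sq_nonneg (a * R * l)]
    have e2 : 320 * (1 + l) * (a * R) = 320 * (a * R) + 320 * (l * (a * R)) := by ring
    have e3 : a * R * l = l * (a * R) := by ring
    rw [e2]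
    rw [e3] at h8
    linarith

theorem mult_le (h : Cen Ah a R M0 A M) (he : 0 < e) {S : ℝ} (hS : 0 ≤ S)
    (hS2 : S ^ 2 ≤ Ah * (a * R)) :
    |G1 e (A / M) - G1 e ((Ah + a * R) / M0)| * S ≤
      640 * (a * (A / M)) +
        640 * (1 + |Real.log ((A / M + e) / ((Ah + a * R) / M0 + e))|) * (a * R) := by
  have h1 := abs_G1_sub_le he (div_nonneg h.hA h.hM.le) (div_nonneg h.A0_nonneg h.M0_pos.le)
    (u := A / M) (u0 := (Ah + a * R) / M0)
  have h2 := log_mult_le h he hS hS2
  have h3 := mul_le_mul_of_nonneg_right h1 hS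
  linarith

end P365T2.C37
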