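import Vale.Agent.P365.T2.C0844
import Vale.Agent.P365.T2.Center37

/-!
# P365-T2: matrix side of the centre route (helper844)

For weights `c ≥ 0` on the sites, a row `x` and a moved site `z`:
`A = Σ c_b T_xb`, circle mean `Ah + az Rz`, deviation `2 Re ((t - i q) kap)`.
-/

set_option linter.all false

namespace P365T2.H844

open Finset P365L P365O P365T1 Complex
open Vale.Agent.P365.T2.H789 Vale.Agent.P365.T2.H417
open scoped RealInnerProductSpace ComplexConjugate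
open P365T2.H37 (wk HH HD rho)

section Site

variable {ι : Type*} [Fintype ι] [DecidableEq ι] (A : Matrix ι ι ℝ) (W : ι → ℂ)

/-- `Σ c_b e_x e_b |Gc_xb|²` -/
noncomputable def Ahc (c : ι → ℝ) (z x : ι) : ℝ :=
  ∑ b, c b * ((-(W x).im) * (-(W b).im) * ‖Gc A W z x b‖ ^ 2)

/-- `e_x |g_x|² q` -/
noncomputable def azc (z x : ι) : ℝ := (-(W x).im) * ‖gw A W z x‖ ^ 2 * qz A W z

/-- `q Σ c_b e_b |g_b|²` -/
noncomputable def Rzc (c : ι → ℝ) (z : ι) : ℝ :=
  qz A W z * ∑ b, c b * ((-(W b).im) * ‖gw A W z b‖ ^ 2)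

/-- coefficient of the deviation -/
noncomputable def kap (c : ι → ℝ) (z x : ι) : ℂ :=
  ((-(W x).im : ℝ) : ℂ) * gw A W z x *
    ∑ b, ((c b * (-(W b).im) : ℝ) : ℂ) * (conj (Gc A W z x b) * gw A W z b)

variable {A W}

theorem neg_im_pos (hW : ∀ x, (W x).im < 0) (x : ι) : 0 < -(W x).im := neg_pos.2 (hW x)

theorem Ahc_nonneg (hW : ∀ x, (W x).im < 0) {c : ι → ℝ} (hc : ∀ b, 0 ≤ c b) (z x : ι) :
    0 ≤ Ahc A W c z x :=
  sum_nonneg fun b _ => mul_nonneg (hc b)
    (mul_nonneg (mul_nonneg (neg_im_pos hW x).le (neg_im_pos hW b).le) (sq_nonneg _))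

theorem azc_nonneg (hA : A.IsSymm) (hW : ∀ x, (W x).im < 0) (z x : ι) : 0 ≤ azc A W z x :=
  mul_nonneg (mul_nonneg (neg_im_pos hW x).le (sq_nonneg _)) (qz_pos hA hW z).le

theorem Rzc_nonneg (hA : A.IsSymm) (hW : ∀ x, (W x).im < 0) {c : ι → ℝ} (hc : ∀ b, 0 ≤ c b)
    (z : ι) : 0 ≤ Rzc A W c z :=
  mul_nonneg (qz_pos hA hW z).le (sum_nonneg fun b _ => mul_nonneg (hc b)
    (mul_nonneg (neg_im_pos hW b).le (sq_nonneg _)))

/-- circle mean -/
theorem sum_Tc (c : ι → ℝ) (z x : ι) :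
    ∑ b, c b * Tc A W z x b = Ahc A W c z x + azc A W z x * Rzc A W c z := by
  unfold Tc Ahc azc Rzc
  have e : (-(W x).im) * ‖gw A W z x‖ ^ 2 * qz A W z *
      (qz A W z * ∑ b, c b * ((-(W b).im) * ‖gw A W z b‖ ^ 2)) =
      ∑ b, c b * ((-(W x).im) * (-(W b).im) *
        ((‖gw A W z x‖ ^ 2 * ‖gw A W z b‖ ^ 2) * qz A W z ^ 2)) := by
    rw [← mul_assoc, mul_sum]
    exact sum_congr rfl fun b _ => by ring
  rw [e, ← sum_add_distrib]
  exact sum_congr rfl fun b _ => by ring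

/-- the actual entry from the centre -/
theorem Gr_eq_Gc (hA : A.IsSymm) (hW : ∀ x, (W x).im < 0) (z x b : ι) :
    Gr A W x b = Gc A W z x b +
      (Gr A W z z - (qz A W z : ℂ) * I) * (gw A W z x * gw A W z b) := by
  rw [Gr_eq_Gi hA hW z x b, Gc]
  ring

theorem norm_Gr_sq (hA : A.IsSymm) (hW : ∀ x, (W x).im < 0) (z : ι) :
    ‖Gr A W z z‖ ^ 2 = 2 * mm A W z * qz A W z := by
  rw [← qz_rel hA hW, ← Complex.normSq_eq_norm_sq, Complex.normSq_apply]
  unfold mm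
  ring

/-- the point of the circle is at distance `q` of the centre -/
theorem norm_dev (hA : A.IsSymm) (hW : ∀ x, (W x).im < 0) (z : ι) :
    ‖Gr A W z z - (qz A W z : ℂ) * I‖ ^ 2 = qz A W z ^ 2 := by
  have h := qz_rel hA hW z
  rw [← Complex.normSq_eq_norm_sq, Complex.normSq_apply]
  simp only [Complex.sub_re, Complex.sub_im, Complex.mul_re, Complex.mul_im, Complex.ofReal_re,
    Complex.ofReal_im, Complex.I_re, Complex.I_im]
  unfold mm at h
  nlinarith

/-- `2 m (t - i q) = - i t²` -/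
theorem two_mm_dev (hA : A.IsSymm) (hW : ∀ x, (W x).im < 0) (z : ι) :
    (2 * mm A W z : ℂ) * (Gr A W z z - (qz A W z : ℂ) * I) =
      -I * (Gr A W z z * Gr A W z z) := by
  have h := qz_rel hA hW z
  have ht : Gr A W z z = ((Gr A W z z).re : ℂ) + (mm A W z : ℂ) * I :=
    (Complex.re_add_im _).symm
  have h' : ((Gr A W z z).re : ℂ) ^ 2 + (mm A W z : ℂ) ^ 2 = 2 * (mm A W z : ℂ) * (qz A W z : ℂ) := by
    exact_mod_cast h
  set r : ℂ := ((Gr A W z z).re : ℂ) with hr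
  set y : ℂ := (mm A W z : ℂ) with hy
  rw [ht]
  have hI : I * I = -1 := Complex.I_mul_I
  linear_combination I * h' + (2 * r * y + I * y ^ 2) * hI

/-- deviation from the circle mean -/
theorem sum_T_sub (hA : A.IsSymm) (hW : ∀ x, (W x).im < 0) (c : ι → ℝ) (z x : ι) :
    (∑ b, c b * TT A W x b) - ∑ b, c b * Tc A W z x b =
      2 * ((Gr A W z z - (qz A W z : ℂ) * I) * kap A W c z x).re := by
  have hd := norm_dev hA hW z
  set d := Gr A W z z - (qz A W z : ℂ) * I with hd'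
  rw [← sum_sub_distrib]
  have e1 : (d * kap A W c z x).re = ∑ b, c b * ((-(W x).im) * (-(W b).im)) *
      (conj (Gc A W z x b) * (d * (gw A W z x * gw A W z b))).re := by
    unfold kap
    rw [mul_sum, mul_sum, Complex.re_sum]
    refine sum_congr rfl fun b _ => ?_
    rw [← Complex.re_ofReal_mul]
    congr 1
    push_cast
    ring
  rw [e1, mul_sum]
  refine sum_congr rfl fun b _ => ?_
  have h1 : TT A W x b = (-(W x).im) * (-(W b).im) *
      ‖Gc A W z x b + d * (gw A W z x * gw A W z b)‖ ^ 2 := by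
    rw [hd', ← Gr_eq_Gc hA hW]
    rfl
  have h2 : ‖Gc A W z x b + d * (gw A W z x * gw A W z b)‖ ^ 2 =
      ‖Gc A W z x b‖ ^ 2 + 2 * (conj (Gc A W z x b) * (d * (gw A W z x * gw A W z b))).re +
        qz A W z ^ 2 * (‖gw A W z x‖ ^ 2 * ‖gw A W z b‖ ^ 2) := by
    have h3 : ∀ p q : ℂ, ‖p + q‖ ^ 2 = ‖p‖ ^ 2 + 2 * (conj p * q).re + ‖q‖ ^ 2 := by
      intro p q
      rw [← Complex.normSq_eq_norm_sq, ← Complex.normSq_eq_norm_sq, ← Complex.normSq_eq_norm_sq,
        Complex.normSq_apply, Complex.normSq_apply, Complex.normSq_apply]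
      simp only [Complex.add_re, Complex.add_im, Complex.mul_re, Complex.conj_re,
        Complex.conj_im]
      ring
    rw [h3, norm_mul, norm_mul, mul_pow, mul_pow, hd]
  rw [h1, h2]
  unfold Tc
  ring

/-- Cauchy-Schwarz for the coefficient -/
theorem norm_kap_le (hA : A.IsSymm) (hW : ∀ x, (W x).im < 0) {c : ι → ℝ} (hc : ∀ b, 0 ≤ c b)
    (z x : ι) :
    (qz A W z * ‖kap A W c z x‖) ^ 2 ≤ Ahc A W c z x * (azc A W z x * Rzc A W c z) := by
  have hex := (neg_im_pos hW x).le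
  have hq := (qz_pos hA hW z).le
  have hce : ∀ b, 0 ≤ c b * (-(W b).im) := fun b => mul_nonneg (hc b) (neg_im_pos hW b).le
  have h1 : ‖∑ b, ((c b * (-(W b).im) : ℝ) : ℂ) * (conj (Gc A W z x b) * gw A W z b)‖ ≤
      ∑ b, (Real.sqrt (c b * (-(W b).im)) * ‖Gc A W z x b‖) *
        (Real.sqrt (c b * (-(W b).im)) * ‖gw A W z b‖) := by
    refine (norm_sum_le _ _).trans (sum_le_sum fun b _ => ?_)
    rw [norm_mul, norm_mul, Complex.norm_real, Real.norm_eq_abs, abs_of_nonneg (hce b),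
      RCLike.norm_conj]
    have := Real.mul_self_sqrt (hce b)
    calc c b * (-(W b).im) * (‖Gc A W z x b‖ * ‖gw A W z b‖)
        = (Real.sqrt (c b * (-(W b).im)) * Real.sqrt (c b * (-(W b).im))) *
            (‖Gc A W z x b‖ * ‖gw A W z b‖) := by rw [this]
      _ = _ := by ring
      _ ≤ _ := le_rfl
  have h2 := sum_mul_sq_le_sq_mul_sq univ
    (fun b => Real.sqrt (c b * (-(W b).im)) * ‖Gc A W z x b‖)
    (fun b => Real.sqrt (c b * (-(W b).im)) * ‖gw A W z b‖)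
  have e1 : ∑ b, (Real.sqrt (c b * (-(W b).im)) * ‖Gc A W z x b‖) ^ 2 =
      ∑ b, c b * (-(W b).im) * ‖Gc A W z x b‖ ^ 2 :=
    sum_congr rfl fun b _ => by rw [mul_pow, Real.sq_sqrt (hce b)]
  have e2 : ∑ b, (Real.sqrt (c b * (-(W b).im)) * ‖gw A W z b‖) ^ 2 =
      ∑ b, c b * (-(W b).im) * ‖gw A W z b‖ ^ 2 :=
    sum_congr rfl fun b _ => by rw [mul_pow, Real.sq_sqrt (hce b)]
  rw [e1, e2] at h2
  have h3 : ‖∑ b, ((c b * (-(W b).im) : ℝ) : ℂ) * (conj (Gc A W z x b) * gw A W z b)‖ ^ 2 ≤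
      (∑ b, c b * (-(W b).im) * ‖Gc A W z x b‖ ^ 2) *
        ∑ b, c b * (-(W b).im) * ‖gw A W z b‖ ^ 2 :=
    (pow_le_pow_left₀ (norm_nonneg _) h1 2).trans h2
  have e3 : Ahc A W c z x = (-(W x).im) * ∑ b, c b * (-(W b).im) * ‖Gc A W z x b‖ ^ 2 := by
    unfold Ahc
    rw [mul_sum]
    exact sum_congr rfl fun b _ => by ring
  have e4 : Rzc A W c z = qz A W z * ∑ b, c b * (-(W b).im) * ‖gw A W z b‖ ^ 2 := by
    unfold Rzc
    congr 1
    exact sum_congr rfl fun b _ => by ring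
  unfold kap azc
  rw [e3, e4, norm_mul, norm_mul, Complex.norm_real, Real.norm_eq_abs, abs_of_nonneg hex]
  have h4 : 0 ≤ qz A W z ^ 2 * ((-(W x).im) ^ 2 * ‖gw A W z x‖ ^ 2) := by positivity
  have h5 := mul_le_mul_of_nonneg_left h3 h4
  nlinarith

/-- **the deviation is small** -/
theorem dev_sq_le (hA : A.IsSymm) (hW : ∀ x, (W x).im < 0) {c : ι → ℝ} (hc : ∀ b, 0 ≤ c b)
    (z x : ι) :
    ((∑ b, c b * TT A W x b) - ∑ b, c b * Tc A W z x b) ^ 2 ≤
      4 * Ahc A W c z x * (azc A W z x * Rzc A W c z) := by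
  have h1 := norm_kap_le hA hW hc z x
  rw [sum_T_sub hA hW]
  have h2 : |((Gr A W z z - (qz A W z : ℂ) * I) * kap A W c z x).re| ≤
      qz A W z * ‖kap A W c z x‖ := by
    refine (Complex.abs_re_le_norm _).trans ?_
    rw [norm_mul]
    refine mul_le_mul_of_nonneg_right ?_ (norm_nonneg _)
    have h3 := norm_dev hA hW z
    exact le_of_eq ((sq_eq_sq₀ (norm_nonneg _) (qz_pos hA hW z).le).1 h3)
  rw [mul_pow, ← sq_abs ((Gr A W z z - (qz A W z : ℂ) * I) * kap A W c z x).re]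
  have h4 := pow_le_pow_left₀ (abs_nonneg _) h2 2
  nlinarith

/-! ### the row sums -/

theorem kap_one (hA : A.IsSymm) (hW : ∀ x, (W x).im < 0) (z x : ι) :
    kap A W (fun _ => 1) z x = -(I / 2) * (((-(W x).im : ℝ) : ℂ) * gw A W z x ^ 2) := by
  have h1 := Gi_gw hA hW z x
  have hS : qz A W z * Sf A W z = 1 / 2 := by
    unfold qz
    have := (Sf_pos hA hW z).ne'
    field_simp
  have h2 : ∑ b, ((1 * (-(W b).im) : ℝ) : ℂ) * (conj (Gc A W z x b) * gw A W z b) =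
      (((gw A W z x).im : ℝ) : ℂ) - (qz A W z : ℂ) * I * conj (gw A W z x) * (Sf A W z : ℂ) := by
    rw [← h1, Sf]
    push_cast
    rw [mul_sum, ← sum_sub_distrib]
    refine sum_congr rfl fun b _ => ?_
    have h3 : (((‖gw A W z b‖ : ℝ)) : ℂ) ^ 2 = gw A W z b * conj (gw A W z b) := by
      rw [Complex.mul_conj, Complex.normSq_eq_norm_sq]
      push_cast
      rfl
    rw [h3, Gc]
    simp only [map_add, map_mul, Complex.conj_ofReal, Complex.conj_I]
    ring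
  unfold kap
  rw [h2]
  have h4 : (qz A W z : ℂ) * (Sf A W z : ℂ) = 1 / 2 := by
    rw [← Complex.ofReal_mul, hS]
    norm_num
  have h5 : (qz A W z : ℂ) * I * conj (gw A W z x) * (Sf A W z : ℂ) =
      I / 2 * conj (gw A W z x) := by
    linear_combination (I * conj (gw A W z x)) * h4
  rw [h5, Complex.im_eq_sub_conj]
  have hI : I ≠ 0 := Complex.I_ne_zero
  have hI2 : I ^ 2 = -1 := Complex.I_sq
  field_simp
  linear_combination (((-(W x).im : ℝ) : ℂ) * gw A W z x ^ 2 - ((-(W x).im : ℝ) : ℂ) * gw A W z x * conj (gw A W z x)) * hI2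

theorem Rzc_one (hA : A.IsSymm) (hW : ∀ x, (W x).im < 0) (z : ι) :
    Rzc A W (fun _ => 1) z = 1 / 2 := by
  unfold Rzc
  have e : ∑ b, (1 : ℝ) * ((-(W b).im) * ‖gw A W z b‖ ^ 2) = Sf A W z := by
    unfold Sf
    exact sum_congr rfl fun b _ => by ring
  rw [e]
  unfold qz
  have := (Sf_pos hA hW z).ne'
  field_simp

theorem pr_sub_Mc (hA : A.IsSymm) (hW : ∀ x, (W x).im < 0) (z x : ι) :
    pr (TT A W) x - Mc A W z x =
      2 * ((Gr A W z z - (qz A W z : ℂ) * I) * kap A W (fun _ => 1) z x).re := by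
  have h := sum_T_sub hA hW (fun _ => (1 : ℝ)) z x
  simp only [one_mul] at h
  exact h

theorem abs_pr_sub_le (hA : A.IsSymm) (hW : ∀ x, (W x).im < 0) (z x : ι) :
    |pr (TT A W) x - Mc A W z x| ≤ azc A W z x := by
  rw [pr_sub_Mc hA hW, abs_mul, abs_of_nonneg (by norm_num : (0 : ℝ) ≤ 2)]
  have hq := qz_pos hA hW z
  have h2 : |((Gr A W z z - (qz A W z : ℂ) * I) * kap A W (fun _ => 1) z x).re| ≤
      qz A W z * ‖kap A W (fun _ => 1) z x‖ := by
    refine (Complex.abs_re_le_norm _).trans ?_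
    rw [norm_mul]
    refine mul_le_mul_of_nonneg_right ?_ (norm_nonneg _)
    exact le_of_eq ((sq_eq_sq₀ (norm_nonneg _) hq.le).1 (norm_dev hA hW z))
  have h3 : ‖kap A W (fun _ => 1) z x‖ = 1 / 2 * ((-(W x).im) * ‖gw A W z x‖ ^ 2) := by
    rw [kap_one hA hW, norm_mul, norm_mul, norm_neg, norm_div, Complex.norm_I,
      Complex.norm_real, Real.norm_eq_abs, abs_of_pos (neg_im_pos hW x), norm_pow]
    norm_num
  rw [h3] at h2
  unfold azc
  nlinarith

theorem azc_le_Mc (hA : A.IsSymm) (hW : ∀ x, (W x).im < 0) (z x : ι) :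
    azc A W z x ≤ Mc A W z x := by
  have h0 := azc_nonneg hA hW z x
  have hM : Mc A W z x = Ahc A W (fun _ => 1) z x + azc A W z x * (1 / 2) := by
    have h := sum_Tc (A := A) (W := W) (fun _ => (1 : ℝ)) z x
    simp only [one_mul] at h
    rw [Rzc_one hA hW] at h
    exact h
  have h1 := norm_kap_le hA hW (c := fun _ => (1 : ℝ)) (fun _ => zero_le_one) z x
  have h3 : ‖kap A W (fun _ => 1) z x‖ = 1 / 2 * ((-(W x).im) * ‖gw A W z x‖ ^ 2) := by
    rw [kap_one hA hW, norm_mul, norm_mul, norm_neg, norm_div, Complex.norm_I,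
      Complex.norm_real, Real.norm_eq_abs, abs_of_pos (neg_im_pos hW x), norm_pow]
    norm_num
  rw [h3, Rzc_one hA hW] at h1
  have e1 : qz A W z * (1 / 2 * ((-(W x).im) * ‖gw A W z x‖ ^ 2)) = azc A W z x / 2 := by
    unfold azc; ring
  rw [e1] at h1
  rw [hM]
  rcases h0.eq_or_lt with h | h
  · have := Ahc_nonneg hW (A := A) (c := fun _ => (1 : ℝ)) (fun _ => zero_le_one) z x
    linarith
  · have h5 : azc A W z x * (azc A W z x / 2) ≤ azc A W z x * Ahc A W (fun _ => 1) z x := by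
      nlinarith
    have := le_of_mul_le_mul_left h5 h
    linarith

theorem TT_z (hA : A.IsSymm) (hW : ∀ x, (W x).im < 0) (z x : ι) :
    TT A W x z = 2 * azc A W z x * ((-(W z).im) * mm A W z) := by
  unfold TT azc
  rw [KK, Gr_eq_gw hA hW, norm_mul, mul_pow, norm_Gr_sq hA hW]
  ring

theorem sum_P_z (hA : A.IsSymm) (hW : ∀ x, (W x).im < 0) (c : ι → ℝ) (z : ι) :
    ∑ b, TT A W z b / pr (TT A W) z * c b = 2 * Rzc A W c z := by
  unfold Rzc
  rw [pr_TT hA hW z, mul_sum, mul_sum]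
  refine sum_congr rfl fun b _ => ?_
  have hm := (mm_pos hA hW z).ne'
  have he := (neg_im_pos hW z).ne'
  have h1 : TT A W z b = (-(W z).im) * (-(W b).im) * (‖gw A W z b‖ ^ 2 * (2 * mm A W z * qz A W z)) := by
    unfold TT
    rw [KK, Gr_eq_gw' hA hW, norm_mul, mul_pow, norm_Gr_sq hA hW]
  rw [h1]
  have hw := (hW z).ne
  field_simp

end Site

end P365T2.H844
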