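import Vale.Agent.P365.T2.Coll863
import Vale.Agent.P365.T1.Defs

/-!
# P365 T2: the collective term of the law error of the one-body entropy (helper863)

`L_y = ∑_{x,u} lam_x e_x e_u w(x,u) conj(G_xu) G_xy G_yu` (multiplier of the actual configuration).
For every weight `0 ≤ kap_y ≤ k0`:
`∑_y kap_y e_y |L_y| ≤ T (En_w)^(1/2) (4 k0 ∑_y kap_y e_y Q_y)^(1/2)`,
and with `kap_y = om_y |v - s|²/(1+|s|²)` the last sum is `∑_y om_y e_y Yf_y`.
-/

set_option linter.all false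

namespace P365T2.Coll863

open Matrix Complex P365L P365T1
open scoped ComplexConjugate

variable {ι : Type*} [Fintype ι] [DecidableEq ι]
variable {A : Matrix ι ι ℝ} {W : ι → ℂ}

/-- `L_y = ∑_{x,u} lam_x e_x e_u w(x,u) conj(G_xu) G_xy G_yu` -/
noncomputable def Ly (A : Matrix ι ι ℝ) (W : ι → ℂ) (w : ι → ι → ℝ) (lam : ι → ℝ) (y : ι) : ℂ :=
  ∑ x, ∑ u, (lam x : ℂ) * ((ab W x * ab W u * w x u : ℝ) : ℂ) * conj (Gr A W x u) *
    (Gr A W x y * Gr A W y u)

theorem sum_Ly (w : ι → ι → ℝ) (lam : ι → ℝ) (k : ι → ℂ) :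
    ∑ x, ∑ u, (lam x : ℂ) * ((ab W x * ab W u * w x u : ℝ) : ℂ) * conj (Gr A W x u) *
      Qk A W k x u = ∑ y, (ab W y : ℂ) * k y * Ly A W w lam y := by
  unfold Qk Ly
  simp only [Finset.mul_sum]
  rw [Finset.sum_congr rfl fun x _ => Finset.sum_comm, Finset.sum_comm]
  refine Finset.sum_congr rfl fun y _ => Finset.sum_congr rfl fun x _ =>
    Finset.sum_congr rfl fun u _ => ?_
  ring

omit [Fintype ι] [DecidableEq ι] in
/-- a phase -/
theorem exists_phase (z : ℂ) : ∃ c : ℂ, ‖c‖ ≤ 1 ∧ c * z = (‖z‖ : ℂ) := by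
  by_cases h : z = 0
  · exact ⟨0, by simp, by simp [h]⟩
  · have h0 : ‖z‖ ≠ 0 := norm_ne_zero_iff.2 h
    refine ⟨conj z / (‖z‖ : ℂ), ?_, ?_⟩
    · rw [norm_div, RCLike.norm_conj, Complex.norm_real, norm_norm, div_self h0]
    · have h1 : (‖z‖ : ℂ) ≠ 0 := by exact_mod_cast h0
      rw [div_mul_eq_mul_div, div_eq_iff h1, mul_comm (conj z) z, Complex.mul_conj,
        Complex.normSq_eq_norm_sq]
      push_cast
      ring

/-- **the collective term, absolute values inside, any weights** -/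
theorem coll_abs {κ : Type*} (J : Finset κ) (hA : A.IsSymm) (hW : ∀ x, (W x).im < 0)
    {kap : ι → ℝ} {k0 : ℝ} (hk0 : ∀ y, 0 ≤ kap y) (hk : ∀ y, kap y ≤ k0) (c : κ → ℝ)
    (hc : ∀ j ∈ J, 0 ≤ c j) (F : κ → ι → ℝ) (w : ι → ι → ℝ)
    (hw : ∀ x u, |w x u| ≤ ∑ j ∈ J, c j * (F j x - F j u) ^ 2) {lam : ι → ℝ} {T : ℝ}
    (hT : 0 ≤ T) (hl : ∀ x, |lam x| ≤ T) :
    ∑ y, kap y * (ab W y * ‖Ly A W w lam y‖) ≤
      T * Real.sqrt (∑ x, ∑ u, ab W x * ab W u * |w x u| * KK A W x u) *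
        Real.sqrt (4 * k0 * ∑ j ∈ J, c j *
          ∑ y, kap y * (ab W y * ∑ x, ab W x * (F j x - F j y) ^ 2 * KK A W x y)) := by
  have he := ab_pos hW
  choose ph hph1 hph2 using fun y => exists_phase (Ly A W w lam y)
  set k : ι → ℂ := fun y => (kap y : ℂ) * ph y with hkd
  have hkn : ∀ y, ‖k y‖ ≤ kap y := by
    intro y
    rw [hkd, norm_mul, Complex.norm_real, Real.norm_eq_abs, abs_of_nonneg (hk0 y)]
    exact mul_le_of_le_one_right (hk0 y) (hph1 y)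
  have h1 := coll_error J hA hW k (k0 := k0) (fun y => (hkn y).trans (hk y)) c hc F w hw
    (lam := fun x => (lam x : ℂ)) hT (fun x => by
      rw [Complex.norm_real, Real.norm_eq_abs]; exact hl x)
  rw [sum_Ly] at h1
  have h2 : ∑ y, (ab W y : ℂ) * k y * Ly A W w lam y =
      ((∑ y, kap y * (ab W y * ‖Ly A W w lam y‖) : ℝ) : ℂ) := by
    push_cast
    refine Finset.sum_congr rfl fun y _ => ?_
    rw [← hph2 y, hkd]
    ring
  rw [h2, Complex.norm_real, Real.norm_eq_abs] at h1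
  refine (le_abs_self _).trans (h1.trans ?_)
  refine mul_le_mul_of_nonneg_left (Real.sqrt_le_sqrt ?_) (mul_nonneg hT (Real.sqrt_nonneg _))
  by_cases hne : Nonempty ι
  · obtain ⟨y0⟩ := hne
    have hk00 : 0 ≤ k0 := (hk0 y0).trans (hk y0)
    refine mul_le_mul_of_nonneg_left ?_ (by linarith)
    refine Finset.sum_le_sum fun j hj => mul_le_mul_of_nonneg_left ?_ (hc j hj)
    refine Finset.sum_le_sum fun y _ => mul_le_mul_of_nonneg_right (hkn y) ?_
    exact mul_nonneg (he y).le (Finset.sum_nonneg fun x _ =>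
      mul_nonneg (mul_nonneg (he x).le (sq_nonneg _)) (KK_nonneg _ _))
  · rw [not_nonempty_iff] at hne
    simp

/-- linearised form -/
theorem amgm {T X Z δ : ℝ} (hT : 0 ≤ T) (hX : 0 ≤ X) (hZ : 0 ≤ Z) (hδ : 0 < δ) :
    T * Real.sqrt X * Real.sqrt Z ≤ T / 2 * (δ * X + Z / δ) := by
  have h1 : Real.sqrt X * Real.sqrt Z ≤ (δ * X + Z / δ) / 2 := by
    have e1 : Real.sqrt X * Real.sqrt Z = Real.sqrt (δ * X) * Real.sqrt (Z / δ) := by
      rw [← Real.sqrt_mul hX, ← Real.sqrt_mul (by positivity)]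
      congr 1
      field_simp
    rw [e1]
    have e2 := sq_nonneg (Real.sqrt (δ * X) - Real.sqrt (Z / δ))
    have e3 := Real.sq_sqrt (show 0 ≤ δ * X by positivity)
    have e4 := Real.sq_sqrt (show 0 ≤ Z / δ by positivity)
    nlinarith
  calc T * Real.sqrt X * Real.sqrt Z = T * (Real.sqrt X * Real.sqrt Z) := by ring
    _ ≤ T * ((δ * X + Z / δ) / 2) := mul_le_mul_of_nonneg_left h1 hT
    _ = _ := by ring

/-- `(v - s)^2 / (1 + |s|^2)`, with `v - s = 1/G_yy` -/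
noncomputable def kp (A : Matrix ι ι ℝ) (W : ι → ℂ) (y : ι) : ℝ :=
  ‖W y - sg A W y‖ ^ 2 / (1 + ‖sg A W y‖ ^ 2)

theorem kp_nonneg (y : ι) : 0 ≤ kp A W y := by unfold kp; positivity

theorem kp_le {R : ℝ} {y : ι} (h : ‖W y‖ ^ 2 ≤ R) : kp A W y ≤ 2 * (R + 1) := by
  unfold kp
  rw [div_le_iff₀ (by positivity)]
  have h1 := norm_sub_le (W y) (sg A W y)
  have h2 := pow_le_pow_left₀ (norm_nonneg _) h1 2
  have h3 : 0 ≤ R := (sq_nonneg _).trans h
  nlinarith [sq_nonneg (‖W y‖ - ‖sg A W y‖), sq_nonneg ‖sg A W y‖,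
    mul_nonneg h3 (sq_nonneg ‖sg A W y‖)]

/-- `kp_y e_y Q_y = e_y Yf_y` -/
theorem kp_Yf (hA : A.IsSymm) (hW : ∀ x, (W x).im < 0) (f : ι → ℝ) (y : ι) :
    kp A W y * ∑ x, ab W x * (f x - f y) ^ 2 * KK A W x y = Yf A W f y := by
  have h0 : Gr A W y y ≠ 0 := Gr_self_ne_zero hA hW y
  have h1 : W y - sg A W y = (Gr A W y y)⁻¹ := by rw [sg]; ring
  have h2 : ∑ x, ab W x * (f x - f y) ^ 2 * KK A W x y = Nf A W f y * ‖Gr A W y y‖ ^ 2 := by
    rw [Nf, Finset.sum_mul]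
    refine Finset.sum_congr rfl fun x _ => ?_
    rw [KK, Gr_eq_gw hA hW y x, norm_mul, ab]
    ring
  rw [h2, kp, Yf, h1, norm_inv]
  have h3 : ‖Gr A W y y‖ ≠ 0 := norm_ne_zero_iff.2 h0
  have h4 : 1 + ‖sg A W y‖ ^ 2 ≠ 0 := by positivity
  field_simp

/-- **the collective term in the `Yf` form, pointwise in the configuration**; `om` = moving
fractions, `F` a finite family whose kernel dominates `w` -/
theorem coll_Yf {κ : Type*} [Fintype κ] (hA : A.IsSymm) (hW : ∀ x, (W x).im < 0)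
    {om : ι → ℝ} (ho : ∀ y, 0 ≤ om y) (ho1 : ∀ y, om y ≤ 1) {R : ℝ}
    (hR0 : 0 ≤ R) (hR : ∀ y, om y ≠ 0 → ‖W y‖ ^ 2 ≤ R) (F : κ → ι → ℝ) {w : ι → ι → ℝ}
    (hw0 : ∀ x u, 0 ≤ w x u) (hw : ∀ x u, w x u ≤ ∑ j, (F j x - F j u) ^ 2) {lam : ι → ℝ} {T : ℝ}
    (hT : 0 ≤ T) (hl : ∀ x, |lam x| ≤ T) {δ : ℝ} (hδ : 0 < δ) :
    ∑ y, om y * (ab W y * (kp A W y * ‖Ly A W w lam y‖)) ≤
      T / 2 * (δ * (∑ x, ∑ u, ab W x * ab W u * w x u * KK A W x u) +
        8 * (R + 1) / δ * ∑ y, om y * (ab W y * ∑ j, Yf A W (F j) y)) := by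
  have he := ab_pos hW
  have h1 := coll_abs (Finset.univ : Finset κ) hA hW (kap := fun y => om y * kp A W y)
    (k0 := 2 * (R + 1)) (fun y => mul_nonneg (ho y) (kp_nonneg y)) (fun y => by
      by_cases h : om y = 0
      · simp only [h, zero_mul]; linarith
      · exact (mul_le_of_le_one_left (kp_nonneg y) (ho1 y)).trans (kp_le (hR y h)))
    (fun _ => 1) (fun _ _ => zero_le_one) F w (fun x u => by
      rw [abs_of_nonneg (hw0 x u)]
      simpa using hw x u) hT hl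
  have hX : 0 ≤ ∑ x, ∑ u, ab W x * ab W u * |w x u| * KK A W x u :=
    Finset.sum_nonneg fun x _ => Finset.sum_nonneg fun u _ =>
      mul_nonneg (mul_nonneg (mul_nonneg (he x).le (he u).le) (abs_nonneg _)) (KK_nonneg _ _)
  have hY : ∑ j, (1 : ℝ) * ∑ y, om y * kp A W y *
      (ab W y * ∑ x, ab W x * (F j x - F j y) ^ 2 * KK A W x y) =
      ∑ y, om y * (ab W y * ∑ j, Yf A W (F j) y) := by
    have e1 : ∀ j, (1 : ℝ) * ∑ y, om y * kp A W y *
        (ab W y * ∑ x, ab W x * (F j x - F j y) ^ 2 * KK A W x y) =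
        ∑ y, om y * (ab W y * Yf A W (F j) y) := by
      intro j
      rw [one_mul]
      refine Finset.sum_congr rfl fun y _ => ?_
      rw [← kp_Yf hA hW (F j) y]
      ring
    rw [Finset.sum_congr rfl fun j _ => e1 j, Finset.sum_comm]
    refine Finset.sum_congr rfl fun y _ => ?_
    rw [Finset.mul_sum, Finset.mul_sum]
  rw [hY] at h1
  have hYn : 0 ≤ ∑ y, om y * (ab W y * ∑ j, Yf A W (F j) y) :=
    Finset.sum_nonneg fun y _ => mul_nonneg (ho y) (mul_nonneg (he y).le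
      (Finset.sum_nonneg fun j _ => by
        rw [← kp_Yf hA hW]
        exact mul_nonneg (kp_nonneg y) (Finset.sum_nonneg fun x _ =>
          mul_nonneg (mul_nonneg (he x).le (sq_nonneg _)) (KK_nonneg _ _))))
  have h2 := amgm hT hX (mul_nonneg (by positivity : (0 : ℝ) ≤ 4 * (2 * (R + 1))) hYn) hδ
  have h3 : ∑ x, ∑ u, ab W x * ab W u * |w x u| * KK A W x u =
      ∑ x, ∑ u, ab W x * ab W u * w x u * KK A W x u :=
    Finset.sum_congr rfl fun x _ => Finset.sum_congr rfl fun u _ => by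
      rw [abs_of_nonneg (hw0 x u)]
  calc ∑ y, om y * (ab W y * (kp A W y * ‖Ly A W w lam y‖))
      = ∑ y, om y * kp A W y * (ab W y * ‖Ly A W w lam y‖) :=
        Finset.sum_congr rfl fun y _ => by ring
    _ ≤ _ := h1.trans h2
    _ = _ := by rw [h3]; ring

end P365T2.Coll863
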