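import Vale.Agent.P365.T2.SmoothS755
import Vale.Agent.P365.T2.H722.LawA

/-!
# P365 T2: the derivative of the smooth density.

`rhoS a l` is of class `C²`; derivative `rhoSd`, Lipschitz, `rhoSd² ≤ 4 K2 rhoS`, integration by
parts against `nuS`, `∫ |rhoSd| |g| ≤ C (∫ |g|² dnuS)^{1/2}`.
-/

set_option linter.all false

namespace P365T1.Smooth755

open MeasureTheory Set Filter Topology P365T1 P365T1.Bump P365T1.OneVar P365T1.Lab37
open scoped ENNReal Interval

variable {a l : ℝ}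

/-- derivative of the smooth density -/
noncomputable def rhoSd (a l v : ℝ) : ℝ :=
  (2 * (a - l))⁻¹ * (rhoB 0 l (v + (a - l)) - rhoB 0 l (v - (a - l)))

theorem hasDerivAt_PB (l x : ℝ) : HasDerivAt (PB l) (rhoB 0 l x) x := by
  unfold PB
  exact intervalIntegral.integral_hasDerivAt_right (intB l _ _)
    ((continuous_rhoB 0 l).stronglyMeasurableAtFilter _ _) (continuous_rhoB 0 l).continuousAt

/-- **the smooth density is differentiable** -/
theorem hasDerivAt_rhoS (h : l ≤ a) (v : ℝ) : HasDerivAt (rhoS a l) (rhoSd a l v) v := by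
  have e : rhoS a l = fun v => (2 * (a - l))⁻¹ * (PB l (v + (a - l)) - PB l (v - (a - l))) :=
    funext fun v => rhoS_eq_PB h v
  rw [e]
  have h1 := (hasDerivAt_PB l (v + (a - l))).comp_add_const v (a - l)
  have h2 := (hasDerivAt_PB l (v - (a - l))).comp_sub_const v (a - l)
  exact (h1.sub h2).const_mul _

theorem continuous_rhoS' (h : l ≤ a) : Continuous (rhoS a l) :=
  continuous_iff_continuousAt.2 fun v => (hasDerivAt_rhoS h v).continuousAt

theorem deriv_rhoS (h : l ≤ a) : deriv (rhoS a l) = rhoSd a l :=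
  funext fun v => (hasDerivAt_rhoS h v).deriv

theorem continuous_rhoSd (a l : ℝ) : Continuous (rhoSd a l) := by
  unfold rhoSd
  exact continuous_const.mul
    (((continuous_rhoB 0 l).comp (continuous_id.add continuous_const)).sub
      ((continuous_rhoB 0 l).comp (continuous_id.sub continuous_const)))

theorem rhoSd_lip (hl : 0 < l) (h : l < a) (u v : ℝ) :
    |rhoSd a l u - rhoSd a l v| ≤ K2 a l * |u - v| := by
  have ha : 0 < a - l := by linarith
  unfold rhoSd
  rw [← mul_sub, abs_mul, abs_of_pos (by positivity : (0 : ℝ) < (2 * (a - l))⁻¹)]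
  have h1 := rhoB_lip hl (u + (a - l)) (v + (a - l))
  have h2 := rhoB_lip hl (u - (a - l)) (v - (a - l))
  have e1 : u + (a - l) - (v + (a - l)) = u - v := by ring
  have e2 : u - (a - l) - (v - (a - l)) = u - v := by ring
  rw [e1] at h1
  rw [e2] at h2
  have e : rhoB 0 l (u + (a - l)) - rhoB 0 l (u - (a - l)) -
      (rhoB 0 l (v + (a - l)) - rhoB 0 l (v - (a - l))) =
      (rhoB 0 l (u + (a - l)) - rhoB 0 l (v + (a - l))) -
        (rhoB 0 l (u - (a - l)) - rhoB 0 l (v - (a - l))) := by ring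
  rw [e]
  calc (2 * (a - l))⁻¹ * _ ≤ (2 * (a - l))⁻¹ * (2 * (15 / (4 * l ^ 2) * |u - v|)) :=
        mul_le_mul_of_nonneg_left ((abs_sub _ _).trans (by linarith)) (by positivity)
    _ = _ := by
        unfold K2
        field_simp

theorem abs_rhoSd_le (hl : 0 < l) (h : l < a) (v : ℝ) : |rhoSd a l v| ≤ K1 a l := by
  have ha : 0 < a - l := by linarith
  unfold rhoSd
  rw [abs_mul, abs_of_pos (by positivity : (0 : ℝ) < (2 * (a - l))⁻¹)]
  have h1 := rhoB_nonneg (v₀ := 0) (v := v + (a - l)) hl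
  have h2 := rhoB_nonneg (v₀ := 0) (v := v - (a - l)) hl
  have h3 := rhoB_le (v₀ := 0) (v := v + (a - l)) hl
  have h4 := rhoB_le (v₀ := 0) (v := v - (a - l)) hl
  have h5 : |rhoB 0 l (v + (a - l)) - rhoB 0 l (v - (a - l))| ≤ 15 / (16 * l) := by
    rw [abs_le]
    constructor <;> linarith
  have h6 : (0 : ℝ) ≤ 15 / (16 * l) := by positivity
  calc (2 * (a - l))⁻¹ * _ ≤ (2 * (a - l))⁻¹ * (2 * (15 / (16 * l))) :=
        mul_le_mul_of_nonneg_left (by linarith) (by positivity)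
    _ = _ := by
        unfold K1
        field_simp

theorem rhoB_zero_of_le (hl : 0 < l) {w : ℝ} (hw : l ≤ |w|) : rhoB 0 l w = 0 := by
  rw [P365T2.H722.rhoB_eq_b0, P365T2.H722.b0_eq_zero, mul_zero]
  rw [sub_zero, abs_div, abs_of_pos hl, le_div_iff₀ hl, one_mul]
  exact hw

theorem rhoSd_eq_zero (hl : 0 < l) (h : l < a) {v : ℝ} (hv : a ≤ |v|) : rhoSd a l v = 0 := by
  have h1 : rhoB 0 l (v + (a - l)) = 0 := by
    refine rhoB_zero_of_le hl ?_
    rcases le_abs.1 hv with h2 | h2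
    · exact (by linarith : l ≤ v + (a - l)).trans (le_abs_self _)
    · exact (by linarith : l ≤ -(v + (a - l))).trans (neg_le_abs _)
  have h2 : rhoB 0 l (v - (a - l)) = 0 := by
    refine rhoB_zero_of_le hl ?_
    rcases le_abs.1 hv with h2 | h2
    · exact (by linarith : l ≤ v - (a - l)).trans (le_abs_self _)
    · exact (by linarith : l ≤ -(v - (a - l))).trans (neg_le_abs _)
  unfold rhoSd
  rw [h1, h2, sub_zero, mul_zero]

/-- Taylor -/
theorem rhoS_taylor (hl : 0 < l) (h : l < a) (v t : ℝ) :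
    |rhoS a l (v + t) - rhoS a l v - rhoSd a l v * t| ≤ K2 a l * t ^ 2 := by
  have h1 := Convex.norm_image_sub_le_of_norm_hasDerivWithin_le
    (f := fun u => rhoS a l u - rhoSd a l v * u) (f' := fun u => rhoSd a l u - rhoSd a l v)
    (C := K2 a l * |t|) (s := uIcc v (v + t)) (x := v) (y := v + t) (fun u _ => by
      have h2 := ((hasDerivAt_id u).const_mul (rhoSd a l v))
      have h3 := (hasDerivAt_rhoS h.le u).sub h2
      simp only [mul_one] at h3
      exact h3.hasDerivWithinAt) (fun u hu => by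
      rw [Real.norm_eq_abs]
      refine (rhoSd_lip hl h u v).trans (mul_le_mul_of_nonneg_left ?_ (K2_nonneg hl h))
      have h2 := abs_sub_left_of_mem_uIcc hu
      rwa [add_sub_cancel_left] at h2) (convex_uIcc _ _) left_mem_uIcc right_mem_uIcc
  rw [Real.norm_eq_abs, Real.norm_eq_abs] at h1
  have e1 : rhoS a l (v + t) - rhoSd a l v * (v + t) - (rhoS a l v - rhoSd a l v * v) =
      rhoS a l (v + t) - rhoS a l v - rhoSd a l v * t := by ring
  have e2 : K2 a l * |t| * |v + t - v| = K2 a l * t ^ 2 := by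
    rw [add_sub_cancel_left, mul_assoc, ← sq, sq_abs]
  rwa [e1, e2] at h1

theorem K2_pos (hl : 0 < l) (h : l < a) : 0 < K2 a l := by
  have : 0 < a - l := by linarith
  unfold K2
  positivity

/-- **`|ρ'|² ≤ 4 K ρ`** -/
theorem rhoSd_sq_le (hl : 0 < l) (h : l < a) (v : ℝ) :
    rhoSd a l v ^ 2 ≤ 4 * K2 a l * rhoS a l v := by
  have hK := K2_pos hl h
  obtain ⟨K, hKd⟩ : ∃ K, K = K2 a l := ⟨_, rfl⟩
  obtain ⟨d, hd⟩ : ∃ d, d = rhoSd a l v := ⟨_, rfl⟩
  have h1 := rhoS_taylor hl h v (-(d / (2 * K)))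
  have h2 := rhoS_nonneg hl h (v + -(d / (2 * K)))
  rw [← hKd] at h1 hK ⊢
  rw [← hd] at h1 ⊢
  have h3 := (abs_le.1 h1).2
  have e1 : d * -(d / (2 * K)) = -(d ^ 2 / (2 * K)) := by ring
  have e2 : K * (-(d / (2 * K))) ^ 2 = d ^ 2 / (4 * K) := by
    field_simp
    ring
  rw [e1, e2] at h3
  have e3 : d ^ 2 / (2 * K) = 2 * (d ^ 2 / (4 * K)) := by
    field_simp
    ring
  rw [e3] at h3
  have h4 : d ^ 2 / (4 * K) ≤ rhoS a l v := by linarith
  rw [div_le_iff₀ (by positivity)] at h4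
  linarith

/-- AM–GM form -/
theorem abs_rhoSd_mul_le (hl : 0 < l) (h : l < a) {ε : ℝ} (hε : 0 < ε) (v x : ℝ) :
    |rhoSd a l v| * |x| ≤ ε * (rhoS a l v * x ^ 2) + K2 a l / ε := by
  have h1 := rhoSd_sq_le hl h v
  have h2 := rhoS_nonneg hl h v
  have hK := K2_pos hl h
  obtain ⟨K, hKd⟩ : ∃ K, K = K2 a l := ⟨_, rfl⟩
  obtain ⟨r, hr⟩ : ∃ r, r = rhoS a l v := ⟨_, rfl⟩
  rw [← hKd, ← hr] at h1
  rw [← hr] at h2
  rw [← hKd] at hK
  rw [← hKd, ← hr]
  have h3 : (|rhoSd a l v| * |x|) ^ 2 ≤ (ε * (r * x ^ 2) + K / ε) ^ 2 := by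
    rw [mul_pow, sq_abs, sq_abs]
    have h4 : 4 * ((ε * (r * x ^ 2)) * (K / ε)) ≤ (ε * (r * x ^ 2) + K / ε) ^ 2 := by
      nlinarith [sq_nonneg (ε * (r * x ^ 2) - K / ε)]
    have h5 : 4 * ((ε * (r * x ^ 2)) * (K / ε)) = 4 * K * r * x ^ 2 := by
      field_simp
    rw [h5] at h4
    exact (mul_le_mul_of_nonneg_right h1 (sq_nonneg x)).trans h4
  exact abs_le_of_sq_le_sq' h3 (by positivity) |>.2

/-! ### integrals -/

theorem rhoS_zero_end (hl : 0 < l) (h : l < a) : rhoS a l a = 0 ∧ rhoS a l (-a) = 0 := by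
  have ha : 0 < a := hl.trans h
  constructor
  · exact P365T2.H722.rhoS_eq_zero hl h (by rw [abs_of_pos ha])
  · exact P365T2.H722.rhoS_eq_zero hl h (by rw [abs_neg, abs_of_pos ha])

theorem integral_nuS_interval {E : Type*} [NormedAddCommGroup E] [NormedSpace ℝ E]
    (hl : 0 < l) (h : l < a) (g : ℝ → E) :
    ∫ v, g v ∂(nuS a l) = ∫ v in (-a)..a, rhoS a l v • g v := by
  rw [integral_nuS hl h, muv, integral_Icc_eq_integral_Ioc,
    intervalIntegral.integral_of_le (by linarith)]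

/-- **integration by parts** -/
theorem integral_parts {E : Type*} [NormedAddCommGroup E] [NormedSpace ℝ E] [CompleteSpace E]
    (hl : 0 < l) (h : l < a) {g g' : ℝ → E} (hg : ∀ v ∈ Icc (-a) a, HasDerivAt g (g' v) v)
    (hg' : IntervalIntegrable g' volume (-a) a) :
    ∫ v, g' v ∂(nuS a l) = -∫ v in (-a)..a, rhoSd a l v • g v := by
  rw [integral_nuS_interval hl h]
  have ha : -a ≤ a := by linarith
  have h1 := intervalIntegral.integral_smul_deriv_eq_deriv_smul (a := -a) (b := a)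
    (u := rhoS a l) (u' := rhoSd a l) (v := g) (v' := g') (fun x _ => hasDerivAt_rhoS h.le x)
    (fun x hx => hg x (by rwa [uIcc_of_le ha] at hx))
    ((continuous_rhoSd a l).intervalIntegrable _ _) hg'
  rw [h1, (rhoS_zero_end hl h).1, (rhoS_zero_end hl h).2, zero_smul, zero_smul, sub_zero, zero_sub]

theorem intervalIntegral_rhoSd (hl : 0 < l) (h : l < a) : ∫ v in (-a)..a, rhoSd a l v = 0 := by
  rw [intervalIntegral.integral_eq_sub_of_hasDerivAt (fun v _ => hasDerivAt_rhoS h.le v)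
    ((continuous_rhoSd a l).intervalIntegrable _ _), (rhoS_zero_end hl h).1,
    (rhoS_zero_end hl h).2, sub_zero]

/-- with a constant subtracted -/
theorem integral_parts_sub {E : Type*} [NormedAddCommGroup E] [NormedSpace ℝ E] [CompleteSpace E]
    (hl : 0 < l) (h : l < a) {g g' : ℝ → E} (hg : ∀ v ∈ Icc (-a) a, HasDerivAt g (g' v) v)
    (hg' : IntervalIntegrable g' volume (-a) a) (k : E) :
    ∫ v, g' v ∂(nuS a l) = -∫ v in (-a)..a, rhoSd a l v • (g v - k) :=
  integral_parts hl h (fun v hv => (hg v hv).sub_const k) hg'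

/-- over the whole line -/
theorem integral_rhoSd_smul {E : Type*} [NormedAddCommGroup E] [NormedSpace ℝ E]
    (hl : 0 < l) (h : l < a) (g : ℝ → E) :
    ∫ v, rhoSd a l v • g v = ∫ v in (-a)..a, rhoSd a l v • g v := by
  rw [intervalIntegral.integral_of_le (by linarith), ← integral_Icc_eq_integral_Ioc]
  refine (setIntegral_eq_integral_of_forall_compl_eq_zero fun v hv => ?_).symm
  have h1 : a ≤ |v| := by
    by_contra hc
    push Not at hc
    rw [abs_lt] at hc
    exact hv ⟨hc.1.le, hc.2.le⟩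
  rw [rhoSd_eq_zero hl h h1, zero_smul]

theorem integral_rhoSd (hl : 0 < l) (h : l < a) : ∫ v, rhoSd a l v = 0 := by
  have h1 := integral_rhoSd_smul hl h (fun _ => (1 : ℝ))
  simp only [smul_eq_mul, mul_one] at h1
  rw [h1, intervalIntegral_rhoSd hl h]

/-- **`∫ |ρ'| F ≤ C (∫ F² dν)^{1/2}`**, lintegral form -/
theorem lint_rhoSd_le (hl : 0 < l) (h : l < a) {F : ℝ → ℝ≥0∞} (hF : Measurable F) :
    ∫⁻ v, ENNReal.ofReal |rhoSd a l v| * F v ≤
      ENNReal.ofReal (Real.sqrt (8 * a * K2 a l)) * (∫⁻ v, F v ^ (2 : ℝ) ∂(nuS a l)) ^ (1 / 2 : ℝ) := by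
  have ha : 0 < a := hl.trans h
  have hK := K2_pos hl h
  have h1 : ∀ v, ENNReal.ofReal |rhoSd a l v| * F v ≤
      (Icc (-a) a).indicator (fun _ => ENNReal.ofReal (Real.sqrt (4 * K2 a l))) v *
        (ENNReal.ofReal (Real.sqrt (rhoS a l v)) * F v) := by
    intro v
    by_cases hv : v ∈ Icc (-a) a
    · rw [indicator_of_mem hv, ← mul_assoc, ← ENNReal.ofReal_mul (Real.sqrt_nonneg _),
        ← Real.sqrt_mul (by positivity)]
      gcongr
      exact Real.abs_le_sqrt (rhoSd_sq_le hl h v)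
    · have h2 : a ≤ |v| := by
        by_contra hc
        push Not at hc
        rw [abs_lt] at hc
        exact hv ⟨hc.1.le, hc.2.le⟩
      rw [rhoSd_eq_zero hl h h2, abs_zero, ENNReal.ofReal_zero, zero_mul]
      exact bot_le
  refine (lintegral_mono h1).trans ?_
  have hm1 : AEMeasurable ((Icc (-a) a).indicator
      (fun _ : ℝ => ENNReal.ofReal (Real.sqrt (4 * K2 a l)))) volume :=
    (measurable_const.indicator measurableSet_Icc).aemeasurable
  have hm2 : AEMeasurable (fun v => ENNReal.ofReal (Real.sqrt (rhoS a l v)) * F v) volume :=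
    (((measurable_rhoS a l).sqrt.ennreal_ofReal).mul hF).aemeasurable
  refine (ENNReal.lintegral_mul_le_Lp_mul_Lq volume Real.HolderConjugate.two_two hm1 hm2).trans ?_
  have e1 : ∫⁻ v, ((Icc (-a) a).indicator
      (fun _ : ℝ => ENNReal.ofReal (Real.sqrt (4 * K2 a l))) v) ^ (2 : ℝ) =
      ENNReal.ofReal (8 * a * K2 a l) := by
    have e2 : ∀ v : ℝ, ((Icc (-a) a).indicator
        (fun _ : ℝ => ENNReal.ofReal (Real.sqrt (4 * K2 a l))) v) ^ (2 : ℝ) =
        (Icc (-a) a).indicator (fun _ => ENNReal.ofReal (4 * K2 a l)) v := by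
      intro v
      by_cases hv : v ∈ Icc (-a) a
      · rw [indicator_of_mem hv, indicator_of_mem hv,
          ENNReal.ofReal_rpow_of_nonneg (Real.sqrt_nonneg _) (by norm_num)]
        congr 1
        rw [show (2 : ℝ) = ((2 : ℕ) : ℝ) by norm_num, Real.rpow_natCast,
          Real.sq_sqrt (by positivity)]
      · rw [indicator_of_notMem hv, indicator_of_notMem hv]
        exact ENNReal.zero_rpow_of_pos (by norm_num)
    simp only [e2]
    rw [lintegral_indicator measurableSet_Icc, setLIntegral_const, Real.volume_Icc,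
      ← ENNReal.ofReal_mul (by positivity)]
    congr 1
    ring
  have e3 : ∫⁻ v, (ENNReal.ofReal (Real.sqrt (rhoS a l v)) * F v) ^ (2 : ℝ) =
      ∫⁻ v, F v ^ (2 : ℝ) ∂(nuS a l) := by
    rw [P365T2.H722.nuS_eq_withDensity hl h, lintegral_withDensity_eq_lintegral_mul _
      (measurable_rhoS a l).ennreal_ofReal (hF.pow_const _)]
    refine lintegral_congr fun v => ?_
    rw [Pi.mul_apply, ENNReal.mul_rpow_of_nonneg _ _ (by norm_num),
      ENNReal.ofReal_rpow_of_nonneg (Real.sqrt_nonneg _) (by norm_num)]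
    congr 2
    rw [show (2 : ℝ) = ((2 : ℕ) : ℝ) by norm_num, Real.rpow_natCast,
      Real.sq_sqrt (rhoS_nonneg hl h v)]
  rw [e1, e3]
  refine mul_le_mul_left ?_ _
  rw [ENNReal.ofReal_rpow_of_nonneg (by positivity) (by norm_num), Real.sqrt_eq_rpow]

end P365T1.Smooth755
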