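import Vale.Agent.P365.Open.Circ
import Vale.Agent.P365.T2.DerivS755

/-!
# P365-T2: the logarithmic average (LOG) of the gap term (helper218)

`t(v) = 1/(v - s)`, `A(v) = ∑ ‖p_k + q_k t(v)‖²`, `A₀` = its mean on the circle.
If `0 ≤ L ≤ K` and `L ≤ log 2 + log (A₀ / A)` then, for the smooth law `nuS`,
`∫ ‖t‖² L ≤ C ∫ ‖t‖² + C K / (1 + ‖s‖²)`.
-/

set_option linter.all false

namespace P365T2.H218

open MeasureTheory ProbabilityTheory Complex Set P365L P365T1 P365T1.Bump P365T1.OneVar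
open P365T1.Smooth755
open scoped ENNReal NNReal Real ComplexConjugate

/-! ### the circle -/

theorem avg_log_affine' {p r : ℂ} (h : 0 < ‖p‖ ^ 2 + ‖r‖ ^ 2) :
    CircleIntegrable (fun u => Real.log ‖p - r * u‖) 0 1 ∧
    Real.log ((‖p‖ ^ 2 + ‖r‖ ^ 2) / 2) ≤
      2 * Real.circleAverage (fun u => Real.log ‖p - r * u‖) 0 1 := by
  have hint : CircleIntegrable (fun u => Real.log ‖p - r * u‖) 0 1 :=
    MeromorphicOn.circleIntegrable_log_norm fun z _ => by fun_prop
  refine ⟨hint, ?_⟩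
  have hmax : Real.circleAverage (fun u => Real.log ‖p - r * u‖) 0 1 =
      Real.log (max ‖p‖ ‖r‖) := by
    by_cases hp : p = 0
    · subst hp
      have hr : 0 < ‖r‖ := by
        rw [norm_zero] at h
        by_contra hcon
        have : ‖r‖ = 0 := le_antisymm (not_lt.1 hcon) (norm_nonneg _)
        rw [this] at h
        norm_num at h
      have e1 : Real.circleAverage (fun u => Real.log ‖(0 : ℂ) - r * u‖) 0 1 =
          Real.circleAverage (fun _ => Real.log ‖r‖) 0 1 := by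
        refine Real.circleAverage_congr_sphere fun u hu => ?_
        have hu1 : ‖u‖ = 1 := by
          simpa using hu
        simp only [zero_sub, norm_neg, norm_mul, hu1, mul_one]
      rw [e1, Real.circleAverage_const, norm_zero, max_eq_right hr.le]
    · rw [avg_log_affine hp]
      have hpn : 0 < ‖p‖ := norm_pos_iff.2 hp
      rcases le_total ‖r‖ ‖p‖ with h1 | h1
      · rw [max_eq_left h1, (Real.posLog_eq_zero_iff _).2, add_zero]
        rw [abs_of_nonneg (by positivity)]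
        exact (div_le_one hpn).2 h1
      · rw [max_eq_right h1, Real.posLog_eq_log, Real.log_div (hpn.trans_le h1).ne' hpn.ne']
        · ring
        · rw [abs_of_nonneg (by positivity)]
          exact (one_le_div hpn).2 h1
  rw [hmax]
  have hm0 : 0 < max ‖p‖ ‖r‖ := by
    by_contra hcon
    have h1 : ‖p‖ = 0 := le_antisymm ((le_max_left _ _).trans (not_lt.1 hcon)) (norm_nonneg _)
    have h2 : ‖r‖ = 0 := le_antisymm ((le_max_right _ _).trans (not_lt.1 hcon)) (norm_nonneg _)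
    rw [h1, h2] at h
    norm_num at h
  have e2 : 2 * Real.log (max ‖p‖ ‖r‖) = Real.log ((max ‖p‖ ‖r‖) ^ 2) := by
    rw [Real.log_pow]; norm_num
  rw [e2]
  refine Real.log_le_log (by positivity) ?_
  have h1 : ‖p‖ ^ 2 ≤ (max ‖p‖ ‖r‖) ^ 2 := pow_le_pow_left₀ (norm_nonneg _) (le_max_left _ _) 2
  have h2 : ‖r‖ ^ 2 ≤ (max ‖p‖ ‖r‖) ^ 2 := pow_le_pow_left₀ (norm_nonneg _) (le_max_right _ _) 2
  linarith

/-- the point of the unit circle -/
noncomputable def uc (c : ℝ) : ℂ := ((c : ℂ) + I) / ((c : ℂ) - I)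

theorem uc_inj {s t : ℝ} (h : uc s = uc t) : s = t := by
  unfold uc at h
  have hds : (s : ℂ) - I ≠ 0 := cau_sub_ne (by simp) s
  have hdt : (t : ℂ) - I ≠ 0 := cau_sub_ne (by simp) t
  rw [div_eq_div_iff hds hdt] at h
  have h3 : (2 * I) * ((s : ℂ) - t) = 0 := by linear_combination -h
  have h4 : (s : ℂ) - t = 0 := by
    rcases mul_eq_zero.1 h3 with h | h
    · exact absurd h (by simp)
    · exact h
  exact_mod_cast sub_eq_zero.1 h4

theorem ae_ne {p r : ℂ} (h : 0 < ‖p‖ ^ 2 + ‖r‖ ^ 2) : ∀ᵐ c ∂nu, p - r * uc c ≠ 0 := by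
  have hsub : ({c : ℝ | ¬(p - r * uc c ≠ 0)}).Subsingleton := by
    intro a ha b hb
    simp only [Set.mem_setOf_eq, not_not] at ha hb
    have hr0 : r ≠ 0 := by
      rintro h0
      rw [h0, zero_mul, sub_zero] at ha
      rw [ha, h0] at h
      norm_num at h
    exact uc_inj (mul_left_cancel₀ hr0 (by rw [← sub_eq_zero.1 ha, ← sub_eq_zero.1 hb]))
  have hvol : (volume : Measure ℝ) {c : ℝ | ¬(p - r * uc c ≠ 0)} = 0 := hsub.measure_zero _
  have hac : nu ≪ (volume : Measure ℝ) := by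
    have h1 : nu = volume.withDensity (cauchyPDF 0 1) :=
      cauchyMeasure_of_scale_ne_zero 0 one_ne_zero
    rw [h1]
    exact withDensity_absolutelyContinuous _ _
  exact hac hvol

section mean

variable {κ : Type*} [Fintype κ]

/-- the mean of `A` on the circle -/
noncomputable def A0 (P R : κ → ℂ) : ℝ := ∑ k, (‖P k‖ ^ 2 + ‖R k‖ ^ 2)

/-- **Jensen on the circle** -/
theorem log_mean {P R : κ → ℂ} (hA : 0 < A0 P R) {L : ℝ → ℝ} {c0 : ℝ} (hLi : Integrable L nu)
    (hL : ∀ c, 0 < ∑ k, ‖P k - R k * uc c‖ ^ 2 →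
      L c ≤ c0 + Real.log (A0 P R / ∑ k, ‖P k - R k * uc c‖ ^ 2)) :
    ∫ c, L c ∂nu ≤ c0 + Real.log 2 := by
  classical
  set a : κ → ℝ := fun k => ‖P k‖ ^ 2 + ‖R k‖ ^ 2 with ha
  have ha0 : ∀ k, 0 ≤ a k := fun k => by rw [ha]; positivity
  set S : Finset κ := Finset.univ.filter fun k => a k ≠ 0 with hS
  have haS : ∀ k ∈ S, 0 < a k := fun k hk =>
    lt_of_le_of_ne (ha0 k) (Ne.symm (Finset.mem_filter.1 hk).2)
  set w : κ → ℝ := fun k => a k / A0 P R with hw
  have hw0 : ∀ k ∈ S, 0 < w k := fun k hk => div_pos (haS k hk) hA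
  have hsum : ∑ k ∈ S, w k = 1 := by
    have h1 : ∑ k ∈ S, w k = ∑ k, w k := by
      refine Finset.sum_subset (Finset.subset_univ _) fun k _ hk => ?_
      have : a k = 0 := by
        by_contra hcon
        exact hk (Finset.mem_filter.2 ⟨Finset.mem_univ _, hcon⟩)
      rw [hw]
      simp only [this, zero_div]
    rw [h1, hw, ← Finset.sum_div]
    exact div_self hA.ne'
  have hint : ∀ k ∈ S, Integrable (fun c => Real.log ‖P k - R k * uc c‖) nu := fun k hk =>
    nu_integrable_circle (avg_log_affine' (haS k hk)).1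
  have havg : ∀ k ∈ S, Real.log (a k / 2) ≤ 2 * ∫ c, Real.log ‖P k - R k * uc c‖ ∂nu := by
    intro k hk
    have h1 := (avg_log_affine' (haS k hk)).2
    rw [← nu_integral_circle] at h1
    exact h1
  set g : ℝ → ℝ := fun c => c0 + Real.log (A0 P R) -
    ∑ k ∈ S, w k * (2 * Real.log ‖P k - R k * uc c‖ - Real.log (w k)) with hg
  have hgi : Integrable g nu := by
    haveI : IsProbabilityMeasure nu := by unfold nu; infer_instance
    refine (integrable_const _).sub (integrable_finset_sum _ fun k hk => ?_)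
    exact (((hint k hk).const_mul 2).sub (integrable_const _)).const_mul _
  have hae : ∀ᵐ c ∂nu, ∀ k ∈ S, P k - R k * uc c ≠ 0 := by
    rw [Filter.eventually_all_finset]
    exact fun k hk => ae_ne (haS k hk)
  have hLg : ∀ᵐ c ∂nu, L c ≤ g c := by
    filter_upwards [hae] with c hc
    set x : κ → ℝ := fun k => ‖P k - R k * uc c‖ ^ 2 / w k with hx
    have hx0 : ∀ k ∈ S, 0 < x k := fun k hk =>
      div_pos (pow_pos (norm_pos_iff.2 (hc k hk)) 2) (hw0 k hk)
    have hj := (strictConcaveOn_log_Ioi.concaveOn).le_map_sum (t := S) (w := w) (p := x)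
      (fun k hk => (hw0 k hk).le) hsum (fun k hk => hx0 k hk)
    simp only [smul_eq_mul] at hj
    have e1 : ∑ k ∈ S, w k * x k = ∑ k ∈ S, ‖P k - R k * uc c‖ ^ 2 := by
      refine Finset.sum_congr rfl fun k hk => ?_
      rw [hx]
      exact mul_div_cancel₀ _ (hw0 k hk).ne'
    have hSne : S.Nonempty := by
      by_contra hcon
      rw [Finset.not_nonempty_iff_eq_empty] at hcon
      rw [hcon, Finset.sum_empty] at hsum
      norm_num at hsum
    have hpos : 0 < ∑ k ∈ S, ‖P k - R k * uc c‖ ^ 2 :=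
      Finset.sum_pos (fun k hk => pow_pos (norm_pos_iff.2 (hc k hk)) 2) hSne
    have hle : ∑ k ∈ S, ‖P k - R k * uc c‖ ^ 2 ≤ ∑ k, ‖P k - R k * uc c‖ ^ 2 :=
      Finset.sum_le_sum_of_subset_of_nonneg (Finset.subset_univ _) fun k _ _ => sq_nonneg _
    have hL1 := hL c (hpos.trans_le hle)
    rw [Real.log_div hA.ne' (hpos.trans_le hle).ne'] at hL1
    have hlog := Real.log_le_log hpos hle
    rw [e1] at hj
    have e2 : ∑ k ∈ S, w k * Real.log (x k) =
        ∑ k ∈ S, w k * (2 * Real.log ‖P k - R k * uc c‖ - Real.log (w k)) := by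
      refine Finset.sum_congr rfl fun k hk => ?_
      rw [hx]
      simp only
      rw [Real.log_div (pow_pos (norm_pos_iff.2 (hc k hk)) 2).ne' (hw0 k hk).ne', Real.log_pow]
      norm_num
    rw [e2] at hj
    rw [hg]
    simp only
    linarith
  refine (integral_mono_ae hLi hgi hLg).trans ?_
  haveI : IsProbabilityMeasure nu := by unfold nu; infer_instance
  have e3 : ∫ c, g c ∂nu = c0 + Real.log (A0 P R) -
      ∑ k ∈ S, w k * (2 * (∫ c, Real.log ‖P k - R k * uc c‖ ∂nu) - Real.log (w k)) := by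
    have i1 : ∀ k ∈ S, Integrable (fun c => 2 * Real.log ‖P k - R k * uc c‖ -
        Real.log (w k)) nu := fun k hk => ((hint k hk).const_mul 2).sub (integrable_const _)
    have i2 : ∀ k ∈ S, Integrable (fun c => w k * (2 * Real.log ‖P k - R k * uc c‖ -
        Real.log (w k))) nu := fun k hk => (i1 k hk).const_mul _
    have i3 : Integrable (fun c => ∑ k ∈ S, w k * (2 * Real.log ‖P k - R k * uc c‖ -
        Real.log (w k))) nu := integrable_finset_sum _ i2
    have e4 : ∫ c, g c ∂nu = ∫ c, ((c0 + Real.log (A0 P R)) -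
      ∑ k ∈ S, w k * (2 * Real.log ‖P k - R k * uc c‖ - Real.log (w k))) ∂nu := rfl
    rw [e4, integral_sub (integrable_const _) i3, integral_finset_sum _ i2, integral_const,
      probReal_univ, one_smul]
    congr 1
    refine Finset.sum_congr rfl fun k hk => ?_
    have i4 : Integrable (fun c => 2 * Real.log ‖P k - R k * uc c‖) nu :=
      (hint k hk).const_mul 2
    rw [integral_const_mul, integral_sub i4 (integrable_const _), integral_const_mul,
      integral_const, probReal_univ, one_smul]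
  rw [e3]
  have h4 : ∑ k ∈ S, w k * Real.log (A0 P R / 2) ≤
      ∑ k ∈ S, w k * (2 * (∫ c, Real.log ‖P k - R k * uc c‖ ∂nu) - Real.log (w k)) := by
    refine Finset.sum_le_sum fun k hk => mul_le_mul_of_nonneg_left ?_ (hw0 k hk).le
    have h5 := havg k hk
    have h6 : Real.log (A0 P R / 2) = Real.log (a k / 2) - Real.log (w k) := by
      rw [← Real.log_div (by have := haS k hk; positivity) (hw0 k hk).ne']
      congr 1
      rw [hw]
      have := (haS k hk).ne'
      have := hA.ne'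
      field_simp
    rw [h6]
    linarith
  rw [← Finset.sum_mul, hsum, one_mul, Real.log_div hA.ne' (by norm_num)] at h4
  linarith

end mean

/-! ### from the circle to the line -/

theorem nu_integral (f : ℝ → ℝ) : ∫ t, f t ∂nu = ∫ t, (π⁻¹ * (t ^ 2 + 1)⁻¹) * f t := by
  have h1 : nu = volume.withDensity (ProbabilityTheory.cauchyPDF 0 1) :=
    ProbabilityTheory.cauchyMeasure_of_scale_ne_zero 0 one_ne_zero
  rw [h1, integral_withDensity_eq_integral_toReal_smul (ProbabilityTheory.measurable_cauchyPDF 0 1)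
    (Filter.Eventually.of_forall fun x => ENNReal.ofReal_lt_top)]
  refine integral_congr_ae (Filter.Eventually.of_forall fun t => ?_)
  simp only [ProbabilityTheory.cauchyPDF, ENNReal.toReal_ofReal
    (ProbabilityTheory.cauchyPDF_pos 0 one_ne_zero t).le, smul_eq_mul]
  congr 1
  simp only [ProbabilityTheory.cauchyPDFReal, NNReal.coe_one, mul_one, sub_zero, one_pow]

/-- `t(v) = 1/(v - s)` -/
noncomputable def tv (s : ℂ) (v : ℝ) : ℂ := ((v : ℂ) - s)⁻¹

variable {s : ℂ}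

theorem tv_sub_ne (hs : 0 < s.im) (v : ℝ) : (v : ℂ) - s ≠ 0 := by
  intro h
  have := congrArg Complex.im h
  simp at this
  linarith

theorem norm_sub_sq (v : ℝ) : ‖(v : ℂ) - s‖ ^ 2 = (v - s.re) ^ 2 + s.im ^ 2 := by
  rw [← Complex.normSq_eq_norm_sq, Complex.normSq_apply]
  simp
  ring

theorem norm_tv_sq (v : ℝ) : ‖tv s v‖ ^ 2 = ((v - s.re) ^ 2 + s.im ^ 2)⁻¹ := by
  rw [tv, norm_inv, inv_pow, norm_sub_sq]

theorem continuous_tv (hs : 0 < s.im) : Continuous (tv s) :=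
  (Complex.continuous_ofReal.sub continuous_const).inv₀ (tv_sub_ne hs)

theorem line_nu (hs : 0 < s.im) (f : ℝ → ℝ) :
    ∫ v, ‖tv s v‖ ^ 2 * f v = π / s.im * ∫ c, f (s.re + s.im * c) ∂nu := by
  have h1 : ∫ c, (fun v => ‖tv s v‖ ^ 2 * f v) (s.re + s.im * c) =
      s.im⁻¹ * ∫ v, ‖tv s v‖ ^ 2 * f v := by
    have h2 := Measure.integral_comp_mul_left (fun c => (fun v => ‖tv s v‖ ^ 2 * f v) (s.re + c))
      s.im
    rw [h2, integral_add_left_eq_self (fun v => ‖tv s v‖ ^ 2 * f v) s.re, smul_eq_mul,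
      abs_of_pos (inv_pos.2 hs)]
  have h3 : ∀ c : ℝ, (fun v => ‖tv s v‖ ^ 2 * f v) (s.re + s.im * c) =
      (s.im ^ 2)⁻¹ * π * ((π⁻¹ * (c ^ 2 + 1)⁻¹) * f (s.re + s.im * c)) := by
    intro c
    simp only
    rw [norm_tv_sq]
    have e1 : (s.re + s.im * c - s.re) ^ 2 + s.im ^ 2 = s.im ^ 2 * (c ^ 2 + 1) := by ring
    rw [e1, mul_inv]
    have := Real.pi_pos.ne'
    field_simp
  simp only [h3] at h1
  rw [integral_const_mul, ← nu_integral (fun c => f (s.re + s.im * c))] at h1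
  have h4 : ∫ v, ‖tv s v‖ ^ 2 * f v = s.im * (s.im⁻¹ * ∫ v, ‖tv s v‖ ^ 2 * f v) := by
    rw [← mul_assoc, mul_inv_cancel₀ hs.ne', one_mul]
  rw [h4, ← h1]
  have := hs.ne'
  field_simp

section av

variable {κ : Type*} [Fintype κ]

/-- `A(v) = ∑ ‖p_k + q_k t(v)‖²` -/
noncomputable def Av (p q : κ → ℂ) (s : ℂ) (v : ℝ) : ℝ := ∑ k, ‖p k + q k * tv s v‖ ^ 2

/-- mean of `A` on the circle of `t` -/
noncomputable def Ac (p q : κ → ℂ) (s : ℂ) : ℝ :=
  ∑ k, (‖p k + q k * (I / (2 * (s.im : ℂ)))‖ ^ 2 + ‖q k‖ ^ 2 / (4 * s.im ^ 2))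

theorem affine_uc (hs : 0 < s.im) (p q : ℂ) (c : ℝ) :
    p + q * tv s (s.re + s.im * c) =
      (p + q * (I / (2 * (s.im : ℂ)))) - q * (I / (2 * (s.im : ℂ))) * uc c := by
  have hB : (s.im : ℂ) ≠ 0 := by exact_mod_cast hs.ne'
  have hden : (c : ℂ) - I ≠ 0 := cau_sub_ne (by simp) c
  have e1 : (((s.re + s.im * c : ℝ) : ℂ) - s) = (s.im : ℂ) * ((c : ℂ) - I) := by
    apply Complex.ext <;> simp
  rw [tv, e1, uc]
  have e2 : (I / (2 * (s.im : ℂ))) - (I / (2 * (s.im : ℂ))) * (((c : ℂ) + I) / ((c : ℂ) - I)) =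
      ((s.im : ℂ) * ((c : ℂ) - I))⁻¹ := by
    field_simp
    linear_combination (-2 : ℂ) * Complex.I_sq
  rw [← e2]
  ring

/-- **(LOG1)** -/
theorem log_line (hs : 0 < s.im) {p q : κ → ℂ} (hA : 0 < Ac p q s) {L : ℝ → ℝ} {K c0 : ℝ}
    (hLm : Measurable L) (hL0 : ∀ v, 0 ≤ L v) (hLK : ∀ v, L v ≤ K)
    (hL : ∀ v, 0 < Av p q s v → L v ≤ c0 + Real.log (Ac p q s / Av p q s v)) :
    ∫ v, ‖tv s v‖ ^ 2 * L v ≤ π / s.im * (c0 + Real.log 2) := by
  rw [line_nu hs]
  refine mul_le_mul_of_nonneg_left ?_ (div_nonneg Real.pi_pos.le hs.le)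
  haveI : IsProbabilityMeasure nu := by unfold nu; infer_instance
  have hA0 : A0 (fun k => p k + q k * (I / (2 * (s.im : ℂ))))
      (fun k => q k * (I / (2 * (s.im : ℂ)))) = Ac p q s := by
    unfold A0 Ac
    refine Finset.sum_congr rfl fun k _ => ?_
    congr 1
    rw [norm_mul, norm_div, Complex.norm_I, norm_mul, Complex.norm_ofNat, Complex.norm_real,
      Real.norm_of_nonneg hs.le, mul_pow, div_pow]
    have := hs.ne'
    field_simp
    ring
  have hAv : ∀ c : ℝ, Av p q s (s.re + s.im * c) =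
      ∑ k, ‖(p k + q k * (I / (2 * (s.im : ℂ)))) - q k * (I / (2 * (s.im : ℂ))) * uc c‖ ^ 2 :=
    fun c => Finset.sum_congr rfl fun k _ => by rw [affine_uc hs]
  refine log_mean (P := fun k => p k + q k * (I / (2 * (s.im : ℂ))))
    (R := fun k => q k * (I / (2 * (s.im : ℂ)))) (hA0.symm ▸ hA) ?_ fun c hc => ?_
  · refine Integrable.of_bound (hLm.comp (by fun_prop)).aestronglyMeasurable K
      (Filter.Eventually.of_forall fun c => ?_)
    rw [Real.norm_of_nonneg (hL0 _)]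
    exact hLK _
  · rw [← hAv] at hc ⊢
    rw [hA0]
    exact hL _ hc

end av

/-! ### the smooth law -/

section law

variable {lam l : ℝ}

theorem aux_dx {K d r x : ℝ} (hK : 0 < K) (hr : 0 ≤ r) (h : d ^ 2 ≤ 4 * K * r) :
    d * x ≤ r + K * x ^ 2 := by
  have h1 : (d * x) ^ 2 ≤ (r + K * x ^ 2) ^ 2 := by
    have h2 := mul_le_mul_of_nonneg_right h (sq_nonneg x)
    nlinarith [sq_nonneg (r - K * x ^ 2)]
  have h3 : 0 ≤ r + K * x ^ 2 := by positivity
  exact (le_abs_self _).trans (abs_le_of_sq_le_sq h1 h3)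

/-- `ρ(v) ≤ 2 ρ(a) + 2 K (v - a)²` -/
theorem rhoS_two (hl : 0 < l) (h : l < lam) (a v : ℝ) :
    rhoS lam l v ≤ 2 * rhoS lam l a + 2 * K2 lam l * (v - a) ^ 2 := by
  have h1 := (abs_le.1 (rhoS_taylor hl h a (v - a))).2
  rw [add_sub_cancel] at h1
  have h2 := aux_dx (x := v - a) (K2_pos hl h) (rhoS_nonneg hl h a) (rhoSd_sq_le hl h a)
  linarith

/-- the constant of `log_nuS0` -/
noncomputable def CL0 (lam l : ℝ) : ℝ :=
  8 + 4 * π + (1 + (2 * lam + 1) ^ 2) * (2 * π * (4 * K2 lam l + (2 * (lam - l))⁻¹) +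
      4 * K2 lam l * lam)

theorem CL0_nonneg (hl : 0 < l) (h : l < lam) : 0 ≤ CL0 lam l := by
  have h1 := (K2_pos hl h).le
  have h2 : 0 < lam - l := by linarith
  have h3 : 0 < lam := by linarith
  unfold CL0
  positivity

/-- the constant of `log_nuS` -/
noncomputable def CLg (lam l : ℝ) : ℝ := 3 * CL0 lam l

theorem CLg_nonneg (hl : 0 < l) (h : l < lam) : 0 ≤ CLg lam l :=
  mul_nonneg (by norm_num) (CL0_nonneg hl h)

theorem nuS_supp_integral (hl : 0 < l) (h : l < lam) (g : ℝ → ℝ) :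
    ∫ v, g v ∂(nuS lam l) = ∫ v in Icc (-lam) lam, rhoS lam l v * g v := by
  rw [integral_nuS hl h, muv]
  rfl

theorem nuS_line_integral (hl : 0 < l) (h : l < lam) (g : ℝ → ℝ) :
    ∫ v, g v ∂(nuS lam l) = ∫ v, rhoS lam l v * g v := by
  rw [nuS_supp_integral hl h, ← integral_indicator measurableSet_Icc]
  refine integral_congr_ae (Filter.Eventually.of_forall fun v => ?_)
  simp only
  by_cases hv : v ∈ Icc (-lam) lam
  · rw [indicator_of_mem hv]
  · rw [indicator_of_notMem hv, P365T2.H722.rhoS_eq_zero hl h, zero_mul]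
    by_contra hcon
    exact hv (abs_le.1 (not_le.1 hcon).le)

theorem integrable_tv (hs : 0 < s.im) : Integrable fun v => ‖tv s v‖ ^ 2 := by
  have h1 : Integrable fun v : ℝ => (1 + v ^ 2)⁻¹ := integrable_inv_one_add_sq
  have h2 := (h1.comp_mul_left' (inv_ne_zero hs.ne')).comp_sub_right s.re
  refine (h2.const_mul (s.im ^ 2)⁻¹).congr (Filter.Eventually.of_forall fun v => ?_)
  simp only
  rw [norm_tv_sq, ← mul_inv]
  congr 1
  have := hs.ne'
  field_simp
  ring

theorem integral_tv_ge {s : ℂ} (hs : 0 < s.im) :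
    s.im⁻¹ ≤ ∫ v in Icc (s.re - s.im) (s.re + s.im), ‖tv s v‖ ^ 2 := by
  have h1 : ∫ v in Icc (s.re - s.im) (s.re + s.im), (2 * s.im ^ 2)⁻¹ ≤
      ∫ v in Icc (s.re - s.im) (s.re + s.im), ‖tv s v‖ ^ 2 := by
    refine setIntegral_mono_on continuous_const.integrableOn_Icc (integrable_tv hs).integrableOn
      measurableSet_Icc fun v hv => ?_
    rw [norm_tv_sq]
    refine inv_anti₀ (by positivity) ?_
    have h2 : (v - s.re) ^ 2 ≤ s.im ^ 2 := by
      rw [← sq_abs]
      exact pow_le_pow_left₀ (abs_nonneg _) (abs_le.2 ⟨by linarith [hv.1], by linarith [hv.2]⟩) 2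
    linarith
  refine le_trans (le_of_eq ?_) h1
  rw [setIntegral_const, measureReal_def, Real.volume_Icc,
    ENNReal.toReal_ofReal (by linarith), smul_eq_mul]
  have := hs.ne'
  field_simp
  ring

theorem tv_dist (hs : 0 < s.im) (v : ℝ) : (v - s.re) ^ 2 * ‖tv s v‖ ^ 2 ≤ 1 := by
  rw [norm_tv_sq, ← div_eq_mul_inv, div_le_one (by positivity)]
  nlinarith [sq_nonneg s.im]

theorem tv_sq_le (hs : 0 < s.im) (v : ℝ) : ‖tv s v‖ ^ 2 ≤ (s.im ^ 2)⁻¹ := by
  rw [norm_tv_sq]
  exact inv_anti₀ (by positivity) (by nlinarith [sq_nonneg (v - s.re)])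

theorem measurable_tv_sq (hs : 0 < s.im) : Measurable fun v => ‖tv s v‖ ^ 2 :=
  ((continuous_tv hs).norm.pow 2).measurable

theorem integrable_rhoS_tv (hl : 0 < l) (h : l < lam) (hs : 0 < s.im) :
    Integrable fun v => rhoS lam l v * ‖tv s v‖ ^ 2 := by
  refine (integrable_tv hs).bdd_mul (c := (2 * (lam - l))⁻¹)
    (measurable_rhoS lam l).aestronglyMeasurable (Filter.Eventually.of_forall fun v => ?_)
  rw [Real.norm_of_nonneg (rhoS_nonneg hl h v)]
  exact rhoS_le hl h v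

/-- `ρ(a)/B ≤ 2 J + C` -/
theorem rho_div_le (hl : 0 < l) (h : l < lam) (hs : 0 < s.im) :
    rhoS lam l s.re / s.im ≤
      2 * ∫ v, ‖tv s v‖ ^ 2 ∂(nuS lam l) + (4 * K2 lam l + (2 * (lam - l))⁻¹) := by
  have hK := (K2_pos hl h).le
  have hlam : 0 < (2 * (lam - l))⁻¹ := by
    have : 0 < lam - l := by linarith
    positivity
  have hJ : 0 ≤ ∫ v, ‖tv s v‖ ^ 2 ∂(nuS lam l) := integral_nonneg fun v => by positivity
  rcases le_total s.im 1 with h1 | h1
  · have h2 : rhoS lam l s.re / s.im ≤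
        ∫ v in Icc (s.re - s.im) (s.re + s.im), rhoS lam l s.re * ‖tv s v‖ ^ 2 := by
      rw [integral_const_mul, div_eq_mul_inv]
      exact mul_le_mul_of_nonneg_left (integral_tv_ge hs) (rhoS_nonneg hl h _)
    have h3 : ∫ v in Icc (s.re - s.im) (s.re + s.im), rhoS lam l s.re * ‖tv s v‖ ^ 2 ≤
        ∫ v in Icc (s.re - s.im) (s.re + s.im),
          (2 * (rhoS lam l v * ‖tv s v‖ ^ 2) + 2 * K2 lam l) := by
      refine setIntegral_mono_on ((integrable_tv hs).const_mul _).integrableOn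
        (((integrable_rhoS_tv hl h hs).const_mul 2).integrableOn.add
          continuous_const.integrableOn_Icc) measurableSet_Icc fun v _ => ?_
      have h4 := mul_le_mul_of_nonneg_right (rhoS_two hl h v s.re) (sq_nonneg ‖tv s v‖)
      have h5 := tv_dist hs v
      have h6 := mul_le_mul_of_nonneg_left h5 (mul_nonneg zero_le_two hK)
      nlinarith
    have h7 : ∫ v in Icc (s.re - s.im) (s.re + s.im),
          (2 * (rhoS lam l v * ‖tv s v‖ ^ 2) + 2 * K2 lam l) =
        2 * (∫ v in Icc (s.re - s.im) (s.re + s.im), rhoS lam l v * ‖tv s v‖ ^ 2) +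
          2 * s.im * (2 * K2 lam l) := by
      rw [integral_add ((integrable_rhoS_tv hl h hs).const_mul 2).integrableOn
        continuous_const.integrableOn_Icc, integral_const_mul, setIntegral_const, measureReal_def,
        Real.volume_Icc, ENNReal.toReal_ofReal (by linarith), smul_eq_mul]
      ring
    have h8 : ∫ v in Icc (s.re - s.im) (s.re + s.im), rhoS lam l v * ‖tv s v‖ ^ 2 ≤
        ∫ v, ‖tv s v‖ ^ 2 ∂(nuS lam l) := by
      rw [nuS_line_integral hl h]
      exact setIntegral_le_integral (integrable_rhoS_tv hl h hs)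
        (Filter.Eventually.of_forall fun v => mul_nonneg (rhoS_nonneg hl h v) (sq_nonneg _))
    have h9 : s.im * K2 lam l ≤ 1 * K2 lam l := mul_le_mul_of_nonneg_right h1 hK
    linarith
  · have h2 : rhoS lam l s.re / s.im ≤ rhoS lam l s.re :=
      div_le_self (rhoS_nonneg hl h _) h1
    have h3 := rhoS_le hl h s.re
    linarith

theorem far_tv (hl : 0 < l) (h : l < lam) (hs : 0 < s.im) (hfar : 2 * lam + 1 ≤ ‖s‖) {v : ℝ}
    (hv : |v| ≤ lam) : ‖tv s v‖ ^ 2 ≤ 8 / (1 + ‖s‖ ^ 2) := by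
  have h1 : ‖s‖ - |v| ≤ ‖(v : ℂ) - s‖ := by
    have := norm_sub_norm_le s (v : ℂ)
    rw [Complex.norm_real, Real.norm_eq_abs, norm_sub_rev] at this
    exact this
  have h2 : ‖s‖ / 2 ≤ ‖(v : ℂ) - s‖ := by linarith
  have hs1 : 1 ≤ ‖s‖ := by linarith
  rw [tv, norm_inv, inv_pow, ← one_div, div_le_div_iff₀ (by nlinarith) (by positivity)]
  nlinarith

section main

variable {κ : Type*} [Fintype κ]

/-- **(LOG), general form** -/
theorem log_nuS0 (hl : 0 < l) (h : l < lam) (hs : 0 < s.im) {p q : κ → ℂ} (hA : 0 < Ac p q s)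
    {L : ℝ → ℝ} {K c0 : ℝ} (hc0 : 0 ≤ c0) (hLm : Measurable L) (hL0 : ∀ v, 0 ≤ L v)
    (hLK : ∀ v, L v ≤ K)
    (hL : ∀ v, 0 < Av p q s v → L v ≤ c0 + Real.log (Ac p q s / Av p q s v)) :
    ∫ v, ‖tv s v‖ ^ 2 * L v ∂(nuS lam l) ≤
      CL0 lam l * (c0 + Real.log 2) * ∫ v, ‖tv s v‖ ^ 2 ∂(nuS lam l) +
        CL0 lam l * (c0 + Real.log 2 + K) / (1 + ‖s‖ ^ 2) := by
  have hK2 := (K2_pos hl h).le
  have hlam0 : 0 < lam := by linarith
  have hlam : 0 < (2 * (lam - l))⁻¹ := by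
    have : 0 < lam - l := by linarith
    positivity
  have hJ : 0 ≤ ∫ v, ‖tv s v‖ ^ 2 ∂(nuS lam l) := integral_nonneg fun v => by positivity
  have hK0 : 0 ≤ K := (hL0 0).trans (hLK 0)
  have hm : 0 ≤ c0 + Real.log 2 := add_nonneg hc0 (Real.log_nonneg (by norm_num))
  have hC8 : 8 ≤ CL0 lam l := by
    unfold CL0
    have : 0 ≤ 4 * π + (1 + (2 * lam + 1) ^ 2) * (2 * π * (4 * K2 lam l + (2 * (lam - l))⁻¹) +
      4 * K2 lam l * lam) := by positivity
    linarith
  have hCp : 4 * π ≤ CL0 lam l := by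
    unfold CL0
    have : 0 ≤ (1 + (2 * lam + 1) ^ 2) * (2 * π * (4 * K2 lam l + (2 * (lam - l))⁻¹) +
      4 * K2 lam l * lam) := by positivity
    linarith
  have hC0 : 0 ≤ CL0 lam l := CL0_nonneg hl h
  rcases le_total (2 * lam + 1) ‖s‖ with hfar | hnear
  · haveI := isProbabilityMeasure_nuS hl h
    have h1 : ∫ v, ‖tv s v‖ ^ 2 * L v ∂(nuS lam l) ≤ ∫ v, 8 / (1 + ‖s‖ ^ 2) * K ∂(nuS lam l) := by
      rw [nuS_supp_integral hl h, nuS_supp_integral hl h]
      refine setIntegral_mono_on ?_ ?_ measurableSet_Icc fun v hv => ?_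
      · refine (Integrable.bdd_mul (c := (2 * (lam - l))⁻¹) ?_
          (measurable_rhoS lam l).aestronglyMeasurable (Filter.Eventually.of_forall fun v => ?_))
        · refine (integrable_tv hs).integrableOn.mul_bdd (c := K) hLm.aestronglyMeasurable
            (Filter.Eventually.of_forall fun v => ?_)
          rw [Real.norm_of_nonneg (hL0 v)]
          exact hLK v
        · rw [Real.norm_of_nonneg (rhoS_nonneg hl h v)]
          exact rhoS_le hl h v
      · refine Integrable.bdd_mul (c := (2 * (lam - l))⁻¹) (continuous_const.integrableOn_Icc)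
          (measurable_rhoS lam l).aestronglyMeasurable (Filter.Eventually.of_forall fun v => ?_)
        rw [Real.norm_of_nonneg (rhoS_nonneg hl h v)]
        exact rhoS_le hl h v
      · refine mul_le_mul_of_nonneg_left ?_ (rhoS_nonneg hl h v)
        exact mul_le_mul (far_tv hl h hs hfar (abs_le.2 hv)) (hLK v) (hL0 v) (by positivity)
    rw [integral_const, probReal_univ, one_smul] at h1
    refine h1.trans ?_
    have h2 : 8 / (1 + ‖s‖ ^ 2) * K ≤ CL0 lam l * (c0 + Real.log 2 + K) / (1 + ‖s‖ ^ 2) := by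
      rw [div_mul_eq_mul_div]
      refine div_le_div_of_nonneg_right ?_ (by positivity)
      exact mul_le_mul hC8 (by linarith) hK0 hC0
    have h3 : 0 ≤ CL0 lam l * (c0 + Real.log 2) * ∫ v, ‖tv s v‖ ^ 2 ∂(nuS lam l) := by positivity
    linarith
  · have hint : Integrable fun v => ‖tv s v‖ ^ 2 * L v := by
      refine (integrable_tv hs).mul_bdd (c := K) hLm.aestronglyMeasurable
        (Filter.Eventually.of_forall fun v => ?_)
      rw [Real.norm_of_nonneg (hL0 v)]
      exact hLK v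
    have h1 : ∫ v, ‖tv s v‖ ^ 2 * L v ∂(nuS lam l) ≤
        ∫ v in Icc (-lam) lam, (2 * rhoS lam l s.re * (‖tv s v‖ ^ 2 * L v) + 2 * K2 lam l * K) := by
      rw [nuS_supp_integral hl h]
      refine setIntegral_mono_on ?_ ?_ measurableSet_Icc fun v hv => ?_
      · refine Integrable.bdd_mul (c := (2 * (lam - l))⁻¹) hint.integrableOn
          (measurable_rhoS lam l).aestronglyMeasurable (Filter.Eventually.of_forall fun v => ?_)
        rw [Real.norm_of_nonneg (rhoS_nonneg hl h v)]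
        exact rhoS_le hl h v
      · exact (hint.const_mul _).integrableOn.add continuous_const.integrableOn_Icc
      · have h2 := rhoS_two hl h s.re v
        have h3 : 0 ≤ ‖tv s v‖ ^ 2 * L v := mul_nonneg (sq_nonneg _) (hL0 v)
        have h4 := mul_le_mul_of_nonneg_right h2 h3
        have h5 : (v - s.re) ^ 2 * (‖tv s v‖ ^ 2 * L v) ≤ K := by
          rw [← mul_assoc]
          calc (v - s.re) ^ 2 * ‖tv s v‖ ^ 2 * L v ≤ 1 * L v :=
                mul_le_mul_of_nonneg_right (tv_dist hs v) (hL0 v)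
            _ ≤ K := by rw [one_mul]; exact hLK v
        have h6 := mul_le_mul_of_nonneg_left h5 (mul_nonneg zero_le_two hK2)
        nlinarith
    have h7 : ∫ v in Icc (-lam) lam, (2 * rhoS lam l s.re * (‖tv s v‖ ^ 2 * L v) +
          2 * K2 lam l * K) =
        2 * rhoS lam l s.re * (∫ v in Icc (-lam) lam, ‖tv s v‖ ^ 2 * L v) +
          2 * lam * (2 * K2 lam l * K) := by
      rw [integral_add (hint.const_mul _).integrableOn
        continuous_const.integrableOn_Icc, integral_const_mul, setIntegral_const, measureReal_def,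
        Real.volume_Icc, ENNReal.toReal_ofReal (by linarith), smul_eq_mul]
      ring
    have h8 : ∫ v in Icc (-lam) lam, ‖tv s v‖ ^ 2 * L v ≤ ∫ v, ‖tv s v‖ ^ 2 * L v :=
      setIntegral_le_integral hint
        (Filter.Eventually.of_forall fun v => mul_nonneg (sq_nonneg _) (hL0 v))
    have h9 := log_line hs hA hLm hL0 hLK hL
    have h10 := mul_le_mul_of_nonneg_left (h8.trans h9)
      (mul_nonneg zero_le_two (rhoS_nonneg hl h s.re))
    have h11 := mul_le_mul_of_nonneg_left (rho_div_le hl h hs)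
      (mul_nonneg (mul_nonneg zero_le_two Real.pi_pos.le) hm)
    have e1 : 2 * rhoS lam l s.re * (π / s.im * (c0 + Real.log 2)) =
        2 * π * (c0 + Real.log 2) * (rhoS lam l s.re / s.im) := by ring
    rw [e1] at h10
    have hD : 0 ≤ (c0 + Real.log 2) * (2 * π * (4 * K2 lam l + (2 * (lam - l))⁻¹)) +
        4 * K2 lam l * lam * K := by positivity
    have hE : (c0 + Real.log 2) * (2 * π * (4 * K2 lam l + (2 * (lam - l))⁻¹)) +
        4 * K2 lam l * lam * K ≤ CL0 lam l * (c0 + Real.log 2 + K) / (1 + ‖s‖ ^ 2) := by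
      rw [le_div_iff₀ (by positivity)]
      have hss : 1 + ‖s‖ ^ 2 ≤ 1 + (2 * lam + 1) ^ 2 := by
        have := pow_le_pow_left₀ (norm_nonneg s) hnear 2
        linarith
      have hF : (c0 + Real.log 2) * (2 * π * (4 * K2 lam l + (2 * (lam - l))⁻¹)) +
        4 * K2 lam l * lam * K ≤ (2 * π * (4 * K2 lam l + (2 * (lam - l))⁻¹) +
          4 * K2 lam l * lam) * (c0 + Real.log 2 + K) := by
        have a1 : 0 ≤ 2 * π * (4 * K2 lam l + (2 * (lam - l))⁻¹) := by positivity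
        have a2 : 0 ≤ 4 * K2 lam l * lam := by positivity
        nlinarith [mul_nonneg a1 hK0, mul_nonneg a2 hm]
      have hG : (1 + (2 * lam + 1) ^ 2) * (2 * π * (4 * K2 lam l + (2 * (lam - l))⁻¹) +
          4 * K2 lam l * lam) ≤ CL0 lam l := by
        unfold CL0
        have := Real.pi_pos
        linarith
      calc _ ≤ ((2 * π * (4 * K2 lam l + (2 * (lam - l))⁻¹) +
          4 * K2 lam l * lam) * (c0 + Real.log 2 + K)) * (1 + (2 * lam + 1) ^ 2) :=
            mul_le_mul hF hss (by positivity) (by positivity)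
        _ = ((1 + (2 * lam + 1) ^ 2) * (2 * π * (4 * K2 lam l + (2 * (lam - l))⁻¹) +
          4 * K2 lam l * lam)) * (c0 + Real.log 2 + K) := by ring
        _ ≤ _ := mul_le_mul_of_nonneg_right hG (by linarith)
    have hH : 4 * π * (c0 + Real.log 2) * ∫ v, ‖tv s v‖ ^ 2 ∂(nuS lam l) ≤
        CL0 lam l * (c0 + Real.log 2) * ∫ v, ‖tv s v‖ ^ 2 ∂(nuS lam l) :=
      mul_le_mul_of_nonneg_right (mul_le_mul_of_nonneg_right hCp hm) hJ
    nlinarith

/-- **(LOG)** -/
theorem log_nuS (hl : 0 < l) (h : l < lam) (hs : 0 < s.im) {p q : κ → ℂ} (hA : 0 < Ac p q s)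
    {L : ℝ → ℝ} {K : ℝ} (hK : 1 ≤ K) (hLm : Measurable L) (hL0 : ∀ v, 0 ≤ L v)
    (hLK : ∀ v, L v ≤ K)
    (hL : ∀ v, 0 < Av p q s v → L v ≤ Real.log 2 + Real.log (Ac p q s / Av p q s v)) :
    ∫ v, ‖tv s v‖ ^ 2 * L v ∂(nuS lam l) ≤
      CLg lam l * ∫ v, ‖tv s v‖ ^ 2 ∂(nuS lam l) + CLg lam l * K / (1 + ‖s‖ ^ 2) := by
  have h0 := log_nuS0 hl h hs hA (Real.log_nonneg (by norm_num)) hLm hL0 hLK hL
  have hJ : 0 ≤ ∫ v, ‖tv s v‖ ^ 2 ∂(nuS lam l) := integral_nonneg fun v => by positivity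
  have h2 : Real.log 2 < 0.6931471808 := Real.log_two_lt_d9
  have hC0 : 0 ≤ CL0 lam l := CL0_nonneg hl h
  refine h0.trans (add_le_add ?_ ?_)
  · refine mul_le_mul_of_nonneg_right ?_ hJ
    unfold CLg
    nlinarith
  · refine div_le_div_of_nonneg_right ?_ (by positivity)
    unfold CLg
    nlinarith

theorem Av_le (hs : 0 < s.im) (p q : κ → ℂ) (v : ℝ) : Av p q s v ≤ 2 * Ac p q s := by
  have hv : s.re + s.im * ((v - s.re) / s.im) = v := by
    rw [mul_div_cancel₀ _ hs.ne']; ring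
  unfold Av Ac
  rw [Finset.mul_sum]
  refine Finset.sum_le_sum fun k _ => ?_
  have h1 := affine_uc hs (p k) (q k) ((v - s.re) / s.im)
  rw [hv] at h1
  have h2 : ‖uc ((v - s.re) / s.im)‖ = 1 := by
    unfold uc
    have hd : (((v - s.re) / s.im : ℝ) : ℂ) - I ≠ 0 := cau_sub_ne (by simp) _
    rw [norm_div, div_eq_one_iff_eq (norm_ne_zero_iff.2 hd)]
    rw [← sq_eq_sq₀ (norm_nonneg _) (norm_nonneg _), ← Complex.normSq_eq_norm_sq,
      ← Complex.normSq_eq_norm_sq, Complex.normSq_apply, Complex.normSq_apply]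
    simp
  have h3 : ‖q k * (I / (2 * (s.im : ℂ))) * uc ((v - s.re) / s.im)‖ ^ 2 =
      ‖q k‖ ^ 2 / (4 * s.im ^ 2) := by
    rw [norm_mul, h2, mul_one, norm_mul, norm_div, Complex.norm_I, norm_mul, Complex.norm_ofNat,
      Complex.norm_real, Real.norm_of_nonneg hs.le, mul_pow, div_pow]
    have := hs.ne'
    field_simp
    ring
  rw [h1, ← h3]
  have h4 := norm_sub_le (p k + q k * (I / (2 * (s.im : ℂ))))
    (q k * (I / (2 * (s.im : ℂ))) * uc ((v - s.re) / s.im))
  have h5 := pow_le_pow_left₀ (norm_nonneg _) h4 2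
  nlinarith [sq_nonneg (‖p k + q k * (I / (2 * (s.im : ℂ)))‖ -
    ‖q k * (I / (2 * (s.im : ℂ))) * uc ((v - s.re) / s.im)‖)]

theorem Ac_nonneg (p q : κ → ℂ) (s : ℂ) : 0 ≤ Ac p q s :=
  Finset.sum_nonneg fun k _ => by positivity

theorem Av_nonneg (p q : κ → ℂ) (s : ℂ) (v : ℝ) : 0 ≤ Av p q s v :=
  Finset.sum_nonneg fun k _ => by positivity

/-- **(LOG)** with the positive part of the logarithm, no condition on `Ac` -/
theorem log_nuS1 (hl : 0 < l) (h : l < lam) (hs : 0 < s.im) {p q : κ → ℂ}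
    {L : ℝ → ℝ} {K c1 : ℝ} (hc1 : 0 ≤ c1) (hLm : Measurable L) (hL0 : ∀ v, 0 ≤ L v)
    (hLK : ∀ v, L v ≤ K)
    (hL : ∀ v, (Av p q s v ≠ 0 ∨ Ac p q s = 0) →
      L v ≤ c1 + max 0 (Real.log (Ac p q s / Av p q s v))) :
    ∫ v, ‖tv s v‖ ^ 2 * L v ∂(nuS lam l) ≤
      CL0 lam l * (c1 + 2 * Real.log 2) * ∫ v, ‖tv s v‖ ^ 2 ∂(nuS lam l) +
        CL0 lam l * (c1 + 2 * Real.log 2 + K) / (1 + ‖s‖ ^ 2) := by
  have hlog2 : 0 < Real.log 2 := Real.log_pos (by norm_num)
  have hC0 : 0 ≤ CL0 lam l := CL0_nonneg hl h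
  have hK0 : 0 ≤ K := (hL0 0).trans (hLK 0)
  have hJ : 0 ≤ ∫ v, ‖tv s v‖ ^ 2 ∂(nuS lam l) := integral_nonneg fun v => by positivity
  rcases (Ac_nonneg p q s).lt_or_eq with hA | hA
  · have h0 := log_nuS0 hl h hs hA (c0 := c1 + Real.log 2) (by positivity) hLm hL0 hLK
      fun v hv => by
        have h1 := hL v (Or.inl hv.ne')
        have h2 : -Real.log 2 ≤ Real.log (Ac p q s / Av p q s v) := by
          rw [← Real.log_inv]
          refine Real.log_le_log (by norm_num) ?_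
          rw [le_div_iff₀ hv]
          linarith [Av_le hs p q v]
        have h3 : max 0 (Real.log (Ac p q s / Av p q s v)) ≤
            Real.log 2 + Real.log (Ac p q s / Av p q s v) :=
          max_le (by linarith) (by linarith)
        linarith
    have e : c1 + Real.log 2 + Real.log 2 = c1 + 2 * Real.log 2 := by ring
    rwa [e] at h0
  · have h1 : ∀ v, L v ≤ c1 := fun v => by
      have h2 := hL v (Or.inr hA.symm)
      rw [← hA, zero_div, Real.log_zero, max_self, add_zero] at h2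
      exact h2
    haveI := isProbabilityMeasure_nuS hl h
    have hti : Integrable (fun v => ‖tv s v‖ ^ 2) (nuS lam l) :=
      Integrable.of_bound (measurable_tv_sq hs).aestronglyMeasurable (s.im ^ 2)⁻¹
        (Filter.Eventually.of_forall fun v => by
          rw [Real.norm_of_nonneg (sq_nonneg _)]; exact tv_sq_le hs v)
    have h2 : ∫ v, ‖tv s v‖ ^ 2 * L v ∂(nuS lam l) ≤
        ∫ v, ‖tv s v‖ ^ 2 * c1 ∂(nuS lam l) := by
      refine integral_mono (hti.mul_bdd (c := c1) hLm.aestronglyMeasurable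
        (Filter.Eventually.of_forall fun v => ?_)) (hti.mul_const _) fun v =>
          mul_le_mul_of_nonneg_left (h1 v) (sq_nonneg _)
      rw [Real.norm_of_nonneg (hL0 v)]
      exact h1 v
    rw [integral_mul_const] at h2
    have hC8 : 1 ≤ CL0 lam l := by
      unfold CL0
      have h3 := (K2_pos hl h).le
      have h4 : 0 < (2 * (lam - l))⁻¹ := by
        have : 0 < lam - l := by linarith
        positivity
      have h5 : 0 < lam := by linarith
      have : 0 ≤ 4 * π + (1 + (2 * lam + 1) ^ 2) * (2 * π * (4 * K2 lam l + (2 * (lam - l))⁻¹) +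
        4 * K2 lam l * lam) := by positivity
      linarith
    have h6 : (∫ v, ‖tv s v‖ ^ 2 ∂(nuS lam l)) * c1 ≤
        CL0 lam l * (c1 + 2 * Real.log 2) * ∫ v, ‖tv s v‖ ^ 2 ∂(nuS lam l) := by
      rw [mul_comm]
      refine mul_le_mul_of_nonneg_right ?_ hJ
      nlinarith
    have h7 : 0 ≤ CL0 lam l * (c1 + 2 * Real.log 2 + K) / (1 + ‖s‖ ^ 2) := by positivity
    linarith

/-- `A` with weights -/
noncomputable def Avw (w : κ → ℝ) (p q : κ → ℂ) (s : ℂ) (v : ℝ) : ℝ :=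
  ∑ k, w k * ‖p k + q k * tv s v‖ ^ 2

/-- mean of `A` with weights -/
noncomputable def Acw (w : κ → ℝ) (p q : κ → ℂ) (s : ℂ) : ℝ :=
  ∑ k, w k * (‖p k + q k * (I / (2 * (s.im : ℂ)))‖ ^ 2 + ‖q k‖ ^ 2 / (4 * s.im ^ 2))

theorem Avw_eq {w : κ → ℝ} (hw : ∀ k, 0 ≤ w k) (p q : κ → ℂ) (s : ℂ) (v : ℝ) :
    Avw w p q s v = Av (fun k => (Real.sqrt (w k) : ℂ) * p k)
      (fun k => (Real.sqrt (w k) : ℂ) * q k) s v := by
  refine Finset.sum_congr rfl fun k _ => ?_
  have e : (Real.sqrt (w k) : ℂ) * p k + (Real.sqrt (w k) : ℂ) * q k * tv s v =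
      (Real.sqrt (w k) : ℂ) * (p k + q k * tv s v) := by ring
  rw [e, norm_mul, mul_pow, Complex.norm_real, Real.norm_of_nonneg (Real.sqrt_nonneg _),
    Real.sq_sqrt (hw k)]

theorem Acw_eq {w : κ → ℝ} (hw : ∀ k, 0 ≤ w k) (p q : κ → ℂ) (s : ℂ) :
    Acw w p q s = Ac (fun k => (Real.sqrt (w k) : ℂ) * p k)
      (fun k => (Real.sqrt (w k) : ℂ) * q k) s := by
  refine Finset.sum_congr rfl fun k _ => ?_
  have e : (Real.sqrt (w k) : ℂ) * p k + (Real.sqrt (w k) : ℂ) * q k * (I / (2 * (s.im : ℂ))) =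
      (Real.sqrt (w k) : ℂ) * (p k + q k * (I / (2 * (s.im : ℂ)))) := by ring
  rw [e, norm_mul, norm_mul, mul_pow, mul_pow, Complex.norm_real,
    Real.norm_of_nonneg (Real.sqrt_nonneg _), Real.sq_sqrt (hw k)]
  ring

/-- **(LOG)** with weights -/
theorem log_nuSw (hl : 0 < l) (h : l < lam) (hs : 0 < s.im) {w : κ → ℝ} (hw : ∀ k, 0 ≤ w k)
    {p q : κ → ℂ} {L : ℝ → ℝ} {K c1 : ℝ} (hc1 : 0 ≤ c1) (hLm : Measurable L)
    (hL0 : ∀ v, 0 ≤ L v) (hLK : ∀ v, L v ≤ K)
    (hL : ∀ v, (Avw w p q s v ≠ 0 ∨ Acw w p q s = 0) →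
      L v ≤ c1 + max 0 (Real.log (Acw w p q s / Avw w p q s v))) :
    ∫ v, ‖tv s v‖ ^ 2 * L v ∂(nuS lam l) ≤
      CL0 lam l * (c1 + 2 * Real.log 2) * ∫ v, ‖tv s v‖ ^ 2 ∂(nuS lam l) +
        CL0 lam l * (c1 + 2 * Real.log 2 + K) / (1 + ‖s‖ ^ 2) := by
  refine log_nuS1 hl h hs (p := fun k => (Real.sqrt (w k) : ℂ) * p k)
    (q := fun k => (Real.sqrt (w k) : ℂ) * q k) hc1 hLm hL0 hLK fun v hv => ?_
  rw [← Acw_eq hw, ← Avw_eq hw] at hv ⊢
  exact hL v hv

end main

end law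

end P365T2.H218
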