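import Vale.Agent.P365.T2.C1844
import Vale.Agent.P365.T2.Log218
import Vale.Agent.P365.T2.H963.ContUps
import Vale.Agent.P365.T2.CollYf863

/-!
# P365-T2: the one-site inequality of the centre route (helper844)
-/

set_option linter.all false

namespace P365T2.H844

open Finset P365L P365O P365T1 Complex MeasureTheory
open Vale.Agent.P365.T2.H789 Vale.Agent.P365.T2.H417
open scoped RealInnerProductSpace ComplexConjugate
open P365T2.H37 (wk HH HD rho)

section Site

variable {ι : Type*} [Fintype ι] [DecidableEq ι] {A : Matrix ι ι ℝ} {W : ι → ℂ}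

/-! ### invariance along the line of the potential of `z` -/

theorem rez_im_all (W : ι → ℂ) (z : ι) (u : ℝ) (x : ι) : (rez W z u x).im = (W x).im := by
  by_cases h : x = z
  · subst h; rw [rez_at_im]
  · rw [rez_of_ne W h]

theorem gw_rez (hA : A.IsSymm) (hW : ∀ x, (W x).im < 0) (z : ι) (u : ℝ) (a : ι) :
    gw A (rez W z u) z a = gw A W z a :=
  gw_upd hA hW (by rw [rez_im]; exact hW z) a

theorem Gi_rez (hA : A.IsSymm) (hW : ∀ x, (W x).im < 0) (z : ι) (u : ℝ) (a b : ι) :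
    Gi A (rez W z u) z a b = Gi A W z a b :=
  Gi_upd hA hW (by rw [rez_im]; exact hW z) a b

theorem qz_rez (hA : A.IsSymm) (hW : ∀ x, (W x).im < 0) (z : ι) (u : ℝ) :
    qz A (rez W z u) z = qz A W z := by
  unfold qz Sf
  simp only [rez_im_all, gw_rez hA hW]

theorem Gc_rez (hA : A.IsSymm) (hW : ∀ x, (W x).im < 0) (z : ι) (u : ℝ) (a b : ι) :
    Gc A (rez W z u) z a b = Gc A W z a b := by
  unfold Gc
  rw [Gi_rez hA hW, gw_rez hA hW, gw_rez hA hW, qz_rez hA hW]

theorem Tc_rez (hA : A.IsSymm) (hW : ∀ x, (W x).im < 0) (z : ι) (u : ℝ) (a b : ι) :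
    Tc A (rez W z u) z a b = Tc A W z a b := by
  unfold Tc
  rw [Gc_rez hA hW, gw_rez hA hW, gw_rez hA hW, qz_rez hA hW, rez_im_all, rez_im_all]

theorem Ahc_rez (hA : A.IsSymm) (hW : ∀ x, (W x).im < 0) (c : ι → ℝ) (z : ι) (u : ℝ) (x : ι) :
    Ahc A (rez W z u) c z x = Ahc A W c z x := by
  unfold Ahc
  simp only [Gc_rez hA hW, rez_im_all]

theorem azc_rez (hA : A.IsSymm) (hW : ∀ x, (W x).im < 0) (z : ι) (u : ℝ) (x : ι) :
    azc A (rez W z u) z x = azc A W z x := by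
  unfold azc
  rw [gw_rez hA hW, qz_rez hA hW, rez_im_all]

theorem Rzc_rez (hA : A.IsSymm) (hW : ∀ x, (W x).im < 0) (c : ι → ℝ) (z : ι) (u : ℝ) :
    Rzc A (rez W z u) c z = Rzc A W c z := by
  unfold Rzc
  simp only [gw_rez hA hW, rez_im_all, qz_rez hA hW]

theorem kap_rez (hA : A.IsSymm) (hW : ∀ x, (W x).im < 0) (c : ι → ℝ) (z : ι) (u : ℝ) (x : ι) :
    kap A (rez W z u) c z x = kap A W c z x := by
  unfold kap
  simp only [gw_rez hA hW, rez_im_all, Gc_rez hA hW]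

theorem Mc_rez (hA : A.IsSymm) (hW : ∀ x, (W x).im < 0) (z : ι) (u : ℝ) (x : ι) :
    Mc A (rez W z u) z x = Mc A W z x := by
  unfold Mc
  simp only [Tc_rez hA hW]

/-! ### the circles of the entropy -/

section Ups

variable {E : Type*} [NormedAddCommGroup E] [InnerProductSpace ℝ E] {Φ : ι → E}

/-- the weights of scale `k` seen from `x` -/
noncomputable def cw (Φ : ι → E) (J k : ℕ) (x : ι) : ι → ℝ := fun b => wk J k (tt Φ x b)

theorem cw_nonneg (J k : ℕ) (x b : ι) : 0 ≤ cw Φ J k x b := P365T2.H37.wk_nonneg (tt_nonneg x b)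

theorem cen_ups (hA : A.IsSymm) (hW : ∀ x, (W x).im < 0) (J k : ℕ) (z x : ι) :
    P365T2.C37.Cen (Ahc A W (cw Φ J k x) z x) (rho k * azc A W z x)
      (Rzc A W (cw Φ J k x) z / rho k) (rho k * Mc A W z x) (An A W Φ J k x)
      (rho k * pr (TT A W) x) := by
  have hr := P365T2.H37.rho_pos k
  have hc := cw_nonneg (Φ := Φ) J k x
  have e : rho k * azc A W z x * (Rzc A W (cw Φ J k x) z / rho k) =
      azc A W z x * Rzc A W (cw Φ J k x) z := by
    field_simp
  refine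
  { hAh := Ahc_nonneg hW hc z x
    ha := mul_nonneg hr.le (azc_nonneg hA hW z x)
    hR := div_nonneg (Rzc_nonneg hA hW hc z) hr.le
    haM := mul_le_mul_of_nonneg_left (azc_le_Mc hA hW z x) hr.le
    hA := sum_nonneg fun b _ => mul_nonneg (hc b) (TT_nonneg hW x b)
    hM := mul_pos hr (pr_TT_pos hA hW x)
    hA2 := ?_
    hM2 := ?_ }
  · rw [e, ← sum_Tc]
    exact dev_sq_le hA hW hc z x
  · rw [← mul_sub, abs_mul, abs_of_pos hr]
    exact mul_le_mul_of_nonneg_left (abs_pr_sub_le hA hW z x) hr.le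

theorem ur_eq_div (hA : A.IsSymm) (hW : ∀ x, (W x).im < 0) (J k : ℕ) (x : ι) :
    An A W Φ J k x / (rho k * pr (TT A W) x) = ur Φ (TT A W) J k x := by
  rw [An_eq hA hW]
  have := (P365T2.H37.rho_pos k).ne'
  have := (pr_TT_pos hA hW x).ne'
  field_simp

/-- value at the centre of the circle of `u_{x,k}` -/
noncomputable def u0c (A : Matrix ι ι ℝ) (W : ι → ℂ) (Φ : ι → E) (J k : ℕ) (z x : ι) : ℝ :=
  Ac A W Φ J k z x / (rho k * Mc A W z x)

theorem Ac_eq (J k : ℕ) (z x : ι) :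
    Ac A W Φ J k z x = Ahc A W (cw Φ J k x) z x + azc A W z x * Rzc A W (cw Φ J k x) z :=
  sum_Tc _ z x

theorem Ac_eq' (J k : ℕ) (z x : ι) :
    Ac A W Φ J k z x = Ahc A W (cw Φ J k x) z x +
      rho k * azc A W z x * (Rzc A W (cw Φ J k x) z / rho k) := by
  have hr := (P365T2.H37.rho_pos k).ne'
  rw [Ac_eq]
  congr 1
  field_simp

/-- `CX = - Dt - log(u0+ε) (A - Ac) + (u0 - ε log ((u0+ε)/ε)) rho (pr - Mc)` -/
theorem CX_eq (hA : A.IsSymm) (hW : ∀ x, (W x).im < 0) {ε : ℝ} (J k : ℕ) (z x : ι)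
    (hMc : 0 < Mc A W z x) (hu : 0 < ur Φ (TT A W) J k x + ε)
    (hu0 : 0 < u0c A W Φ J k z x + ε) :
    CX A W Φ ε J k z x =
      -P365T2.C37.Dt ε (ur Φ (TT A W) J k x) (u0c A W Φ J k z x) (rho k * pr (TT A W) x)
          (rho k * Mc A W z x) -
        Real.log (u0c A W Φ J k z x + ε) * (An A W Φ J k x - Ac A W Φ J k z x) +
        (u0c A W Φ J k z x - ε * Real.log (u0c A W Φ J k z x + ε) + ε * Real.log ε) *
          (rho k * (pr (TT A W) x - Mc A W z x)) := by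
  have hr := (P365T2.H37.rho_pos k)
  have h1 : An A W Φ J k x = rho k * pr (TT A W) x * ur Φ (TT A W) J k x := by
    rw [An_eq hA hW]; ring
  have h2 : Ac A W Φ J k z x = rho k * Mc A W z x * u0c A W Φ J k z x := by
    unfold u0c
    field_simp
  have hl : Real.log ((ur Φ (TT A W) J k x + ε) / (u0c A W Φ J k z x + ε)) =
      Real.log (ur Φ (TT A W) J k x + ε) - Real.log (u0c A W Φ J k z x + ε) :=
    Real.log_div hu.ne' hu0.ne'
  unfold CX P365T2.C37.Dt Gg
  rw [hl, h1, h2]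
  ring

end Ups

end Site

end P365T2.H844
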