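import Vale.Agent.P365.T2.C2844

/-!
# P365-T2: the one-site inequality of the centre route, pointwise part (helper844)
-/

set_option linter.all false

namespace P365T2.H844

open Finset P365L P365O P365T1 Complex MeasureTheory
open Vale.Agent.P365.T2.H789 Vale.Agent.P365.T2.H417
open scoped RealInnerProductSpace ComplexConjugate
open P365T2.H37 (wk HH HD rho)

section Ups

variable {ι : Type*} [Fintype ι] [DecidableEq ι] {A : Matrix ι ι ℝ} {W : ι → ℂ}
variable {E : Type*} [NormedAddCommGroup E] [InnerProductSpace ℝ E] {Φ : ι → E}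

/-- `log (u + ε)` at the actual point -/
noncomputable def lm (A : Matrix ι ι ℝ) (W : ι → ℂ) (Φ : ι → E) (ε : ℝ) (J k : ℕ) (x : ι) : ℝ :=
  Real.log (ur Φ (TT A W) J k x + ε)

/-- `log (u0 + ε)` at the centre -/
noncomputable def lm0 (A : Matrix ι ι ℝ) (W : ι → ℂ) (Φ : ι → E) (ε : ℝ) (J k : ℕ) (z x : ι) : ℝ :=
  Real.log (u0c A W Φ J k z x + ε)

/-- the slope in the mass at the centre -/
noncomputable def q0c (A : Matrix ι ι ℝ) (W : ι → ℂ) (Φ : ι → E) (ε : ℝ) (J k : ℕ) (z x : ι) : ℝ :=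
  u0c A W Φ J k z x - ε * Real.log (u0c A W Φ J k z x + ε) + ε * Real.log ε

/-- unit of the content: `e_x |g_x|²` -/
noncomputable def g2 (A : Matrix ι ι ℝ) (W : ι → ℂ) (z x : ι) : ℝ := (-(W x).im) * ‖gw A W z x‖ ^ 2

/-- `R_{x,k}` -/
noncomputable def Rk (A : Matrix ι ι ℝ) (W : ι → ℂ) (Φ : ι → E) (J k : ℕ) (z x : ι) : ℝ :=
  Rzc A W (cw Φ J k x) z

theorem g2_nonneg (hW : ∀ x, (W x).im < 0) (z x : ι) : 0 ≤ g2 A W z x :=
  mul_nonneg (neg_im_pos hW x).le (sq_nonneg _)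

theorem Rk_nonneg (hA : A.IsSymm) (hW : ∀ x, (W x).im < 0) (J k : ℕ) (z x : ι) :
    0 ≤ Rk A W Φ J k z x := Rzc_nonneg hA hW (cw_nonneg J k x) z

theorem Pw_eq_Rk (hA : A.IsSymm) (hW : ∀ x, (W x).im < 0) (J k : ℕ) (z x : ι) :
    Pw Φ (TT A W) J k z x = 2 * Rk A W Φ J k z x := sum_P_z hA hW (cw Φ J k x) z

theorem TT_g2 (hA : A.IsSymm) (hW : ∀ x, (W x).im < 0) (z x : ι) :
    TT A W x z = (-(W z).im) * g2 A W z x * ‖Gr A W z z‖ ^ 2 := by
  unfold TT g2
  rw [KK, Gr_eq_gw hA hW, norm_mul, mul_pow]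
  ring

theorem Mc_pos (hA : A.IsSymm) (hW : ∀ x, (W x).im < 0) (z x : ι) : 0 < Mc A W z x := by
  have h1 := abs_pr_sub_le hA hW z x
  have h2 := azc_le_Mc hA hW z x
  have h3 := pr_TT_pos hA hW x
  have h4 := (abs_le.1 h1).2
  linarith

theorem u0c_nonneg (hA : A.IsSymm) (hW : ∀ x, (W x).im < 0) (J k : ℕ) (z x : ι) :
    0 ≤ u0c A W Φ J k z x := by
  unfold u0c
  have h1 := Mc_pos hA hW z x
  have h2 := P365T2.H37.rho_pos k
  refine div_nonneg ?_ (by positivity)
  exact sum_nonneg fun b _ => mul_nonneg (P365T2.H37.wk_nonneg (tt_nonneg x b))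
    (Tc_nonneg hW z x b)

theorem u0c_le_three (hA : A.IsSymm) (hW : ∀ x, (W x).im < 0) {J k : ℕ} (hk : k < J + 2)
    (ht4 : ∀ x y, tt Φ x y ≤ 4 ^ J) (z x : ι) : u0c A W Φ J k z x ≤ 3 := by
  have hM := Mc_pos hA hW z x
  have hr := P365T2.H37.rho_pos k
  unfold u0c Ac
  rw [div_le_iff₀ (by positivity)]
  have h1 : ∀ b, wk J k (tt Φ x b) * Tc A W z x b ≤ (3 * rho k) * Tc A W z x b := by
    intro b
    refine mul_le_mul_of_nonneg_right ?_ (Tc_nonneg hW z x b)
    have h2 := P365T2.H37.uk_le_three hk (tt_nonneg (Φ := Φ) x b) (ht4 x b)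
    unfold P365T2.H37.uk at h2
    rwa [div_le_iff₀ hr] at h2
  refine (sum_le_sum fun b (_ : b ∈ univ) => h1 b).trans (le_of_eq ?_)
  rw [← mul_sum]
  unfold Mc
  ring

theorem u0c_eq (J k : ℕ) (z x : ι) :
    u0c A W Φ J k z x = (Ahc A W (cw Φ J k x) z x +
      rho k * azc A W z x * (Rzc A W (cw Φ J k x) z / rho k)) / (rho k * Mc A W z x) := by
  unfold u0c
  rw [← Ac_eq']

/-- `u0 ≤ 4 u + 3 R / rho` -/
theorem rho_u0c_le (hA : A.IsSymm) (hW : ∀ x, (W x).im < 0) (J k : ℕ) (z x : ι) :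
    rho k * u0c A W Φ J k z x ≤ 4 * (rho k * ur Φ (TT A W) J k x) + 3 * Rk A W Φ J k z x := by
  have hr := P365T2.H37.rho_pos k
  have h := (cen_ups (Φ := Φ) hA hW J k z x).u0_le
  rw [← u0c_eq, ur_eq_div hA hW] at h
  have h2 := mul_le_mul_of_nonneg_left h hr.le
  refine h2.trans (le_of_eq ?_)
  unfold Rk
  field_simp

/-- (PW2) the gap -/
theorem gap_pw (hA : A.IsSymm) (hW : ∀ x, (W x).im < 0) {ε : ℝ} (hε : 0 < ε) (J k : ℕ) (z x : ι) :
    2 * ((-(W z).im) * mm A W z) * P365T2.C37.Dt ε (ur Φ (TT A W) J k x) (u0c A W Φ J k z x)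
        (rho k * pr (TT A W) x) (rho k * Mc A W z x) ≤
      480 * (TT A W x z * (rho k * ur Φ (TT A W) J k x + Rk A W Φ J k z x +
        Rk A W Φ J k z x * max 0 (lm0 A W Φ ε J k z x - lm A W Φ ε J k x))) := by
  have hr := P365T2.H37.rho_pos k
  have hm := mm_pos hA hW z
  have he := neg_im_pos hW z
  have hu := ur_nonneg (Φ := Φ) (J := J) (k := k) (TT_nonneg (A := A) hW)
    (fun x => pr_TT_pos hA hW x) x
  have hu0 := u0c_nonneg (Φ := Φ) hA hW J k z x
  have h := P365T2.C37.Dt_le (cen_ups (Φ := Φ) hA hW J k z x) hε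
  rw [← u0c_eq, ur_eq_div hA hW] at h
  have hl : Real.log ((ur Φ (TT A W) J k x + ε) / (u0c A W Φ J k z x + ε)) =
      lm A W Φ ε J k x - lm0 A W Φ ε J k z x :=
    Real.log_div (by linarith) (by linarith)
  rw [hl, neg_sub] at h
  have h2 := mul_le_mul_of_nonneg_left h (a := 2 * ((-(W z).im) * mm A W z)) (by positivity)
  refine h2.trans (le_of_eq ?_)
  rw [TT_z hA hW]
  unfold Rk
  field_simp

/-- (PW1a) the first order term in the numerator -/
theorem dev_A (hA : A.IsSymm) (hW : ∀ x, (W x).im < 0) (J k : ℕ) (z x : ι) :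
    2 * ((-(W z).im) * mm A W z) * (An A W Φ J k x - Ac A W Φ J k z x) =
      2 * (-(W z).im) * (Gr A W z z ^ 2 * kap A W (cw Φ J k x) z x).im := by
  have h1 : An A W Φ J k x - Ac A W Φ J k z x =
      2 * ((Gr A W z z - (qz A W z : ℂ) * I) * kap A W (cw Φ J k x) z x).re :=
    sum_T_sub hA hW (cw Φ J k x) z x
  have h2 := two_mm_dev hA hW z
  rw [h1]
  have h3 : 2 * mm A W z * ((Gr A W z z - (qz A W z : ℂ) * I) * kap A W (cw Φ J k x) z x).re =
      (Gr A W z z ^ 2 * kap A W (cw Φ J k x) z x).im := by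
    rw [← Complex.re_ofReal_mul]
    have e : ((2 * mm A W z : ℝ) : ℂ) * ((Gr A W z z - (qz A W z : ℂ) * I) *
        kap A W (cw Φ J k x) z x) = -I * (Gr A W z z ^ 2 * kap A W (cw Φ J k x) z x) := by
      push_cast
      rw [← mul_assoc, h2]
      ring
    rw [e]
    simp [Complex.mul_re]
  rw [← h3]
  ring

/-- (PW1b) the first order term in the mass -/
theorem dev_M (hA : A.IsSymm) (hW : ∀ x, (W x).im < 0) (z x : ι) :
    2 * ((-(W z).im) * mm A W z) * (pr (TT A W) x - Mc A W z x) =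
      2 * (-(W z).im) * (Gr A W z z ^ 2 * kap A W (fun _ => 1) z x).im := by
  have h1 := pr_sub_Mc hA hW z x
  have h2 := two_mm_dev hA hW z
  rw [h1]
  have h3 : 2 * mm A W z * ((Gr A W z z - (qz A W z : ℂ) * I) * kap A W (fun _ => 1) z x).re =
      (Gr A W z z ^ 2 * kap A W (fun _ => 1) z x).im := by
    rw [← Complex.re_ofReal_mul]
    have e : ((2 * mm A W z : ℝ) : ℂ) * ((Gr A W z z - (qz A W z : ℂ) * I) *
        kap A W (fun _ => 1) z x) = -I * (Gr A W z z ^ 2 * kap A W (fun _ => 1) z x) := by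
      push_cast
      rw [← mul_assoc, h2]
      ring
    rw [e]
    simp [Complex.mul_re]
  rw [← h3]
  ring

/-- (PW1) -/
theorem CX_split (hA : A.IsSymm) (hW : ∀ x, (W x).im < 0) {ε : ℝ} (hε : 0 < ε) (J k : ℕ)
    (z x : ι) :
    2 * ((-(W z).im) * mm A W z) * CX A W Φ ε J k z x =
      -(2 * ((-(W z).im) * mm A W z) * P365T2.C37.Dt ε (ur Φ (TT A W) J k x)
        (u0c A W Φ J k z x) (rho k * pr (TT A W) x) (rho k * Mc A W z x)) -
      lm0 A W Φ ε J k z x * (2 * (-(W z).im) *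
        (Gr A W z z ^ 2 * kap A W (cw Φ J k x) z x).im) +
      q0c A W Φ ε J k z x * (rho k * (2 * (-(W z).im) *
        (Gr A W z z ^ 2 * kap A W (fun _ => 1) z x).im)) := by
  have hu := ur_nonneg (Φ := Φ) (J := J) (k := k) (TT_nonneg (A := A) hW)
    (fun x => pr_TT_pos hA hW x) x
  have hu0 := u0c_nonneg (Φ := Φ) hA hW J k z x
  rw [CX_eq hA hW J k z x (Mc_pos hA hW z x) (by linarith) (by linarith), ← dev_A hA hW,
    ← dev_M hA hW]
  unfold lm0 q0c
  ring

theorem q0c_bounds (hA : A.IsSymm) (hW : ∀ x, (W x).im < 0) {ε : ℝ} (hε : 0 < ε) (J k : ℕ)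
    (z x : ι) : 0 ≤ q0c A W Φ ε J k z x ∧ q0c A W Φ ε J k z x ≤ u0c A W Φ J k z x := by
  have hu0 := u0c_nonneg (Φ := Φ) hA hW J k z x
  have hp : 0 < u0c A W Φ J k z x + ε := by linarith
  have h1 := P365T2.C37.log_div_le hp hε
  rw [Real.log_div hp.ne' hε.ne'] at h1
  have h2 : Real.log ε ≤ Real.log (u0c A W Φ J k z x + ε) := Real.log_le_log hε (by linarith)
  have h3 : ε * ((u0c A W Φ J k z x + ε - ε) / ε) = u0c A W Φ J k z x := by
    field_simp
    ring
  have h4 := mul_le_mul_of_nonneg_left h1 hε.le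
  rw [h3] at h4
  unfold q0c
  constructor
  · nlinarith
  · nlinarith [mul_le_mul_of_nonneg_left h2 hε.le]

/-- the multiplier inequality -/
theorem mult_pw (hA : A.IsSymm) (hW : ∀ x, (W x).im < 0) {ε : ℝ} (hε : 0 < ε) (J k : ℕ)
    (z x : ι) :
    |lm A W Φ ε J k x - lm0 A W Φ ε J k z x| * ‖kap A W (cw Φ J k x) z x‖ ≤
      320 * (g2 A W z x * (rho k * ur Φ (TT A W) J k x)) +
        320 * (1 + |lm A W Φ ε J k x - lm0 A W Φ ε J k z x|) *
          (g2 A W z x * Rk A W Φ J k z x) := by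
  have hr := P365T2.H37.rho_pos k
  have hq := qz_pos hA hW z
  have hu := ur_nonneg (Φ := Φ) (J := J) (k := k) (TT_nonneg (A := A) hW)
    (fun x => pr_TT_pos hA hW x) x
  have hu0 := u0c_nonneg (Φ := Φ) hA hW J k z x
  have hS2 : (qz A W z * ‖kap A W (cw Φ J k x) z x‖) ^ 2 ≤
      Ahc A W (cw Φ J k x) z x * (rho k * azc A W z x * (Rzc A W (cw Φ J k x) z / rho k)) := by
    have e : rho k * azc A W z x * (Rzc A W (cw Φ J k x) z / rho k) =
        azc A W z x * Rzc A W (cw Φ J k x) z := by field_simp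
    rw [e]
    exact norm_kap_le hA hW (cw_nonneg J k x) z x
  have h := P365T2.C37.log_mult_le (cen_ups (Φ := Φ) hA hW J k z x) hε
    (mul_nonneg hq.le (norm_nonneg _)) hS2
  rw [← u0c_eq, ur_eq_div hA hW] at h
  have hl : Real.log ((ur Φ (TT A W) J k x + ε) / (u0c A W Φ J k z x + ε)) =
      lm A W Φ ε J k x - lm0 A W Φ ε J k z x :=
    Real.log_div (by linarith) (by linarith)
  rw [hl] at h
  have e2 : azc A W z x = qz A W z * g2 A W z x := by unfold azc g2; ring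
  rw [e2] at h
  have e3 : rho k * (qz A W z * g2 A W z x) * (Rzc A W (cw Φ J k x) z / rho k) =
      qz A W z * (g2 A W z x * Rk A W Φ J k z x) := by
    unfold Rk; field_simp
  rw [e3] at h
  have h4 : qz A W z * (|lm A W Φ ε J k x - lm0 A W Φ ε J k z x| *
      ‖kap A W (cw Φ J k x) z x‖) ≤ qz A W z *
      (320 * (g2 A W z x * (rho k * ur Φ (TT A W) J k x)) +
        320 * (1 + |lm A W Φ ε J k x - lm0 A W Φ ε J k z x|) *
          (g2 A W z x * Rk A W Φ J k z x)) := by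
    refine le_trans (le_of_eq ?_) (h.trans (le_of_eq ?_))
    · ring
    · ring
  exact le_of_mul_le_mul_left h4 hq

theorem norm_kap_one (hA : A.IsSymm) (hW : ∀ x, (W x).im < 0) (z x : ι) :
    ‖kap A W (fun _ => 1) z x‖ = 1 / 2 * g2 A W z x := by
  rw [kap_one hA hW, norm_mul, norm_mul, norm_neg, norm_div, Complex.norm_I,
    Complex.norm_real, Real.norm_eq_abs, abs_of_pos (neg_im_pos hW x), norm_pow]
  unfold g2
  norm_num

/-- (PW3) the constant part, compared with the actual multiplier -/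
theorem const_pw (hA : A.IsSymm) (hW : ∀ x, (W x).im < 0) {ε : ℝ} (hε : 0 < ε) (J k : ℕ)
    (z x : ι) {β : ℂ} {b0 Cb K : ℝ} (hβ : ‖β‖ ≤ b0) (hb : b0 ≤ Cb * ‖Gr A W z z‖ ^ 2)
    (hK : |lm A W Φ ε J k x - lm0 A W Φ ε J k z x| ≤ K) :
    -(2 * (-(W z).im)) * (lm A W Φ ε J k x * (β * kap A W (cw Φ J k x) z x).im) -
        644 * Cb * (TT A W x z * (rho k * ur Φ (TT A W) J k x + Rk A W Φ J k z x)) -
        640 * K * ((-(W z).im) * (g2 A W z x * Rk A W Φ J k z x) * b0) ≤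
      -(lm0 A W Φ ε J k z x * (2 * (-(W z).im) * (β * kap A W (cw Φ J k x) z x).im)) +
      q0c A W Φ ε J k z x * (rho k * (2 * (-(W z).im) *
        (β * kap A W (fun _ => 1) z x).im)) := by
  have hr := P365T2.H37.rho_pos k
  have he := neg_im_pos hW z
  have hg := g2_nonneg hW (A := A) z x
  have hR := Rk_nonneg (Φ := Φ) hA hW J k z x
  have hu := ur_nonneg (Φ := Φ) (J := J) (k := k) (TT_nonneg (A := A) hW)
    (fun x => pr_TT_pos hA hW x) x
  have hb0 : 0 ≤ b0 := (norm_nonneg _).trans hβ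
  obtain ⟨hq1, hq2⟩ := q0c_bounds (Φ := Φ) hA hW hε J k z x
  have hm := mult_pw (Φ := Φ) hA hW hε J k z x
  have hu0 := rho_u0c_le (Φ := Φ) hA hW J k z x
  set e := -(W z).im with hed
  set l := lm A W Φ ε J k x with hl
  set l0 := lm0 A W Φ ε J k z x with hl0
  set q0 := q0c A W Φ ε J k z x with hq0
  set κ := kap A W (cw Φ J k x) z x with hκ
  set κ1 := kap A W (fun _ => 1) z x with hκ1
  set R := Rk A W Φ J k z x with hRd
  set u := ur Φ (TT A W) J k x with hud
  set g := g2 A W z x with hgd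
  -- first: the numerator
  have h1 : |(β * κ).im| ≤ b0 * ‖κ‖ := by
    refine (Complex.abs_im_le_norm _).trans ?_
    rw [norm_mul]
    exact mul_le_mul_of_nonneg_right hβ (norm_nonneg _)
  have h2 : |(l - l0) * (β * κ).im| ≤ b0 * (320 * (g * (rho k * u)) +
      320 * (1 + K) * (g * R)) := by
    rw [abs_mul]
    calc |l - l0| * |(β * κ).im| ≤ |l - l0| * (b0 * ‖κ‖) :=
          mul_le_mul_of_nonneg_left h1 (abs_nonneg _)
      _ = b0 * (|l - l0| * ‖κ‖) := by ring
      _ ≤ b0 * (320 * (g * (rho k * u)) + 320 * (1 + |l - l0|) * (g * R)) :=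
          mul_le_mul_of_nonneg_left hm hb0
      _ ≤ _ := by
          refine mul_le_mul_of_nonneg_left ?_ hb0
          have : (1 + |l - l0|) * (g * R) ≤ (1 + K) * (g * R) :=
            mul_le_mul_of_nonneg_right (by linarith) (by positivity)
          nlinarith
  -- second: the mass
  have h3 : |(β * κ1).im| ≤ b0 * (1 / 2 * g) := by
    refine (Complex.abs_im_le_norm _).trans ?_
    rw [norm_mul, hκ1, norm_kap_one hA hW]
    exact mul_le_mul_of_nonneg_right hβ (by positivity)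
  have h4 : |q0 * (rho k * (β * κ1).im)| ≤ (4 * (rho k * u) + 3 * R) * (b0 * (1 / 2 * g)) := by
    rw [abs_mul, abs_mul, abs_of_nonneg hq1, abs_of_pos hr]
    calc q0 * (rho k * |(β * κ1).im|) = (rho k * q0) * |(β * κ1).im| := by ring
      _ ≤ (4 * (rho k * u) + 3 * R) * |(β * κ1).im| := by
          refine mul_le_mul_of_nonneg_right ?_ (abs_nonneg _)
          exact (mul_le_mul_of_nonneg_left hq2 hr.le).trans hu0
      _ ≤ _ := mul_le_mul_of_nonneg_left h3 (by positivity)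
  have h5 : e * g * b0 ≤ Cb * TT A W x z := by
    rw [TT_g2 hA hW]
    have := mul_le_mul_of_nonneg_left hb (a := e * g) (by positivity)
    linarith
  have h6 : 0 ≤ rho k * u := by positivity
  have h7 := mul_le_mul_of_nonneg_left h5 h6
  have h8 := mul_le_mul_of_nonneg_left h5 hR
  have h2' := (abs_le.1 h2).1
  have h4' := (abs_le.1 h4).1
  have h2'' := mul_le_mul_of_nonneg_left h2' (a := 2 * e) (by positivity)
  have h4'' := mul_le_mul_of_nonneg_left h4' (a := 2 * e) (by positivity)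
  have h9 : 0 ≤ R * (e * g * b0) := by positivity
  linarith

end Ups

end P365T2.H844
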