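import Vale.Agent.P365.T2.C1844
import Vale.Agent.P365.T2.CollYf863

/-!
# P365-T2: the first order term of the centre route in the collective form (helper37)

`t² ∑_x lam_x kap_x = L_z - t² conj(t - i q) ∑_x lam_x e_x |g_x|² ∑_b w_xb e_b |g_b|²`
with `L_z` = helper863's collective amplitude.
-/

set_option linter.all false

namespace P365T2.C37

open Finset P365L P365O P365T1 Complex
open P365T2.H844 P365T2.Coll863
open scoped ComplexConjugate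

variable {ι : Type*} [Fintype ι] [DecidableEq ι] {A : Matrix ι ι ℝ} {W : ι → ℂ}

/-- the collective amplitude from the amplitudes at the centre -/
theorem Ly_eq (hA : A.IsSymm) (hW : ∀ x, (W x).im < 0) (w : ι → ι → ℝ) (lam : ι → ℝ) (z : ι) :
    Ly A W w lam z = Gr A W z z ^ 2 * (∑ x, (lam x : ℂ) * P365T2.H844.kap A W (w x) z x +
      conj (Gr A W z z - (qz A W z : ℂ) * I) *
        ((∑ x, lam x * ((-(W x).im) * ‖gw A W z x‖ ^ 2) *
          ∑ b, w x b * ((-(W b).im) * ‖gw A W z b‖ ^ 2) : ℝ) : ℂ)) := by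
  unfold Ly
  have h1 : ∀ x, (lam x : ℂ) * P365T2.H844.kap A W (w x) z x +
      conj (Gr A W z z - (qz A W z : ℂ) * I) *
        ((lam x * ((-(W x).im) * ‖gw A W z x‖ ^ 2) *
          ∑ b, w x b * ((-(W b).im) * ‖gw A W z b‖ ^ 2) : ℝ) : ℂ) =
      ∑ b, (lam x : ℂ) * (((-(W x).im) * (-(W b).im) * w x b : ℝ) : ℂ) *
        conj (Gr A W x b) * (gw A W z x * gw A W z b) := by
    intro x
    unfold P365T2.H844.kap
    push_cast
    rw [mul_sum, mul_sum, mul_sum, mul_sum, ← sum_add_distrib]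
    refine sum_congr rfl fun b _ => ?_
    have h3 : ∀ b, (((‖gw A W z b‖ : ℝ)) : ℂ) ^ 2 = gw A W z b * conj (gw A W z b) := by
      intro b
      rw [Complex.mul_conj, Complex.normSq_eq_norm_sq]
      push_cast
      rfl
    rw [h3, h3, Gr_eq_Gc hA hW z x b]
    simp only [map_add, map_sub, map_mul, Complex.conj_ofReal, Complex.conj_I]
    ring
  have h2 : ∑ x, (lam x : ℂ) * P365T2.H844.kap A W (w x) z x +
      conj (Gr A W z z - (qz A W z : ℂ) * I) *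
        ((∑ x, lam x * ((-(W x).im) * ‖gw A W z x‖ ^ 2) *
          ∑ b, w x b * ((-(W b).im) * ‖gw A W z b‖ ^ 2) : ℝ) : ℂ) =
      ∑ x, ∑ b, (lam x : ℂ) * (((-(W x).im) * (-(W b).im) * w x b : ℝ) : ℂ) *
        conj (Gr A W x b) * (gw A W z x * gw A W z b) := by
    rw [← sum_congr rfl fun x _ => h1 x, sum_add_distrib, ← mul_sum]
    push_cast
    rfl
  rw [h2, mul_sum]
  refine sum_congr rfl fun x _ => ?_
  rw [mul_sum]
  refine sum_congr rfl fun b _ => ?_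
  have h4 : Gr A W x z = gw A W z x * Gr A W z z := Gr_eq_gw hA hW z x
  have h5 : Gr A W z b = gw A W z b * Gr A W z z := Gr_eq_gw' hA hW z b
  rw [h4, h5]
  unfold ab
  ring

/-- **the sum of the amplitudes at the centre, resonant form** -/
theorem norm_sum_kap_le (hA : A.IsSymm) (hW : ∀ x, (W x).im < 0) {w : ι → ι → ℝ}
    (hw : ∀ x b, 0 ≤ w x b) (lam : ι → ℝ) (z : ι) :
    ‖Gr A W z z‖ ^ 2 * ‖∑ x, (lam x : ℂ) * P365T2.H844.kap A W (w x) z x‖ ≤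
      ‖Ly A W w lam z‖ + ‖Gr A W z z‖ ^ 2 *
        ∑ x, |lam x| * ((-(W x).im) * ‖gw A W z x‖ ^ 2) * Rzc A W (w x) z := by
  have hq := qz_pos hA hW z
  have h1 := Ly_eq hA hW w lam z
  set S : ℂ := ∑ x, (lam x : ℂ) * P365T2.H844.kap A W (w x) z x with hS
  set Q : ℝ := ∑ x, lam x * ((-(W x).im) * ‖gw A W z x‖ ^ 2) *
          ∑ b, w x b * ((-(W b).im) * ‖gw A W z b‖ ^ 2) with hQ
  have h2 : Gr A W z z ^ 2 * S = Ly A W w lam z -
      Gr A W z z ^ 2 * (conj (Gr A W z z - (qz A W z : ℂ) * I) * (Q : ℂ)) := by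
    rw [h1]; ring
  have h3 : ‖Gr A W z z‖ ^ 2 * ‖S‖ ≤ ‖Ly A W w lam z‖ +
      ‖Gr A W z z‖ ^ 2 * (qz A W z * |Q|) := by
    have h4 : ‖Gr A W z z ^ 2 * S‖ ≤ ‖Ly A W w lam z‖ +
        ‖Gr A W z z ^ 2 * (conj (Gr A W z z - (qz A W z : ℂ) * I) * (Q : ℂ))‖ := by
      rw [h2]
      exact norm_sub_le _ _
    have h5 : ‖Gr A W z z - (qz A W z : ℂ) * I‖ = qz A W z :=
      (sq_eq_sq₀ (norm_nonneg _) hq.le).1 (norm_dev hA hW z)
    rw [norm_mul, norm_pow, norm_mul, norm_pow, norm_mul, RCLike.norm_conj, h5,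
      Complex.norm_real, Real.norm_eq_abs] at h4
    exact h4
  refine h3.trans (add_le_add le_rfl (mul_le_mul_of_nonneg_left ?_ (by positivity)))
  have h6 : |Q| ≤ ∑ x, |lam x| * ((-(W x).im) * ‖gw A W z x‖ ^ 2) *
      ∑ b, w x b * ((-(W b).im) * ‖gw A W z b‖ ^ 2) := by
    rw [hQ]
    refine (abs_sum_le_sum_abs _ _).trans (sum_le_sum fun x _ => le_of_eq ?_)
    have hx := (neg_im_pos hW x).le
    rw [abs_mul, abs_mul, abs_of_nonneg (mul_nonneg hx (sq_nonneg _)),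
      abs_of_nonneg (sum_nonneg fun b _ => mul_nonneg (hw x b)
        (mul_nonneg (neg_im_pos hW b).le (sq_nonneg _)))]
  refine (mul_le_mul_of_nonneg_left h6 hq.le).trans (le_of_eq ?_)
  rw [mul_sum]
  refine sum_congr rfl fun x _ => ?_
  unfold Rzc
  ring

theorem Gr_norm_inv (hA : A.IsSymm) (hW : ∀ x, (W x).im < 0) (z : ι) :
    ‖W z - sg A W z‖ ^ 2 * ‖Gr A W z z‖ ^ 2 = 1 := by
  have h0 := Gr_self_ne_zero hA hW z
  have h1 : W z - sg A W z = (Gr A W z z)⁻¹ := by rw [sg]; ring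
  rw [h1, norm_inv, ← mul_pow, inv_mul_cancel₀ (norm_ne_zero_iff.2 h0), one_pow]

/-- **the first order term**, `|β| ≤ Cβ / (1 + |sg|²)` -/
theorem beta_kap_le (hA : A.IsSymm) (hW : ∀ x, (W x).im < 0) {w : ι → ι → ℝ}
    (hw : ∀ x b, 0 ≤ w x b) (lam : ι → ℝ) (z : ι) {β : ℂ} {Cβ : ℝ}
    (hβ : ‖β‖ ≤ Cβ / (1 + ‖sg A W z‖ ^ 2)) :
    |2 * (-(W z).im) * (β * ∑ x, (lam x : ℂ) * P365T2.H844.kap A W (w x) z x).im| ≤
      2 * Cβ * ((-(W z).im) * (kp A W z * ‖Ly A W w lam z‖)) +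
        2 * Cβ * ((-(W z).im) * (∑ x, |lam x| * ((-(W x).im) * ‖gw A W z x‖ ^ 2) *
          Rzc A W (w x) z) / (1 + ‖sg A W z‖ ^ 2)) := by
  have hez := neg_im_pos hW z
  have h1 := norm_sum_kap_le hA hW hw lam z
  set S : ℂ := ∑ x, (lam x : ℂ) * P365T2.H844.kap A W (w x) z x with hS
  set Y : ℝ := ∑ x, |lam x| * ((-(W x).im) * ‖gw A W z x‖ ^ 2) * Rzc A W (w x) z with hY
  have hd : 0 < 1 + ‖sg A W z‖ ^ 2 := by positivity
  have h2 : |(β * S).im| ≤ Cβ / (1 + ‖sg A W z‖ ^ 2) * ‖S‖ := by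
    refine (Complex.abs_im_le_norm _).trans ?_
    rw [norm_mul]
    exact mul_le_mul_of_nonneg_right hβ (norm_nonneg _)
  have hCβ : 0 ≤ Cβ := by
    have h3 : 0 ≤ Cβ / (1 + ‖sg A W z‖ ^ 2) := (norm_nonneg _).trans hβ
    by_contra hc
    push Not at hc
    have := div_neg_of_neg_of_pos hc hd
    linarith
  have h4 : ‖S‖ ≤ ‖W z - sg A W z‖ ^ 2 * ‖Ly A W w lam z‖ + Y := by
    have h5 := mul_le_mul_of_nonneg_left h1 (sq_nonneg ‖W z - sg A W z‖)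
    have h6 := Gr_norm_inv hA hW z
    have e1 : ‖W z - sg A W z‖ ^ 2 * (‖Gr A W z z‖ ^ 2 * ‖S‖) = ‖S‖ := by
      rw [← mul_assoc, h6, one_mul]
    have e2 : ‖W z - sg A W z‖ ^ 2 * (‖Ly A W w lam z‖ + ‖Gr A W z z‖ ^ 2 * Y) =
        ‖W z - sg A W z‖ ^ 2 * ‖Ly A W w lam z‖ + Y := by
      rw [mul_add, ← mul_assoc, h6, one_mul]
    rw [e1, e2] at h5
    exact h5
  rw [abs_mul, abs_of_nonneg (by positivity : (0 : ℝ) ≤ 2 * (-(W z).im))]
  have h7 : |(β * S).im| ≤ Cβ / (1 + ‖sg A W z‖ ^ 2) *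
      (‖W z - sg A W z‖ ^ 2 * ‖Ly A W w lam z‖ + Y) :=
    h2.trans (mul_le_mul_of_nonneg_left h4 (by positivity))
  have h8 := mul_le_mul_of_nonneg_left h7 (by positivity : (0 : ℝ) ≤ 2 * (-(W z).im))
  refine h8.trans (le_of_eq ?_)
  unfold kp
  field_simp
  ring

end P365T2.C37
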