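import Vale.Agent.P365.T2.C3844
import Vale.Agent.P365.T2.H597.Beta
import Vale.Agent.P365.T2.CenterL37

/-!
# P365-T2: the one-site inequality of the centre route, sum over the rows (helper844)
-/

set_option linter.all false

namespace P365T2.H844

open Finset P365L P365O P365T1 Complex MeasureTheory
open Vale.Agent.P365.T2.H789 Vale.Agent.P365.T2.H417
open scoped RealInnerProductSpace ComplexConjugate
open P365T2.H37 (wk HH HD rho)
open P365T2.Coll863 (Ly kp)
open P365T2.H862 (pz)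
open P365T2.H218 (tv Avw Acw CL0)

section Ups

variable {ι : Type*} [Fintype ι] [DecidableEq ι] {A : Matrix ι ι ℝ} {W : ι → ℂ}
variable {E : Type*} [NormedAddCommGroup E] [InnerProductSpace ℝ E] {Φ : ι → E}

/-- content of scale `k` exchanged with `y` -/
noncomputable def CntK (A : Matrix ι ι ℝ) (Φ : ι → E) (J k : ℕ) (y : ι) (W : ι → ℂ) : ℝ :=
  ∑ x, TT A W x y * (Pw Φ (TT A W) J k y x + Pw Φ (TT A W) J k x x)

/-- off-resonant energy of scale `k` -/
noncomputable def YrK (A : Matrix ι ι ℝ) (Φ : ι → E) (J k : ℕ) (y : ι) (W : ι → ℂ) : ℝ :=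
  (-(W y).im) * (∑ x, (-(W x).im) * ‖gw A W y x‖ ^ 2 * Pw Φ (TT A W) J k y x) /
    (1 + ‖sg A W y‖ ^ 2)

/-- collective term of scale `k` -/
noncomputable def ClK (A : Matrix ι ι ℝ) (Φ : ι → E) (ε : ℝ) (J k : ℕ) (y : ι) (W : ι → ℂ) : ℝ :=
  (-(W y).im) * (kp A W y * ‖Ly A W (fun x u => wk J k (tt Φ x u))
    (fun x => Real.log (ur Φ (TT A W) J k x + ε)) y‖)

theorem YrK_eq (hA : A.IsSymm) (hW : ∀ x, (W x).im < 0) (J k : ℕ) (z : ι) :
    YrK A Φ J k z W = 2 * ((-(W z).im) * (∑ x, g2 A W z x * Rk A W Φ J k z x) /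
      (1 + ‖sg A W z‖ ^ 2)) := by
  unfold YrK
  have e : ∑ x, (-(W x).im) * ‖gw A W z x‖ ^ 2 * Pw Φ (TT A W) J k z x =
      2 * ∑ x, g2 A W z x * Rk A W Φ J k z x := by
    rw [mul_sum]
    refine sum_congr rfl fun x _ => ?_
    rw [Pw_eq_Rk hA hW]
    unfold g2
    ring
  rw [e]
  ring

theorem CntK_ge (hA : A.IsSymm) (hW : ∀ x, (W x).im < 0) (J k : ℕ) (z : ι) :
    ∑ x, TT A W x z * (rho k * ur Φ (TT A W) J k x + Rk A W Φ J k z x) ≤
      CntK A Φ J k z W := by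
  unfold CntK
  refine sum_le_sum fun x _ => mul_le_mul_of_nonneg_left ?_ (TT_nonneg hW x z)
  rw [Pw_eq_Rk hA hW, rho_ur]
  have := Rk_nonneg (Φ := Φ) hA hW J k z x
  linarith

/-- **the constant parts, summed over the rows** -/
theorem sum_const_pw (hA : A.IsSymm) (hW : ∀ x, (W x).im < 0) {ε : ℝ} (hε : 0 < ε) (J k : ℕ)
    (z : ι) {β : ℂ} {b0 Cb Cs K : ℝ} (hCb : 0 ≤ Cb) (hCs : 0 ≤ Cs) (hβ : ‖β‖ ≤ b0)
    (hb : b0 ≤ Cb * ‖Gr A W z z‖ ^ 2) (hs : b0 ≤ Cs / (1 + ‖sg A W z‖ ^ 2))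
    (hK : ∀ x, |lm A W Φ ε J k x - lm0 A W Φ ε J k z x| ≤ K)
    (hK' : ∀ x, |lm A W Φ ε J k x| ≤ K) :
    -(644 * Cb * CntK A Φ J k z W + 321 * (K * Cs) * YrK A Φ J k z W +
        2 * Cs * ClK A Φ ε J k z W) ≤
      ∑ x, (-(lm0 A W Φ ε J k z x * (2 * (-(W z).im) * (β * kap A W (cw Φ J k x) z x).im)) +
      q0c A W Φ ε J k z x * (rho k * (2 * (-(W z).im) *
        (β * kap A W (fun _ => 1) z x).im))) := by
  have he := neg_im_pos hW z
  have hb0 : 0 ≤ b0 := (norm_nonneg _).trans hβ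
  have hd : 0 < 1 + ‖sg A W z‖ ^ 2 := by positivity
  -- sum of the pointwise bounds
  have h1 := sum_le_sum fun x (_ : x ∈ univ) =>
    const_pw (Φ := Φ) hA hW hε J k z x hβ hb (hK x)
  rw [sum_sub_distrib, sum_sub_distrib] at h1
  -- the collective term
  have hβs : ‖β‖ ≤ Cs / (1 + ‖sg A W z‖ ^ 2) := hβ.trans hs
  have h2 := P365T2.C37.beta_kap_le hA hW (w := fun x u => wk J k (tt Φ x u))
    (fun x b => cw_nonneg (Φ := Φ) J k x b) (fun x => lm A W Φ ε J k x) z hβs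
  have e2 : 2 * (-(W z).im) * (β * ∑ x, (lm A W Φ ε J k x : ℂ) *
      P365T2.H844.kap A W ((fun x u => wk J k (tt Φ x u)) x) z x).im =
      ∑ x, (2 * (-(W z).im)) * (lm A W Φ ε J k x * (β * kap A W (cw Φ J k x) z x).im) := by
    rw [mul_sum, Complex.im_sum, mul_sum]
    refine sum_congr rfl fun x _ => ?_
    have e3 : β * ((lm A W Φ ε J k x : ℂ) * kap A W (cw Φ J k x) z x) =
        (lm A W Φ ε J k x : ℂ) * (β * kap A W (cw Φ J k x) z x) := by ring
    change 2 * (-(W z).im) * (β * ((lm A W Φ ε J k x : ℂ) * kap A W (cw Φ J k x) z x)).im = _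
    rw [e3, Complex.im_ofReal_mul]
  rw [e2] at h2
  have h3 := (abs_le.1 h2).2
  -- the two `Y` terms
  have hS0 : 0 ≤ ∑ x, g2 A W z x * Rk A W Φ J k z x := sum_nonneg fun x _ =>
    mul_nonneg (g2_nonneg hW z x) (Rk_nonneg hA hW J k z x)
  have h4 : ∑ x, |lm A W Φ ε J k x| * ((-(W x).im) * ‖gw A W z x‖ ^ 2) *
      Rzc A W ((fun x u => wk J k (tt Φ x u)) x) z ≤
      K * ∑ x, g2 A W z x * Rk A W Φ J k z x := by
    rw [mul_sum]
    refine sum_le_sum fun x _ => ?_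
    have h5 := mul_nonneg (g2_nonneg hW (A := A) z x) (Rk_nonneg (Φ := Φ) hA hW J k z x)
    have h6 := mul_le_mul_of_nonneg_right (hK' x) h5
    refine le_trans (le_of_eq ?_) h6
    unfold g2 Rk cw
    ring
  have hY := YrK_eq (Φ := Φ) hA hW J k z
  set Sg := ∑ x, g2 A W z x * Rk A W Φ J k z x with hSg
  have h7 : (-(W z).im) * (∑ x, |lm A W Φ ε J k x| * ((-(W x).im) * ‖gw A W z x‖ ^ 2) *
      Rzc A W ((fun x u => wk J k (tt Φ x u)) x) z) / (1 + ‖sg A W z‖ ^ 2) ≤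
      K * (YrK A Φ J k z W / 2) := by
    rw [hY]
    have h8 := div_le_div_of_nonneg_right (mul_le_mul_of_nonneg_left h4 he.le) hd.le
    refine h8.trans (le_of_eq ?_)
    ring
  have hx : K = K := rfl
  -- `b0 e Σ g2 R ≤ Cs Y / 2`
  have h9 : (-(W z).im) * Sg * b0 ≤ Cs * (YrK A Φ J k z W / 2) := by
    rw [hY]
    have h10 := mul_le_mul_of_nonneg_left hs (mul_nonneg he.le hS0)
    refine h10.trans (le_of_eq ?_)
    ring
  have hK0 : ∀ x : ι, 0 ≤ K := fun x => (abs_nonneg _).trans (hK x)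
  have hKz := hK0 z
  have e4 : ∑ x, 644 * Cb * (TT A W x z * (rho k * ur Φ (TT A W) J k x + Rk A W Φ J k z x)) =
      644 * Cb * ∑ x, TT A W x z * (rho k * ur Φ (TT A W) J k x + Rk A W Φ J k z x) := by
    rw [mul_sum]
  have e5 : ∑ x, 640 * K * ((-(W z).im) * (g2 A W z x * Rk A W Φ J k z x) * b0) =
      640 * K * ((-(W z).im) * Sg * b0) := by
    rw [hSg, mul_sum, sum_mul, mul_sum]
  have e6 : ∑ x, -(2 * (-(W z).im)) * (lm A W Φ ε J k x * (β * kap A W (cw Φ J k x) z x).im) =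
      -∑ x, (2 * (-(W z).im)) * (lm A W Φ ε J k x * (β * kap A W (cw Φ J k x) z x).im) := by
    rw [← sum_neg_distrib]
    exact sum_congr rfl fun x _ => by ring
  rw [e4, e5, e6] at h1
  have h11 := mul_le_mul_of_nonneg_left (CntK_ge (Φ := Φ) hA hW J k z)
    (by positivity : 0 ≤ 644 * Cb)
  have h12 := mul_le_mul_of_nonneg_left h9 (by positivity : 0 ≤ 640 * K)
  have h13 := mul_le_mul_of_nonneg_left h7 (by positivity : 0 ≤ 2 * Cs)
  have hCl : 2 * Cs * ((-(W z).im) * (kp A W z * ‖Ly A W (fun x u => wk J k (tt Φ x u))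
      (fun x => lm A W Φ ε J k x) z‖)) = 2 * Cs * ClK A Φ ε J k z W := rfl
  rw [hCl] at h3
  linarith

/-! ### bounds of the logarithms -/

theorem log_bd {T u : ℝ} (hT : 0 ≤ T) (hu : 0 ≤ u) (hu3 : u ≤ 3) :
    -T ≤ Real.log (u + Real.exp (-T)) ∧ Real.log (u + Real.exp (-T)) ≤ 3 / 2 := by
  have h1 := Real.exp_pos (-T)
  have h2 : Real.exp (-T) ≤ 1 := Real.exp_le_one_iff.2 (by linarith)
  constructor
  · have h3 := Real.log_le_log h1 (by linarith : Real.exp (-T) ≤ u + Real.exp (-T))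
    rwa [Real.log_exp] at h3
  · have h3 := Real.log_le_log (by linarith : 0 < u + Real.exp (-T))
      (by linarith : u + Real.exp (-T) ≤ 4)
    exact h3.trans log_four_le

theorem lm_bd (hA : A.IsSymm) (hW : ∀ x, (W x).im < 0) {T : ℝ} (hT : 0 ≤ T) {J k : ℕ}
    (hk : k < J + 2) (ht4 : ∀ x y, tt Φ x y ≤ 4 ^ J) (x : ι) :
    -T ≤ lm A W Φ (Real.exp (-T)) J k x ∧ lm A W Φ (Real.exp (-T)) J k x ≤ 3 / 2 :=
  log_bd hT (ur_nonneg (TT_nonneg hW) (fun x => pr_TT_pos hA hW x) x)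
    (ur_le_three hA hW hk ht4 x)

theorem lm0_bd (hA : A.IsSymm) (hW : ∀ x, (W x).im < 0) {T : ℝ} (hT : 0 ≤ T) {J k : ℕ}
    (hk : k < J + 2) (ht4 : ∀ x y, tt Φ x y ≤ 4 ^ J) (z x : ι) :
    -T ≤ lm0 A W Φ (Real.exp (-T)) J k z x ∧ lm0 A W Φ (Real.exp (-T)) J k z x ≤ 3 / 2 :=
  log_bd hT (u0c_nonneg hA hW J k z x) (u0c_le_three hA hW hk ht4 z x)

/-- the logarithm of the gap against the circle mean of the numerator -/
theorem gap_log_le (hA : A.IsSymm) (hW : ∀ x, (W x).im < 0) {ε : ℝ} (hε : 0 < ε) (J k : ℕ)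
    (z x : ι) (h : An A W Φ J k x ≠ 0 ∨ Ac A W Φ J k z x = 0) :
    max 0 (lm0 A W Φ ε J k z x - lm A W Φ ε J k x) ≤
      Real.log 2 + max 0 (Real.log (Ac A W Φ J k z x / An A W Φ J k x)) := by
  have hr := P365T2.H37.rho_pos k
  have hp := pr_TT_pos hA hW x
  have hM := Mc_pos hA hW z x
  have hu := ur_nonneg (Φ := Φ) (J := J) (k := k) (TT_nonneg (A := A) hW)
    (fun x => pr_TT_pos hA hW x) x
  have hu0 := u0c_nonneg (Φ := Φ) hA hW J k z x
  have hl2 : 0 ≤ Real.log 2 := Real.log_nonneg (by norm_num)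
  have hAn := An_eq (Φ := Φ) hA hW J k x
  have hAc0 : Ac A W Φ J k z x = u0c A W Φ J k z x * (rho k * Mc A W z x) := by
    unfold u0c; field_simp
  unfold lm lm0
  by_cases h0 : Ac A W Φ J k z x = 0
  · have h1 : u0c A W Φ J k z x = 0 := by unfold u0c; rw [h0, zero_div]
    rw [h1]
    have h2 : Real.log (0 + ε) ≤ Real.log (ur Φ (TT A W) J k x + ε) :=
      Real.log_le_log (by linarith) (by linarith)
    rw [max_eq_left (by linarith)]
    positivity
  · have h1 : An A W Φ J k x ≠ 0 := by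
      rcases h with h | h
      · exact h
      · exact absurd h h0
    have hAnp : 0 < An A W Φ J k x := by
      refine lt_of_le_of_ne ?_ (Ne.symm h1)
      rw [hAn]; positivity
    have hAcp : 0 < Ac A W Φ J k z x := by
      refine lt_of_le_of_ne ?_ (Ne.symm h0)
      rw [hAc0]; positivity
    set y := Ac A W Φ J k z x / An A W Φ J k x with hy
    have hyp : 0 < y := div_pos hAcp hAnp
    have hM2 : pr (TT A W) x ≤ 2 * Mc A W z x := by
      have h3 := (abs_le.1 (abs_pr_sub_le hA hW z x)).2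
      have h4 := azc_le_Mc hA hW z x
      linarith
    have h5 : u0c A W Φ J k z x ≤ 2 * y * ur Φ (TT A W) J k x := by
      have h6 : u0c A W Φ J k z x * (rho k * Mc A W z x) =
          y * (rho k * (ur Φ (TT A W) J k x * pr (TT A W) x)) := by
        rw [← hAc0, ← hAn, hy]
        field_simp
      have h7 : y * (rho k * (ur Φ (TT A W) J k x * pr (TT A W) x)) ≤
          y * (rho k * (ur Φ (TT A W) J k x * (2 * Mc A W z x))) := by
        gcongr
      have h8 : u0c A W Φ J k z x * (rho k * Mc A W z x) ≤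
          (2 * y * ur Φ (TT A W) J k x) * (rho k * Mc A W z x) := by
        rw [h6]
        refine h7.trans (le_of_eq ?_)
        ring
      exact le_of_mul_le_mul_right h8 (by positivity)
    have h9 : u0c A W Φ J k z x + ε ≤ 2 * max 1 y * (ur Φ (TT A W) J k x + ε) := by
      have h10 : 1 ≤ max 1 y := le_max_left _ _
      have h11 : y ≤ max 1 y := le_max_right _ _
      have h12 : y * ur Φ (TT A W) J k x ≤ max 1 y * ur Φ (TT A W) J k x :=
        mul_le_mul_of_nonneg_right h11 hu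
      nlinarith
    have h13 := Real.log_le_log (by linarith : 0 < u0c A W Φ J k z x + ε) h9
    have hmx : 0 < max 1 y := lt_of_lt_of_le one_pos (le_max_left _ _)
    rw [Real.log_mul (by positivity) (by positivity), Real.log_mul (by norm_num) hmx.ne'] at h13
    have h14 : Real.log (max 1 y) = max 0 (Real.log y) := by
      rcases le_total 1 y with hc | hc
      · rw [max_eq_right hc, max_eq_right (Real.log_nonneg hc)]
      · rw [max_eq_left hc, Real.log_one, max_eq_left (Real.log_nonpos hyp.le hc)]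
    rw [h14] at h13
    refine max_le (by positivity) (by linarith)

end Ups

end P365T2.H844
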