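import Vale.Agent.P365.Bdl.B1

set_option linter.all false

/-!
# P365 / T2 / C4: removing the floor (`b → 0`), deterministic half.

For two dissipative profiles `W, W'` with `|W - W'| ≤ δ` and leads `e ≤ -Im W, -Im W'` the
transmitted powers `∑ e_x e_y |G_xy|²` satisfy
`P^(p/2) ≤ P'^(p/2) + δ^p ∑_z (|G_zz|^p + |G'_zz|^p)`: only diagonal elements occur.
-/

namespace P365L.C4H737

open Matrix Complex Finset
open P365L

variable {ι : Type*} [Fintype ι] [DecidableEq ι] {A : Matrix ι ι ℝ} {W W' : ι → ℂ}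

/-- transmitted power between the leads `S` and `B` -/
noncomputable def PW (A : Matrix ι ι ℝ) (W : ι → ℂ) (e : ι → ℝ) (S B : Finset ι) : ℝ :=
  ∑ x ∈ S, ∑ y ∈ B, e x * e y * ‖Gr A W x y‖ ^ 2

theorem PW_nonneg {e : ι → ℝ} (he0 : ∀ x, 0 ≤ e x) (S B : Finset ι) : 0 ≤ PW A W e S B :=
  Finset.sum_nonneg fun x _ => Finset.sum_nonneg fun y _ =>
    mul_nonneg (mul_nonneg (he0 x) (he0 y)) (sq_nonneg _)

/-- Ward inequality -/
theorem ward_le (hA : A.IsSymm) (hW : ∀ x, (W x).im < 0) {e : ι → ℝ} (he0 : ∀ x, 0 ≤ e x)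
    (he : ∀ x, e x ≤ -(W x).im) (S : Finset ι) (z : ι) :
    ∑ x ∈ S, e x * ‖Gr A W x z‖ ^ 2 ≤ ‖Gr A W z z‖ := by
  have h1 : ∑ x ∈ S, e x * ‖Gr A W x z‖ ^ 2 ≤ ∑ x, e x * ‖Gr A W x z‖ ^ 2 :=
    Finset.sum_le_sum_of_subset_of_nonneg (Finset.subset_univ S)
      fun x _ _ => mul_nonneg (he0 x) (sq_nonneg _)
  have h2 : ∑ x, e x * ‖Gr A W x z‖ ^ 2 ≤ ∑ x, (-(W x).im) * ‖Gr A W x z‖ ^ 2 :=
    Finset.sum_le_sum fun x _ => mul_le_mul_of_nonneg_right (he x) (sq_nonneg _)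
  rw [← Gr_flux hA hW z] at h2
  exact (h1.trans h2).trans ((le_abs_self _).trans (Complex.abs_im_le_norm _))

/-- the resolvent identity -/
theorem resolvent (hA : A.IsSymm) (hW : ∀ x, (W x).im < 0) (hW' : ∀ x, (W' x).im < 0) (x y : ι) :
    Gr A W x y = Gr A W' x y + ∑ z, Gr A W x z * (W' z - W z) * Gr A W' z y := by
  have h1 : Gr A W * Kmat A W = 1 :=
    Matrix.nonsing_inv_mul _ (isUnit_iff_ne_zero.2 (det_ne_zero hA hW))
  have h2 : Kmat A W' * Gr A W' = 1 :=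
    Matrix.mul_nonsing_inv _ (isUnit_iff_ne_zero.2 (det_ne_zero hA hW'))
  have h3 : Kmat A W' = Kmat A W + Matrix.diagonal (fun z => W' z - W z) := by
    unfold Kmat
    rw [add_assoc, Matrix.diagonal_add]
    congr 2
    funext z
    ring
  have h4 : Gr A W = Gr A W' + Gr A W * Matrix.diagonal (fun z => W' z - W z) * Gr A W' := by
    have h5 : Gr A W * (Kmat A W' * Gr A W') = Gr A W := by rw [h2, Matrix.mul_one]
    rw [h3, Matrix.add_mul, Matrix.mul_add, ← Matrix.mul_assoc, h1, Matrix.one_mul] at h5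
    rw [Matrix.mul_assoc]
    exact h5.symm
  have h5 := congrFun (congrFun h4 x) y
  rw [Matrix.add_apply, Matrix.mul_apply] at h5
  rw [h5]
  congr 1
  refine Finset.sum_congr rfl fun z _ => ?_
  rw [Matrix.mul_diagonal]

/-- Minkowski's inequality for weighted sums of squares -/
theorem mink {κ : Type*} (T : Finset κ) {w : κ → ℝ} (hw : ∀ i ∈ T, 0 ≤ w i) (f g : κ → ℂ) :
    Real.sqrt (∑ i ∈ T, w i * ‖f i + g i‖ ^ 2) ≤
      Real.sqrt (∑ i ∈ T, w i * ‖f i‖ ^ 2) + Real.sqrt (∑ i ∈ T, w i * ‖g i‖ ^ 2) := by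
  obtain ⟨a, ha⟩ : ∃ a, a = ∑ i ∈ T, w i * ‖f i‖ ^ 2 := ⟨_, rfl⟩
  obtain ⟨b, hb⟩ : ∃ b, b = ∑ i ∈ T, w i * ‖g i‖ ^ 2 := ⟨_, rfl⟩
  have ha0 : 0 ≤ a := ha ▸ Finset.sum_nonneg fun i hi => mul_nonneg (hw i hi) (sq_nonneg _)
  have hb0 : 0 ≤ b := hb ▸ Finset.sum_nonneg fun i hi => mul_nonneg (hw i hi) (sq_nonneg _)
  have hc : (∑ i ∈ T, w i * (‖f i‖ * ‖g i‖)) ^ 2 ≤ a * b := by
    have h1 := Finset.sum_mul_sq_le_sq_mul_sq T (fun i => Real.sqrt (w i) * ‖f i‖)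
      (fun i => Real.sqrt (w i) * ‖g i‖)
    have h2 : ∑ i ∈ T, (Real.sqrt (w i) * ‖f i‖) * (Real.sqrt (w i) * ‖g i‖) =
        ∑ i ∈ T, w i * (‖f i‖ * ‖g i‖) := by
      refine Finset.sum_congr rfl fun i hi => ?_
      have := Real.mul_self_sqrt (hw i hi)
      calc (Real.sqrt (w i) * ‖f i‖) * (Real.sqrt (w i) * ‖g i‖) =
          (Real.sqrt (w i) * Real.sqrt (w i)) * (‖f i‖ * ‖g i‖) := by ring
        _ = _ := by rw [this]
    have h3 : ∀ h : κ → ℂ, ∑ i ∈ T, (Real.sqrt (w i) * ‖h i‖) ^ 2 = ∑ i ∈ T, w i * ‖h i‖ ^ 2 := by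
      intro h
      refine Finset.sum_congr rfl fun i hi => ?_
      rw [mul_pow, Real.sq_sqrt (hw i hi)]
    rw [h2, h3, h3, ← ha, ← hb] at h1
    exact h1
  have hc' : ∑ i ∈ T, w i * (‖f i‖ * ‖g i‖) ≤ Real.sqrt a * Real.sqrt b := by
    rw [← Real.sqrt_mul ha0]
    exact Real.le_sqrt_of_sq_le hc
  rw [← ha, ← hb]
  refine Real.sqrt_le_left (by positivity) |>.2 ?_
  calc ∑ i ∈ T, w i * ‖f i + g i‖ ^ 2
      ≤ ∑ i ∈ T, (w i * ‖f i‖ ^ 2 + 2 * (w i * (‖f i‖ * ‖g i‖)) + w i * ‖g i‖ ^ 2) := by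
        refine Finset.sum_le_sum fun i hi => ?_
        have h1 := norm_add_le (f i) (g i)
        have h2 : ‖f i + g i‖ ^ 2 ≤ (‖f i‖ + ‖g i‖) ^ 2 := by gcongr
        calc w i * ‖f i + g i‖ ^ 2 ≤ w i * (‖f i‖ + ‖g i‖) ^ 2 :=
              mul_le_mul_of_nonneg_left h2 (hw i hi)
          _ = _ := by ring
    _ = a + 2 * ∑ i ∈ T, w i * (‖f i‖ * ‖g i‖) + b := by
        rw [Finset.sum_add_distrib, Finset.sum_add_distrib, ← Finset.mul_sum, ← ha, ← hb]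
    _ ≤ a + 2 * (Real.sqrt a * Real.sqrt b) + b := by linarith
    _ = (Real.sqrt a + Real.sqrt b) ^ 2 := by
        have h1 := Real.sq_sqrt ha0
        have h2 := Real.sq_sqrt hb0
        nlinarith

/-- **COMPARISON of the transmitted powers**, square roots. -/
theorem sqrt_PW_le (hA : A.IsSymm) (hW : ∀ x, (W x).im < 0) (hW' : ∀ x, (W' x).im < 0)
    {e : ι → ℝ} (he0 : ∀ x, 0 ≤ e x) (he : ∀ x, e x ≤ -(W x).im) (he' : ∀ x, e x ≤ -(W' x).im)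
    {δ : ℝ} (hδ0 : 0 ≤ δ) (hδ : ∀ x, ‖W' x - W x‖ ≤ δ) (S B : Finset ι) :
    Real.sqrt (PW A W e S B) ≤ Real.sqrt (PW A W' e S B) +
      δ * (Real.sqrt (∑ z, ‖Gr A W z z‖) * Real.sqrt (∑ z, ‖Gr A W' z z‖)) := by
  obtain ⟨E, hE⟩ : ∃ E : ι → ι → ℂ, E = fun x y =>
    ∑ z, Gr A W x z * (W' z - W z) * Gr A W' z y := ⟨_, rfl⟩
  have h1 := mink (S ×ˢ B) (w := fun i => e i.1 * e i.2)
    (fun i _ => mul_nonneg (he0 _) (he0 _)) (fun i => Gr A W' i.1 i.2) (fun i => E i.1 i.2)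
  simp only [Finset.sum_product] at h1
  have h2 : ∑ x ∈ S, ∑ y ∈ B, e x * e y * ‖Gr A W' x y + E x y‖ ^ 2 = PW A W e S B := by
    unfold PW
    refine Finset.sum_congr rfl fun x _ => Finset.sum_congr rfl fun y _ => ?_
    rw [resolvent hA hW hW' x y, hE]
  rw [h2] at h1
  refine h1.trans ?_
  have h3 : ∑ x ∈ S, ∑ y ∈ B, e x * e y * ‖Gr A W' x y‖ ^ 2 = PW A W' e S B := rfl
  rw [h3]
  have hs0 : ∀ V : ι → ℂ, 0 ≤ ∑ z, ‖Gr A V z z‖ := fun V =>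
    Finset.sum_nonneg fun z _ => norm_nonneg _
  have h4 : ∑ x ∈ S, ∑ y ∈ B, e x * e y * ‖E x y‖ ^ 2 ≤
      δ ^ 2 * ((∑ z, ‖Gr A W z z‖) * ∑ z, ‖Gr A W' z z‖) := by
    have h5 : ∀ x y, ‖E x y‖ ^ 2 ≤ δ ^ 2 * ((∑ z, ‖Gr A W x z‖ ^ 2) * ∑ z, ‖Gr A W' z y‖ ^ 2) := by
      intro x y
      have h6 : ‖E x y‖ ≤ δ * ∑ z, ‖Gr A W x z‖ * ‖Gr A W' z y‖ := by
        rw [hE, Finset.mul_sum]
        refine (norm_sum_le _ _).trans (Finset.sum_le_sum fun z _ => ?_)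
        rw [norm_mul, norm_mul]
        calc ‖Gr A W x z‖ * ‖W' z - W z‖ * ‖Gr A W' z y‖
            ≤ ‖Gr A W x z‖ * δ * ‖Gr A W' z y‖ := by
              have := hδ z
              gcongr
          _ = _ := by ring
      have h7 : (∑ z, ‖Gr A W x z‖ * ‖Gr A W' z y‖) ^ 2 ≤
          (∑ z, ‖Gr A W x z‖ ^ 2) * ∑ z, ‖Gr A W' z y‖ ^ 2 :=
        Finset.sum_mul_sq_le_sq_mul_sq _ _ _
      calc ‖E x y‖ ^ 2 ≤ (δ * ∑ z, ‖Gr A W x z‖ * ‖Gr A W' z y‖) ^ 2 := by gcongr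
        _ = δ ^ 2 * (∑ z, ‖Gr A W x z‖ * ‖Gr A W' z y‖) ^ 2 := by ring
        _ ≤ _ := mul_le_mul_of_nonneg_left h7 (sq_nonneg _)
    calc ∑ x ∈ S, ∑ y ∈ B, e x * e y * ‖E x y‖ ^ 2
        ≤ ∑ x ∈ S, ∑ y ∈ B, e x * e y *
            (δ ^ 2 * ((∑ z, ‖Gr A W x z‖ ^ 2) * ∑ z, ‖Gr A W' z y‖ ^ 2)) := by
          refine Finset.sum_le_sum fun x _ => Finset.sum_le_sum fun y _ => ?_
          exact mul_le_mul_of_nonneg_left (h5 x y) (mul_nonneg (he0 _) (he0 _))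
      _ = δ ^ 2 * ((∑ x ∈ S, e x * ∑ z, ‖Gr A W x z‖ ^ 2) *
            ∑ y ∈ B, e y * ∑ z, ‖Gr A W' z y‖ ^ 2) := by
          rw [Finset.sum_mul_sum, Finset.mul_sum]
          refine Finset.sum_congr rfl fun x _ => ?_
          rw [Finset.mul_sum]
          refine Finset.sum_congr rfl fun y _ => ?_
          ring
      _ ≤ δ ^ 2 * ((∑ z, ‖Gr A W z z‖) * ∑ z, ‖Gr A W' z z‖) := by
          have h8 : ∑ x ∈ S, e x * ∑ z, ‖Gr A W x z‖ ^ 2 ≤ ∑ z, ‖Gr A W z z‖ := by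
            calc ∑ x ∈ S, e x * ∑ z, ‖Gr A W x z‖ ^ 2 =
                ∑ z, ∑ x ∈ S, e x * ‖Gr A W x z‖ ^ 2 := by
                  rw [Finset.sum_comm]
                  exact Finset.sum_congr rfl fun x _ => Finset.mul_sum _ _ _
              _ ≤ _ := Finset.sum_le_sum fun z _ => ward_le hA hW he0 he S z
          have h9 : ∑ y ∈ B, e y * ∑ z, ‖Gr A W' z y‖ ^ 2 ≤ ∑ z, ‖Gr A W' z z‖ := by
            calc ∑ y ∈ B, e y * ∑ z, ‖Gr A W' z y‖ ^ 2 =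
                ∑ z, ∑ y ∈ B, e y * ‖Gr A W' y z‖ ^ 2 := by
                  rw [Finset.sum_comm]
                  refine Finset.sum_congr rfl fun y _ => ?_
                  rw [Finset.mul_sum]
                  refine Finset.sum_congr rfl fun z _ => ?_
                  rw [Gr_symm hA z y]
              _ ≤ _ := Finset.sum_le_sum fun z _ => ward_le hA hW' he0 he' B z
          have h10 : 0 ≤ ∑ y ∈ B, e y * ∑ z, ‖Gr A W' z y‖ ^ 2 :=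
            Finset.sum_nonneg fun y _ => mul_nonneg (he0 _)
              (Finset.sum_nonneg fun z _ => sq_nonneg _)
          refine mul_le_mul_of_nonneg_left ?_ (sq_nonneg _)
          exact mul_le_mul h8 h9 h10 (hs0 W)
  have h5 : Real.sqrt (∑ x ∈ S, ∑ y ∈ B, e x * e y * ‖E x y‖ ^ 2) ≤
      δ * (Real.sqrt (∑ z, ‖Gr A W z z‖) * Real.sqrt (∑ z, ‖Gr A W' z z‖)) := by
    refine (Real.sqrt_le_sqrt h4).trans (le_of_eq ?_)
    rw [Real.sqrt_mul (sq_nonneg _), Real.sqrt_sq hδ0, Real.sqrt_mul (hs0 W)]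
  linarith

/-- **COMPARISON of the transmitted powers**, power `p / 2`. -/
theorem PW_rpow_le (hA : A.IsSymm) (hW : ∀ x, (W x).im < 0) (hW' : ∀ x, (W' x).im < 0)
    {e : ι → ℝ} (he0 : ∀ x, 0 ≤ e x) (he : ∀ x, e x ≤ -(W x).im) (he' : ∀ x, e x ≤ -(W' x).im)
    {δ : ℝ} (hδ0 : 0 ≤ δ) (hδ : ∀ x, ‖W' x - W x‖ ≤ δ) (S B : Finset ι) {p : ℝ} (hp : 0 < p)
    (hp1 : p ≤ 1) :
    PW A W e S B ^ (p / 2) ≤ PW A W' e S B ^ (p / 2) +
      δ ^ p * ∑ z, (‖Gr A W z z‖ ^ p + ‖Gr A W' z z‖ ^ p) := by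
  have hs0 : ∀ V : ι → ℂ, 0 ≤ ∑ z, ‖Gr A V z z‖ := fun V =>
    Finset.sum_nonneg fun z _ => norm_nonneg _
  have h1 := sqrt_PW_le hA hW hW' he0 he he' hδ0 hδ S B
  have hsq : ∀ t : ℝ, 0 ≤ t → t ^ (p / 2) = Real.sqrt t ^ p := by
    intro t ht
    rw [Real.sqrt_eq_rpow, ← Real.rpow_mul ht]
    congr 1
    ring
  rw [hsq _ (PW_nonneg he0 S B), hsq _ (PW_nonneg he0 S B)]
  obtain ⟨a, ha⟩ : ∃ a, a = ∑ z, ‖Gr A W z z‖ := ⟨_, rfl⟩
  obtain ⟨b, hb⟩ : ∃ b, b = ∑ z, ‖Gr A W' z z‖ := ⟨_, rfl⟩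
  have ha0 : 0 ≤ a := ha ▸ hs0 W
  have hb0 : 0 ≤ b := hb ▸ hs0 W'
  rw [← ha, ← hb] at h1
  have hsum : ∀ V : ι → ℂ, (∑ z, ‖Gr A V z z‖) ^ p ≤ ∑ z, ‖Gr A V z z‖ ^ p := by
    intro V
    refine Finset.induction_on (Finset.univ : Finset ι) ?_ ?_
    · rw [Finset.sum_empty, Finset.sum_empty, Real.zero_rpow hp.ne']
    · intro z T hz ih
      rw [Finset.sum_insert hz, Finset.sum_insert hz]
      refine (Real.rpow_add_le_add_rpow (norm_nonneg _)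
        (Finset.sum_nonneg fun z _ => norm_nonneg _) hp.le hp1).trans ?_
      linarith
  calc Real.sqrt (PW A W e S B) ^ p
      ≤ (Real.sqrt (PW A W' e S B) + δ * (Real.sqrt a * Real.sqrt b)) ^ p :=
        Real.rpow_le_rpow (Real.sqrt_nonneg _) h1 hp.le
    _ ≤ Real.sqrt (PW A W' e S B) ^ p + (δ * (Real.sqrt a * Real.sqrt b)) ^ p :=
        Real.rpow_add_le_add_rpow (Real.sqrt_nonneg _) (by positivity) hp.le hp1
    _ = Real.sqrt (PW A W' e S B) ^ p + δ ^ p * (Real.sqrt a ^ p * Real.sqrt b ^ p) := by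
        rw [Real.mul_rpow hδ0 (by positivity), Real.mul_rpow (Real.sqrt_nonneg _)
          (Real.sqrt_nonneg _)]
    _ ≤ Real.sqrt (PW A W' e S B) ^ p + δ ^ p * (a ^ p + b ^ p) := by
        have h2 : Real.sqrt a ^ p * Real.sqrt a ^ p = a ^ p := by
          rw [← Real.mul_rpow (Real.sqrt_nonneg _) (Real.sqrt_nonneg _), Real.mul_self_sqrt ha0]
        have h3 : Real.sqrt b ^ p * Real.sqrt b ^ p = b ^ p := by
          rw [← Real.mul_rpow (Real.sqrt_nonneg _) (Real.sqrt_nonneg _), Real.mul_self_sqrt hb0]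
        have h4 : 0 ≤ a ^ p := Real.rpow_nonneg ha0 p
        have h5 : 0 ≤ b ^ p := Real.rpow_nonneg hb0 p
        have h6 : Real.sqrt a ^ p * Real.sqrt b ^ p ≤ a ^ p + b ^ p := by
          nlinarith [sq_nonneg (Real.sqrt a ^ p - Real.sqrt b ^ p)]
        have h7 : 0 ≤ δ ^ p := Real.rpow_nonneg hδ0 p
        have := mul_le_mul_of_nonneg_left h6 h7
        linarith
    _ ≤ Real.sqrt (PW A W' e S B) ^ p +
          δ ^ p * ∑ z, (‖Gr A W z z‖ ^ p + ‖Gr A W' z z‖ ^ p) := by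
        rw [Finset.sum_add_distrib]
        have h7 : 0 ≤ δ ^ p := Real.rpow_nonneg hδ0 p
        have h8 : a ^ p + b ^ p ≤ ∑ z, ‖Gr A W z z‖ ^ p + ∑ z, ‖Gr A W' z z‖ ^ p := by
          rw [ha, hb]
          exact add_le_add (hsum W) (hsum W')
        have := mul_le_mul_of_nonneg_left h8 h7
        linarith

end P365L.C4H737
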