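import Vale.Agent.P365.T2.C4844

/-!
# P365-T2: the one-site inequality of the centre route, integrated over the smooth law (helper844)
-/

set_option linter.all false

namespace P365T2.H844

open Finset P365L P365O P365T1 Complex MeasureTheory
open Vale.Agent.P365.T2.H789 Vale.Agent.P365.T2.H417
open scoped RealInnerProductSpace ComplexConjugate
open P365T2.H37 (wk HH HD rho)
open P365T2.Coll863 (Ly kp)
open P365T2.H862 (pz)
open P365T2.H218 (tv Avw Acw CL0)
open P365L.T2.Path (LH)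

/-! ### the law -/

section law

variable {lam l : ℝ}

theorem nuS_ae_abs : ∀ᵐ t ∂(nuS lam l), |t| ≤ lam := by
  have h1 : ∀ᵐ t ∂(muv lam), |t| ≤ lam := by
    unfold muv
    filter_upwards [ae_restrict_mem measurableSet_Icc] with t ht
    exact abs_le.2 ⟨ht.1, ht.2⟩
  exact (withDensity_absolutelyContinuous (muv lam) _).ae_le h1

theorem nuS_integrable {F : Type*} [NormedAddCommGroup F] (hl : 0 < l) (h : l < lam)
    {g : ℝ → F} (hg : Continuous g) : Integrable g (nuS lam l) := by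
  have h1 : Integrable g (muv lam) := hg.integrableOn_Icc
  exact (h1.smul_measure ENNReal.ofReal_ne_top).mono_measure (nuS_le hl h)

end law

section Ups

variable {ι : Type*} [Fintype ι] [DecidableEq ι] {A : Matrix ι ι ℝ} {W : ι → ℂ}
variable {V : Type*} [NormedAddCommGroup V] [InnerProductSpace ℝ V] {Φ : ι → V} {E : ℝ}

/-! ### more invariance -/

theorem Ac_rez (hA : A.IsSymm) (hW : ∀ x, (W x).im < 0) (J k : ℕ) (z : ι) (u : ℝ) (x : ι) :
    Ac A (rez W z u) Φ J k z x = Ac A W Φ J k z x := by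
  unfold Ac
  simp only [Tc_rez hA hW]

theorem u0c_rez (hA : A.IsSymm) (hW : ∀ x, (W x).im < 0) (J k : ℕ) (z : ι) (u : ℝ) (x : ι) :
    u0c A (rez W z u) Φ J k z x = u0c A W Φ J k z x := by
  unfold u0c
  rw [Ac_rez hA hW, Mc_rez hA hW]

theorem lm0_rez (hA : A.IsSymm) (hW : ∀ x, (W x).im < 0) (ε : ℝ) (J k : ℕ) (z : ι) (u : ℝ)
    (x : ι) : lm0 A (rez W z u) Φ ε J k z x = lm0 A W Φ ε J k z x := by
  unfold lm0
  rw [u0c_rez hA hW]

theorem q0c_rez (hA : A.IsSymm) (hW : ∀ x, (W x).im < 0) (ε : ℝ) (J k : ℕ) (z : ι) (u : ℝ)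
    (x : ι) : q0c A (rez W z u) Φ ε J k z x = q0c A W Φ ε J k z x := by
  unfold q0c
  rw [u0c_rez hA hW]

theorem g2_rez (hA : A.IsSymm) (hW : ∀ x, (W x).im < 0) (z : ι) (u : ℝ) (x : ι) :
    g2 A (rez W z u) z x = g2 A W z x := by
  unfold g2
  rw [gw_rez hA hW, rez_im_all]

theorem Rk_rez (hA : A.IsSymm) (hW : ∀ x, (W x).im < 0) (J k : ℕ) (z : ι) (u : ℝ) (x : ι) :
    Rk A (rez W z u) Φ J k z x = Rk A W Φ J k z x := Rzc_rez hA hW _ z u

theorem sg_rez (hA : A.IsSymm) (hW : ∀ x, (W x).im < 0) (z : ι) (u : ℝ) :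
    sg A (rez W z u) z = sg A W z :=
  sg_upd hA hW (by rw [rez_im]; exact hW z)

theorem YrK_rez (hA : A.IsSymm) (hW : ∀ x, (W x).im < 0) (J k : ℕ) (z : ι) (u : ℝ) :
    YrK A Φ J k z (rez W z u) = YrK A Φ J k z W := by
  rw [YrK_eq hA (rez_neg hW z u), YrK_eq hA hW, sg_rez hA hW, rez_im_all]
  simp only [g2_rez hA hW, Rk_rez hA hW]

/-! ### continuity along the line -/

theorem line_cont {F : Type*} [TopologicalSpace F] {G : (ι → ℂ) → F}
    (hG : ContinuousOn G (LH ι)) (hW : ∀ x, (W x).im < 0) (z : ι) :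
    Continuous fun t : ℝ => G (rez W z (t - E)) :=
  hG.comp_continuous ((continuous_rez W z).comp (continuous_id.sub continuous_const))
    fun t => rez_neg hW z _

theorem lc_TT (hA : A.IsSymm) (hW : ∀ x, (W x).im < 0) (z x y : ι) :
    Continuous fun t : ℝ => TT A (rez W z (t - E)) x y :=
  line_cont (P365L.T2.Path.contDiffOn_TT (n := 0) hA x y).continuousOn hW z

theorem lc_pr (hA : A.IsSymm) (hW : ∀ x, (W x).im < 0) (z x : ι) :
    Continuous fun t : ℝ => pr (TT A (rez W z (t - E))) x :=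
  line_cont (P365L.T2.Path.contDiffOn_pr (n := 0) hA x).continuousOn hW z

theorem lc_mm (hA : A.IsSymm) (hW : ∀ x, (W x).im < 0) (z x : ι) :
    Continuous fun t : ℝ => mm A (rez W z (t - E)) x :=
  line_cont (P365L.T2.Path.contDiffOn_mm (n := 0) hA x).continuousOn hW z

theorem lc_Gr (hA : A.IsSymm) (hW : ∀ x, (W x).im < 0) (z x y : ι) :
    Continuous fun t : ℝ => Gr A (rez W z (t - E)) x y :=
  line_cont (P365L.T2.Path.contDiffOn_Gr (n := 0) hA x y).continuousOn hW z

theorem lc_Pw (hA : A.IsSymm) (hW : ∀ x, (W x).im < 0) (J k : ℕ) (z v x : ι) :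
    Continuous fun t : ℝ => Pw Φ (TT A (rez W z (t - E))) J k v x :=
  line_cont (P365L.T2.Path.contDiffOn_Pw (n := 0) hA J k v x).continuousOn hW z

theorem lc_ur (hA : A.IsSymm) (hW : ∀ x, (W x).im < 0) (J k : ℕ) (z x : ι) :
    Continuous fun t : ℝ => ur Φ (TT A (rez W z (t - E))) J k x :=
  line_cont (P365L.T2.Path.contDiffOn_ur (n := 0) hA J k x).continuousOn hW z

theorem lc_lm (hA : A.IsSymm) (hW : ∀ x, (W x).im < 0) {ε : ℝ} (hε : 0 < ε) (J k : ℕ)
    (z x : ι) : Continuous fun t : ℝ => lm A (rez W z (t - E)) Φ ε J k x := by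
  unfold lm
  refine Continuous.log ((lc_ur hA hW J k z x).add continuous_const) fun t => ?_
  have := ur_nonneg (Φ := Φ) (J := J) (k := k) (TT_nonneg (A := A) (rez_neg hW z (t - E)))
    (fun x => pr_TT_pos hA (rez_neg hW z (t - E)) x) x
  have h2 : 0 < ur Φ (TT A (rez W z (t - E))) J k x + ε := by linarith
  exact h2.ne'

theorem lc_An (hA : A.IsSymm) (hW : ∀ x, (W x).im < 0) (J k : ℕ) (z x : ι) :
    Continuous fun t : ℝ => An A (rez W z (t - E)) Φ J k x := by
  unfold An
  exact continuous_finset_sum _ fun b _ => continuous_const.mul (lc_TT hA hW z x b)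

theorem lc_CX (hA : A.IsSymm) (hW : ∀ x, (W x).im < 0) {ε : ℝ} (hε : 0 < ε) (J k : ℕ)
    (z x : ι) : Continuous fun t : ℝ => CX A (rez W z (t - E)) Φ ε J k z x := by
  unfold CX Gg
  simp only [Ac_rez hA hW, Mc_rez hA hW]
  have h1 : Continuous fun t : ℝ => Real.log (ur Φ (TT A (rez W z (t - E))) J k x + ε) :=
    lc_lm hA hW hε J k z x
  have h2 := lc_ur (Φ := Φ) (E := E) hA hW J k z x
  have h3 := lc_An (Φ := Φ) (E := E) hA hW J k z x
  have h4 := lc_pr (E := E) hA hW z x
  exact ((h1.mul (h3.sub continuous_const)).add ((continuous_const.mul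
    (((((h2.add continuous_const).mul h1).sub h2).sub continuous_const).sub
      (h2.mul h1))).mul (h4.sub continuous_const))).neg

theorem lc_CntK (hA : A.IsSymm) (hW : ∀ x, (W x).im < 0) (J k : ℕ) (z : ι) :
    Continuous fun t : ℝ => CntK A Φ J k z (rez W z (t - E)) := by
  unfold CntK
  exact continuous_finset_sum _ fun x _ =>
    (lc_TT hA hW z x z).mul ((lc_Pw hA hW J k z z x).add (lc_Pw hA hW J k z x x))

theorem lc_Ly (hA : A.IsSymm) (hW : ∀ x, (W x).im < 0) (w : ι → ι → ℝ) {L : ℝ → ι → ℝ}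
    (hL : ∀ x, Continuous fun t => L t x) (z : ι) :
    Continuous fun t : ℝ => Ly A (rez W z (t - E)) w (L t) z := by
  have h3 : (fun t : ℝ => Ly A (rez W z (t - E)) w (L t) z) = fun t =>
      ∑ x, ∑ u, ((L t x : ℝ) : ℂ) * (((-(W x).im) * (-(W u).im) * w x u : ℝ) : ℂ) *
        conj (Gr A (rez W z (t - E)) x u) *
        (Gr A (rez W z (t - E)) x z * Gr A (rez W z (t - E)) z u) := by
    funext t
    unfold Ly
    refine sum_congr rfl fun x _ => sum_congr rfl fun u _ => ?_
    unfold P365T2.Coll863.ab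
    rw [rez_im_all, rez_im_all]
  rw [h3]
  refine continuous_finset_sum _ fun x _ => continuous_finset_sum _ fun u _ => ?_
  have h4 : Continuous fun t : ℝ => ((L t x : ℝ) : ℂ) := Complex.continuous_ofReal.comp (hL x)
  have h5 : Continuous fun t : ℝ => conj (Gr A (rez W z (t - E)) x u) :=
    Complex.continuous_conj.comp (lc_Gr hA hW z x u)
  exact ((h4.mul continuous_const).mul h5).mul ((lc_Gr hA hW z x z).mul (lc_Gr hA hW z z u))

theorem lc_kp (hA : A.IsSymm) (hW : ∀ x, (W x).im < 0) (z : ι) :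
    Continuous fun t : ℝ => kp A (rez W z (t - E)) z := by
  unfold kp
  simp only [sg_rez hA hW]
  have h2 : Continuous fun t : ℝ => rez W z (t - E) z := by
    have h := (continuous_rez W z).comp (continuous_id.sub (continuous_const (y := E)))
    exact (continuous_apply z).comp h
  exact ((h2.sub continuous_const).norm.pow 2).div_const _

theorem lc_ClK (hA : A.IsSymm) (hW : ∀ x, (W x).im < 0) {ε : ℝ} (hε : 0 < ε) (J k : ℕ) (z : ι) :
    Continuous fun t : ℝ => ClK A Φ ε J k z (rez W z (t - E)) := by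
  unfold ClK
  have h1 : ∀ x, Continuous fun t : ℝ => Real.log (ur Φ (TT A (rez W z (t - E))) J k x + ε) :=
    fun x => lc_lm hA hW hε J k z x
  have h2 := lc_Ly (E := E) hA hW (fun x u => wk J k (tt Φ x u)) h1 z
  have h3 := lc_kp (E := E) hA hW z
  simp only [rez_im_all]
  exact continuous_const.mul (h3.mul h2.norm)

/-! ### the numerator on the line -/

theorem pz_im_Sf (hA : A.IsSymm) (hW : ∀ x, (W x).im < 0) (E : ℝ) (z : ι) :
    (pz A W E z).im = Sf A W z := by
  rw [P365T2.H862.pz_im, sz_im, sg_im hA hW]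
  ring

theorem An_line (hA : A.IsSymm) (hW : ∀ x, (W x).im < 0) (J k : ℕ) (z x : ι) (t : ℝ) :
    An A (rez W z (t - E)) Φ J k x =
      Avw (fun b => wk J k (tt Φ x b) * ((-(W x).im) * (-(W b).im)))
        (fun b => Gi A W z x b) (fun b => gw A W z x * gw A W z b) (pz A W E z) t := by
  unfold An Avw TT
  refine sum_congr rfl fun b _ => ?_
  rw [KK, Gr_eq_Gi hA (rez_neg hW z (t - E)) z x b, Gi_rez hA hW, gw_rez hA hW, gw_rez hA hW,
    P365T2.H597.Gr_rezE hA hW, rez_im_all, rez_im_all]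
  unfold tv
  ring

theorem Ac_line (hA : A.IsSymm) (hW : ∀ x, (W x).im < 0) (J k : ℕ) (z x : ι) :
    Ac A W Φ J k z x =
      Acw (fun b => wk J k (tt Φ x b) * ((-(W x).im) * (-(W b).im)))
        (fun b => Gi A W z x b) (fun b => gw A W z x * gw A W z b) (pz A W E z) := by
  have hS := Sf_pos hA hW z
  unfold Ac Acw Tc Gc
  refine sum_congr rfl fun b _ => ?_
  rw [pz_im_Sf hA hW, norm_mul]
  have e1 : (qz A W z : ℂ) * I = I / (2 * (Sf A W z : ℂ)) := by
    unfold qz
    push_cast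
    have : (Sf A W z : ℂ) ≠ 0 := by exact_mod_cast hS.ne'
    field_simp
  rw [e1]
  unfold qz
  field_simp
  ring

end Ups

end P365T2.H844
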