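import Vale.Agent.P365.T2.C5844

/-!
# P365-T2: **the one-site inequality of the centre route** (helper844)

`∫ 2 M_z Σ_x CX_x dnuS ≥ - C0 ∫ CntK - C1 YrK - C0 ∫ ClK`, `C0` independent of `T`.
-/

set_option linter.all false

namespace P365T2.H844

open Finset P365L P365O P365T1 Complex MeasureTheory
open Vale.Agent.P365.T2.H789 Vale.Agent.P365.T2.H417
open scoped RealInnerProductSpace ComplexConjugate
open P365T2.H37 (wk HH HD rho)
open P365T2.Coll863 (Ly kp)
open P365T2.H862 (pz)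
open P365T2.H218 (tv Avw Acw CL0)
open P365T2.H597 (CBt)
open P365L.T2.Path (LH)

section Ups

variable {ι : Type*} [Fintype ι] [DecidableEq ι] {A : Matrix ι ι ℝ} {W : ι → ℂ}
variable {V : Type*} [NormedAddCommGroup V] [InnerProductSpace ℝ V] {Φ : ι → V} {E : ℝ}
variable {lam l : ℝ}

/-- constants of the logarithmic lemma -/
noncomputable def c2L (lam l : ℝ) : ℝ := CL0 lam l * (Real.log 2 + 2 * Real.log 2)

/-- constants of the logarithmic lemma -/
noncomputable def c3L (lam l K : ℝ) : ℝ := CL0 lam l * (Real.log 2 + 2 * Real.log 2 + K)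

theorem c2L_nonneg (hl : 0 < l) (h : l < lam) : 0 ≤ c2L lam l := by
  have := P365T2.H218.CL0_nonneg hl h
  have h2 : 0 ≤ Real.log 2 := Real.log_nonneg (by norm_num)
  unfold c2L
  positivity

theorem c3L_nonneg (hl : 0 < l) (h : l < lam) {K : ℝ} (hK : 0 ≤ K) : 0 ≤ c3L lam l K := by
  have := P365T2.H218.CL0_nonneg hl h
  have h2 : 0 ≤ Real.log 2 := Real.log_nonneg (by norm_num)
  unfold c3L
  positivity

theorem TT_line (hA : A.IsSymm) (hW : ∀ x, (W x).im < 0) (z x : ι) (t : ℝ) :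
    TT A (rez W z (t - E)) x z = (-(W z).im) * g2 A W z x * ‖tv (pz A W E z) t‖ ^ 2 := by
  rw [TT_g2 hA (rez_neg hW z (t - E)), g2_rez hA hW, rez_im_all, P365T2.H597.Gr_rezE hA hW]
  rfl

/-- the logarithmic part of the gap -/
theorem log_term (hl : 0 < l) (h : l < lam) (hA : A.IsSymm) (hW : ∀ x, (W x).im < 0) {T : ℝ}
    (hT : 0 ≤ T) {J k : ℕ} (hk : k < J + 2) (ht4 : ∀ x y, tt Φ x y ≤ 4 ^ J) (z x : ι) :
    ∫ t, TT A (rez W z (t - E)) x z * (Rk A W Φ J k z x *
        max 0 (lm0 A W Φ (Real.exp (-T)) J k z x -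
          lm A (rez W z (t - E)) Φ (Real.exp (-T)) J k x)) ∂(nuS lam l) ≤
      c2L lam l * ∫ t, TT A (rez W z (t - E)) x z * Rk A W Φ J k z x ∂(nuS lam l) +
        c3L lam l (T + 2) * ((-(W z).im) * (g2 A W z x * Rk A W Φ J k z x) /
          (1 + ‖pz A W E z‖ ^ 2)) := by
  have hε := Real.exp_pos (-T)
  have hs : 0 < (pz A W E z).im := P365T2.H597.pz_im_pos hA hW E z
  have ha : 0 ≤ (-(W z).im) * (g2 A W z x * Rk A W Φ J k z x) :=
    mul_nonneg (neg_im_pos hW z).le (mul_nonneg (g2_nonneg hW z x) (Rk_nonneg hA hW J k z x))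
  have h0 := lm0_bd (Φ := Φ) hA hW hT hk ht4 z x
  have hmain := P365T2.H218.log_nuSw hl h hs
    (w := fun b => wk J k (tt Φ x b) * ((-(W x).im) * (-(W b).im)))
    (fun b => mul_nonneg (cw_nonneg (Φ := Φ) J k x b)
      (mul_nonneg (neg_im_pos hW x).le (neg_im_pos hW b).le))
    (p := fun b => Gi A W z x b) (q := fun b => gw A W z x * gw A W z b)
    (L := fun t => max 0 (lm0 A W Φ (Real.exp (-T)) J k z x -
          lm A (rez W z (t - E)) Φ (Real.exp (-T)) J k x)) (K := T + 2) (c1 := Real.log 2)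
    (Real.log_nonneg (by norm_num))
    ((continuous_const.max (continuous_const.sub (lc_lm hA hW hε J k z x))).measurable)
    (fun t => le_max_left _ _)
    (fun t => by
      have h1 := lm_bd (Φ := Φ) hA (rez_neg hW z (t - E)) hT hk ht4 x
      exact max_le (by linarith) (by linarith [h0.2, h1.1]))
    (fun t ht => by
      rw [← Ac_line (Φ := Φ) (E := E) hA hW J k z x, ← An_line (Φ := Φ) hA hW J k z x t] at ht ⊢
      have h2 := gap_log_le (Φ := Φ) hA (rez_neg hW z (t - E)) hε J k z x (by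
        rw [Ac_rez hA hW]; exact ht)
      rw [lm0_rez hA hW, Ac_rez hA hW] at h2
      exact h2)
  have e1 : ∀ t, TT A (rez W z (t - E)) x z * (Rk A W Φ J k z x *
        max 0 (lm0 A W Φ (Real.exp (-T)) J k z x -
          lm A (rez W z (t - E)) Φ (Real.exp (-T)) J k x)) =
      ((-(W z).im) * (g2 A W z x * Rk A W Φ J k z x)) * (‖tv (pz A W E z) t‖ ^ 2 *
        max 0 (lm0 A W Φ (Real.exp (-T)) J k z x -
          lm A (rez W z (t - E)) Φ (Real.exp (-T)) J k x)) := by
    intro t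
    rw [TT_line hA hW]
    ring
  have e2 : ∀ t, TT A (rez W z (t - E)) x z * Rk A W Φ J k z x =
      ((-(W z).im) * (g2 A W z x * Rk A W Φ J k z x)) * ‖tv (pz A W E z) t‖ ^ 2 := by
    intro t
    rw [TT_line hA hW]
    ring
  simp only [e1, e2]
  rw [integral_const_mul, integral_const_mul]
  have h3 := mul_le_mul_of_nonneg_left hmain ha
  refine h3.trans (le_of_eq ?_)
  unfold c2L c3L
  ring

/-- the first order part, as a function of the potential -/
noncomputable def Hx (A : Matrix ι ι ℝ) (W : ι → ℂ) (Φ : ι → V) (ε : ℝ) (J k : ℕ) (z x : ι)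
    (β : ℂ) : ℝ :=
  -(lm0 A W Φ ε J k z x * (2 * (-(W z).im) * (β * kap A W (cw Φ J k x) z x).im)) +
    q0c A W Φ ε J k z x * (rho k * (2 * (-(W z).im) * (β * kap A W (fun _ => 1) z x).im))

theorem Hx_cont (ε : ℝ) (J k : ℕ) (z x : ι) : Continuous fun β : ℂ => Hx A W Φ ε J k z x β := by
  unfold Hx
  have h1 : ∀ κ : ℂ, Continuous fun β : ℂ => (β * κ).im := fun κ =>
    Complex.continuous_im.comp (continuous_id.mul continuous_const)
  exact ((continuous_const.mul (continuous_const.mul (h1 _))).neg).add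
    (continuous_const.mul (continuous_const.mul (continuous_const.mul (h1 _))))

theorem Hx_int {μ : Measure ℝ} {g : ℝ → ℂ} (hg : Integrable g μ) (ε : ℝ) (J k : ℕ) (z x : ι) :
    ∫ t, Hx A W Φ ε J k z x (g t) ∂μ = Hx A W Φ ε J k z x (∫ t, g t ∂μ) := by
  have h1 : ∀ κ : ℂ, ∫ t, (g t * κ).im ∂μ = ((∫ t, g t ∂μ) * κ).im := by
    intro κ
    have h2 : ∫ t, (g t * κ).im ∂μ = (∫ t, g t * κ ∂μ).im :=
      (Complex.imCLM.integral_comp_comm (hg.mul_const κ))
    rw [h2, integral_mul_const]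
  have h3 : ∀ κ : ℂ, Integrable (fun t => (g t * κ).im) μ := fun κ =>
    Complex.imCLM.integrable_comp (hg.mul_const κ)
  unfold Hx
  rw [integral_add, integral_neg, integral_const_mul, integral_const_mul, integral_const_mul,
    integral_const_mul, integral_const_mul, h1, h1]
  · exact (((h3 _).const_mul _).const_mul _).neg
  · exact (((h3 _).const_mul _).const_mul _).const_mul _

/-- **pointwise bound** of the integrand, corrected by the first order part -/
theorem site_pw (hl : 0 < l) (h : l < lam) (hA : A.IsSymm) (hW : ∀ x, (W x).im < 0) {T : ℝ}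
    (hT : 0 ≤ T) {J k : ℕ} (hk : k < J + 2) (ht4 : ∀ x y, tt Φ x y ≤ 4 ^ J) (z : ι)
    {β : ℂ} (hβ : ‖β‖ ≤ CBt lam l / (1 + ‖pz A W E z‖ ^ 2)) {t : ℝ} (ht : |t| ≤ lam) :
    -((480 + 644 * (CBt lam l * (2 * (1 + lam ^ 2)))) * CntK A Φ J k z (rez W z (t - E)) +
        480 * ∑ x, TT A (rez W z (t - E)) x z * (Rk A W Φ J k z x *
          max 0 (lm0 A W Φ (Real.exp (-T)) J k z x -
            lm A (rez W z (t - E)) Φ (Real.exp (-T)) J k x)) +
        321 * ((T + 2) * (CBt lam l * (2 + 2 * E ^ 2))) * YrK A Φ J k z W +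
        2 * (CBt lam l * (2 + 2 * E ^ 2)) * ClK A Φ (Real.exp (-T)) J k z (rez W z (t - E))) ≤
      2 * ((-(W z).im) * mm A (rez W z (t - E)) z) *
          ∑ x, CX A (rez W z (t - E)) Φ (Real.exp (-T)) J k z x -
        ∑ x, Hx A W Φ (Real.exp (-T)) J k z x (Gr A (rez W z (t - E)) z z ^ 2) +
        ∑ x, Hx A W Φ (Real.exp (-T)) J k z x β := by
  set W' := rez W z (t - E) with hW'd
  have hW' : ∀ x, (W' x).im < 0 := rez_neg hW z (t - E)
  have hε := Real.exp_pos (-T)
  set ε := Real.exp (-T) with hεd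
  have hC := P365T2.H597.CBt_nonneg lam l
  have him : ∀ x, (W' x).im = (W x).im := rez_im_all W z (t - E)
  have hpz : pz A W' E z = pz A W E z := P365T2.H862.pz_rez hA hW E z (t - E)
  -- the constant parts at the actual point
  have hb : CBt lam l / (1 + ‖pz A W E z‖ ^ 2) ≤
      CBt lam l * (2 * (1 + lam ^ 2)) * ‖Gr A W' z z‖ ^ 2 := by
    have h1 := P365T2.H597.inv_le_norm_Gr hA hW E z ht
    have h2 := mul_le_mul_of_nonneg_left h1 hC
    rw [mul_one_div] at h2
    refine h2.trans (le_of_eq ?_)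
    ring
  have hs : CBt lam l / (1 + ‖pz A W E z‖ ^ 2) ≤
      CBt lam l * (2 + 2 * E ^ 2) / (1 + ‖sg A W' z‖ ^ 2) := by
    have h1 := P365T2.H597.inv_pz_le hA hW' E z
    rw [hpz] at h1
    have h2 := mul_le_mul_of_nonneg_left h1 hC
    rw [mul_one_div, mul_div_assoc'] at h2
    exact h2
  have hK : ∀ x, |lm A W' Φ ε J k x - lm0 A W' Φ ε J k z x| ≤ T + 2 := by
    intro x
    have h1 := lm_bd (Φ := Φ) hA hW' hT hk ht4 x
    have h2 := lm0_bd (Φ := Φ) hA hW' hT hk ht4 z x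
    rw [abs_le]
    constructor <;> linarith [h1.1, h1.2, h2.1, h2.2]
  have hK' : ∀ x, |lm A W' Φ ε J k x| ≤ T + 2 := by
    intro x
    have h1 := lm_bd (Φ := Φ) hA hW' hT hk ht4 x
    rw [abs_le]
    constructor <;> linarith [h1.1, h1.2]
  have h1 := sum_const_pw (Φ := Φ) hA hW' hε J k z
    (mul_nonneg hC (by positivity)) (mul_nonneg hC (by positivity)) hβ hb hs hK hK'
  have e1 : ∑ x, (-(lm0 A W' Φ ε J k z x * (2 * (-(W' z).im) *
      (β * kap A W' (cw Φ J k x) z x).im)) + q0c A W' Φ ε J k z x * (rho k *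
        (2 * (-(W' z).im) * (β * kap A W' (fun _ => 1) z x).im))) =
      ∑ x, Hx A W Φ ε J k z x β := by
    refine sum_congr rfl fun x _ => ?_
    unfold Hx
    rw [hW'd, lm0_rez hA hW, q0c_rez hA hW, kap_rez hA hW, kap_rez hA hW, rez_im_all]
  rw [e1] at h1
  have e2 : YrK A Φ J k z W' = YrK A Φ J k z W := YrK_rez hA hW J k z _
  rw [e2] at h1
  -- the gap
  have h2 : ∀ x, -(480 * (TT A W' x z * (rho k * ur Φ (TT A W') J k x + Rk A W Φ J k z x +
      Rk A W Φ J k z x * max 0 (lm0 A W Φ ε J k z x - lm A W' Φ ε J k x)))) ≤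
      2 * ((-(W z).im) * mm A W' z) * CX A W' Φ ε J k z x -
        Hx A W Φ ε J k z x (Gr A W' z z ^ 2) := by
    intro x
    have h3 := gap_pw (Φ := Φ) hA hW' hε J k z x
    have h4 := CX_split (Φ := Φ) hA hW' hε J k z x
    have e3 : Hx A W Φ ε J k z x (Gr A W' z z ^ 2) =
        -(lm0 A W' Φ ε J k z x * (2 * (-(W' z).im) *
          (Gr A W' z z ^ 2 * kap A W' (cw Φ J k x) z x).im)) +
        q0c A W' Φ ε J k z x * (rho k * (2 * (-(W' z).im) *
          (Gr A W' z z ^ 2 * kap A W' (fun _ => 1) z x).im)) := by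
      unfold Hx
      rw [hW'd, lm0_rez hA hW, q0c_rez hA hW, kap_rez hA hW, kap_rez hA hW, rez_im_all]
    have e4 : lm0 A W' Φ ε J k z x = lm0 A W Φ ε J k z x := lm0_rez hA hW ε J k z _ x
    have e5 : Rk A W' Φ J k z x = Rk A W Φ J k z x := Rk_rez hA hW J k z _ x
    rw [e4, e5] at h3
    rw [him z] at h3 h4
    rw [e3]
    rw [him z]
    linarith
  have h3 := sum_le_sum fun x (_ : x ∈ univ) => h2 x
  rw [sum_sub_distrib, ← mul_sum] at h3
  have h4 : ∑ x, -(480 * (TT A W' x z * (rho k * ur Φ (TT A W') J k x + Rk A W Φ J k z x +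
      Rk A W Φ J k z x * max 0 (lm0 A W Φ ε J k z x - lm A W' Φ ε J k x)))) =
      -(480 * ∑ x, TT A W' x z * (rho k * ur Φ (TT A W') J k x + Rk A W Φ J k z x)) -
        480 * ∑ x, TT A W' x z * (Rk A W Φ J k z x *
          max 0 (lm0 A W Φ ε J k z x - lm A W' Φ ε J k x)) := by
    rw [mul_sum, mul_sum, ← sum_neg_distrib, ← sum_sub_distrib]
    exact sum_congr rfl fun x _ => by ring
  rw [h4] at h3
  have h5 := CntK_ge (Φ := Φ) hA hW' J k z
  have e6 : ∑ x, TT A W' x z * (rho k * ur Φ (TT A W') J k x + Rk A W' Φ J k z x) =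
      ∑ x, TT A W' x z * (rho k * ur Φ (TT A W') J k x + Rk A W Φ J k z x) :=
    sum_congr rfl fun x _ => by rw [hW'd, Rk_rez hA hW]
  rw [e6] at h5
  linarith

end Ups

end P365T2.H844
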