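import Vale.Agent.P365.T2.C6844

/-!
# P365-T2: **the one-site inequality of the centre route**, final form (helper844)
-/

set_option linter.all false

namespace P365T2.H844

open Finset P365L P365O P365T1 Complex MeasureTheory
open Vale.Agent.P365.T2.H789 Vale.Agent.P365.T2.H417 Vale.Agent.P365.J376
open scoped RealInnerProductSpace ComplexConjugate
open P365T2.H37 (wk HH HD rho)
open P365T2.Coll863 (Ly kp)
open P365T2.H862 (pz)
open P365T2.H218 (tv Avw Acw CL0)
open P365T2.H597 (CBt)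
open P365L.T2.Path (LH)

section Ups

variable {ι : Type*} [Fintype ι] [DecidableEq ι] {A : Matrix ι ι ℝ} {W : ι → ℂ}
variable {V : Type*} [NormedAddCommGroup V] [InnerProductSpace ℝ V] {Φ : ι → V} {E : ℝ}
variable {lam l : ℝ}

/-- the `T`-free constant -/
noncomputable def C0c (lam l E : ℝ) : ℝ :=
  480 + 644 * (CBt lam l * (2 * (1 + lam ^ 2))) + 480 * c2L lam l +
    2 * (CBt lam l * (2 + 2 * E ^ 2))

/-- the constant of the off-resonant term -/
noncomputable def C1c (lam l E T : ℝ) : ℝ :=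
  321 * ((T + 2) * (CBt lam l * (2 + 2 * E ^ 2))) +
    240 * (c3L lam l (T + 2) * (2 + 2 * E ^ 2))

theorem C0c_pos (hl : 0 < l) (h : l < lam) (E : ℝ) : 0 < C0c lam l E := by
  have := P365T2.H597.CBt_nonneg lam l
  have := c2L_nonneg hl h
  unfold C0c
  positivity

theorem C1c_nonneg (hl : 0 < l) (h : l < lam) (E : ℝ) {T : ℝ} (hT : 0 ≤ T) :
    0 ≤ C1c lam l E T := by
  have := P365T2.H597.CBt_nonneg lam l
  have := c3L_nonneg hl h (K := T + 2) (by linarith)
  unfold C1c
  positivity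

theorem CntK_nonneg (hA : A.IsSymm) (hW : ∀ x, (W x).im < 0) (J k : ℕ) (z : ι) :
    0 ≤ CntK A Φ J k z W :=
  sum_nonneg fun x _ => mul_nonneg (TT_nonneg hW x z)
    (add_nonneg (Pw_nonneg (TT_nonneg hW) (fun x => pr_TT_pos hA hW x) z x)
      (Pw_nonneg (TT_nonneg hW) (fun x => pr_TT_pos hA hW x) x x))

theorem YrK_nonneg (hA : A.IsSymm) (hW : ∀ x, (W x).im < 0) (J k : ℕ) (z : ι) :
    0 ≤ YrK A Φ J k z W := by
  rw [YrK_eq hA hW]
  have h1 : 0 ≤ ∑ x, g2 A W z x * Rk A W Φ J k z x := sum_nonneg fun x _ =>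
    mul_nonneg (g2_nonneg hW z x) (Rk_nonneg hA hW J k z x)
  have h2 := neg_im_pos hW z
  positivity

theorem ClK_nonneg (hW : ∀ x, (W x).im < 0) (ε : ℝ) (J k : ℕ) (z : ι) :
    0 ≤ ClK A Φ ε J k z W :=
  mul_nonneg (neg_im_pos hW z).le (mul_nonneg (P365T2.Coll863.kp_nonneg z) (norm_nonneg _))

/-- linearity of the integral, packaged -/
theorem lin_int {μ : Measure ℝ} [IsProbabilityMeasure μ] {F H Cn Cl L : ℝ → ℝ}
    (iF : Integrable F μ) (iH : Integrable H μ) (iCn : Integrable Cn μ) (iCl : Integrable Cl μ)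
    (iL : Integrable L μ) {a b c d Hc : ℝ} (hH : ∫ t, H t ∂μ = Hc)
    (hpw : ∀ᵐ t ∂μ, -(a * Cn t + b * L t + c + d * Cl t) ≤ F t - H t + Hc) :
    -(a * ∫ t, Cn t ∂μ + b * ∫ t, L t ∂μ + c + d * ∫ t, Cl t ∂μ) ≤ ∫ t, F t ∂μ := by
  have e1 : ∫ t, (F t - H t + Hc) ∂μ = ∫ t, F t ∂μ := by
    rw [integral_add (f := fun t => F t - H t) (g := fun _ => Hc) (iF.sub iH)
      (integrable_const _), integral_sub iF iH, hH]
    simp
  have i1 : Integrable (fun t => a * Cn t) μ := iCn.const_mul a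
  have i2 : Integrable (fun t => b * L t) μ := iL.const_mul b
  have i3 : Integrable (fun t => d * Cl t) μ := iCl.const_mul d
  have e2 : ∫ t, -(a * Cn t + b * L t + c + d * Cl t) ∂μ =
      -(a * ∫ t, Cn t ∂μ + b * ∫ t, L t ∂μ + c + d * ∫ t, Cl t ∂μ) := by
    rw [integral_neg, integral_add (f := fun t => a * Cn t + b * L t + c)
      (g := fun t => d * Cl t) ((i1.add i2).add (integrable_const c)) i3,
      integral_add (f := fun t => a * Cn t + b * L t) (g := fun _ => c) (i1.add i2)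
      (integrable_const c), integral_add i1 i2, integral_const_mul, integral_const_mul,
      integral_const_mul]
    simp
  rw [← e1, ← e2]
  exact integral_mono_ae (((i1.add i2).add (integrable_const c)).add i3).neg
    ((iF.sub iH).add (integrable_const _)) hpw

/-- **one site, one scale, integrated** -/
theorem one_site_rez (hl : 0 < l) (h : l < lam) (hA : A.IsSymm) (hW : ∀ x, (W x).im < 0) {T : ℝ}
    (hT : 0 ≤ T) {J k : ℕ} (hk : k < J + 2) (ht4 : ∀ x y, tt Φ x y ≤ 4 ^ J) (z : ι) :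
    -(C0c lam l E * ∫ t, CntK A Φ J k z (rez W z (t - E)) ∂(nuS lam l) +
        C1c lam l E T * YrK A Φ J k z W +
        C0c lam l E * ∫ t, ClK A Φ (Real.exp (-T)) J k z (rez W z (t - E)) ∂(nuS lam l)) ≤
      ∫ t, 2 * ((-(W z).im) * mm A (rez W z (t - E)) z) *
        ∑ x, CX A (rez W z (t - E)) Φ (Real.exp (-T)) J k z x ∂(nuS lam l) := by
  haveI : IsProbabilityMeasure (nuS lam l) := P365T1.isProbabilityMeasure_nuS hl h
  have hε := Real.exp_pos (-T)
  set ε := Real.exp (-T) with hεd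
  set μ := nuS lam l with hμ
  have hCB := P365T2.H597.CBt_nonneg lam l
  have hc2 := c2L_nonneg hl h
  set β : ℂ := ∫ t, Gr A (rez W z (t - E)) z z ^ 2 ∂μ with hβd
  have hβ : ‖β‖ ≤ CBt lam l / (1 + ‖pz A W E z‖ ^ 2) := P365T2.H597.norm_beta_le hl h hA hW E z
  -- integrability
  have iCnt : Integrable (fun t => CntK A Φ J k z (rez W z (t - E))) μ :=
    nuS_integrable hl h (lc_CntK hA hW J k z)
  have iCl : Integrable (fun t => ClK A Φ ε J k z (rez W z (t - E))) μ :=
    nuS_integrable hl h (lc_ClK hA hW hε J k z)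
  have cL : ∀ x, Continuous fun t : ℝ => max 0 (lm0 A W Φ ε J k z x -
      lm A (rez W z (t - E)) Φ ε J k x) := fun x =>
    continuous_const.max (continuous_const.sub (lc_lm hA hW hε J k z x))
  have iL : ∀ x, Integrable (fun t => TT A (rez W z (t - E)) x z * (Rk A W Φ J k z x *
      max 0 (lm0 A W Φ ε J k z x - lm A (rez W z (t - E)) Φ ε J k x))) μ := fun x =>
    nuS_integrable hl h ((lc_TT hA hW z x z).mul (continuous_const.mul (cL x)))
  have iR : ∀ x, Integrable (fun t => TT A (rez W z (t - E)) x z * Rk A W Φ J k z x) μ :=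
    fun x => nuS_integrable hl h ((lc_TT hA hW z x z).mul continuous_const)
  have iF : Integrable (fun t => 2 * ((-(W z).im) * mm A (rez W z (t - E)) z) *
        ∑ x, CX A (rez W z (t - E)) Φ ε J k z x) μ :=
    nuS_integrable hl h ((continuous_const.mul (continuous_const.mul (lc_mm hA hW z z))).mul
      (continuous_finset_sum _ fun x _ => lc_CX hA hW hε J k z x))
  have cG : Continuous fun t : ℝ => Gr A (rez W z (t - E)) z z ^ 2 := (lc_Gr hA hW z z z).pow 2
  have iH : ∀ x, Integrable (fun t => Hx A W Φ ε J k z x (Gr A (rez W z (t - E)) z z ^ 2)) μ :=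
    fun x => nuS_integrable hl h ((Hx_cont ε J k z x).comp cG)
  have hH : ∫ t, ∑ x, Hx A W Φ ε J k z x (Gr A (rez W z (t - E)) z z ^ 2) ∂μ =
      ∑ x, Hx A W Φ ε J k z x β := by
    rw [integral_finset_sum _ fun x _ => iH x]
    exact sum_congr rfl fun x _ => Hx_int (nuS_integrable hl h cG) ε J k z x
  have h1 := lin_int (μ := μ) iF (integrable_finset_sum _ fun x _ => iH x) iCnt iCl
    (integrable_finset_sum _ fun x _ => iL x) hH
    (a := 480 + 644 * (CBt lam l * (2 * (1 + lam ^ 2)))) (b := 480)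
    (c := 321 * ((T + 2) * (CBt lam l * (2 + 2 * E ^ 2))) * YrK A Φ J k z W)
    (d := 2 * (CBt lam l * (2 + 2 * E ^ 2))) (by
      filter_upwards [nuS_ae_abs (lam := lam) (l := l)] with t ht
      exact site_pw hl h hA hW hT hk ht4 z hβ ht)
  refine le_trans ?_ h1
  rw [integral_finset_sum _ fun x _ => iL x]
  -- the logarithmic terms
  have h2 : ∑ x, ∫ t, TT A (rez W z (t - E)) x z * (Rk A W Φ J k z x *
      max 0 (lm0 A W Φ ε J k z x - lm A (rez W z (t - E)) Φ ε J k x)) ∂μ ≤
      c2L lam l * ∫ t, CntK A Φ J k z (rez W z (t - E)) ∂μ +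
        c3L lam l (T + 2) * (2 + 2 * E ^ 2) * (YrK A Φ J k z W / 2) := by
    have h3 := sum_le_sum fun x (_ : x ∈ univ) =>
      log_term (E := E) (Φ := Φ) hl h hA hW hT hk ht4 z x
    refine h3.trans ?_
    rw [sum_add_distrib, ← mul_sum, ← mul_sum]
    refine add_le_add (mul_le_mul_of_nonneg_left ?_ hc2) ?_
    · rw [← integral_finset_sum _ fun x _ => iR x]
      refine integral_mono (integrable_finset_sum _ fun x _ => iR x) iCnt fun t => ?_
      have hW' : ∀ x, (rez W z (t - E) x).im < 0 := rez_neg hW z (t - E)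
      have h4 := CntK_ge (Φ := Φ) hA hW' J k z
      refine le_trans (sum_le_sum fun x _ => ?_) h4
      refine mul_le_mul_of_nonneg_left ?_ (TT_nonneg hW' x z)
      rw [Rk_rez hA hW]
      have h5 := ur_nonneg (Φ := Φ) (J := J) (k := k) (TT_nonneg (A := A) hW')
        (fun x => pr_TT_pos hA hW' x) x
      have h6 := P365T2.H37.rho_pos k
      have : 0 ≤ rho k * ur Φ (TT A (rez W z (t - E))) J k x := by positivity
      linarith
    · have h7 : ∑ x, (-(W z).im) * (g2 A W z x * Rk A W Φ J k z x) / (1 + ‖pz A W E z‖ ^ 2) =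
          (-(W z).im) * (∑ x, g2 A W z x * Rk A W Φ J k z x) * (1 / (1 + ‖pz A W E z‖ ^ 2)) := by
        rw [← sum_div, ← mul_sum]
        ring
      rw [h7, YrK_eq hA hW]
      have h8 := P365T2.H597.inv_pz_le hA hW E z
      have hS : 0 ≤ (-(W z).im) * (∑ x, g2 A W z x * Rk A W Φ J k z x) :=
        mul_nonneg (neg_im_pos hW z).le (sum_nonneg fun x _ =>
          mul_nonneg (g2_nonneg hW z x) (Rk_nonneg hA hW J k z x))
      have h9 := mul_le_mul_of_nonneg_left h8 hS
      have h10 := mul_le_mul_of_nonneg_left h9 (c3L_nonneg hl h (K := T + 2) (by linarith))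
      refine h10.trans (le_of_eq ?_)
      ring
  have hCnt0 : 0 ≤ ∫ t, CntK A Φ J k z (rez W z (t - E)) ∂μ :=
    integral_nonneg fun t => CntK_nonneg hA (rez_neg hW z (t - E)) J k z
  have hCl0 : 0 ≤ ∫ t, ClK A Φ ε J k z (rez W z (t - E)) ∂μ :=
    integral_nonneg fun t => ClK_nonneg (rez_neg hW z (t - E)) ε J k z
  have hY0 := YrK_nonneg (Φ := Φ) hA hW J k z
  set ICnt := ∫ t, CntK A Φ J k z (rez W z (t - E)) ∂μ with hICnt
  set ICl := ∫ t, ClK A Φ ε J k z (rez W z (t - E)) ∂μ with hICl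
  have h11 : 0 ≤ 2 * (CBt lam l * (2 + 2 * E ^ 2)) * ICnt := by positivity
  have h12 : 0 ≤ (480 + 644 * (CBt lam l * (2 * (1 + lam ^ 2))) + 480 * c2L lam l) * ICl := by
    positivity
  unfold C0c C1c
  nlinarith

/-- **`OneC`** in the coordinates of the product law -/
theorem one_site_WV (hl : 0 < l) (h : l < lam) (hA : A.IsSymm) {T : ℝ} (hT : 0 ≤ T) {J : ℕ}
    (ht4 : ∀ x y, tt Φ x y ≤ 4 ^ J) (e v : ι → ℝ) (y : ι) (k : ℕ) (he : ∀ x, 0 < e x)
    (hk : k < J + 2) :
    -(∫ t, (C0c lam l E * CntK A Φ J k y (WV E e (Function.update v y t)) +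
        C1c lam l E T * YrK A Φ J k y (WV E e (Function.update v y t)) +
        C0c lam l E * ClK A Φ (Real.exp (-T)) J k y (WV E e (Function.update v y t)))
          ∂(nuS lam l)) ≤
      ∫ t, 2 * ((-(WV E e (Function.update v y t) y).im) *
          mm A (WV E e (Function.update v y t)) y) *
        ∑ x, CX A (WV E e (Function.update v y t)) Φ (Real.exp (-T)) J k y x ∂(nuS lam l) := by
  haveI : IsProbabilityMeasure (nuS lam l) := P365T1.isProbabilityMeasure_nuS hl h
  have hW : ∀ x, (WV E e v x).im < 0 := WV_neg he v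
  have h1 := one_site_rez (E := E) (Φ := Φ) hl h hA hW hT hk ht4 y
  simp only [WV_update]
  simp only [rez_im_all, YrK_rez hA hW]
  have i1 : Integrable (fun t => C0c lam l E * CntK A Φ J k y (rez (WV E e v) y (t - E)))
      (nuS lam l) := (nuS_integrable hl h (lc_CntK hA hW J k y)).const_mul _
  have i3 : Integrable (fun t => C0c lam l E * ClK A Φ (Real.exp (-T)) J k y
      (rez (WV E e v) y (t - E))) (nuS lam l) :=
    (nuS_integrable hl h (lc_ClK hA hW (Real.exp_pos _) J k y)).const_mul _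
  rw [integral_add (f := fun t => C0c lam l E * CntK A Φ J k y (rez (WV E e v) y (t - E)) +
      C1c lam l E T * YrK A Φ J k y (WV E e v))
      (g := fun t => C0c lam l E * ClK A Φ (Real.exp (-T)) J k y
      (rez (WV E e v) y (t - E))) (i1.add (integrable_const _)) i3,
    integral_add (f := fun t => C0c lam l E * CntK A Φ J k y (rez (WV E e v) y (t - E)))
      (g := fun _ => C1c lam l E T * YrK A Φ J k y (WV E e v)) i1 (integrable_const _),
    integral_const_mul, integral_const_mul, integral_const_mul]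
  simp only [integral_const, probReal_univ, one_smul, smul_eq_mul, one_mul]
  exact h1

end Ups

end P365T2.H844
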