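import Mathlib

/-!
# P365 T2, X-CND: the bounded kernels `h_r = r² |x-y|² / (r² + |x-y|²)` on a finite set of points
are sums of squares `∑_k (f_k x - f_k y)²` of a finite family.
-/

set_option linter.all false

namespace P365T2.Cnd

open Matrix Finset MeasureTheory Filter Topology
open scoped RealInnerProductSpace

variable {ι : Type*} [Fintype ι]

/-- positive semidefinite real kernel, quadratic form version -/
def Psd (k : ι → ι → ℝ) : Prop :=
  (∀ x y, k x y = k y x) ∧ ∀ c : ι → ℝ, 0 ≤ ∑ x, ∑ y, c x * c y * k x y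

theorem psd_iff {k : ι → ι → ℝ} : Psd k ↔ (Matrix.of k).PosSemidef := by
  rw [posSemidef_iff_dotProduct_mulVec]
  have h : ∀ c : ι → ℝ, star c ⬝ᵥ (Matrix.of k *ᵥ c) = ∑ x, ∑ y, c x * c y * k x y := by
    intro c
    simp only [dotProduct, mulVec, Finset.mul_sum, Matrix.of_apply, Pi.star_apply, star_trivial]
    exact Finset.sum_congr rfl fun x _ => Finset.sum_congr rfl fun y _ => by ring
  constructor
  · rintro ⟨h1, h2⟩
    refine ⟨?_, fun c => by rw [h]; exact h2 c⟩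
    ext x y
    simp [Matrix.conjTranspose_apply, h1 y x]
  · rintro ⟨h1, h2⟩
    refine ⟨fun x y => ?_, fun c => by rw [← h]; exact h2 c⟩
    have := congrFun (congrFun h1 x) y
    simpa [Matrix.conjTranspose_apply] using this.symm

theorem Psd.mul {k k' : ι → ι → ℝ} (h : Psd k) (h' : Psd k') : Psd fun x y => k x y * k' x y := by
  rw [psd_iff] at h h' ⊢
  exact h.hadamard h'

theorem Psd.add {k k' : ι → ι → ℝ} (h : Psd k) (h' : Psd k') : Psd fun x y => k x y + k' x y := by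
  refine ⟨fun x y => by beta_reduce; rw [h.1 x y, h'.1 x y], fun c => ?_⟩
  have : ∑ x, ∑ y, c x * c y * (k x y + k' x y) =
      ∑ x, ∑ y, c x * c y * k x y + ∑ x, ∑ y, c x * c y * k' x y := by
    rw [← Finset.sum_add_distrib]
    refine Finset.sum_congr rfl fun x _ => ?_
    rw [← Finset.sum_add_distrib]
    exact Finset.sum_congr rfl fun y _ => by ring
  rw [this]
  exact add_nonneg (h.2 c) (h'.2 c)

theorem Psd.smul {k : ι → ι → ℝ} (h : Psd k) {t : ℝ} (ht : 0 ≤ t) : Psd fun x y => t * k x y := by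
  refine ⟨fun x y => by beta_reduce; rw [h.1 x y], fun c => ?_⟩
  have : ∑ x, ∑ y, c x * c y * (t * k x y) = t * ∑ x, ∑ y, c x * c y * k x y := by
    rw [Finset.mul_sum]
    refine Finset.sum_congr rfl fun x _ => ?_
    rw [Finset.mul_sum]
    exact Finset.sum_congr rfl fun y _ => by ring
  rw [this]
  exact mul_nonneg ht (h.2 c)

/-- rank one kernels -/
theorem Psd.rank (a : ι → ℝ) : Psd fun x y => a x * a y := by
  refine ⟨fun x y => mul_comm _ _, fun c => ?_⟩
  have : ∑ x, ∑ y, c x * c y * (a x * a y) = (∑ x, c x * a x) ^ 2 := by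
    rw [sq, Finset.sum_mul_sum]
    exact Finset.sum_congr rfl fun x _ => Finset.sum_congr rfl fun y _ => by ring
  rw [this]
  positivity

theorem Psd.pow {k : ι → ι → ℝ} (h : Psd k) (n : ℕ) : Psd fun x y => k x y ^ n := by
  induction n with
  | zero => simpa using Psd.rank (fun _ : ι => (1 : ℝ))
  | succ n ih =>
    simp only [pow_succ]
    exact ih.mul h

theorem Psd.lim {k : ℕ → ι → ι → ℝ} {k' : ι → ι → ℝ} (h : ∀ n, Psd (k n))
    (hl : ∀ x y, Tendsto (fun n => k n x y) atTop (𝓝 (k' x y))) : Psd k' := by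
  refine ⟨fun x y => tendsto_nhds_unique (hl x y) ?_, fun c => ?_⟩
  · simpa only [(h _).1 x y] using hl y x
  · refine ge_of_tendsto' (x := atTop)
      (f := fun n => ∑ x, ∑ y, c x * c y * k n x y) ?_ fun n => (h n).2 c
    exact tendsto_finsetSum _ fun x _ => tendsto_finsetSum _ fun y _ => (hl x y).const_mul _

variable {V : Type*} [NormedAddCommGroup V] [InnerProductSpace ℝ V]

theorem Psd.inner (q : ι → V) : Psd fun x y => ⟪q x, q y⟫ := by
  rw [psd_iff]
  exact Matrix.posSemidef_gram ℝ q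

theorem Psd.exp_inner (q : ι → V) {t : ℝ} (ht : 0 ≤ t) :
    Psd fun x y => Real.exp (t * ⟪q x, q y⟫) := by
  refine Psd.lim (k := fun n x y => (1 + t * ⟪q x, q y⟫ / n) ^ n) (fun n => ?_) fun x y => ?_
  · refine Psd.pow ?_ n
    have h1 := (Psd.rank (fun _ : ι => (1 : ℝ))).add
      ((Psd.inner q).smul (t := t / n) (by positivity))
    refine ⟨fun x y => by beta_reduce; rw [real_inner_comm], fun c => (h1.2 c).trans_eq ?_⟩
    exact Finset.sum_congr rfl fun x _ => Finset.sum_congr rfl fun y _ => by ring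
  · exact Real.tendsto_one_add_div_pow_exp _

theorem Psd.gauss (q : ι → V) {t : ℝ} (ht : 0 ≤ t) :
    Psd fun x y => Real.exp (-(t * ‖q x - q y‖ ^ 2)) := by
  have h1 := (Psd.rank (fun x : ι => Real.exp (-(t * ‖q x‖ ^ 2)))).mul
    (Psd.exp_inner q (t := 2 * t) (by positivity))
  have h2 : (fun x y => Real.exp (-(t * ‖q x - q y‖ ^ 2))) = fun x y =>
      Real.exp (-(t * ‖q x‖ ^ 2)) * Real.exp (-(t * ‖q y‖ ^ 2)) *
        Real.exp (2 * t * ⟪q x, q y⟫) := by
    funext x y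
    rw [← Real.exp_add, ← Real.exp_add]
    congr 1
    rw [norm_sub_sq_real]
    ring
  rw [h2]
  exact h1

/-- the kernel `r² / (r² + |x-y|²)` -/
theorem Psd.cauchy (q : ι → V) {r : ℝ} (hr : 0 < r) :
    Psd fun x y => r ^ 2 / (r ^ 2 + ‖q x - q y‖ ^ 2) := by
  have hpos : ∀ x y, 0 < r ^ 2 + ‖q x - q y‖ ^ 2 := fun x y => by positivity
  have hint : ∀ x y, ∫ t in Set.Ioi (0 : ℝ),
      Real.exp (-(r ^ 2) * t) * Real.exp (-(t * ‖q x - q y‖ ^ 2)) =
        1 / (r ^ 2 + ‖q x - q y‖ ^ 2) := by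
    intro x y
    have h1 := integral_exp_mul_Ioi (a := -(r ^ 2 + ‖q x - q y‖ ^ 2)) (by linarith [hpos x y]) 0
    rw [mul_zero, Real.exp_zero] at h1
    rw [show (1 : ℝ) / (r ^ 2 + ‖q x - q y‖ ^ 2) = -1 / -(r ^ 2 + ‖q x - q y‖ ^ 2) by
      rw [neg_div_neg_eq], ← h1]
    refine integral_congr_ae (Eventually.of_forall fun t => ?_)
    simp only
    rw [← Real.exp_add]
    congr 1
    ring
  have hI : ∀ x y, IntegrableOn (fun t : ℝ =>
      Real.exp (-(r ^ 2) * t) * Real.exp (-(t * ‖q x - q y‖ ^ 2))) (Set.Ioi 0) := by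
    intro x y
    have h1 := exp_neg_integrableOn_Ioi 0 (hpos x y)
    refine h1.congr_fun (fun t _ => ?_) measurableSet_Ioi
    simp only
    rw [← Real.exp_add]
    congr 1
    ring
  refine ⟨fun x y => by beta_reduce; rw [norm_sub_rev], fun c => ?_⟩
  have h2 : ∑ x, ∑ y, c x * c y * (r ^ 2 / (r ^ 2 + ‖q x - q y‖ ^ 2)) =
      ∫ t in Set.Ioi (0 : ℝ), r ^ 2 * Real.exp (-(r ^ 2) * t) *
        ∑ x, ∑ y, c x * c y * Real.exp (-(t * ‖q x - q y‖ ^ 2)) := by
    have h3 : ∀ x y, c x * c y * (r ^ 2 / (r ^ 2 + ‖q x - q y‖ ^ 2)) =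
        ∫ t in Set.Ioi (0 : ℝ), (c x * c y * r ^ 2) *
          (Real.exp (-(r ^ 2) * t) * Real.exp (-(t * ‖q x - q y‖ ^ 2))) := by
      intro x y
      rw [integral_const_mul, hint]
      ring
    simp only [h3]
    have h4 : ∀ x, ∑ y, ∫ t in Set.Ioi (0 : ℝ), (c x * c y * r ^ 2) *
          (Real.exp (-(r ^ 2) * t) * Real.exp (-(t * ‖q x - q y‖ ^ 2))) =
        ∫ t in Set.Ioi (0 : ℝ), ∑ y, (c x * c y * r ^ 2) *
          (Real.exp (-(r ^ 2) * t) * Real.exp (-(t * ‖q x - q y‖ ^ 2))) := fun x =>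
      (integral_finsetSum _ fun y _ => (hI x y).const_mul _).symm
    simp only [h4]
    rw [← integral_finsetSum _ fun x _ => integrable_finsetSum _ fun y _ =>
      (hI x y).const_mul _]
    refine integral_congr_ae (Eventually.of_forall fun t => ?_)
    simp only
    rw [Finset.mul_sum]
    refine Finset.sum_congr rfl fun x _ => ?_
    rw [Finset.mul_sum]
    exact Finset.sum_congr rfl fun y _ => by ring
  rw [h2]
  refine setIntegral_nonneg measurableSet_Ioi fun t ht => ?_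
  exact mul_nonneg (by positivity) ((Psd.gauss q (le_of_lt ht)).2 c)

/-- a positive semidefinite kernel is a finite sum of squares -/
theorem Psd.fam {k : ι → ι → ℝ} (h : Psd k) :
    ∃ (m : ℕ) (f : Fin m → ι → ℝ), ∀ x y, k x y = ∑ j, f j x * f j y := by
  rw [psd_iff] at h
  obtain ⟨m, v, hv⟩ := Matrix.posSemidef_iff_eq_sum_vecMulVec.1 h
  refine ⟨m, v, fun x y => ?_⟩
  have h1 := congrFun (congrFun hv x) y
  rw [Matrix.of_apply, Matrix.sum_apply] at h1
  rw [h1]
  refine Finset.sum_congr rfl fun j _ => ?_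
  simp [Matrix.vecMulVec_apply]

/-- **X-CND**: the kernel `h_r` is a finite sum of squared differences, and the finite family is a
vector field of constant norm -/
theorem exists_fam (q : ι → V) {r : ℝ} (hr : 0 < r) :
    ∃ (m : ℕ) (f : Fin m → ι → ℝ),
      (∀ x y, ∑ j, (f j x - f j y) ^ 2 =
        r ^ 2 * ‖q x - q y‖ ^ 2 / (r ^ 2 + ‖q x - q y‖ ^ 2)) ∧
      (∀ x, ∑ j, f j x ^ 2 = r ^ 2 / 2) ∧
      ∀ j x, |f j x| ≤ r := by
  obtain ⟨m, g, hg⟩ := ((Psd.cauchy q hr).smul (t := r ^ 2 / 2) (by positivity)).fam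
  have hsq : ∀ x, ∑ j, g j x ^ 2 = r ^ 2 / 2 := by
    intro x
    have h1 := hg x x
    rw [sub_self, norm_zero] at h1
    rw [show ∑ j, g j x ^ 2 = ∑ j, g j x * g j x from
      Finset.sum_congr rfl fun j _ => sq _, ← h1]
    have : r ^ 2 ≠ 0 := by positivity
    field_simp
    ring
  refine ⟨m, g, fun x y => ?_, hsq, fun j x => ?_⟩
  · have hp : r ^ 2 + ‖q x - q y‖ ^ 2 ≠ 0 := by positivity
    calc ∑ j, (g j x - g j y) ^ 2 = ∑ j, g j x ^ 2 + ∑ j, g j y ^ 2 -
          2 * ∑ j, g j x * g j y := by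
          rw [Finset.mul_sum, ← Finset.sum_add_distrib, ← Finset.sum_sub_distrib]
          exact Finset.sum_congr rfl fun j _ => by ring
      _ = r ^ 2 / 2 + r ^ 2 / 2 - 2 * (r ^ 2 / 2 * (r ^ 2 / (r ^ 2 + ‖q x - q y‖ ^ 2))) := by
          rw [hsq, hsq, ← hg x y]
      _ = _ := by
          field_simp
          ring
  · have h1 : g j x ^ 2 ≤ ∑ j, g j x ^ 2 :=
      Finset.single_le_sum (f := fun j => g j x ^ 2) (fun j _ => sq_nonneg _) (Finset.mem_univ j)
    rw [hsq] at h1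
    refine abs_le_of_sq_le_sq (h1.trans ?_) hr.le
    have : 0 ≤ r ^ 2 := sq_nonneg r
    linarith

end P365T2.Cnd
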