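import Vale.Agent.P365.L1.Alg

/-!
# P365 T2: the collective Cauchy-Schwarz bound for first order law errors.

`Q_xu = ∑_y e_y k_y G_xy G_yu` (multiplier `k` between two Green matrices).  Its energy form with
respect to a real function `f` is bounded by `4 k0 ∑_y |k_y| e_y ∑_x e_x (f_x-f_y)^2 |G_xy|^2`.
-/

set_option linter.all false

namespace P365T2.Coll863

open Matrix Complex P365L
open scoped ComplexConjugate

variable {ι : Type*} [Fintype ι] [DecidableEq ι]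
variable {A : Matrix ι ι ℝ} {W : ι → ℂ}

/-- absorption -/
noncomputable def ab (W : ι → ℂ) (x : ι) : ℝ := -(W x).im

omit [Fintype ι] [DecidableEq ι] in
theorem ab_pos (hW : ∀ x, (W x).im < 0) (x : ι) : 0 < ab W x := by
  unfold ab; linarith [hW x]

/-- `g_u = ∑_y e_y b_y G_yu` -/
noncomputable def gv (A : Matrix ι ι ℝ) (W : ι → ℂ) (b : ι → ℂ) (u : ι) : ℂ :=
  ∑ y, (ab W y : ℂ) * b y * Gr A W y u

omit [DecidableEq ι] in
theorem real_sq (z : ℂ) : z * conj z = ((‖z‖ ^ 2 : ℝ) : ℂ) := by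
  rw [Complex.mul_conj, Complex.normSq_eq_norm_sq]

/-- `2 i ∑ e |g|^2 = S - conj S` with `S = ∑ e conj(b) g` -/
theorem gv_id (hA : A.IsSymm) (hW : ∀ x, (W x).im < 0) (b : ι → ℂ) :
    ∑ u, ab W u * ‖gv A W b u‖ ^ 2 = (∑ z, (ab W z : ℂ) * conj (b z) * gv A W b z).im := by
  -- the double sum form of the right hand side
  have h1 : ∑ z, (ab W z : ℂ) * conj (b z) * gv A W b z =
      ∑ z, ∑ y, (ab W z : ℂ) * (ab W y : ℂ) * (conj (b z) * b y) * Gr A W y z := by
    refine Finset.sum_congr rfl fun z _ => ?_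
    rw [gv, Finset.mul_sum]
    exact Finset.sum_congr rfl fun y _ => by ring
  have h2 : conj (∑ z, (ab W z : ℂ) * conj (b z) * gv A W b z) =
      ∑ z, ∑ y, (ab W z : ℂ) * (ab W y : ℂ) * (conj (b z) * b y) * conj (Gr A W y z) := by
    rw [h1, map_sum]
    simp only [map_sum, map_mul, Complex.conj_ofReal, Complex.conj_conj]
    rw [Finset.sum_comm]
    refine Finset.sum_congr rfl fun z _ => Finset.sum_congr rfl fun y _ => ?_
    rw [Gr_symm hA z y]
    ring
  have h3 : ∑ z, (ab W z : ℂ) * conj (b z) * gv A W b z -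
      conj (∑ z, (ab W z : ℂ) * conj (b z) * gv A W b z) =
      (2 * I) * ∑ u, (ab W u : ℂ) * (gv A W b u * conj (gv A W b u)) := by
    rw [h2, h1, ← Finset.sum_sub_distrib]
    have k1 : ∀ z, ∑ y, (ab W z : ℂ) * (ab W y : ℂ) * (conj (b z) * b y) * Gr A W y z -
        ∑ y, (ab W z : ℂ) * (ab W y : ℂ) * (conj (b z) * b y) * conj (Gr A W y z) =
        ∑ y, ∑ u, (2 * I) * ((ab W u : ℂ) * ((ab W y : ℂ) * b y * Gr A W y u *
          ((ab W z : ℂ) * conj (b z) * conj (Gr A W u z)))) := by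
      intro z
      rw [← Finset.sum_sub_distrib]
      refine Finset.sum_congr rfl fun y _ => ?_
      have e1 : Gr A W y z - conj (Gr A W y z) = (2 * I) * (((Gr A W y z).im : ℝ) : ℂ) := by
        rw [Complex.sub_conj]
        push_cast
        ring
      have e2 : (((Gr A W y z).im : ℝ) : ℂ) =
          ∑ u, (ab W u : ℂ) * (Gr A W y u * conj (Gr A W u z)) := by
        have h := congrArg conj (Ward_apply hA hW y z)
        rw [Complex.conj_ofReal, map_sum] at h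
        rw [h]
        refine Finset.sum_congr rfl fun u _ => ?_
        rw [map_mul, map_mul, Complex.conj_ofReal, Complex.conj_conj]
        rfl
      rw [← mul_sub, e1, e2, Finset.mul_sum, Finset.mul_sum]
      refine Finset.sum_congr rfl fun u _ => ?_
      ring
    rw [Finset.sum_congr rfl fun z _ => k1 z, Finset.mul_sum]
    have k2 : ∑ z, ∑ y, ∑ u, (2 * I) * ((ab W u : ℂ) * ((ab W y : ℂ) * b y * Gr A W y u *
          ((ab W z : ℂ) * conj (b z) * conj (Gr A W u z)))) =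
        ∑ u, ∑ z, ∑ y, (2 * I) * ((ab W u : ℂ) * ((ab W y : ℂ) * b y * Gr A W y u *
          ((ab W z : ℂ) * conj (b z) * conj (Gr A W u z)))) := by
      rw [Finset.sum_comm (s := Finset.univ) (t := Finset.univ)
        (f := fun u z => ∑ y, (2 * I) * ((ab W u : ℂ) * ((ab W y : ℂ) * b y * Gr A W y u *
          ((ab W z : ℂ) * conj (b z) * conj (Gr A W u z)))))]
      refine Finset.sum_congr rfl fun z _ => ?_
      rw [Finset.sum_comm]
    rw [k2]
    refine Finset.sum_congr rfl fun u _ => ?_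
    have k3 : conj (gv A W b u) = ∑ z, (ab W z : ℂ) * conj (b z) * conj (Gr A W u z) := by
      rw [gv, map_sum]
      refine Finset.sum_congr rfl fun z _ => ?_
      rw [map_mul, map_mul, Complex.conj_ofReal, Gr_symm hA z u]
    rw [k3, gv, Finset.sum_mul_sum, Finset.mul_sum, Finset.mul_sum]
    rw [Finset.sum_comm]
    refine Finset.sum_congr rfl fun y _ => ?_
    rw [Finset.mul_sum, Finset.mul_sum]
  have h4 : (2 * I) * (((∑ z, (ab W z : ℂ) * conj (b z) * gv A W b z).im : ℝ) : ℂ) =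
      (2 * I) * ∑ u, (ab W u : ℂ) * (gv A W b u * conj (gv A W b u)) := by
    rw [← h3, Complex.sub_conj]
    push_cast
    ring
  have h5 := mul_left_cancel₀ (show (2 * I : ℂ) ≠ 0 by simp) h4
  have h6 : ∑ u, (ab W u : ℂ) * (gv A W b u * conj (gv A W b u)) =
      ((∑ u, ab W u * ‖gv A W b u‖ ^ 2 : ℝ) : ℂ) := by
    push_cast
    refine Finset.sum_congr rfl fun u _ => ?_
    rw [real_sq]
    push_cast
    ring
  rw [h6] at h5
  exact (Complex.ofReal_injective h5).symm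

/-- contraction: `∑_u e_u |∑_y e_y b_y G_yu|^2 ≤ ∑_y e_y |b_y|^2` -/
theorem contr (hA : A.IsSymm) (hW : ∀ x, (W x).im < 0) (b : ι → ℂ) :
    ∑ u, ab W u * ‖gv A W b u‖ ^ 2 ≤ ∑ y, ab W y * ‖b y‖ ^ 2 := by
  have he := ab_pos hW
  set N := ∑ u, ab W u * ‖gv A W b u‖ ^ 2 with hN
  set B := ∑ y, ab W y * ‖b y‖ ^ 2 with hB
  have hN0 : 0 ≤ N := Finset.sum_nonneg fun u _ => mul_nonneg (he u).le (sq_nonneg _)
  have h1 : N ≤ ∑ z, ab W z * (‖b z‖ * ‖gv A W b z‖) := by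
    rw [hN, gv_id hA hW]
    refine (Complex.im_le_norm _).trans ((norm_sum_le _ _).trans (Finset.sum_le_sum fun z _ => ?_))
    rw [norm_mul, norm_mul, Complex.norm_real, Real.norm_eq_abs, abs_of_pos (he z), RCLike.norm_conj]
    exact le_of_eq (by ring)
  have h2 : (∑ z, ab W z * (‖b z‖ * ‖gv A W b z‖)) ^ 2 ≤ B * N := by
    refine Finset.sum_sq_le_sum_mul_sum_of_sq_eq_mul Finset.univ
      (fun z _ => mul_nonneg (he z).le (sq_nonneg _))
      (fun z _ => mul_nonneg (he z).le (sq_nonneg _)) fun z _ => ?_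
    ring
  have h3 : N ^ 2 ≤ B * N := (pow_le_pow_left₀ hN0 h1 2).trans h2
  rcases hN0.eq_or_lt with h | h
  · rw [← h]
    exact Finset.sum_nonneg fun z _ => mul_nonneg (he z).le (sq_nonneg _)
  · exact le_of_mul_le_mul_right (by linarith [sq N]) h

/-- `Q_xu = ∑_y e_y k_y G_xy G_yu` -/
noncomputable def Qk (A : Matrix ι ι ℝ) (W : ι → ℂ) (k : ι → ℂ) (x u : ι) : ℂ :=
  ∑ y, (ab W y : ℂ) * k y * (Gr A W x y * Gr A W y u)

theorem Qk_symm (hA : A.IsSymm) (k : ι → ℂ) (x u : ι) : Qk A W k x u = Qk A W k u x := by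
  unfold Qk
  refine Finset.sum_congr rfl fun y _ => ?_
  rw [Gr_symm hA x y, Gr_symm hA y u]
  ring

/-- **energy form of `G K G`** -/
theorem coll (hA : A.IsSymm) (hW : ∀ x, (W x).im < 0) (k : ι → ℂ) {k0 : ℝ}
    (hk : ∀ y, ‖k y‖ ≤ k0) (f : ι → ℝ) :
    ∑ x, ∑ u, ab W x * ab W u * (f x - f u) ^ 2 * ‖Qk A W k x u‖ ^ 2 ≤
      4 * k0 * ∑ y, ‖k y‖ * (ab W y * ∑ x, ab W x * (f x - f y) ^ 2 * KK A W x y) := by
  have he := ab_pos hW
  set P : ι → ι → ℂ := fun x u => gv A W (fun y => k y * ((f x - f y : ℝ) : ℂ) * Gr A W x y) u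
    with hP
  have h1 : ∀ x u, ((f x - f u : ℝ) : ℂ) * Qk A W k x u = P x u - P u x := by
    intro x u
    simp only [hP, gv, Qk]
    rw [Finset.mul_sum, ← Finset.sum_sub_distrib]
    refine Finset.sum_congr rfl fun y _ => ?_
    rw [Gr_symm hA y x, Gr_symm hA u y]
    push_cast
    ring
  have h2 : ∀ x u, (f x - f u) ^ 2 * ‖Qk A W k x u‖ ^ 2 ≤
      2 * ‖P x u‖ ^ 2 + 2 * ‖P u x‖ ^ 2 := by
    intro x u
    have e1 : (f x - f u) ^ 2 * ‖Qk A W k x u‖ ^ 2 = ‖P x u - P u x‖ ^ 2 := by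
      rw [← h1, norm_mul, Complex.norm_real, Real.norm_eq_abs, mul_pow, sq_abs]
    rw [e1]
    have e2 := norm_sub_le (P x u) (P u x)
    have e3 := pow_le_pow_left₀ (norm_nonneg _) e2 2
    nlinarith [sq_nonneg (‖P x u‖ - ‖P u x‖)]
  set R := ∑ x, ab W x * ∑ u, ab W u * ‖P x u‖ ^ 2 with hR
  have h3 : ∑ x, ∑ u, ab W x * ab W u * (f x - f u) ^ 2 * ‖Qk A W k x u‖ ^ 2 ≤ 4 * R := by
    have k1 : ∀ x, ∑ u, ab W x * ab W u * (f x - f u) ^ 2 * ‖Qk A W k x u‖ ^ 2 ≤
        ∑ u, (2 * (ab W x * (ab W u * ‖P x u‖ ^ 2)) + 2 * (ab W u * (ab W x * ‖P u x‖ ^ 2))) := by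
      intro x
      refine Finset.sum_le_sum fun u _ => ?_
      have := mul_le_mul_of_nonneg_left (h2 x u) (mul_nonneg (he x).le (he u).le)
      linarith
    refine (Finset.sum_le_sum fun x _ => k1 x).trans (le_of_eq ?_)
    simp only [Finset.sum_add_distrib, ← Finset.mul_sum]
    have k2 : ∑ x, ∑ u, ab W u * (ab W x * ‖P u x‖ ^ 2) = R := by
      rw [Finset.sum_comm, hR]
      refine Finset.sum_congr rfl fun x _ => ?_
      rw [Finset.mul_sum]
    rw [k2, ← hR]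
    ring
  have h4 : R ≤ k0 * ∑ y, ‖k y‖ * (ab W y * ∑ x, ab W x * (f x - f y) ^ 2 * KK A W x y) := by
    have k1 : ∀ x, ab W x * ∑ u, ab W u * ‖P x u‖ ^ 2 ≤
        ∑ y, k0 * (‖k y‖ * (ab W y * (ab W x * (f x - f y) ^ 2 * KK A W x y))) := by
      intro x
      have e1 := mul_le_mul_of_nonneg_left
        (contr hA hW (fun y => k y * ((f x - f y : ℝ) : ℂ) * Gr A W x y)) (he x).le
      refine e1.trans ?_
      rw [Finset.mul_sum]
      refine Finset.sum_le_sum fun y _ => ?_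
      have e2 : ‖k y * ((f x - f y : ℝ) : ℂ) * Gr A W x y‖ ^ 2 =
          ‖k y‖ * ‖k y‖ * ((f x - f y) ^ 2 * KK A W x y) := by
        rw [norm_mul, norm_mul, Complex.norm_real, Real.norm_eq_abs, KK, mul_pow, mul_pow, sq_abs]
        ring
      rw [e2]
      have e3 : 0 ≤ ‖k y‖ * (ab W y * (ab W x * (f x - f y) ^ 2 * KK A W x y)) :=
        mul_nonneg (norm_nonneg _) (mul_nonneg (he y).le (mul_nonneg
          (mul_nonneg (he x).le (sq_nonneg _)) (KK_nonneg _ _)))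
      have e4 := mul_le_mul_of_nonneg_right (hk y) e3
      linarith
    refine (Finset.sum_le_sum fun x _ => k1 x).trans (le_of_eq ?_)
    rw [Finset.sum_comm, Finset.mul_sum]
    refine Finset.sum_congr rfl fun y _ => ?_
    rw [Finset.mul_sum, Finset.mul_sum, Finset.mul_sum]
  linarith

/-- **first order law error, all sites together**: multiplier `lam` bounded by `T`, kernel `w`
dominated by the conditionally negative kernel `∑_j c_j (f_j x - f_j u)^2`. -/
theorem coll_error {κ : Type*} (J : Finset κ) (hA : A.IsSymm) (hW : ∀ x, (W x).im < 0)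
    (k : ι → ℂ) {k0 : ℝ} (hk : ∀ y, ‖k y‖ ≤ k0) (c : κ → ℝ) (hc : ∀ j ∈ J, 0 ≤ c j)
    (F : κ → ι → ℝ) (w : ι → ι → ℝ)
    (hw : ∀ x u, |w x u| ≤ ∑ j ∈ J, c j * (F j x - F j u) ^ 2) {lam : ι → ℂ} {T : ℝ} (hT : 0 ≤ T)
    (hl : ∀ x, ‖lam x‖ ≤ T) :
    ‖∑ x, ∑ u, lam x * ((ab W x * ab W u * w x u : ℝ) : ℂ) * conj (Gr A W x u) * Qk A W k x u‖ ≤
      T * Real.sqrt (∑ x, ∑ u, ab W x * ab W u * |w x u| * KK A W x u) *
        Real.sqrt (4 * k0 * ∑ j ∈ J, c j *
          ∑ y, ‖k y‖ * (ab W y * ∑ x, ab W x * (F j x - F j y) ^ 2 * KK A W x y)) := by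
  have he := ab_pos hW
  set X := ∑ x, ∑ u, ab W x * ab W u * |w x u| * KK A W x u with hX
  set Y := ∑ x, ∑ u, ab W x * ab W u * |w x u| * ‖Qk A W k x u‖ ^ 2 with hY
  have hY1 : Y ≤ 4 * k0 * ∑ j ∈ J, c j *
      ∑ y, ‖k y‖ * (ab W y * ∑ x, ab W x * (F j x - F j y) ^ 2 * KK A W x y) := by
    have k1 : Y ≤ ∑ x, ∑ u, ∑ j ∈ J,
        c j * (ab W x * ab W u * (F j x - F j u) ^ 2 * ‖Qk A W k x u‖ ^ 2) := by
      refine Finset.sum_le_sum fun x _ => Finset.sum_le_sum fun u _ => ?_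
      have e1 := mul_le_mul_of_nonneg_right (mul_le_mul_of_nonneg_left (hw x u)
        (mul_nonneg (he x).le (he u).le)) (sq_nonneg ‖Qk A W k x u‖)
      refine e1.trans (le_of_eq ?_)
      rw [Finset.mul_sum, Finset.sum_mul]
      exact Finset.sum_congr rfl fun j _ => by ring
    have k2 : ∑ x, ∑ u, ∑ j ∈ J,
        c j * (ab W x * ab W u * (F j x - F j u) ^ 2 * ‖Qk A W k x u‖ ^ 2) =
        ∑ j ∈ J, c j * ∑ x, ∑ u, ab W x * ab W u * (F j x - F j u) ^ 2 * ‖Qk A W k x u‖ ^ 2 := by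
      have e1 : ∀ x, ∑ u, ∑ j ∈ J,
          c j * (ab W x * ab W u * (F j x - F j u) ^ 2 * ‖Qk A W k x u‖ ^ 2) =
          ∑ j ∈ J, c j * ∑ u, ab W x * ab W u * (F j x - F j u) ^ 2 * ‖Qk A W k x u‖ ^ 2 := by
        intro x
        rw [Finset.sum_comm]
        exact Finset.sum_congr rfl fun j _ => by rw [Finset.mul_sum]
      rw [Finset.sum_congr rfl fun x _ => e1 x, Finset.sum_comm]
      exact Finset.sum_congr rfl fun j _ => by rw [Finset.mul_sum]
    rw [k2] at k1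
    refine k1.trans ?_
    rw [Finset.mul_sum]
    refine Finset.sum_le_sum fun j hj => ?_
    have e1 := mul_le_mul_of_nonneg_left (coll hA hW k hk (F j)) (hc j hj)
    linarith
  have hX0 : 0 ≤ X := Finset.sum_nonneg fun x _ => Finset.sum_nonneg fun u _ =>
    mul_nonneg (mul_nonneg (mul_nonneg (he x).le (he u).le) (abs_nonneg _)) (KK_nonneg _ _)
  have hY0 : 0 ≤ Y := Finset.sum_nonneg fun x _ => Finset.sum_nonneg fun u _ =>
    mul_nonneg (mul_nonneg (mul_nonneg (he x).le (he u).le) (abs_nonneg _)) (sq_nonneg _)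
  set Z := ∑ x, ∑ u, ab W x * ab W u * |w x u| * (‖Gr A W x u‖ * ‖Qk A W k x u‖) with hZ
  have h1 : ‖∑ x, ∑ u, lam x * ((ab W x * ab W u * w x u : ℝ) : ℂ) * conj (Gr A W x u) *
      Qk A W k x u‖ ≤ T * Z := by
    rw [hZ, Finset.mul_sum]
    refine (norm_sum_le _ _).trans (Finset.sum_le_sum fun x _ => ?_)
    rw [Finset.mul_sum]
    refine (norm_sum_le _ _).trans (Finset.sum_le_sum fun u _ => ?_)
    rw [norm_mul, norm_mul, norm_mul, Complex.norm_real, Real.norm_eq_abs, RCLike.norm_conj,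
      abs_mul, abs_mul, abs_of_pos (he x), abs_of_pos (he u)]
    have e1 : 0 ≤ ab W x * ab W u * |w x u| * (‖Gr A W x u‖ * ‖Qk A W k x u‖) :=
      mul_nonneg (mul_nonneg (mul_nonneg (he x).le (he u).le) (abs_nonneg _)) (by positivity)
    have e2 := mul_le_mul_of_nonneg_right (hl x) e1
    linarith
  have h2 : Z ^ 2 ≤ X * Y := by
    have e0 := Finset.sum_sq_le_sum_mul_sum_of_sq_eq_mul (Finset.univ : Finset (ι × ι))
      (r := fun p => ab W p.1 * ab W p.2 * |w p.1 p.2| * (‖Gr A W p.1 p.2‖ * ‖Qk A W k p.1 p.2‖))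
      (f := fun p => ab W p.1 * ab W p.2 * |w p.1 p.2| * KK A W p.1 p.2)
      (g := fun p => ab W p.1 * ab W p.2 * |w p.1 p.2| * ‖Qk A W k p.1 p.2‖ ^ 2)
      (fun p _ => mul_nonneg (mul_nonneg (mul_nonneg (he _).le (he _).le) (abs_nonneg _))
        (KK_nonneg _ _))
      (fun p _ => mul_nonneg (mul_nonneg (mul_nonneg (he _).le (he _).le) (abs_nonneg _))
        (sq_nonneg _))
      (fun p _ => by rw [KK]; ring)
    rw [Fintype.sum_prod_type, Fintype.sum_prod_type, Fintype.sum_prod_type] at e0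
    exact e0
  have h3 : Z ≤ Real.sqrt X * Real.sqrt Y := by
    rw [← Real.sqrt_mul hX0]
    exact Real.le_sqrt_of_sq_le h2
  calc _ ≤ T * Z := h1
    _ ≤ T * (Real.sqrt X * Real.sqrt Y) := mul_le_mul_of_nonneg_left h3 hT
    _ ≤ T * (Real.sqrt X * Real.sqrt (4 * k0 * ∑ j ∈ J, c j *
          ∑ y, ‖k y‖ * (ab W y * ∑ x, ab W x * (F j x - F j y) ^ 2 * KK A W x y))) :=
        mul_le_mul_of_nonneg_left (mul_le_mul_of_nonneg_left (Real.sqrt_le_sqrt hY1)
          (Real.sqrt_nonneg _)) hT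
    _ = _ := by ring

end P365T2.Coll863
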