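import Vale.Agent.P365.T2.SeqG795

/-!
# P365-T2: sums over the families for a general base `β`, masses and densities of the labels, sum
of the logarithmic times.
-/

set_option linter.all false

namespace P365T2.SeqG

open Real Filter Topology
open P365T1.Seq (tendsto_pow_mul_exp ev_pow_exp_le ev_pow_exp_le_div ev_pow_le_exp ev_pow_le_pow
  log_33_le box_le)

variable {β : ℕ} [hβ : Fact (2 ≤ β)]

variable (β) in
/-- sums of `A r^d exp (-c r)` over the families -/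
theorem exists_sum_exp (A : ℝ) (d : ℕ) {c ε : ℝ} (hc : 0 < c) (hε : 0 < ε) :
    ∃ R, 2 ≤ R ∧ ∀ rs, R ≤ rs → ∀ n,
      ∑ i ∈ Finset.range n, A * (rr β rs i : ℝ) ^ d * Real.exp (-(c * rr β rs i)) ≤ ε :=
  exists_sum_le β (f := fun r => A * (r : ℝ) ^ d * Real.exp (-(c * r))) hε.le
    (ev_pow_exp_le_div A d hc hε)

variable (β) in
/-- the same over `Fin (I + 1)` -/
theorem exists_sum_exp_fin (A : ℝ) (d : ℕ) {c ε : ℝ} (hc : 0 < c) (hε : 0 < ε) :
    ∃ R, 2 ≤ R ∧ ∀ rs, R ≤ rs → ∀ I,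
      ∑ i : Fin (I + 1), A * (rr β rs i : ℝ) ^ d * Real.exp (-(c * rr β rs i)) ≤ ε := by
  obtain ⟨R, hR2, hR⟩ := exists_sum_exp β A d hc hε
  refine ⟨R, hR2, fun rs hrs I => ?_⟩
  rw [Fin.sum_univ_eq_sum_range
    (fun i => A * (rr β rs i : ℝ) ^ d * Real.exp (-(c * rr β rs i))) (I + 1)]
  exact hR rs hrs (I + 1)

variable (β) in
/-- label masses: every family has at most `(2 r + 1)^2` window labels and one mark, each of mass
`exp (-3 r)`; total mass at most `ε` -/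
theorem exists_mass3 {ε : ℝ} (hε : 0 < ε) :
    ∃ R, 2 ≤ R ∧ ∀ rs, R ≤ rs → ∀ I,
      ∑ i : Fin (I + 1), (((2 * rr β rs i + 1 : ℕ) : ℝ) ^ 2 + 1) *
        Real.exp (-(3 * (rr β rs i : ℝ))) ≤ ε := by
  obtain ⟨R, hR2, hR⟩ := exists_sum_exp_fin β 10 2 (c := 3) (by norm_num) hε
  refine ⟨R, hR2, fun rs hrs I => le_trans (Finset.sum_le_sum fun i _ => ?_) (hR rs hrs I)⟩
  have h1 : 1 ≤ rr β rs i := one_le_rr (by omega) _
  have h2 := box_le _ h1
  have h3 : (1 : ℝ) ≤ (rr β rs i : ℝ) ^ 2 := by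
    have : (1 : ℝ) ≤ rr β rs i := by exact_mod_cast h1
    exact one_le_pow₀ this
  exact mul_le_mul_of_nonneg_right (by linarith) (Real.exp_pos _).le

variable (β) in
/-- densities: `(2 r + 1)^2` windows of mass `exp (-3 r)` and density at most `A / exp (-r)` -/
theorem exists_dens3 (A : ℝ) {ε : ℝ} (hA : 0 ≤ A) (hε : 0 < ε) :
    ∃ R, 2 ≤ R ∧ ∀ rs, R ≤ rs → ∀ I,
      ∑ i : Fin (I + 1), ((2 * rr β rs i + 1 : ℕ) : ℝ) ^ 2 *
        (Real.exp (-(3 * (rr β rs i : ℝ))) * (A / Real.exp (-(rr β rs i : ℝ)))) ≤ ε := by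
  obtain ⟨R, hR2, hR⟩ := exists_sum_exp_fin β (9 * A) 2 (c := 2) (by norm_num) hε
  refine ⟨R, hR2, fun rs hrs I => le_trans (Finset.sum_le_sum fun i _ => ?_) (hR rs hrs I)⟩
  have h1 : 1 ≤ rr β rs i := one_le_rr (by omega) _
  have h2 := box_le _ h1
  have e1 : Real.exp (-(3 * (rr β rs i : ℝ))) * (A / Real.exp (-(rr β rs i : ℝ))) =
      A * Real.exp (-(2 * (rr β rs i : ℝ))) := by
    have : Real.exp (-(3 * (rr β rs i : ℝ))) =
        Real.exp (-(2 * (rr β rs i : ℝ))) * Real.exp (-(rr β rs i : ℝ)) := by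
      rw [← Real.exp_add]
      congr 1
      ring
    rw [this]
    field_simp
  rw [e1]
  calc ((2 * rr β rs i + 1 : ℕ) : ℝ) ^ 2 * (A * Real.exp (-(2 * (rr β rs i : ℝ))))
      ≤ 9 * (rr β rs i : ℝ) ^ 2 * (A * Real.exp (-(2 * (rr β rs i : ℝ)))) :=
        mul_le_mul_of_nonneg_right h2 (by positivity)
    _ = 9 * A * (rr β rs i : ℝ) ^ 2 * Real.exp (-(2 * (rr β rs i : ℝ))) := by ring

/-- the background is smaller than any given exponential of the last radius -/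
theorem bS_le_exp {rs : ℕ} (h : 2 ≤ rs) {I i : ℕ} (hi : i ≤ I) :
    bS β rs I ≤ Real.exp (-((rr β rs i : ℝ) ^ β)) := by
  have h1 := bS_le (β := β) h I
  refine h1.trans (Real.exp_le_exp.2 ?_)
  have h2 : rr β rs (i + 1) ≤ rr β rs (I + 1) := rr_mono (by omega) (by omega)
  have h3 : (rr β rs (i + 1) : ℝ) ≤ rr β rs (I + 1) := by exact_mod_cast h2
  rw [rr_succ_cast] at h3
  linarith

/-- sum of the inverse squares of the radii -/
theorem sum_inv_rr_sq {rs : ℕ} (h : 2 ≤ rs) (n : ℕ) :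
    ∑ i ∈ Finset.range n, (1 : ℝ) / (rr β rs i : ℝ) ^ 2 ≤ 1 / 2 := by
  calc ∑ i ∈ Finset.range n, (1 : ℝ) / (rr β rs i : ℝ) ^ 2
      ≤ ∑ i ∈ Finset.range n, 1 / 2 * ((1 : ℝ) / rr β rs i) := by
        refine Finset.sum_le_sum fun i _ => ?_
        have h2 := two_le_cast_rr (β := β) h i
        rw [one_div_mul_one_div]
        exact one_div_le_one_div_of_le (by positivity) (by nlinarith)
    _ = 1 / 2 * ∑ i ∈ Finset.range n, (1 : ℝ) / rr β rs i := by rw [Finset.mul_sum]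
    _ ≤ 1 / 2 * 1 := mul_le_mul_of_nonneg_left (sum_inv_rr h n) (by norm_num)
    _ = 1 / 2 := mul_one _

/-- one term of the sum of the logarithmic times -/
theorem hterm {rs : ℕ} (hrs : 2 ≤ rs) {I i : ℕ} (hi : i ≤ I) {Ca η : ℝ} (hCa : 0 ≤ Ca)
    (hη0 : 0 ≤ η) (hη : η ≤ 1 / (rr β rs i : ℝ) ^ (5 * β + 2)) :
    Ca * η * Real.log (1 / tS β rs I (i + 1)) ≤ 3 * Ca * (1 / (rr β rs i : ℝ) ^ 2) := by
  have h2 := two_le_cast_rr (β := β) hrs i
  have h0 : (0 : ℝ) < rr β rs i := by linarith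
  calc Ca * η * Real.log (1 / tS β rs I (i + 1))
      ≤ Ca * (1 / (rr β rs i : ℝ) ^ (5 * β + 2)) * (3 * (rr β rs i : ℝ) ^ (5 * β)) :=
        mul_le_mul (mul_le_mul_of_nonneg_left hη hCa) (log_inv_t hrs hi)
          (log_inv_t_nonneg rs I (i + 1)) (by positivity)
    _ = 3 * Ca * (1 / (rr β rs i : ℝ) ^ 2) := by
        rw [pow_add]
        field_simp

/-- **the sum of the logarithmic times**, polynomial rates `ηc i + ηb i ≤ (r i)^(-(5 β + 2))` -/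
theorem hsum_poly {rs : ℕ} (hrs : 2 ≤ rs) (I : ℕ) {Ca : ℝ} {ηc ηb : ℕ → ℝ} (hCa : 0 ≤ Ca)
    (hηc : ∀ i, 0 ≤ ηc i) (hηb : ∀ i, 0 ≤ ηb i)
    (hη : ∀ i, ηc i + ηb i ≤ 1 / (rr β rs i : ℝ) ^ (5 * β + 2)) :
    10 * Real.log (1 / tS β rs I 0) + ∑ i ∈ Finset.range (I + 1),
      Ca * (ηc i + ηb i) * Real.log (1 / tS β rs I (i + 1)) ≤
        10 * (4 + (rs : ℝ) + (rs : ℝ) ^ 5) + 2 * Ca := by
  have h0 := log_inv_t_zero (β := β) rs I
  have h1 : ∑ i ∈ Finset.range (I + 1), Ca * (ηc i + ηb i) * Real.log (1 / tS β rs I (i + 1)) ≤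
      ∑ i ∈ Finset.range (I + 1), 3 * Ca * (1 / (rr β rs i : ℝ) ^ 2) := by
    refine Finset.sum_le_sum fun i hi => ?_
    exact hterm hrs (by have := Finset.mem_range.1 hi; omega) hCa (add_nonneg (hηc i) (hηb i))
      (hη i)
  rw [← Finset.mul_sum] at h1
  have h2 := mul_le_mul_of_nonneg_left (sum_inv_rr_sq (β := β) hrs (I + 1))
    (show 0 ≤ 3 * Ca by positivity)
  linarith

/-- the tail of the sum of the logarithmic times from stage `i₀` on -/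
theorem htail_poly {rs : ℕ} (hrs : 2 ≤ rs) (I i₀ : ℕ) {Ca : ℝ} {η : ℕ → ℝ} (hCa : 0 ≤ Ca)
    (hη0 : ∀ i, 0 ≤ η i) (hη : ∀ i, η i ≤ 1 / (rr β rs i : ℝ) ^ (5 * β + 2)) :
    ∑ i ∈ Finset.Ico i₀ (I + 1), Ca * η i * Real.log (1 / tS β rs I (i + 1)) ≤
      3 * Ca / rr β rs i₀ := by
  have h1 : ∑ i ∈ Finset.Ico i₀ (I + 1), Ca * η i * Real.log (1 / tS β rs I (i + 1)) ≤
      ∑ i ∈ Finset.Ico i₀ (I + 1), 3 * Ca / rr β rs i₀ * (1 / rr β rs i) := by
    refine Finset.sum_le_sum fun i hi => ?_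
    have hi' := Finset.mem_Ico.1 hi
    refine (hterm hrs (show i ≤ I by omega) hCa (hη0 i) (hη i)).trans ?_
    have h2 := two_le_cast_rr (β := β) hrs i
    have h3 := two_le_cast_rr (β := β) hrs i₀
    have h4 : (rr β rs i₀ : ℝ) ≤ rr β rs i := by
      exact_mod_cast rr_mono (β := β) (by omega) hi'.1
    rw [div_mul_div_comm, mul_one, mul_one_div]
    refine div_le_div_of_nonneg_left (by positivity) (by positivity) ?_
    nlinarith
  rw [← Finset.mul_sum] at h1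
  have h5 : ∑ i ∈ Finset.Ico i₀ (I + 1), (1 : ℝ) / rr β rs i ≤ 1 := by
    refine le_trans ?_ (sum_inv_rr (β := β) hrs (I + 1))
    refine Finset.sum_le_sum_of_subset_of_nonneg ?_ fun i _ _ => by positivity
    intro i hi
    rw [Finset.mem_range]
    exact (Finset.mem_Ico.1 hi).2
  have h6 : 0 ≤ 3 * Ca / (rr β rs i₀ : ℝ) := by positivity
  nlinarith

end P365T2.SeqG
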