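import Vale.Agent.P365.T1.LabAdm37
import Vale.Agent.P365.T2.SeqGB795

/-!
# P365-T2: the label masses of the concrete chain are admissible, general base `β`.
-/

set_option linter.all false

namespace P365T2.LawG

open P365L P365SH P365T1.Conc P365T1.Lab37 P365T2.SeqG MeasureTheory Filter Topology

variable {β : ℕ} [hβ : Fact (2 ≤ β)]

theorem add_le_rr {rs : ℕ} (h : 2 ≤ rs) (i : ℕ) : rs + i ≤ rr β rs i := by
  have h1 : rs ^ (i + 1) ≤ rr β rs i :=
    Nat.pow_le_pow_right (by omega) (succ_le_pow i)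
  refine le_trans ?_ h1
  have h2 : i + 1 ≤ rs ^ i := by
    calc i + 1 ≤ 2 ^ i := by
          have : i < 2 ^ i := Nat.lt_two_pow_self
          omega
      _ ≤ rs ^ i := Nat.pow_le_pow_left h _
  calc rs + i ≤ rs * (i + 1) := by nlinarith
    _ ≤ rs * rs ^ i := Nat.mul_le_mul_left _ h2
    _ = rs ^ (i + 1) := by ring

theorem sum_exp_le {rs : ℕ} (h : 2 ≤ rs) (n : ℕ) :
    ∑ i ∈ Finset.range n, Real.exp (-(rr β rs i : ℝ)) ≤ 2 * Real.exp (-(rs : ℝ)) := by
  have h1 : ∀ i : ℕ, Real.exp (-(rr β rs i : ℝ)) ≤ Real.exp (-(rs : ℝ)) * (1 / 2) ^ i := by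
    intro i
    have h2 : ((rs : ℝ) + i) ≤ (rr β rs i : ℝ) := by exact_mod_cast add_le_rr h i
    calc Real.exp (-(rr β rs i : ℝ)) ≤ Real.exp (-(rs : ℝ) + -(i : ℝ)) := by
          refine Real.exp_le_exp.2 ?_
          linarith
      _ = Real.exp (-(rs : ℝ)) * Real.exp (-(i : ℝ)) := Real.exp_add _ _
      _ ≤ Real.exp (-(rs : ℝ)) * (1 / 2) ^ i := by
          gcongr
          have h3 : Real.exp (-(i : ℝ)) = (Real.exp (-1)) ^ i := by
            rw [← Real.exp_nat_mul]
            congr 1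
            ring
          rw [h3]
          have h4 : Real.exp (-1) ≤ 1 / 2 := by
            rw [Real.exp_neg, inv_eq_one_div]
            have : (2 : ℝ) ≤ Real.exp 1 := by
              have := Real.add_one_le_exp (1 : ℝ)
              linarith
            exact one_div_le_one_div_of_le (by norm_num) this
          exact pow_le_pow_left₀ (Real.exp_pos _).le h4 i
  calc ∑ i ∈ Finset.range n, Real.exp (-(rr β rs i : ℝ))
      ≤ ∑ i ∈ Finset.range n, Real.exp (-(rs : ℝ)) * (1 / 2) ^ i :=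
        Finset.sum_le_sum fun i _ => h1 i
    _ = Real.exp (-(rs : ℝ)) * ∑ i ∈ Finset.range n, (1 / 2 : ℝ) ^ i := by
        rw [Finset.mul_sum]
    _ ≤ Real.exp (-(rs : ℝ)) * 2 := by
        gcongr
        exact sum_geometric_two_le n
    _ = _ := mul_comm _ _

variable (β) in
/-- **admissibility of the concrete masses**, any small `τ`, any base -/
theorem exists_adm_tau {lam lam' τ : ℝ} (hlam : 0 < lam) (h : lam' < lam) (hτ : 0 < τ)
    (hτ' : τ ≤ 1 / 16384) :
    ∃ R : ℕ, ∀ rs ≥ R, ∀ P : Par, (∀ i, P.r i = rr β rs i) → ∀ c : P.Wn → ℝ,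
      (∀ a, |c a| ≤ lam') → Adm lam τ (qC P) c (wC P) := by
  obtain ⟨R, hR⟩ := exists_R hlam h hτ
  refine ⟨R, fun rs hrs P hP c hc => ?_⟩
  obtain ⟨a1, a2, a3, a4⟩ := hR rs hrs
  have hr : ∀ i, rs ≤ P.r i := fun i => by
    rw [hP]
    exact le_rr (by omega) i
  have hsum : ∑ i : Fin (P.I + 1), Real.exp (-(P.r i : ℝ)) ≤ 2 * Real.exp (-(rs : ℝ)) := by
    rw [Fin.sum_univ_eq_sum_range fun i => Real.exp (-(P.r i : ℝ))]
    simp only [hP]
    exact sum_exp_le a1 _
  refine ⟨hlam, hτ, hτ', ?_, fun a => Real.exp_pos _, fun a => ?_, ?_, ?_⟩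
  · rintro (i | a)
    · exact Real.exp_pos _
    · exact Real.exp_pos _
  · have h1 : wC P a ≤ Real.exp (-(rs : ℝ)) := by
      refine Real.exp_le_exp.2 ?_
      have : (rs : ℝ) ≤ (P.r a.1 : ℝ) := by exact_mod_cast hr a.1
      linarith
    have h2 := hc a
    linarith
  · refine le_trans (Finset.sum_le_sum fun i _ => ?_) (hsum.trans a3)
    show Real.exp (-(3 * (P.r i : ℝ))) ≤ Real.exp (-(P.r i : ℝ))
    refine Real.exp_le_exp.2 ?_
    have : (0 : ℝ) ≤ (P.r i : ℝ) := Nat.cast_nonneg _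
    linarith
  · have h1 : ∀ a : P.Wn, qC P (Sum.inr a) / wC P a = Real.exp (-(2 * (P.r a.1 : ℝ))) := by
      intro a
      show Real.exp (-(3 * (P.r a.1 : ℝ))) / Real.exp (-(P.r a.1 : ℝ)) = _
      rw [← Real.exp_sub]
      congr 1
      ring
    simp only [h1]
    rw [Fintype.sum_sigma]
    have h2 : ∀ i : Fin (P.I + 1),
        ∑ y : ((Xr (P.r i)).erase (P.yo i) : Finset (ℤ × ℤ)), Real.exp (-(2 * (P.r i : ℝ))) ≤
          16 * Real.exp (-(P.r i : ℝ)) := by
      intro i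
      rw [Finset.sum_const, Finset.card_univ, Fintype.card_coe, nsmul_eq_mul]
      have h3 : (((Xr (P.r i)).erase (P.yo i)).card : ℝ) ≤ ((2 * P.r i + 1 : ℕ) : ℝ) ^ 2 := by
        have h4 : ((Xr (P.r i)).erase (P.yo i)).card ≤ (2 * P.r i + 1) ^ 2 :=
          (Finset.card_erase_le).trans (card_Xr_le _)
        exact_mod_cast h4
      calc (((Xr (P.r i)).erase (P.yo i)).card : ℝ) * Real.exp (-(2 * (P.r i : ℝ)))
          ≤ (16 * Real.exp (P.r i : ℝ)) * Real.exp (-(2 * (P.r i : ℝ))) := by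
            gcongr
            exact h3.trans (sq_le_exp _)
        _ = 16 * Real.exp (-(P.r i : ℝ)) := by
            rw [mul_assoc, ← Real.exp_add]
            congr 2
            ring
    calc ∑ i : Fin (P.I + 1), ∑ y : ((Xr (P.r i)).erase (P.yo i) : Finset (ℤ × ℤ)),
          Real.exp (-(2 * (P.r i : ℝ)))
        ≤ ∑ i : Fin (P.I + 1), 16 * Real.exp (-(P.r i : ℝ)) := Finset.sum_le_sum fun i _ => h2 i
      _ = 16 * ∑ i : Fin (P.I + 1), Real.exp (-(P.r i : ℝ)) := by rw [Finset.mul_sum]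
      _ ≤ 16 * (2 * Real.exp (-(rs : ℝ))) := by gcongr
      _ ≤ τ / (8 * lam) := by linarith

end P365T2.LawG
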