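import Vale.Agent.P365.T1.Final394
import Vale.Agent.P365.T1.LawInst795
import Vale.Agent.P365.T2.LabAdmG795

/-!
# P365-T2: the concrete chain (datum `V3`, label laws) for a general base `β`.

Same names as in `T1/Final394` and `T1/LawInst795` (namespace `P365T1.Conc`, base `4`), with the base
`β` as first explicit argument of the definitions.
-/

set_option linter.all false

namespace P365T2.ConcG

open P365L P365L.TL P365SH Vale.Agent.P365.C937 Vale.Agent.P365.J376 MeasureTheory Set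
open P365T1.Conc (Par APar mk Lw pat_y tau0 tau0_pos tau0_le l0_pos l0_lt two_l0_le CaS CaS_nonneg
  cost_nuS_le)
open P365T1 P365T1.Lab37 P365T1.Bump P365T2.SeqG
open scoped ENNReal

/-- combinatorial parameters from the first radius and the positions of the centres -/
def PP (β : ℕ) (yf : ℕ → ℤ × ℤ) (rs I : ℕ) : Par := ⟨I, rr β rs, fun i => yf (rr β rs i)⟩

/-- analytic parameters -/
noncomputable def QQ {β : ℕ} {yf : ℕ → ℤ × ℤ} {rs I : ℕ} (p : (PP β yf rs I).Lb → ℝ)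
    (ν : (PP β yf rs I).Lb → Measure ℝ) : APar (PP β yf rs I) :=
  ⟨aS β rs, e0S β rs, tS β rs I, bS β rs I, p, ν⟩

/-- the concrete chain with the closed formulas -/
noncomputable abbrev DD {β : ℕ} {yf : ℕ → ℤ × ℤ} {rs I : ℕ} (p : (PP β yf rs I).Lb → ℝ)
    (ν : (PP β yf rs I).Lb → Measure ℝ) : V3 := mk (PP β yf rs I) (QQ p ν)

variable {β : ℕ} [hβ : Fact (2 ≤ β)]

theorem PP_ok {yf : ℕ → ℤ × ℤ} {rs : ℕ} (hrs : 2 ≤ rs) (hy : ∀ r, rs ≤ r → yf r ∈ Xr r) (I : ℕ) :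
    (PP β yf rs I).Ok where
  r_pos := fun i => one_le_rr (by omega) i
  yo_mem := fun i => hy _ (le_rr (by omega) i)

theorem DD_ok {yf : ℕ → ℤ × ℤ} {rs I : ℕ} (hrs : 2 ≤ rs) (hy : ∀ r, rs ≤ r → yf r ∈ Xr r)
    {ρ : Measure ℝ} {p : (PP β yf rs I).Lb → ℝ} {ν : (PP β yf rs I).Lb → Measure ℝ}
    (h : Lw ρ p ν) : (DD p ν).Ok ρ where
  b_pos := bS_pos rs I
  prob := h.prob
  p_nonneg := h.p_nonneg
  p_sum := h.p_sum
  mix := h.mix
  p_good := h.p_good
  mov_good := Or.inl rfl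
  mov_cen := fun i hi => Or.inr ⟨⟨i, Nat.lt_succ_of_le hi⟩,
    pat_y (PP_ok hrs hy I) (i := i) (Nat.lt_succ_of_le hi)⟩
  e0_pos := fun i _ => e0S_pos rs i
  e0_le := fun i _ => e0S_le_one rs i
  a_nonneg := fun i _ => aS_nonneg rs i
  t_pos := fun i _ => tS_pos rs I i
  t_le := fun i _ => tS_le_one rs I i
  t_small := fun i hi => tS_small hi
  t_last := tS_last_le rs I

section law

/-- centres of the window laws -/
noncomputable def cS (β : ℕ) (yf : ℕ → ℤ × ℤ) (Vsf : ℕ → ℤ × ℤ → ℝ) (rs I : ℕ)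
    (a : (PP β yf rs I).Wn) : ℝ := Vsf (rr β rs a.1) a.2

/-- label masses of the chain -/
noncomputable def pS (β : ℕ) (yf : ℕ → ℤ × ℤ) (rs I : ℕ) (k : (PP β yf rs I).Lb) : ℝ :=
  pL tau0 (qC (PP β yf rs I)) k

/-- label laws of the chain -/
noncomputable def nuD (β : ℕ) (lam : ℝ) (yf : ℕ → ℤ × ℤ) (Vsf : ℕ → ℤ × ℤ → ℝ) (rs I : ℕ)
    (k : (PP β yf rs I).Lb) : Measure ℝ :=
  nuT lam tau0 (qC (PP β yf rs I)) (cS β yf Vsf rs I) (wC (PP β yf rs I)) k

/-- density bounds of the label laws of the chain -/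
noncomputable def DS (β : ℕ) (lam : ℝ) (yf : ℕ → ℤ × ℤ) (rs I : ℕ) (k : (PP β yf rs I).Lb) : ℝ :=
  DL lam tau0 (qC (PP β yf rs I)) (wC (PP β yf rs I)) k

/-- admissible data of the chain -/
abbrev AdmS (β : ℕ) (lam : ℝ) (yf : ℕ → ℤ × ℤ) (Vsf : ℕ → ℤ × ℤ → ℝ) (rs I : ℕ) : Prop :=
  Adm lam tau0 (qC (PP β yf rs I)) (cS β yf Vsf rs I) (wC (PP β yf rs I))

variable (β) in
/-- **the laws are admissible from some first radius on** -/
theorem exists_admS {lam lam' : ℝ} (hlam : 0 < lam) (h : lam' < lam) :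
    ∃ R : ℕ, 2 ≤ R ∧ ∀ rs, R ≤ rs → ∀ (yf : ℕ → ℤ × ℤ) (Vsf : ℕ → ℤ × ℤ → ℝ),
      (∀ r, rs ≤ r → ∀ z, |Vsf r z| ≤ lam') → ∀ I, AdmS β lam yf Vsf rs I := by
  obtain ⟨R, hR⟩ := LawG.exists_adm_tau β hlam h tau0_pos tau0_le
  refine ⟨max 2 R, le_max_left _ _, fun rs hrs yf Vsf hV I => ?_⟩
  refine hR rs ((le_max_right _ _).trans hrs) (PP β yf rs I) (fun i => rfl) _ fun a => ?_
  exact hV _ (le_rr (by
    have := (le_max_left 2 R).trans hrs
    omega) _) _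

variable {lam : ℝ} {yf : ℕ → ℤ × ℤ} {Vsf : ℕ → ℤ × ℤ → ℝ} {rs I : ℕ}

omit hβ

/-- the skeleton facts -/
theorem lw_DD (h : AdmS β lam yf Vsf rs I) :
    Lw (nuL lam) (pS β yf rs I) (nuD β lam yf Vsf rs I) where
  prob := fun k => h.prob k
  p_nonneg := fun k => (h.pL_pos k).le
  p_sum := h.pL_sum
  mix := h.mix
  p_good := by
    have := h.good_ge
    show 1 - pL tau0 (qC (PP β yf rs I)) none ≤ 1 / 8192
    linarith

theorem pS_pos (h : AdmS β lam yf Vsf rs I) (k : (PP β yf rs I).Lb) : 0 < pS β yf rs I k :=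
  h.pL_pos k

/-- the smooth law at the moving labels -/
theorem nuD_mov (h : AdmS β lam yf Vsf rs I) {k : (PP β yf rs I).Lb} (hk : (PP β yf rs I).mov k) :
    nuD β lam yf Vsf rs I k = nuS lam (lam * tau0 / 2) := by
  rcases hk with rfl | ⟨i, rfl⟩
  · exact h.nuT_good
  · exact h.nuT_mark i

theorem nuD_mov' (h : AdmS β lam yf Vsf rs I) {k : (PP β yf rs I).Lb}
    (hk : (DD (pS β yf rs I) (nuD β lam yf Vsf rs I)).mov k) :
    nuD β lam yf Vsf rs I k = nuS lam (lam * tau0 / 2) := nuD_mov h hk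

/-- the laws at the marks -/
theorem nuD_mark (h : AdmS β lam yf Vsf rs I) (i : Fin (I + 1)) :
    nuD β lam yf Vsf rs I ((PP β yf rs I).mark i) = nuS lam (lam * tau0 / 2) := h.nuT_mark i

theorem nuD_good (h : AdmS β lam yf Vsf rs I) :
    nuD β lam yf Vsf rs I none = nuS lam (lam * tau0 / 2) := h.nuT_good

/-- the window laws -/
theorem nuD_win {i : ℕ} (hi : i ≤ I)
    (z : ((Xr (rr β rs i)).erase (yf (rr β rs i)) : Finset (ℤ × ℤ))) :
    nuD β lam yf Vsf rs I ((PP β yf rs I).win ⟨⟨i, Nat.lt_succ_of_le hi⟩, z⟩) =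
      nuB (Vsf (rr β rs i) z) (Real.exp (-(rr β rs i : ℝ))) := rfl

/-- masses of the pattern labels -/
theorem pS_pat {i : ℕ} (hi : i ≤ I) (a : Loc) :
    pS β yf rs I ((PP β yf rs I).pat i a) = Real.exp (-(3 * (rr β rs i : ℝ))) := by
  unfold Par.pat
  rw [dif_pos (show i < (PP β yf rs I).I + 1 from Nat.lt_succ_of_le hi)]
  split_ifs with h2
  · rfl
  · rfl

theorem pS_pat_DD {i : ℕ} (hi : i ≤ I) (a : Loc) :
    (DD (pS β yf rs I) (nuD β lam yf Vsf rs I)).p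
      ((DD (pS β yf rs I) (nuD β lam yf Vsf rs I)).pat i a) =
      Real.exp (-(3 * (rr β rs i : ℝ))) := pS_pat hi a

/-- supports -/
theorem nuD_law (h : AdmS β lam yf Vsf rs I) (k : (PP β yf rs I).Lb) :
    Law lam (nuD β lam yf Vsf rs I k) := h.law k

theorem nuD_supp (h : AdmS β lam yf Vsf rs I) (k : (PP β yf rs I).Lb) :
    nuD β lam yf Vsf rs I k (Set.Icc (-lam) lam)ᶜ = 0 := h.supp k

/-- densities -/
theorem nuD_densLe (h : AdmS β lam yf Vsf rs I) (k : (PP β yf rs I).Lb) :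
    DensLe (DS β lam yf rs I k) (nuD β lam yf Vsf rs I k) := h.densLe k

theorem DS_pos (h : AdmS β lam yf Vsf rs I) (k : (PP β yf rs I).Lb) : 0 < DS β lam yf rs I k :=
  h.DL_pos k

theorem sum_pS_DS (h : AdmS β lam yf Vsf rs I) :
    ∑ k, pS β yf rs I k * DS β lam yf rs I k ≤ 2 / lam := h.sum_mul_le

theorem pS_mul_DS_le (h : AdmS β lam yf Vsf rs I) (k : (PP β yf rs I).Lb) :
    pS β yf rs I k * DS β lam yf rs I k ≤ 1 / lam := h.mul_le k

theorem cost_DD (h : AdmS β lam yf Vsf rs I) (E : ℝ) {k : (PP β yf rs I).Lb}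
    (hk : (DD (pS β yf rs I) (nuD β lam yf Vsf rs I)).mov k) :
    CostLe E (CaS lam E) (nuD β lam yf Vsf rs I k) := by
  rw [nuD_mov' h hk]
  exact cost_nuS_le h.hlam E

end law

end P365T2.ConcG
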