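import Vale.Agent.P365.MathlibUsed

/-!
# P365-T2: the deterministic half of the truncated one-body entropy (T) (helper844)

`h R q = R q / (R + q)` (`R = r^2`, `q = |z|^2`), the one-sided parallelogram by an exact identity,
Abel summation over the dyadic scales, and the drift inequality for a symmetric flow matrix `Q`.
-/

set_option linter.all false

namespace P365T2.H844

open Finset

/-- `r^2 |z|^2 / (r^2 + |z|^2)` with `R = r^2`, `q = |z|^2` -/
noncomputable def h (R q : ℝ) : ℝ := R * q / (R + q)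

theorem h_nonneg {R q : ℝ} (hR : 0 < R) (hq : 0 ≤ q) : 0 ≤ h R q := by
  unfold h; positivity

theorem h_le_left {R q : ℝ} (hR : 0 < R) (hq : 0 ≤ q) : h R q ≤ R := by
  unfold h
  rw [div_le_iff₀ (by positivity)]
  nlinarith [sq_nonneg R]

theorem h_le_right {R q : ℝ} (hR : 0 < R) (hq : 0 ≤ q) : h R q ≤ q := by
  unfold h
  rw [div_le_iff₀ (by positivity)]
  nlinarith [sq_nonneg q]

theorem h_mono {R R' q : ℝ} (hR : 0 < R) (hRR : R ≤ R') (hq : 0 ≤ q) : h R q ≤ h R' q := by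
  unfold h
  rw [div_le_div_iff₀ (by positivity) (by linarith)]
  nlinarith [mul_nonneg hq hq, mul_nonneg (sub_nonneg.2 hRR) (mul_nonneg hq hq)]

/-- the linearised defect -/
noncomputable def DD (R α β γ : ℝ) : ℝ :=
  h R (α - 2 * γ + β) - h R α - h R β + 2 * γ * R ^ 2 / (R + α) ^ 2

theorem DD_eq {R α β γ : ℝ} (hR : 0 < R) (hα : 0 ≤ α) (hβ : 0 ≤ β) (hc : 0 ≤ α - 2 * γ + β) :
    DD R α β γ = R ^ 2 * β / (R + α) ^ 2 -
      R ^ 2 * (2 * γ - β) ^ 2 / ((R + α) ^ 2 * (R + (α - 2 * γ + β))) - h R β := by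
  unfold DD h
  have h1 : R + α ≠ 0 := by positivity
  have h2 : R + (α - 2 * γ + β) ≠ 0 := by linarith
  have h3 : R + β ≠ 0 := by positivity
  field_simp
  ring

theorem DD_le {R α β γ : ℝ} (hR : 0 < R) (hα : 0 ≤ α) (hβ : 0 ≤ β) (hc : 0 ≤ α - 2 * γ + β) :
    DD R α β γ ≤ β ^ 2 / (R + β) := by
  rw [DD_eq hR hα hβ hc]
  have h1 : 0 < R + α := by positivity
  have h2 : 0 < R + (α - 2 * γ + β) := by linarith
  have h4 : 0 ≤ R ^ 2 * (2 * γ - β) ^ 2 / ((R + α) ^ 2 * (R + (α - 2 * γ + β))) := by positivity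
  have h5 : R ^ 2 * β / (R + α) ^ 2 ≤ β := by
    rw [div_le_iff₀ (by positivity)]
    nlinarith [mul_nonneg hβ hα, mul_nonneg (mul_nonneg hβ hα) hR.le,
      mul_nonneg (mul_nonneg hβ hα) hα]
  have h6 : β ^ 2 / (R + β) = β - h R β := by
    unfold h
    have : R + β ≠ 0 := by positivity
    field_simp
    ring
  rw [h6]
  linarith

theorem DD_le' {ρ s α γ : ℝ} (hρ : 0 < ρ) (hs : 0 < s) (hα : 0 ≤ α)
    (hc : 0 ≤ α - 2 * γ + s ^ 2) (hγ : γ ^ 2 ≤ α * s ^ 2) (hρs : ρ ≤ s) :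
    DD (ρ ^ 2) α (s ^ 2) γ ≤ 3 / 2 * (ρ * s) := by
  unfold DD
  have hR : 0 < ρ ^ 2 := by positivity
  have h1 := h_le_left hR hc
  have h2 := h_nonneg hR hα
  have h3 : ρ ^ 2 / 2 ≤ h (ρ ^ 2) (s ^ 2) := by
    unfold h
    rw [div_le_div_iff₀ (by norm_num) (by positivity)]
    have : ρ ^ 2 ≤ s ^ 2 := by nlinarith
    nlinarith [mul_nonneg hR.le (sub_nonneg.2 this)]
  have h4 : 2 * γ * (ρ ^ 2) ^ 2 / (ρ ^ 2 + α) ^ 2 ≤ ρ * s := by
    rw [div_le_iff₀ (by positivity)]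
    have hγ' : γ ≤ Real.sqrt α * s := by
      have : Real.sqrt (α * s ^ 2) = Real.sqrt α * s := by
        rw [Real.sqrt_mul hα, Real.sqrt_sq hs.le]
      rw [← this]
      exact Real.le_sqrt_of_sq_le hγ
    set a := Real.sqrt α with ha
    have ha0 : 0 ≤ a := Real.sqrt_nonneg _
    have hα2 : α = a ^ 2 := (Real.sq_sqrt hα).symm
    rw [hα2]
    have h5 : 2 * γ * (ρ ^ 2) ^ 2 ≤ 2 * (a * s) * (ρ ^ 2) ^ 2 := by
      have : 0 ≤ (ρ ^ 2) ^ 2 := by positivity
      nlinarith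
    refine h5.trans ?_
    have h6 : 2 * a * ρ ≤ ρ ^ 2 + a ^ 2 := by nlinarith [sq_nonneg (ρ - a)]
    have h7 : ρ ^ 2 ≤ ρ ^ 2 + a ^ 2 := by nlinarith [sq_nonneg a]
    have h8 : (2 * a * ρ) * ρ ^ 2 ≤ (ρ ^ 2 + a ^ 2) * (ρ ^ 2 + a ^ 2) :=
      mul_le_mul h6 h7 (by positivity) (by positivity)
    calc 2 * (a * s) * (ρ ^ 2) ^ 2 = (ρ * s) * ((2 * a * ρ) * ρ ^ 2) := by ring
      _ ≤ (ρ * s) * ((ρ ^ 2 + a ^ 2) * (ρ ^ 2 + a ^ 2)) :=
          mul_le_mul_of_nonneg_left h8 (by positivity)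
      _ = ρ * s * (ρ ^ 2 + a ^ 2) ^ 2 := by ring
  have h9 : ρ ^ 2 ≤ ρ * s := by nlinarith
  linarith

/-- telescoping bound of the defect at scale `ρ` -/
theorem DD_tel {ρ s α γ : ℝ} (hρ : 0 < ρ) (hs : 0 < s) (hα : 0 ≤ α)
    (hc : 0 ≤ α - 2 * γ + s ^ 2) (hγ : γ ^ 2 ≤ α * s ^ 2) :
    DD (ρ ^ 2) α (s ^ 2) γ ≤ 9 * s ^ 2 * (2 * ρ / (s + 2 * ρ) - ρ / (s + ρ)) := by
  have e : 2 * ρ / (s + 2 * ρ) - ρ / (s + ρ) = ρ * s / ((s + 2 * ρ) * (s + ρ)) := by
    field_simp
    ring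
  rw [e]
  rcases le_total ρ s with hρs | hρs
  · refine (DD_le' hρ hs hα hc hγ hρs).trans ?_
    rw [← mul_div_assoc, le_div_iff₀ (by positivity)]
    have h1 : (s + 2 * ρ) * (s + ρ) ≤ 6 * s ^ 2 := by nlinarith
    have h2 : 0 ≤ 3 / 2 * (ρ * s) := by positivity
    nlinarith [mul_le_mul_of_nonneg_left h1 h2]
  · refine (DD_le (by positivity) hα (by positivity) hc).trans ?_
    rw [← mul_div_assoc, div_le_div_iff₀ (by positivity) (by positivity)]
    have h1 : (s + 2 * ρ) * (s + ρ) ≤ 6 * ρ ^ 2 := by nlinarith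
    have h2 : 0 ≤ (s ^ 2) ^ 2 := by positivity
    have h3 : (s ^ 2) ^ 2 * ((s + 2 * ρ) * (s + ρ)) ≤ (s ^ 2) ^ 2 * (6 * ρ ^ 2) :=
      mul_le_mul_of_nonneg_left h1 h2
    refine h3.trans ?_
    have h4 : s ≤ ρ := hρs
    have h5 : (s ^ 2) ^ 2 * (6 * ρ ^ 2) ≤ 9 * s ^ 2 * (ρ * s) * ρ ^ 2 := by
      have : 0 ≤ s ^ 3 * ρ ^ 2 := by positivity
      nlinarith [mul_nonneg this (sub_nonneg.2 h4), mul_nonneg this hs.le]
    have h6 : 9 * s ^ 2 * (ρ * s) * ρ ^ 2 ≤ 9 * s ^ 2 * (ρ * s) * (ρ ^ 2 + s ^ 2) := by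
      have : 0 ≤ 9 * s ^ 2 * (ρ * s) := by positivity
      nlinarith [mul_nonneg this (sq_nonneg s)]
    exact h5.trans h6

/-- the kernels: `W K k`, `k ≤ K`, sum to `q - h 1 q` -/
noncomputable def W (K k : ℕ) (q : ℝ) : ℝ :=
  if k < K then h (4 ^ (k + 1)) q - h (4 ^ k) q else q - h (4 ^ K) q

theorem W_nonneg (K k : ℕ) {q : ℝ} (hq : 0 ≤ q) : 0 ≤ W K k q := by
  unfold W
  split_ifs with hk
  · have : h (4 ^ k) q ≤ h (4 ^ (k + 1)) q := by
      refine h_mono (by positivity) ?_ hq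
      exact pow_le_pow_right₀ (by norm_num) (Nat.le_succ k)
    linarith
  · have := h_le_right (R := 4 ^ K) (by positivity) hq
    linarith

/-- the weighted kernel -/
noncomputable def HH (K : ℕ) (l : ℕ → ℝ) (q : ℝ) : ℝ := ∑ k ∈ range (K + 1), l k * W K k q

theorem HH_eq (K : ℕ) (l : ℕ → ℝ) (q : ℝ) :
    HH K l q = l K * q - l 0 * h 1 q - ∑ k ∈ range K, (l (k + 1) - l k) * h (4 ^ (k + 1)) q := by
  have e1 : HH K l q = ∑ k ∈ range K, l k * (h (4 ^ (k + 1)) q - h (4 ^ k) q) +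
      l K * (q - h (4 ^ K) q) := by
    unfold HH
    rw [sum_range_succ]
    congr 1
    · refine sum_congr rfl fun k hk => ?_
      rw [W, if_pos (mem_range.1 hk)]
    · rw [W, if_neg (lt_irrefl K)]
  rw [e1]
  clear e1
  induction K with
  | zero =>
    simp only [range_zero, sum_empty, pow_zero, zero_add, sub_zero]
    ring
  | succ K ih =>
    rw [sum_range_succ, sum_range_succ]
    have e2 : ∑ k ∈ range K, l k * (h (4 ^ (k + 1)) q - h (4 ^ k) q) =
        l K * q - l 0 * h 1 q - ∑ k ∈ range K, (l (k + 1) - l k) * h (4 ^ (k + 1)) q -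
          l K * (q - h (4 ^ K) q) := by linarith
    rw [e2]
    ring

theorem sum_W (K : ℕ) (q : ℝ) : ∑ k ∈ range (K + 1), W K k q = q - h 1 q := by
  have := HH_eq K (fun _ => 1) q
  unfold HH at this
  simpa using this

/-- the coefficient of the linear term -/
noncomputable def cc (K : ℕ) (l : ℕ → ℝ) (α : ℝ) : ℝ :=
  2 * l K - ∑ k ∈ range K, (l (k + 1) - l k) * (2 * (4 ^ (k + 1)) ^ 2 / (4 ^ (k + 1) + α) ^ 2)

theorem cc_le {K : ℕ} {l : ℕ → ℝ} {α : ℝ} (hm : ∀ k < K, l k ≤ l (k + 1)) (hα : 0 ≤ α) :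
    cc K l α ≤ 2 * l K := by
  unfold cc
  have : 0 ≤ ∑ k ∈ range K, (l (k + 1) - l k) *
      (2 * (4 ^ (k + 1)) ^ 2 / (4 ^ (k + 1) + α) ^ 2) := by
    refine sum_nonneg fun k hk => ?_
    have := hm k (mem_range.1 hk)
    have h1 : (0 : ℝ) ≤ l (k + 1) - l k := by linarith
    positivity
  linarith

theorem le_cc {K : ℕ} {l : ℕ → ℝ} {α : ℝ} (hm : ∀ k < K, l k ≤ l (k + 1)) (hα : 0 ≤ α) :
    2 * l 0 ≤ cc K l α := by
  unfold cc
  have h1 : ∑ k ∈ range K, (l (k + 1) - l k) *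
      (2 * (4 ^ (k + 1)) ^ 2 / (4 ^ (k + 1) + α) ^ 2) ≤
      ∑ k ∈ range K, (l (k + 1) - l k) * 2 := by
    refine sum_le_sum fun k hk => ?_
    have := hm k (mem_range.1 hk)
    refine mul_le_mul_of_nonneg_left ?_ (by linarith)
    rw [div_le_iff₀ (by positivity)]
    have h4 : (0 : ℝ) < 4 ^ (k + 1) := by positivity
    nlinarith [mul_nonneg h4.le hα, mul_nonneg hα hα]
  rw [← sum_mul, sum_range_sub] at h1
  linarith

theorem tel_sum (K : ℕ) {s : ℝ} (hs : 0 < s) :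
    ∑ k ∈ range K, (2 * (2 : ℝ) ^ (k + 1) / (s + 2 * 2 ^ (k + 1)) -
      2 ^ (k + 1) / (s + 2 ^ (k + 1))) ≤ 1 := by
  have e : ∀ k : ℕ, (2 * (2 : ℝ) ^ (k + 1) / (s + 2 * 2 ^ (k + 1)) -
      2 ^ (k + 1) / (s + 2 ^ (k + 1))) =
      (fun n : ℕ => (2 : ℝ) ^ (n + 1) / (s + 2 ^ (n + 1))) (k + 1) -
        (fun n : ℕ => (2 : ℝ) ^ (n + 1) / (s + 2 ^ (n + 1))) k := by
    intro k
    simp only
    rw [show (2 : ℝ) ^ (k + 1 + 1) = 2 * 2 ^ (k + 1) by ring]
  rw [sum_congr rfl fun k _ => e k,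
    sum_range_sub (fun n : ℕ => (2 : ℝ) ^ (n + 1) / (s + 2 ^ (n + 1))) K]
  have h1 : (2 : ℝ) ^ (K + 1) / (s + 2 ^ (K + 1)) ≤ 1 := by
    rw [div_le_one (by positivity)]
    linarith
  have h2 : (0 : ℝ) ≤ 2 ^ (0 + 1) / (s + 2 ^ (0 + 1)) := by positivity
  linarith

theorem sum_DD_le {K : ℕ} {l : ℕ → ℝ} {L α β γ : ℝ} (hm : ∀ k < K, l k ≤ l (k + 1))
    (hL : ∀ k < K, l (k + 1) ≤ l k + L) (hL0 : 0 ≤ L) (hα : 0 ≤ α) (hβ : 0 ≤ β)
    (hc : 0 ≤ α - 2 * γ + β) (hγ : γ ^ 2 ≤ α * β) :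
    ∑ k ∈ range K, (l (k + 1) - l k) * DD (4 ^ (k + 1)) α β γ ≤ 9 * L * β := by
  rcases hβ.eq_or_lt with h0 | h0
  · subst h0
    have hγ0 : γ = 0 := by nlinarith [sq_nonneg γ]
    subst hγ0
    have : ∀ k ∈ range K, (l (k + 1) - l k) * DD (4 ^ (k + 1)) α 0 0 = 0 := by
      intro k _
      unfold DD h
      simp
    rw [sum_eq_zero this]
    simp
  · set s := Real.sqrt β with hs
    have hs0 : 0 < s := Real.sqrt_pos.2 h0
    have hβs : β = s ^ 2 := (Real.sq_sqrt h0.le).symm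
    rw [hβs] at hc hγ ⊢
    have h1 : ∀ k ∈ range K, (l (k + 1) - l k) * DD (4 ^ (k + 1)) α (s ^ 2) γ ≤
        (9 * L * s ^ 2) * (2 * (2 : ℝ) ^ (k + 1) / (s + 2 * 2 ^ (k + 1)) -
          2 ^ (k + 1) / (s + 2 ^ (k + 1))) := by
      intro k hk
      have hk1 := hm k (mem_range.1 hk)
      have hk2 := hL k (mem_range.1 hk)
      have h2 := DD_tel (ρ := (2 : ℝ) ^ (k + 1)) (by positivity) hs0 hα hc hγ
      have e4 : ((2 : ℝ) ^ (k + 1)) ^ 2 = 4 ^ (k + 1) := by
        rw [← pow_mul, mul_comm, pow_mul]; norm_num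
      rw [e4] at h2
      have h3 : 0 ≤ 2 * (2 : ℝ) ^ (k + 1) / (s + 2 * 2 ^ (k + 1)) -
          2 ^ (k + 1) / (s + 2 ^ (k + 1)) := by
        rw [sub_nonneg, div_le_div_iff₀ (by positivity) (by positivity)]
        have : (0 : ℝ) < 2 ^ (k + 1) := by positivity
        nlinarith
      calc (l (k + 1) - l k) * DD (4 ^ (k + 1)) α (s ^ 2) γ
          ≤ (l (k + 1) - l k) * (9 * s ^ 2 * (2 * (2 : ℝ) ^ (k + 1) / (s + 2 * 2 ^ (k + 1)) -
          2 ^ (k + 1) / (s + 2 ^ (k + 1)))) := mul_le_mul_of_nonneg_left h2 (by linarith)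
        _ ≤ L * (9 * s ^ 2 * (2 * (2 : ℝ) ^ (k + 1) / (s + 2 * 2 ^ (k + 1)) -
          2 ^ (k + 1) / (s + 2 ^ (k + 1)))) :=
            mul_le_mul_of_nonneg_right (by linarith) (by positivity)
        _ = _ := by ring
    refine (sum_le_sum h1).trans ?_
    rw [← mul_sum]
    have h4 := tel_sum K hs0
    have h5 : 0 ≤ 9 * L * s ^ 2 := by positivity
    nlinarith

/-- **one-sided parallelogram** -/
theorem HH_par {K : ℕ} {l : ℕ → ℝ} {L α β γ : ℝ} (hl : 0 ≤ l 0) (hm : ∀ k < K, l k ≤ l (k + 1))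
    (hL : ∀ k < K, l (k + 1) ≤ l k + L) (hL0 : 0 ≤ L) (hα : 0 ≤ α) (hβ : 0 ≤ β)
    (hc : 0 ≤ α - 2 * γ + β) (hγ : γ ^ 2 ≤ α * β)
    (hlat : h 1 (α - 2 * γ + β) ≤ h 1 α + h 1 β) :
    HH K l α + HH K l β - cc K l α * γ - 9 * L * β ≤ HH K l (α - 2 * γ + β) := by
  have h1 := sum_DD_le hm hL hL0 hα hβ hc hγ
  have e : HH K l (α - 2 * γ + β) - HH K l α - HH K l β + cc K l α * γ =
      -l 0 * (h 1 (α - 2 * γ + β) - h 1 α - h 1 β) -
        ∑ k ∈ range K, (l (k + 1) - l k) * DD (4 ^ (k + 1)) α β γ := by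
    rw [HH_eq, HH_eq, HH_eq, cc]
    have e2 : ∑ k ∈ range K, (l (k + 1) - l k) * DD (4 ^ (k + 1)) α β γ =
        ∑ k ∈ range K, (l (k + 1) - l k) * h (4 ^ (k + 1)) (α - 2 * γ + β) -
        ∑ k ∈ range K, (l (k + 1) - l k) * h (4 ^ (k + 1)) α -
        ∑ k ∈ range K, (l (k + 1) - l k) * h (4 ^ (k + 1)) β +
        (∑ k ∈ range K, (l (k + 1) - l k) *
          (2 * (4 ^ (k + 1)) ^ 2 / (4 ^ (k + 1) + α) ^ 2)) * γ := by
      rw [sum_mul, ← sum_sub_distrib, ← sum_sub_distrib, ← sum_add_distrib]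
      refine sum_congr rfl fun k _ => ?_
      unfold DD
      ring
    rw [e2]
    ring
  have h2 : 0 ≤ l 0 * (h 1 α + h 1 β - h 1 (α - 2 * γ + β)) :=
    mul_nonneg hl (by linarith)
  nlinarith

/-! ### lattice vectors -/

/-- squared length of an integer vector -/
def nsq (z : ℤ × ℤ) : ℝ := (z.1 : ℝ) ^ 2 + (z.2 : ℝ) ^ 2

/-- inner product -/
def ip (a b : ℤ × ℤ) : ℝ := (a.1 : ℝ) * b.1 + (a.2 : ℝ) * b.2

theorem nsq_nonneg (z : ℤ × ℤ) : 0 ≤ nsq z := by unfold nsq; positivity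

theorem nsq_sub (a b : ℤ × ℤ) : nsq (a - b) = nsq a - 2 * ip a b + nsq b := by
  unfold nsq ip
  simp only [Prod.fst_sub, Prod.snd_sub, Int.cast_sub]
  ring

theorem ip_sq (a b : ℤ × ℤ) : ip a b ^ 2 ≤ nsq a * nsq b := by
  unfold nsq ip
  nlinarith [sq_nonneg ((a.1 : ℝ) * b.2 - a.2 * b.1)]

theorem one_le_nsq {z : ℤ × ℤ} (hz : z ≠ 0) : 1 ≤ nsq z := by
  unfold nsq
  have : 1 ≤ z.1 ^ 2 + z.2 ^ 2 := by
    by_contra hlt
    push Not at hlt
    have h1 := sq_nonneg z.1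
    have h2 := sq_nonneg z.2
    have h3 : z.1 ^ 2 = 0 := by omega
    have h4 : z.2 ^ 2 = 0 := by omega
    apply hz
    exact Prod.ext (by simpa using h3) (by simpa using h4)
  exact_mod_cast this

theorem h_one_sub (a b : ℤ × ℤ) : h 1 (nsq (a - b)) ≤ h 1 (nsq a) + h 1 (nsq b) := by
  by_cases ha : a = 0
  · subst ha
    have e : nsq (0 - b) = nsq b := by unfold nsq; simp
    rw [e]
    have := h_nonneg (R := 1) one_pos (nsq_nonneg (0 : ℤ × ℤ))
    linarith
  by_cases hb : b = 0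
  · subst hb
    rw [sub_zero]
    have := h_nonneg (R := 1) one_pos (nsq_nonneg (0 : ℤ × ℤ))
    linarith
  · have h1 := h_le_left (R := 1) one_pos (nsq_nonneg (a - b))
    have h2 : ∀ z : ℤ × ℤ, z ≠ 0 → 1 / 2 ≤ h 1 (nsq z) := by
      intro z hz
      unfold h
      have := one_le_nsq hz
      rw [div_le_div_iff₀ (by norm_num) (by linarith)]
      linarith
    have h3 := h2 a ha
    have h4 := h2 b hb
    linarith

/-- one-sided parallelogram for integer vectors -/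
theorem HH_lat {K : ℕ} {l : ℕ → ℝ} {L : ℝ} (hl : 0 ≤ l 0) (hm : ∀ k < K, l k ≤ l (k + 1))
    (hL : ∀ k < K, l (k + 1) ≤ l k + L) (hL0 : 0 ≤ L) (a b : ℤ × ℤ) :
    HH K l (nsq a) + HH K l (nsq b) - cc K l (nsq a) * ip a b - 9 * L * nsq b ≤
      HH K l (nsq (a - b)) := by
  have e := nsq_sub a b
  have hc : 0 ≤ nsq a - 2 * ip a b + nsq b := by rw [← e]; exact nsq_nonneg _
  have h1 := HH_par (γ := ip a b) hl hm hL hL0 (nsq_nonneg a) (nsq_nonneg b) hc (ip_sq a b)
    (by rw [← e]; exact h_one_sub a b)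
  rw [e]
  exact h1

/-! ### the drift inequality -/

section Drift

variable {ι : Type*} [Fintype ι] (pos : ι → ℤ × ℤ) (Q : ι → ι → ℝ)

/-- squared distance -/
def qq (x y : ι) : ℝ := nsq (pos x - pos y)

/-- row sum -/
noncomputable def pp (x : ι) : ℝ := ∑ y, Q x y

/-- `V_v = E_{P_v} |y - v|^2` -/
noncomputable def VV (v : ι) : ℝ := (∑ y, Q v y * qq pos y v) / pp Q v

/-- components of `mu_v = E_{P_v} (y - v)` -/
noncomputable def mu1 (v : ι) : ℝ := (∑ y, Q v y * ((pos y - pos v).1 : ℝ)) / pp Q v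

/-- components of `mu_v = E_{P_v} (y - v)` -/
noncomputable def mu2 (v : ι) : ℝ := (∑ y, Q v y * ((pos y - pos v).2 : ℝ)) / pp Q v

/-- `u_{x,k} = E_{P_x} w_k(y - x)` -/
noncomputable def uu (K : ℕ) (x : ι) (k : ℕ) : ℝ := (∑ y, Q x y * W K k (qq pos y x)) / pp Q x

variable {pos Q}

theorem qq_nonneg (x y : ι) : 0 ≤ qq pos x y := nsq_nonneg _

theorem qq_comm (x y : ι) : qq pos x y = qq pos y x := by
  unfold qq nsq
  simp only [Prod.fst_sub, Prod.snd_sub, Int.cast_sub]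
  ring

theorem sum_uu {K : ℕ} (x : ι) (hp : 0 < pp Q x) (l : ℕ → ℝ) :
    ∑ k ∈ range (K + 1), l k * uu pos Q K x k =
      (∑ y, Q x y * HH K l (qq pos y x)) / pp Q x := by
  unfold uu HH
  rw [eq_div_iff hp.ne', sum_mul]
  have e1 : ∀ k ∈ range (K + 1), l k * ((∑ y, Q x y * W K k (qq pos y x)) / pp Q x) * pp Q x =
      ∑ y, Q x y * (l k * W K k (qq pos y x)) := by
    intro k _
    have : l k * ((∑ y, Q x y * W K k (qq pos y x)) / pp Q x) * pp Q x =
        l k * ∑ y, Q x y * W K k (qq pos y x) := by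
      field_simp
    rw [this, mul_sum]
    exact sum_congr rfl fun y _ => by ring
  rw [sum_congr rfl e1, sum_comm]
  exact sum_congr rfl fun y _ => by rw [mul_sum]

theorem uu_nonneg {K : ℕ} (hQ : ∀ x y, 0 ≤ Q x y) (hp : ∀ x, 0 < pp Q x) (x : ι) (k : ℕ) :
    0 ≤ uu pos Q K x k :=
  div_nonneg (sum_nonneg fun y _ => mul_nonneg (hQ x y) (W_nonneg K k (qq_nonneg y x))) (hp x).le

theorem sum_uu_le {K : ℕ} (hQ : ∀ x y, 0 ≤ Q x y) (hp : ∀ x, 0 < pp Q x) (x : ι) :
    ∑ k ∈ range (K + 1), uu pos Q K x k ≤ VV pos Q x := by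
  have h1 := sum_uu (pos := pos) (K := K) x (hp x) (fun _ => 1)
  simp only [one_mul] at h1
  rw [h1, VV]
  refine div_le_div_of_nonneg_right (sum_le_sum fun y _ => ?_) (hp x).le
  refine mul_le_mul_of_nonneg_left ?_ (hQ x y)
  have h2 : HH K (fun _ => (1 : ℝ)) (qq pos y x) = qq pos y x - h 1 (qq pos y x) := by
    unfold HH
    simp only [one_mul]
    exact sum_W K _
  rw [h2]
  have := h_nonneg (R := 1) one_pos (qq_nonneg (pos := pos) y x)
  linarith

/-- one row of the parallelogram, averaged over `P_v` -/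
theorem row_par {K : ℕ} {l : ℕ → ℝ} {L : ℝ} (hQ : ∀ x y, 0 ≤ Q x y) (hp : ∀ x, 0 < pp Q x)
    (hl : 0 ≤ l 0) (hm : ∀ k < K, l k ≤ l (k + 1))
    (hL : ∀ k < K, l (k + 1) ≤ l k + L) (hL0 : 0 ≤ L) (x v : ι) :
    HH K l (qq pos x v) + ∑ k ∈ range (K + 1), l k * uu pos Q K v k -
      2 * l K * (Real.sqrt (qq pos x v) * Real.sqrt (mu1 pos Q v ^ 2 + mu2 pos Q v ^ 2)) -
      9 * L * VV pos Q v ≤
      (∑ y, Q v y * HH K l (qq pos x y)) / pp Q v := by
  set a : ℤ × ℤ := pos x - pos v with ha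
  have hpv := hp v
  have h1 : ∀ y, HH K l (qq pos x v) + HH K l (qq pos y v) -
      cc K l (qq pos x v) * ip a (pos y - pos v) - 9 * L * qq pos y v ≤ HH K l (qq pos x y) := by
    intro y
    have := HH_lat hl hm hL hL0 a (pos y - pos v)
    have e : a - (pos y - pos v) = pos x - pos y := by rw [ha]; abel
    rw [e] at this
    exact this
  have h2 : ∑ y, Q v y * (HH K l (qq pos x v) + HH K l (qq pos y v) -
      cc K l (qq pos x v) * ip a (pos y - pos v) - 9 * L * qq pos y v) ≤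
      ∑ y, Q v y * HH K l (qq pos x y) :=
    sum_le_sum fun y _ => mul_le_mul_of_nonneg_left (h1 y) (hQ v y)
  have h3 : ∑ y, Q v y * (HH K l (qq pos x v) + HH K l (qq pos y v) -
      cc K l (qq pos x v) * ip a (pos y - pos v) - 9 * L * qq pos y v) =
      pp Q v * (HH K l (qq pos x v) + ∑ k ∈ range (K + 1), l k * uu pos Q K v k -
        cc K l (qq pos x v) * ((a.1 : ℝ) * mu1 pos Q v + (a.2 : ℝ) * mu2 pos Q v) -
        9 * L * VV pos Q v) := by
    have e1 : pp Q v * ∑ k ∈ range (K + 1), l k * uu pos Q K v k =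
        ∑ y, Q v y * HH K l (qq pos y v) := by
      rw [sum_uu (pos := pos) v hpv]
      field_simp
    have e2 : pp Q v * mu1 pos Q v = ∑ y, Q v y * ((pos y - pos v).1 : ℝ) := by
      unfold mu1; field_simp
    have e3 : pp Q v * mu2 pos Q v = ∑ y, Q v y * ((pos y - pos v).2 : ℝ) := by
      unfold mu2; field_simp
    have e4 : pp Q v * VV pos Q v = ∑ y, Q v y * qq pos y v := by
      unfold VV; field_simp
    have e5 : pp Q v * HH K l (qq pos x v) = ∑ y, Q v y * HH K l (qq pos x v) := by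
      unfold pp; rw [sum_mul]
    have e6 : pp Q v * (HH K l (qq pos x v) + ∑ k ∈ range (K + 1), l k * uu pos Q K v k -
        cc K l (qq pos x v) * ((a.1 : ℝ) * mu1 pos Q v + (a.2 : ℝ) * mu2 pos Q v) -
        9 * L * VV pos Q v) =
        pp Q v * HH K l (qq pos x v) + pp Q v * ∑ k ∈ range (K + 1), l k * uu pos Q K v k -
        cc K l (qq pos x v) * ((a.1 : ℝ) * (pp Q v * mu1 pos Q v) +
          (a.2 : ℝ) * (pp Q v * mu2 pos Q v)) - 9 * L * (pp Q v * VV pos Q v) := by ring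
    rw [e6, e1, e2, e3, e4, e5]
    simp only [mul_sum, ← sum_add_distrib, ← sum_sub_distrib]
    refine sum_congr rfl fun y _ => ?_
    unfold ip
    ring
  rw [le_div_iff₀ hpv]
  have h4 : cc K l (qq pos x v) * ((a.1 : ℝ) * mu1 pos Q v + (a.2 : ℝ) * mu2 pos Q v) ≤
      2 * l K * (Real.sqrt (qq pos x v) *
        Real.sqrt (mu1 pos Q v ^ 2 + mu2 pos Q v ^ 2)) := by
    have h5 := cc_le (α := qq pos x v) hm (qq_nonneg x v)
    have h6 := le_cc (α := qq pos x v) hm (qq_nonneg x v)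
    have h7 : (a.1 : ℝ) * mu1 pos Q v + (a.2 : ℝ) * mu2 pos Q v ≤
        Real.sqrt (qq pos x v) * Real.sqrt (mu1 pos Q v ^ 2 + mu2 pos Q v ^ 2) := by
      rw [← Real.sqrt_mul (qq_nonneg x v)]
      refine Real.le_sqrt_of_sq_le ?_
      have e : qq pos x v = (a.1 : ℝ) ^ 2 + (a.2 : ℝ) ^ 2 := rfl
      rw [e]
      nlinarith [sq_nonneg ((a.1 : ℝ) * mu2 pos Q v - a.2 * mu1 pos Q v)]
    have h8 : 0 ≤ Real.sqrt (qq pos x v) * Real.sqrt (mu1 pos Q v ^ 2 + mu2 pos Q v ^ 2) := by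
      positivity
    calc cc K l (qq pos x v) * ((a.1 : ℝ) * mu1 pos Q v + (a.2 : ℝ) * mu2 pos Q v)
        ≤ cc K l (qq pos x v) * (Real.sqrt (qq pos x v) *
            Real.sqrt (mu1 pos Q v ^ 2 + mu2 pos Q v ^ 2)) :=
          mul_le_mul_of_nonneg_left h7 (by linarith)
      _ ≤ _ := mul_le_mul_of_nonneg_right h5 h8
  rw [h3] at h2
  refine le_trans ?_ h2
  rw [mul_comm (pp Q v)]
  refine mul_le_mul_of_nonneg_right ?_ hpv.le
  linarith

/-- Cauchy-Schwarz for the drift term -/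
theorem cs_mu (hQ : ∀ x y, 0 ≤ Q x y) (hs : ∀ x y, Q x y = Q y x) (hp : ∀ x, 0 < pp Q x)
    {om : ι → ℝ} (ho : ∀ x, 0 ≤ om x) :
    ∑ x, ∑ v, om v * Q x v * (Real.sqrt (qq pos x v) *
      Real.sqrt (mu1 pos Q v ^ 2 + mu2 pos Q v ^ 2)) ≤
      Real.sqrt (∑ v, om v * pp Q v * VV pos Q v) *
        Real.sqrt (∑ v, om v * pp Q v * (mu1 pos Q v ^ 2 + mu2 pos Q v ^ 2)) := by
  have h0 : ∀ x v, 0 ≤ om v * Q x v := fun x v => mul_nonneg (ho v) (hQ x v)
  have h1 := Real.sum_mul_le_sqrt_mul_sqrt (Finset.univ : Finset (ι × ι))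
    (fun z => Real.sqrt (om z.2 * Q z.1 z.2) * Real.sqrt (qq pos z.1 z.2))
    (fun z => Real.sqrt (om z.2 * Q z.1 z.2) *
      Real.sqrt (mu1 pos Q z.2 ^ 2 + mu2 pos Q z.2 ^ 2))
  have e1 : ∑ x, ∑ v, om v * Q x v * (Real.sqrt (qq pos x v) *
      Real.sqrt (mu1 pos Q v ^ 2 + mu2 pos Q v ^ 2)) =
      ∑ z : ι × ι, Real.sqrt (om z.2 * Q z.1 z.2) * Real.sqrt (qq pos z.1 z.2) *
        (Real.sqrt (om z.2 * Q z.1 z.2) *
          Real.sqrt (mu1 pos Q z.2 ^ 2 + mu2 pos Q z.2 ^ 2)) := by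
    rw [Fintype.sum_prod_type]
    refine sum_congr rfl fun x _ => sum_congr rfl fun v _ => ?_
    have := Real.mul_self_sqrt (h0 x v)
    linear_combination (-(Real.sqrt (qq pos x v) *
      Real.sqrt (mu1 pos Q v ^ 2 + mu2 pos Q v ^ 2))) * this
  have e2 : ∑ z : ι × ι, (Real.sqrt (om z.2 * Q z.1 z.2) * Real.sqrt (qq pos z.1 z.2)) ^ 2 =
      ∑ v, om v * pp Q v * VV pos Q v := by
    rw [Fintype.sum_prod_type, sum_comm]
    refine sum_congr rfl fun v _ => ?_
    have : pp Q v * VV pos Q v = ∑ y, Q v y * qq pos y v := by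
      unfold VV; have := (hp v).ne'; field_simp
    rw [mul_assoc, this, mul_sum]
    refine sum_congr rfl fun x _ => ?_
    rw [mul_pow, Real.sq_sqrt (h0 x v), Real.sq_sqrt (qq_nonneg x v), hs x v]
    ring
  have e3 : ∑ z : ι × ι, (Real.sqrt (om z.2 * Q z.1 z.2) *
      Real.sqrt (mu1 pos Q z.2 ^ 2 + mu2 pos Q z.2 ^ 2)) ^ 2 =
      ∑ v, om v * pp Q v * (mu1 pos Q v ^ 2 + mu2 pos Q v ^ 2) := by
    rw [Fintype.sum_prod_type, sum_comm]
    refine sum_congr rfl fun v _ => ?_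
    have : pp Q v = ∑ x, Q x v := by
      unfold pp; exact sum_congr rfl fun x _ => hs v x
    rw [this, mul_sum, sum_mul]
    refine sum_congr rfl fun x _ => ?_
    rw [mul_pow, Real.sq_sqrt (h0 x v), Real.sq_sqrt (by positivity)]
  rw [e1]
  rw [e2, e3] at h1
  exact h1

/-- **the drift of the truncated one-body entropy, deterministic half** -/
theorem ent_drift {K : ℕ} {om : ι → ℝ} {lam : ι → ℕ → ℝ} {L T : ℝ}
    (hQ : ∀ x y, 0 ≤ Q x y) (hs : ∀ x y, Q x y = Q y x) (hp : ∀ x, 0 < pp Q x)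
    (ho : ∀ x, 0 ≤ om x) (ho1 : ∀ x, om x ≤ 1)
    (hl : ∀ x, 0 ≤ lam x 0) (hm : ∀ x, ∀ k < K, lam x k ≤ lam x (k + 1))
    (hL : ∀ x, ∀ k < K, lam x (k + 1) ≤ lam x k + L) (hL0 : 0 ≤ L)
    (hT : ∀ x, lam x K ≤ T) :
    (1 / 2) * ∑ k ∈ range (K + 1), ∑ x, ∑ v,
        Q x v * ((lam x k - lam v k) * (uu pos Q K v k - uu pos Q K x k)) -
      9 * L * ∑ v, om v * pp Q v * VV pos Q v -
      2 * T * (Real.sqrt (∑ v, om v * pp Q v * VV pos Q v) *
        Real.sqrt (∑ v, om v * pp Q v * (mu1 pos Q v ^ 2 + mu2 pos Q v ^ 2))) -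
      T * ∑ v, (1 - om v) * pp Q v * VV pos Q v ≤
    ∑ x, ∑ k ∈ range (K + 1), lam x k *
      (∑ v, om v * Q x v * ((∑ y, Q v y * W K k (qq pos x y)) / pp Q v) -
        ∑ y, (om x + om y) * Q x y * W K k (qq pos x y)) := by
  classical
  have hlk : ∀ x, ∀ k ≤ K, 0 ≤ lam x k := by
    intro x k
    induction k with
    | zero => intro _; exact hl x
    | succ k ih =>
      intro hk
      exact (ih (by omega)).trans (hm x k (by omega))
  have hlT : ∀ x, ∀ k ≤ K, lam x k ≤ T := by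
    intro x k hk
    have : ∀ j, k + j ≤ K → lam x k ≤ lam x (k + j) := by
      intro j
      induction j with
      | zero => intro _; exact le_rfl
      | succ j ih => intro hj; exact (ih (by omega)).trans (hm x (k + j) (by omega))
    have h2 := this (K - k) (by omega)
    rw [show k + (K - k) = K by omega] at h2
    exact h2.trans (hT x)
  -- rewrite the right-hand side with `HH`
  have eR : ∀ x, ∑ k ∈ range (K + 1), lam x k *
      (∑ v, om v * Q x v * ((∑ y, Q v y * W K k (qq pos x y)) / pp Q v) -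
        ∑ y, (om x + om y) * Q x y * W K k (qq pos x y)) =
      ∑ v, om v * Q x v * ((∑ y, Q v y * HH K (lam x) (qq pos x y)) / pp Q v) -
        ∑ y, (om x + om y) * Q x y * HH K (lam x) (qq pos x y) := by
    intro x
    simp only [mul_sub]
    rw [sum_sub_distrib]
    congr 1
    · simp only [mul_sum, sum_div]
      rw [sum_comm]
      refine sum_congr rfl fun v _ => ?_
      rw [sum_comm]
      refine sum_congr rfl fun y _ => ?_
      unfold HH
      rw [mul_sum, sum_div, mul_sum]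
      refine sum_congr rfl fun k _ => ?_
      ring
    · simp only [mul_sum]
      rw [sum_comm]
      refine sum_congr rfl fun y _ => ?_
      unfold HH
      rw [mul_sum]
      refine sum_congr rfl fun k _ => ?_
      ring
  simp only [eR]
  -- the parallelogram
  have h1 : ∀ x, ∑ v, om v * Q x v * (HH K (lam x) (qq pos x v) +
      ∑ k ∈ range (K + 1), lam x k * uu pos Q K v k -
      2 * lam x K * (Real.sqrt (qq pos x v) *
        Real.sqrt (mu1 pos Q v ^ 2 + mu2 pos Q v ^ 2)) - 9 * L * VV pos Q v) ≤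
      ∑ v, om v * Q x v * ((∑ y, Q v y * HH K (lam x) (qq pos x y)) / pp Q v) := by
    intro x
    refine sum_le_sum fun v _ => ?_
    exact mul_le_mul_of_nonneg_left (row_par hQ hp (hl x) (hm x) (hL x) hL0 x v)
      (mul_nonneg (ho v) (hQ x v))
  have h1' : ∀ x, ∑ v, om v * Q x v * HH K (lam x) (qq pos x v) +
      ∑ v, om v * Q x v * (∑ k ∈ range (K + 1), lam x k * uu pos Q K v k) -
      2 * T * ∑ v, om v * Q x v * (Real.sqrt (qq pos x v) *
        Real.sqrt (mu1 pos Q v ^ 2 + mu2 pos Q v ^ 2)) -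
      9 * L * ∑ v, om v * Q x v * VV pos Q v ≤
      ∑ v, om v * Q x v * ((∑ y, Q v y * HH K (lam x) (qq pos x y)) / pp Q v) := by
    intro x
    refine le_trans ?_ (h1 x)
    rw [mul_sum, mul_sum, ← sum_add_distrib, ← sum_sub_distrib, ← sum_sub_distrib]
    refine sum_le_sum fun v _ => ?_
    have h2 : 0 ≤ om v * Q x v := mul_nonneg (ho v) (hQ x v)
    have h3 : 0 ≤ Real.sqrt (qq pos x v) * Real.sqrt (mu1 pos Q v ^ 2 + mu2 pos Q v ^ 2) := by
      positivity
    have h4 := mul_le_mul_of_nonneg_right (hT x) (mul_nonneg h2 h3)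
    nlinarith [h4]
  -- the two identities
  have e2 : ∀ x, om x * pp Q x * ∑ k ∈ range (K + 1), lam x k * uu pos Q K x k =
      ∑ y, om x * Q x y * HH K (lam x) (qq pos x y) := by
    intro x
    rw [sum_uu (pos := pos) x (hp x)]
    have : om x * pp Q x * ((∑ y, Q x y * HH K (lam x) (qq pos y x)) / pp Q x) =
        om x * ∑ y, Q x y * HH K (lam x) (qq pos y x) := by
      have := (hp x).ne'; field_simp
    rw [this, mul_sum]
    refine sum_congr rfl fun y _ => ?_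
    rw [qq_comm y x]
    ring
  have e3 : ∀ x, ∑ y, (om x + om y) * Q x y * HH K (lam x) (qq pos x y) =
      om x * pp Q x * (∑ k ∈ range (K + 1), lam x k * uu pos Q K x k) +
        ∑ v, om v * Q x v * HH K (lam x) (qq pos x v) := by
    intro x
    rw [e2 x, ← sum_add_distrib]
    refine sum_congr rfl fun y _ => ?_
    ring
  have h4 : ∑ x, (∑ v, om v * Q x v * (∑ k ∈ range (K + 1), lam x k * uu pos Q K v k) -
      2 * T * ∑ v, om v * Q x v * (Real.sqrt (qq pos x v) *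
        Real.sqrt (mu1 pos Q v ^ 2 + mu2 pos Q v ^ 2)) -
      9 * L * ∑ v, om v * Q x v * VV pos Q v -
      om x * pp Q x * (∑ k ∈ range (K + 1), lam x k * uu pos Q K x k)) ≤
      ∑ x, (∑ v, om v * Q x v * ((∑ y, Q v y * HH K (lam x) (qq pos x y)) / pp Q v) -
        ∑ y, (om x + om y) * Q x y * HH K (lam x) (qq pos x y)) := by
    refine sum_le_sum fun x _ => ?_
    rw [e3 x]
    linarith [h1' x]
  refine le_trans ?_ h4
  -- split the sums
  rw [sum_sub_distrib, sum_sub_distrib, sum_sub_distrib, ← mul_sum, ← mul_sum]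
  have h5 := cs_mu (pos := pos) hQ hs hp ho
  have e5 : ∑ x, ∑ v, om v * Q x v * VV pos Q v = ∑ v, om v * pp Q v * VV pos Q v := by
    rw [sum_comm]
    refine sum_congr rfl fun v _ => ?_
    have : pp Q v = ∑ x, Q x v := by
      unfold pp; exact sum_congr rfl fun x _ => hs v x
    rw [this, mul_sum, sum_mul]
  rw [e5]
  have hT0 : (∀ x : ι, False) ∨ 0 ≤ T := by
    by_cases hι : Nonempty ι
    · obtain ⟨x⟩ := hι
      exact Or.inr ((hlk x K le_rfl).trans (hT x))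
    · exact Or.inl fun x => hι ⟨x⟩
  have h6 : 2 * T * ∑ x, ∑ v, om v * Q x v * (Real.sqrt (qq pos x v) *
      Real.sqrt (mu1 pos Q v ^ 2 + mu2 pos Q v ^ 2)) ≤
      2 * T * (Real.sqrt (∑ v, om v * pp Q v * VV pos Q v) *
        Real.sqrt (∑ v, om v * pp Q v * (mu1 pos Q v ^ 2 + mu2 pos Q v ^ 2))) := by
    rcases hT0 with h0 | h0
    · haveI : IsEmpty ι := ⟨h0⟩
      simp
    · exact mul_le_mul_of_nonneg_left h5 (by linarith)
  -- symmetrisation
  have e6 : ∑ x, ∑ v, om v * Q x v * (∑ k ∈ range (K + 1), lam x k * uu pos Q K v k) -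
      ∑ x, om x * pp Q x * (∑ k ∈ range (K + 1), lam x k * uu pos Q K x k) =
      ∑ k ∈ range (K + 1), ∑ x, ∑ v, Q x v * (lam x k *
        (om v * uu pos Q K v k - om x * uu pos Q K x k)) := by
    rw [sum_comm (s := range (K + 1))]
    rw [← sum_sub_distrib]
    refine sum_congr rfl fun x _ => ?_
    rw [sum_comm (s := range (K + 1))]
    have : om x * pp Q x * (∑ k ∈ range (K + 1), lam x k * uu pos Q K x k) =
        ∑ v, Q x v * (om x * ∑ k ∈ range (K + 1), lam x k * uu pos Q K x k) := by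
      rw [← sum_mul]
      unfold pp
      ring
    rw [this, ← sum_sub_distrib]
    refine sum_congr rfl fun v _ => ?_
    rw [mul_sum, mul_sum, mul_sum, ← sum_sub_distrib]
    refine sum_congr rfl fun k _ => ?_
    ring
  have e7 : ∀ k, ∑ x, ∑ v, Q x v * (lam x k *
      (om v * uu pos Q K v k - om x * uu pos Q K x k)) =
      (1 / 2) * ∑ x, ∑ v, Q x v * ((lam x k - lam v k) *
        (om v * uu pos Q K v k - om x * uu pos Q K x k)) := by
    intro k
    have hsw : ∑ x, ∑ v, Q x v * (lam v k *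
        (om v * uu pos Q K v k - om x * uu pos Q K x k)) =
        -∑ x, ∑ v, Q x v * (lam x k * (om v * uu pos Q K v k - om x * uu pos Q K x k)) := by
      rw [sum_comm, ← sum_neg_distrib]
      refine sum_congr rfl fun v _ => ?_
      rw [← sum_neg_distrib]
      refine sum_congr rfl fun x _ => ?_
      rw [hs x v]
      ring
    have e8 : ∑ x, ∑ v, Q x v * ((lam x k - lam v k) *
        (om v * uu pos Q K v k - om x * uu pos Q K x k)) =
        ∑ x, ∑ v, Q x v * (lam x k * (om v * uu pos Q K v k - om x * uu pos Q K x k)) -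
        ∑ x, ∑ v, Q x v * (lam v k * (om v * uu pos Q K v k - om x * uu pos Q K x k)) := by
      rw [← sum_sub_distrib]
      refine sum_congr rfl fun x _ => ?_
      rw [← sum_sub_distrib]
      refine sum_congr rfl fun v _ => ?_
      ring
    rw [e8, hsw]
    ring
  have h7 : (1 / 2) * ∑ k ∈ range (K + 1), ∑ x, ∑ v,
        Q x v * ((lam x k - lam v k) * (uu pos Q K v k - uu pos Q K x k)) -
      T * ∑ v, (1 - om v) * pp Q v * VV pos Q v ≤
      ∑ k ∈ range (K + 1), ∑ x, ∑ v, Q x v * (lam x k *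
        (om v * uu pos Q K v k - om x * uu pos Q K x k)) := by
    have h8 : ∀ k ∈ range (K + 1), (1 / 2) * (∑ x, ∑ v,
        Q x v * ((lam x k - lam v k) * (uu pos Q K v k - uu pos Q K x k))) -
        T * ∑ v, (1 - om v) * pp Q v * uu pos Q K v k ≤
        ∑ x, ∑ v, Q x v * (lam x k *
          (om v * uu pos Q K v k - om x * uu pos Q K x k)) := by
      intro k hk
      have hk' : k ≤ K := by
        have := mem_range.1 hk
        omega
      rw [e7 k]
      have e9 : ∑ v, (1 - om v) * pp Q v * uu pos Q K v k = (1 / 2) * ∑ x, ∑ v, Q x v *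
          ((1 - om v) * uu pos Q K v k + (1 - om x) * uu pos Q K x k) := by
        have e10 : ∑ x, ∑ v, Q x v * ((1 - om v) * uu pos Q K v k) =
            ∑ v, (1 - om v) * pp Q v * uu pos Q K v k := by
          rw [sum_comm]
          refine sum_congr rfl fun v _ => ?_
          rw [← sum_mul]
          have : pp Q v = ∑ x, Q x v := by
            unfold pp; exact sum_congr rfl fun x _ => hs v x
          rw [← this]
          ring
        have e11 : ∑ x, ∑ v, Q x v * ((1 - om x) * uu pos Q K x k) =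
            ∑ v, (1 - om v) * pp Q v * uu pos Q K v k := by
          refine sum_congr rfl fun x _ => ?_
          rw [← sum_mul]
          unfold pp
          ring
        have e12 : ∑ x, ∑ v, Q x v *
            ((1 - om v) * uu pos Q K v k + (1 - om x) * uu pos Q K x k) =
            ∑ x, ∑ v, Q x v * ((1 - om v) * uu pos Q K v k) +
            ∑ x, ∑ v, Q x v * ((1 - om x) * uu pos Q K x k) := by
          rw [← sum_add_distrib]
          refine sum_congr rfl fun x _ => ?_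
          rw [← sum_add_distrib]
          refine sum_congr rfl fun v _ => ?_
          ring
        rw [e12, e10, e11]
        ring
      rw [e9, mul_left_comm, ← mul_sub]
      refine mul_le_mul_of_nonneg_left ?_ (by norm_num)
      rw [mul_sum, ← sum_sub_distrib]
      refine sum_le_sum fun x _ => ?_
      rw [mul_sum, ← sum_sub_distrib]
      refine sum_le_sum fun v _ => ?_
      have hu1 := uu_nonneg (pos := pos) (K := K) hQ hp x k
      have hu2 := uu_nonneg (pos := pos) (K := K) hQ hp v k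
      have h9 : -T ≤ lam x k - lam v k := by
        linarith [hlk x k hk', hlT v k hk']
      have h10 : lam x k - lam v k ≤ T := by
        linarith [hlk v k hk', hlT x k hk']
      have h11 : 0 ≤ (1 - om v) * uu pos Q K v k :=
        mul_nonneg (by linarith [ho1 v]) hu2
      have h12 : 0 ≤ (1 - om x) * uu pos Q K x k :=
        mul_nonneg (by linarith [ho1 x]) hu1
      have h13 : (lam x k - lam v k) * (uu pos Q K v k - uu pos Q K x k) -
          T * ((1 - om v) * uu pos Q K v k + (1 - om x) * uu pos Q K x k) ≤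
          (lam x k - lam v k) * (om v * uu pos Q K v k - om x * uu pos Q K x k) := by
        have h14 := mul_le_mul_of_nonneg_right h10 h11
        have h15 := mul_le_mul_of_nonneg_right h9 h12
        nlinarith
      have h16 := mul_le_mul_of_nonneg_left h13 (hQ x v)
      calc Q x v * ((lam x k - lam v k) * (uu pos Q K v k - uu pos Q K x k)) -
          T * (Q x v * ((1 - om v) * uu pos Q K v k + (1 - om x) * uu pos Q K x k))
          = Q x v * ((lam x k - lam v k) * (uu pos Q K v k - uu pos Q K x k) -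
          T * ((1 - om v) * uu pos Q K v k + (1 - om x) * uu pos Q K x k)) := by ring
        _ ≤ _ := h16
    have h17 := sum_le_sum h8
    refine le_trans ?_ h17
    rw [sum_sub_distrib, ← mul_sum, ← mul_sum]
    have h18 : T * ∑ k ∈ range (K + 1), ∑ v, (1 - om v) * pp Q v * uu pos Q K v k ≤
        T * ∑ v, (1 - om v) * pp Q v * VV pos Q v := by
      rcases hT0 with h0 | h0
      · haveI : IsEmpty ι := ⟨h0⟩
        simp
      · refine mul_le_mul_of_nonneg_left ?_ h0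
        rw [sum_comm]
        refine sum_le_sum fun v _ => ?_
        rw [← mul_sum]
        exact mul_le_mul_of_nonneg_left (sum_uu_le hQ hp v)
          (mul_nonneg (by linarith [ho1 v]) (hp v).le)
    linarith
  linarith [h6, h7, e6]

end Drift

end P365T2.H844
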