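import Vale.Agent.P365.T2.One218

/-!
# P365-T2, exact noise world: lowering all absorptions (finite sweeps).

* `lower_all_of` : general principle: a function which is a one-site supermartingale decreases in
  mean when all absorptions are lowered (Cauchy noise raised by the same amounts);
* `exp_lower_all` : `E exp ((4 En f + En f²)/576)` decreases, for `|f| ≤ 1`;
* `En_sq_lower_all` : `E (En² + 48 En + 8 En_{f²})` decreases.
-/

set_option linter.all false

namespace P365T2

open MeasureTheory ProbabilityTheory Complex P365L P365L.Poi P365F P365O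
open scoped ENNReal NNReal Real ComplexConjugate

variable {ι : Type*} [Fintype ι] [DecidableEq ι] {A : Matrix ι ι ℝ} {W : ι → ℂ}

/-- `e_x m_x ≤ 1` -/
theorem em_le_one (hA : A.IsSymm) (hW : ∀ x, (W x).im < 0) (x : ι) :
    (-(W x).im) * mm A W x ≤ 1 := by
  have hm := mm_pos hA hW x
  have h1 := e_mul_KK_le hA hW x x
  have h2 : mm A W x ^ 2 ≤ KK A W x x := by
    rw [mm, KK, ← sq_abs (Gr A W x x).im]
    exact pow_le_pow_left₀ (abs_nonneg _) (Complex.abs_im_le_norm _) 2
  have he : 0 ≤ -(W x).im := by linarith [hW x]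
  have h3 := mul_le_mul_of_nonneg_left h2 he
  by_contra hc
  push Not at hc
  have h4 := mul_lt_mul_of_pos_right hc hm
  nlinarith only [h1, h3, h4]

theorem En_nonneg (hW : ∀ x, (W x).im < 0) (f : ι → ℝ) : 0 ≤ En A W f :=
  Finset.sum_nonneg fun x _ => Finset.sum_nonneg fun y _ =>
    mul_nonneg (mul_nonneg (mul_nonneg (by linarith [hW x]) (by linarith [hW y]))
      (KK_nonneg _ _)) (sq_nonneg _)

theorem En_le_card (hA : A.IsSymm) (hW : ∀ x, (W x).im < 0) {f : ι → ℝ} {L : ℝ}
    (hL : ∀ x y, |f x - f y| ≤ L) : En A W f ≤ L ^ 2 * Fintype.card ι := by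
  have h1 : En A W f ≤ ∑ x, ∑ y, (-(W x).im) * (-(W y).im) * KK A W x y * L ^ 2 := by
    refine Finset.sum_le_sum fun x _ => Finset.sum_le_sum fun y _ => ?_
    have h0 : 0 ≤ (-(W x).im) * (-(W y).im) * KK A W x y :=
      mul_nonneg (mul_nonneg (by linarith [hW x]) (by linarith [hW y])) (KK_nonneg _ _)
    refine mul_le_mul_of_nonneg_left ?_ h0
    rw [← sq_abs]
    exact pow_le_pow_left₀ (abs_nonneg _) (hL x y) 2
  refine h1.trans ?_
  have h2 : ∀ x, ∑ y, (-(W x).im) * (-(W y).im) * KK A W x y * L ^ 2 =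
      ((-(W x).im) * mm A W x) * L ^ 2 := by
    intro x
    rw [mm_eq hA hW, Finset.mul_sum, Finset.sum_mul]
    exact Finset.sum_congr rfl fun y _ => by ring
  rw [Finset.sum_congr rfl fun x _ => h2 x]
  have h3 : ∑ x, ((-(W x).im) * mm A W x) * L ^ 2 ≤ ∑ _x : ι, L ^ 2 :=
    Finset.sum_le_sum fun x _ => by
      have := mul_le_mul_of_nonneg_right (em_le_one hA hW x) (sq_nonneg L)
      linarith
  refine h3.trans ?_
  rw [Finset.sum_const, nsmul_eq_mul, Finset.card_univ, mul_comm]

theorem measurable_En_Wc (U g e : ι → ℝ) (f : ι → ℝ) :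
    Measurable fun c => En A (Wc U g e c) f := by
  unfold En KK
  simp only [Wc_im]
  refine Finset.measurable_sum _ fun x _ => Finset.measurable_sum _ fun y _ => ?_
  exact (((measurable_Gc (A := A) (U := U) (g := g) (e := e) x y).norm.pow_const 2).const_mul
    _).mul_const _

/-- lowering the absorption of one site, mean inequality -/
theorem lower_one_of {F : (ι → ℂ) → ℝ}
    (hint : ∀ U g e : ι → ℝ, (∀ x, 0 < e x) → Integrable (fun c => F (Wc U g e c)) (mu ι))
    (hF : ∀ W : ι → ℂ, (∀ x, (W x).im < 0) → ∀ (z : ι) (h : ℝ), 0 < h → h < -(W z).im →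
      ∫ t, F (kickW z h W t) ∂nu ≤ F W)
    (U g e : ι → ℝ) (he : ∀ x, 0 < e x) (z : ι) {h : ℝ} (hg : 0 ≤ g z) (hh : 0 < h)
    (hz : h < e z) :
    ∫ c, F (Wc U (Function.update g z (g z + h)) (Function.update e z (e z - h)) c) ∂(mu ι) ≤
      ∫ c, F (Wc U g e c) ∂(mu ι) := by
  have he' : ∀ x, 0 < Function.update e z (e z - h) x := by
    intro x
    by_cases hx : x = z
    · subst hx
      rw [Function.update_self]
      linarith
    · rw [Function.update_of_ne hx]
      exact he x
  have hF1 := hint U (Function.update g z (g z + h)) _ he'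
  rw [integral_lower U g e z hg hh hF1]
  have hi := integrable_lower_iff U g e z hg hh hF1
  refine integral_mono hi.integral_prod_left (hint U g e he) fun c => ?_
  refine hF _ (fun x => ?_) z h hh ?_
  · rw [Wc_im]
    linarith [he x]
  · rw [Wc_im, neg_neg]
    exact hz

/-- **lowering all absorptions** -/
theorem lower_all_of {F : (ι → ℂ) → ℝ}
    (hint : ∀ U g e : ι → ℝ, (∀ x, 0 < e x) → Integrable (fun c => F (Wc U g e c)) (mu ι))
    (hF : ∀ W : ι → ℂ, (∀ x, (W x).im < 0) → ∀ (z : ι) (h : ℝ), 0 < h → h < -(W z).im →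
      ∫ t, F (kickW z h W t) ∂nu ≤ F W)
    (U g e d : ι → ℝ) (hg : ∀ x, 0 ≤ g x) (hd : ∀ x, 0 ≤ d x) (hde : ∀ x, d x < e x) :
    ∫ c, F (Wc U (fun x => g x + d x) (fun x => e x - d x) c) ∂(mu ι) ≤
      ∫ c, F (Wc U g e c) ∂(mu ι) := by
  have key : ∀ s : Finset ι,
      ∫ c, F (Wc U (fun x => g x + if x ∈ s then d x else 0)
        (fun x => e x - if x ∈ s then d x else 0) c) ∂(mu ι) ≤ ∫ c, F (Wc U g e c) ∂(mu ι) := by
    intro s
    induction s using Finset.induction_on with
    | empty =>
      simp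
    | insert z s hz ih =>
      refine le_trans ?_ ih
      set g' : ι → ℝ := fun x => g x + if x ∈ s then d x else 0 with hg'
      set e' : ι → ℝ := fun x => e x - if x ∈ s then d x else 0 with he'
      have hgz : g' z = g z := by rw [hg']; simp [hz]
      have hez : e' z = e z := by rw [he']; simp [hz]
      have h1 : (fun x => g x + if x ∈ insert z s then d x else 0) =
          Function.update g' z (g' z + d z) := by
        funext x
        by_cases hx : x = z
        · subst hx
          rw [Function.update_self, hgz, if_pos (Finset.mem_insert_self _ _)]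
        · rw [Function.update_of_ne hx, hg']
          simp [Finset.mem_insert, hx]
      have h2 : (fun x => e x - if x ∈ insert z s then d x else 0) =
          Function.update e' z (e' z - d z) := by
        funext x
        by_cases hx : x = z
        · subst hx
          rw [Function.update_self, hez, if_pos (Finset.mem_insert_self _ _)]
        · rw [Function.update_of_ne hx, he']
          simp [Finset.mem_insert, hx]
      rw [h1, h2]
      rcases (hd z).eq_or_lt with h0 | h0
      · rw [← h0, add_zero, sub_zero, Function.update_eq_self, Function.update_eq_self]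
      · have he0 : ∀ x, 0 < e' x := by
          intro x
          rw [he']
          by_cases hx : x ∈ s
          · simp only [hx, if_true]
            linarith [hde x]
          · simp only [hx, if_false]
            have := hd x
            linarith [hde x]
        refine lower_one_of hint hF U g' e' he0 z ?_ h0 ?_
        · rw [hgz]
          exact hg z
        · rw [hez]
          exact hde z
  have h := key Finset.univ
  simpa using h

/-! ### the exponential bound -/

theorem abs_sub_le_two {f : ι → ℝ} (hf : ∀ x, |f x| ≤ 1) (x y : ι) : |f x - f y| ≤ 2 :=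
  (abs_sub _ _).trans (by linarith [hf x, hf y])

theorem abs_sq_le_one {f : ι → ℝ} (hf : ∀ x, |f x| ≤ 1) (x : ι) :
    |(fun x => f x ^ 2) x| ≤ 1 := by
  show |f x ^ 2| ≤ 1
  rw [abs_of_nonneg (sq_nonneg _), ← sq_abs]
  exact pow_le_one₀ (abs_nonneg _) (hf x)

theorem PhE_le_card (hA : A.IsSymm) (hW : ∀ x, (W x).im < 0) {f : ι → ℝ} (hf : ∀ x, |f x| ≤ 1) :
    PhE A W f ≤ 20 * Fintype.card ι := by
  have h1 := En_le_card hA hW (abs_sub_le_two hf)
  have h2 := En_le_card hA hW (abs_sub_le_two (abs_sq_le_one hf))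
  rw [PhE]
  linarith

theorem integrable_exp_PhE (hA : A.IsSymm) {f : ι → ℝ} (hf : ∀ x, |f x| ≤ 1) (U g e : ι → ℝ)
    (he : ∀ x, 0 < e x) :
    Integrable (fun c => Real.exp (PhE A (Wc U g e c) f / 576)) (mu ι) := by
  have hm : Measurable (fun c => Real.exp (PhE A (Wc U g e c) f / 576)) := by
    unfold PhE
    exact Real.measurable_exp.comp ((((measurable_En_Wc U g e f).const_mul 4).add
      (measurable_En_Wc U g e (fun x => f x ^ 2))).div_const _)
  refine Integrable.of_bound hm.aestronglyMeasurable (Real.exp (20 * Fintype.card ι / 576))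
    (Filter.Eventually.of_forall fun c => ?_)
  rw [Real.norm_of_nonneg (Real.exp_pos _).le]
  refine Real.exp_le_exp.2 (div_le_div_of_nonneg_right ?_ (by norm_num))
  exact PhE_le_card hA (fun x => by rw [Wc_im]; linarith [he x]) hf

/-- **(EXP)** for every graph, every profile, every `|f| ≤ 1` -/
theorem exp_lower_all (hA : A.IsSymm) {f : ι → ℝ} (hf : ∀ x, |f x| ≤ 1) (U g e d : ι → ℝ)
    (hg : ∀ x, 0 ≤ g x) (hd : ∀ x, 0 ≤ d x) (hde : ∀ x, d x < e x) :
    ∫ c, Real.exp (PhE A (Wc U (fun x => g x + d x) (fun x => e x - d x) c) f / 576) ∂(mu ι) ≤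
      ∫ c, Real.exp (PhE A (Wc U g e c) f / 576) ∂(mu ι) :=
  lower_all_of (F := fun W => Real.exp (PhE A W f / 576)) (integrable_exp_PhE hA hf)
    (fun W hW z h hh hz => (exp_kick_le hA hW hh hz hf).2) U g e d hg hd hde

/-! ### the second moment -/

/-- `En² + 48 En + 8 En_{f²}` is a supermartingale, with the full drift `4 κ En B²` -/
theorem integral_EnSq_kick_le (hA : A.IsSymm) (hW : ∀ x, (W x).im < 0) {z : ι} {h : ℝ}
    (hh : 0 < h) (hz : h < -(W z).im) {f : ι → ℝ} (hf : ∀ x, |f x| ≤ 1) :
    ∫ t, (En A (kickW z h W t) f ^ 2 + 48 * En A (kickW z h W t) f +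
        8 * En A (kickW z h W t) (fun x => f x ^ 2)) ∂nu ≤
      En A W f ^ 2 + 48 * En A W f + 8 * En A W (fun x => f x ^ 2) -
        4 * kap A W z h * En A W f * Bq A W f z ^ 2 := by
  have i1 := integrable_En_kick hA hW hh hz f
  have i2 := integrable_En_kick hA hW hh hz (fun x => f x ^ 2)
  have i3 : Integrable (fun t => En A (kickW z h W t) f ^ 2) nu := by
    have h1 := (qv_gen hA hW hh hz (f := f) (L := 2) fun y => abs_sub_le_two hf y z).1
    have h2 := h1.add ((i1.const_mul (2 * En A W f)).sub (integrable_const (En A W f ^ 2)))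
    refine h2.congr (Filter.Eventually.of_forall fun t => ?_)
    simp only [Pi.add_apply, Pi.sub_apply]
    ring
  have i4 : Integrable (fun t => En A (kickW z h W t) f ^ 2 + 48 * En A (kickW z h W t) f) nu :=
    i3.add (i1.const_mul _)
  rw [integral_add i4 (i2.const_mul _), integral_add i3 (i1.const_mul _), integral_const_mul,
    integral_const_mul, integral_En_kick hA hW hh hz f, integral_En_kick hA hW hh hz]
  have h1 := integral_En_sq_kick_le hA hW hh hz hf
  have h3 : (∑ y, (-(W y).im) * KK A W z y * (f y - f z)) = Bq A W f z := rfl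
  have h4 : (∑ y, (-(W y).im) * KK A W z y * (f y ^ 2 - f z ^ 2)) =
      Bq A W (fun x => f x ^ 2) z := rfl
  rw [h3]
  simp only [h4]
  nlinarith only [h1]

theorem integrable_EnSq (hA : A.IsSymm) {f : ι → ℝ} (hf : ∀ x, |f x| ≤ 1) (U g e : ι → ℝ)
    (he : ∀ x, 0 < e x) :
    Integrable (fun c => En A (Wc U g e c) f ^ 2 + 48 * En A (Wc U g e c) f +
        8 * En A (Wc U g e c) (fun x => f x ^ 2)) (mu ι) := by
  have hW : ∀ c x, (Wc U g e c x).im < 0 := fun c x => by rw [Wc_im]; linarith [he x]
  have hb : ∀ {k : ι → ℝ}, (∀ x, |k x| ≤ 1) → ∀ c, ‖En A (Wc U g e c) k‖ ≤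
      2 ^ 2 * Fintype.card ι := by
    intro k hk c
    rw [Real.norm_of_nonneg (En_nonneg (hW c) k)]
    exact En_le_card hA (hW c) (abs_sub_le_two hk)
  have i1 : Integrable (fun c => En A (Wc U g e c) f) (mu ι) :=
    Integrable.of_bound (measurable_En_Wc U g e f).aestronglyMeasurable _
      (Filter.Eventually.of_forall (hb hf))
  have i2 : Integrable (fun c => En A (Wc U g e c) (fun x => f x ^ 2)) (mu ι) :=
    Integrable.of_bound (measurable_En_Wc U g e _).aestronglyMeasurable _
      (Filter.Eventually.of_forall (hb (abs_sq_le_one hf)))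
  have i3 : Integrable (fun c => En A (Wc U g e c) f ^ 2) (mu ι) := by
    refine Integrable.of_bound ((measurable_En_Wc U g e f).pow_const 2).aestronglyMeasurable
      ((2 ^ 2 * Fintype.card ι) ^ 2) (Filter.Eventually.of_forall fun c => ?_)
    rw [norm_pow]
    exact pow_le_pow_left₀ (norm_nonneg _) (hb hf c) 2
  exact (i3.add (i1.const_mul _)).add (i2.const_mul _)

/-- **(F2)**: `E (En² + 48 En + 8 En_{f²})` decreases when the absorptions are lowered -/
theorem En_sq_lower_all (hA : A.IsSymm) {f : ι → ℝ} (hf : ∀ x, |f x| ≤ 1) (U g e d : ι → ℝ)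
    (hg : ∀ x, 0 ≤ g x) (hd : ∀ x, 0 ≤ d x) (hde : ∀ x, d x < e x) :
    ∫ c, (En A (Wc U (fun x => g x + d x) (fun x => e x - d x) c) f ^ 2 +
        48 * En A (Wc U (fun x => g x + d x) (fun x => e x - d x) c) f +
        8 * En A (Wc U (fun x => g x + d x) (fun x => e x - d x) c) (fun x => f x ^ 2)) ∂(mu ι) ≤
      ∫ c, (En A (Wc U g e c) f ^ 2 + 48 * En A (Wc U g e c) f +
        8 * En A (Wc U g e c) (fun x => f x ^ 2)) ∂(mu ι) :=
  lower_all_of (F := fun W => En A W f ^ 2 + 48 * En A W f + 8 * En A W (fun x => f x ^ 2))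
    (integrable_EnSq hA hf) (fun W hW z h hh hz => (integral_EnSq_kick_le hA hW hh hz hf).trans (by
      have h1 := mul_nonneg (mul_nonneg (mul_nonneg (show (0 : ℝ) ≤ 4 by norm_num)
        (kap_pos hA hW hh hz).le) (En_nonneg (A := A) hW f)) (sq_nonneg (Bq A W f z))
      linarith)) U g e d hg hd hde

end P365T2
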