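import Vale.Agent.P365.T2.GenDef963

/-!
# P365 T2: the master identity

`d/dτ Av F = Av ∑_x om_x (LL_x F) + ∑ om_x ErrF_x`, for every `C²` functional `F` on the lower half
plane (label dependent), along the profile `eT u w τ = u + exp (-τ) w`.
-/

set_option autoImplicit false
set_option linter.all false

namespace P365L.T2.Path

open P365L P365T1 Vale.Agent.P365.J376 P365H878 Matrix Complex MeasureTheory Filter Topology Set

/-! ### one variable -/

section one

variable {μ : Measure ℝ} {ρ ρ' : ℝ → ℝ}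

theorem SmLaw.continuous (h : SmLaw μ ρ ρ') : Continuous ρ :=
  continuous_iff_continuousAt.2 fun t => (h.hd t).continuousAt

theorem SmLaw.supp_deriv (h : SmLaw μ ρ ρ') :
    ∃ R : ℝ, (∀ t, R < |t| → ρ t = 0) ∧ ∀ t, R < |t| → ρ' t = 0 := by
  obtain ⟨R, hR⟩ := h.supp
  refine ⟨R, fun t ht => hR t ht.le, fun t ht => ?_⟩
  have h1 : ρ =ᶠ[𝓝 t] fun _ => 0 := by
    have h2 : {s : ℝ | R < |s|} ∈ 𝓝 t := (isOpen_lt continuous_const continuous_abs).mem_nhds ht
    filter_upwards [h2] with s hs
    exact hR s (le_of_lt hs)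
  exact (h.hd t).unique ((hasDerivAt_const t (0 : ℝ)).congr_of_eventuallyEq h1)

theorem SmLaw.hcs (h : SmLaw μ ρ ρ') : HasCompactSupport ρ := by
  obtain ⟨R, hR, _⟩ := h.supp_deriv
  refine HasCompactSupport.intro (isCompact_Icc (a := -R) (b := R)) fun t ht => hR t ?_
  by_contra hc
  push Not at hc
  exact ht (abs_le.1 hc)

theorem SmLaw.hcs' (h : SmLaw μ ρ ρ') : HasCompactSupport ρ' := by
  obtain ⟨R, _, hR⟩ := h.supp_deriv
  refine HasCompactSupport.intro (isCompact_Icc (a := -R) (b := R)) fun t ht => hR t ?_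
  by_contra hc
  push Not at hc
  exact ht (abs_le.1 hc)

theorem SmLaw.integrable_mul (h : SmLaw μ ρ ρ') {f : ℝ → ℝ} (hf : Continuous f) :
    Integrable (fun t => ρ t * f t) := by
  refine (h.continuous.mul hf).integrable_of_hasCompactSupport ?_
  exact h.hcs.mul_right

theorem SmLaw.integrable_mul' (h : SmLaw μ ρ ρ') {f : ℝ → ℝ} (hf : Continuous f) :
    Integrable (fun t => ρ' t * f t) := by
  refine (h.cont.mul hf).integrable_of_hasCompactSupport ?_
  exact h.hcs'.mul_right

theorem SmLaw.integral_eq (h : SmLaw μ ρ ρ') (f : ℝ → ℝ) :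
    ∫ t, f t ∂μ = ∫ t, ρ t * f t := by
  rw [h.eq, integral_withDensity_eq_integral_toReal_smul
    (h.continuous.measurable.ennreal_ofReal) (Eventually.of_forall fun t => ENNReal.ofReal_lt_top)]
  refine integral_congr_ae (Eventually.of_forall fun t => ?_)
  simp only [ENNReal.toReal_ofReal (h.nonneg t), smul_eq_mul]

theorem SmLaw.parts (h : SmLaw μ ρ ρ') {G G' : ℝ → ℝ} (hG : ∀ t, HasDerivAt G (G' t) t)
    (hG' : Continuous G') : ∫ t, ρ t * G' t = -∫ t, ρ' t * G t := by
  have hc : Continuous G := continuous_iff_continuousAt.2 fun t => (hG t).continuousAt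
  exact integral_mul_deriv_eq_deriv_mul_of_integrable (fun t _ => h.hd t) (fun t _ => hG t)
    (h.integrable_mul hG')
    (h.integrable_mul' hc) (h.integrable_mul hc)

/-- `∫ ρ' = 0` -/
theorem SmLaw.integral_deriv (h : SmLaw μ ρ ρ') : ∫ t, ρ' t = 0 := by
  have h1 := h.parts (G := fun _ => 1) (G' := fun _ => 0) (fun t => hasDerivAt_const t 1)
    continuous_const
  simp only [mul_zero, integral_zero, mul_one] at h1
  linarith

end one

/-! ### one site -/

section site

variable {ι : Type*} [Fintype ι] [DecidableEq ι] {A : Matrix ι ι ℝ} {F : (ι → ℂ) → ℝ} {E : ℝ}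
  {e : ι → ℝ} {ρ ρ' : ℝ → ℝ}

theorem continuous_upd {G : (ι → ℂ) → ℝ} (hG : ContinuousOn G (LH ι)) (he : ∀ x, 0 < e x)
    (v : ι → ℝ) (x : ι) : Continuous fun t : ℝ => G (WV E e (Function.update v x t)) :=
  (continuous_comp hG he).comp (continuous_const.update x continuous_id)

theorem WV_im_self (E : ℝ) (e v : ι → ℝ) (x : ι) : (WV E e v x).im = -(e x) := by
  simp [WV]

/-- **one site**: `∫ (-e ∂_e F) ρ = ∫ (LL F) ρ + ∫ ρ' flux` -/
theorem one_site (hA : A.IsSymm) (hF : ContDiffOn ℝ 2 F (LH ι)) (he : ∀ x, 0 < e x)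
    {μ : Measure ℝ} (h : SmLaw μ ρ ρ') (v : ι → ℝ) (x : ι) :
    ∫ t, -(e x) * DE F x (WV E e (Function.update v x t)) ∂μ =
      ∫ t, LL A F x (WV E e (Function.update v x t)) ∂μ +
        ∫ t : ℝ, ρ' t * HV A F x (WV E e (Function.update v x t)) := by
  have hF1 : ContDiffOn ℝ 1 F (LH ι) := hF.of_le one_le_two
  have hH : ContDiffOn ℝ 1 (HV A F x) (LH ι) := contDiffOn_HV hA hF x
  have hcE := continuous_upd (E := E) (continuousOn_dI hF1 x) he v x
  have hcH := continuous_upd (E := E) (continuousOn_dR hH x) he v x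
  have hp := h.parts (fun t => hasDerivAt_v hH (E := E) (v := v) x he t) hcH
  have hLL : ∀ t, LL A F x (WV E e (Function.update v x t)) =
      -(e x) * DE F x (WV E e (Function.update v x t)) +
        dR (HV A F x) x (WV E e (Function.update v x t)) := by
    intro t
    unfold LL
    rw [WV_im_self]
    rfl
  rw [h.integral_eq, h.integral_eq]
  simp only [hLL]
  have e1 : ∀ t, ρ t * (-(e x) * DE F x (WV E e (Function.update v x t)) +
      dR (HV A F x) x (WV E e (Function.update v x t))) =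
      ρ t * (-(e x) * DE F x (WV E e (Function.update v x t))) +
      ρ t * dR (HV A F x) x (WV E e (Function.update v x t)) := fun t => by ring
  simp only [e1]
  have i1 : Integrable (fun t : ℝ => ρ t * (-(e x) * DE F x (WV E e (Function.update v x t)))) :=
    h.integrable_mul (f := fun t => -(e x) * DE F x (WV E e (Function.update v x t)))
      (continuous_const.mul hcE)
  rw [integral_add i1 (h.integrable_mul hcH), hp]
  ring

theorem continuousOn_LL (hA : A.IsSymm) (hF : ContDiffOn ℝ 2 F (LH ι)) (x : ι) :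
    ContinuousOn (LL A F x) (LH ι) := by
  unfold LL
  have hF1 : ContDiffOn ℝ 1 F (LH ι) := hF.of_le one_le_two
  have h1 : ContinuousOn (fun W : ι → ℂ => (W x).im) (LH ι) :=
    (Complex.continuous_im.comp (continuous_apply x)).continuousOn
  exact (h1.mul (continuousOn_dI hF1 x)).add (continuousOn_dR (contDiffOn_HV hA hF x) x)

theorem integrable_resample {m : ι → Measure ℝ} [∀ x, IsProbabilityMeasure (m x)] (x : ι)
    {f : (ι → ℝ) → ℝ} (hf : Integrable f (Measure.pi m)) :
    Integrable (fun v => ∫ t, f (Function.update v x t) ∂(m x)) (Measure.pi m) := by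
  have hmp := MAff.measurePreserving_resample m x
  have hf' : Integrable (fun p : (ι → ℝ) × ℝ => f (Function.update p.1 x p.2))
      ((Measure.pi m).prod (m x)) := hmp.integrable_comp_of_integrable hf
  exact hf'.integral_prod_left

/-- **one site, full expectation** -/
theorem Ex_site (hA : A.IsSymm) (hF : ContDiffOn ℝ 2 F (LH ι)) (he : ∀ x, 0 < e x)
    {m : ι → Measure ℝ} [∀ x, IsProbabilityMeasure (m x)] {R : ℝ}
    (hR : ∀ x, m x (Icc (-R) R)ᶜ = 0) (x : ι) (h : SmLaw (m x) ρ ρ') :
    -(e x) * Ex m E e (DE F x) = Ex m E e (LL A F x) + ErrF A m E e ρ' F x := by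
  have hF1 : ContDiffOn ℝ 1 F (LH ι) := hF.of_le one_le_two
  have hcE : ContinuousOn (fun W => -(e x) * DE F x W) (LH ι) :=
    continuousOn_const.mul (continuousOn_dI hF1 x)
  have hcL := continuousOn_LL (A := A) hA hF x
  have e1 : -(e x) * Ex m E e (DE F x) = Ex m E e fun W => -(e x) * DE F x W := by
    unfold Ex
    rw [integral_const_mul]
  rw [e1, Ex_resample hcE hR he x, Ex_resample hcL hR he x]
  have hI1 := integrable_resample x (integrable_of_continuousOn hcE hR (E := E) he)
  have hI2 := integrable_resample x (integrable_of_continuousOn hcL hR (E := E) he)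
  have e2 : ErrF A m E e ρ' F x =
      ∫ v, ((∫ t, -(e x) * DE F x (WV E e (Function.update v x t)) ∂(m x)) -
        ∫ t, LL A F x (WV E e (Function.update v x t)) ∂(m x)) ∂(Measure.pi m) := by
    unfold ErrF
    refine integral_congr_ae (Eventually.of_forall fun v => ?_)
    have := one_site (E := E) hA hF he h v x
    simp only
    linarith
  rw [e2, integral_sub hI1 hI2]
  ring

end site

/-! ### labels -/

section labels

variable {ι : Type*} [Fintype ι] [DecidableEq ι] {A : Matrix ι ι ℝ} {Λ : Type*} [Fintype Λ]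
  {p : Λ → ℝ} {ν : Λ → Measure ℝ} {E : ℝ}

/-- **MASTER IDENTITY** -/
theorem master (hA : A.IsSymm) {F : (ι → Λ) → (ι → ℂ) → ℝ}
    (hF : ∀ l, ContDiffOn ℝ 2 (F l) (LH ι)) [∀ k, IsProbabilityMeasure (ν k)] {R : ℝ}
    (hR : ∀ k, ν k (Icc (-R) R)ᶜ = 0) {u w : (ι → Λ) → ι → ℝ} (hu : ∀ l x, 0 < u l x)
    (hw : ∀ l x, 0 ≤ w l x) {r rd : Λ → ℝ → ℝ}
    (hsm : ∀ l x, w l x ≠ 0 → SmLaw (ν (l x)) (r (l x)) (rd (l x))) (τ : ℝ) :
    HasDerivAt (fun τ => AvG p ν E (eT u w τ) F)
      (∑ l : ι → Λ, (∏ x, p (l x)) * ∑ x, omT u w τ l x *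
        (Ex (fun x => ν (l x)) E (eT u w τ l) (LL A (F l) x) +
          ErrF A (fun x => ν (l x)) E (eT u w τ l) (rd (l x)) (F l) x)) τ := by
  have hF1 : ∀ l, ContDiffOn ℝ 1 (F l) (LH ι) := fun l => (hF l).of_le one_le_two
  have hpos : ∀ l x, 0 < eT u w τ l x := by
    intro l x
    unfold eT
    have := mul_nonneg (Real.exp_pos (-τ)).le (hw l x)
    linarith [hu l x]
  have h := hasDerivAt_AvG_stage (p := p) (ν := ν) (E := E) hF1 hR hu hw τ
  have e0 : (fun τ => AvG p ν E (eT u w τ) F) =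
      fun τ => AvG p ν E (fun l x => u l x + Real.exp (-τ) * w l x) F := rfl
  rw [e0]
  convert h using 1
  unfold AvG
  rw [← Finset.sum_neg_distrib]
  refine Finset.sum_congr rfl fun l _ => ?_
  rw [← mul_neg]
  congr 1
  have hint : ∀ x, Integrable (fun v => Real.exp (-τ) * w l x *
      dI (F l) x (WV E (eT u w τ l) v)) (Measure.pi fun x => ν (l x)) := fun x =>
    (integrable_of_continuousOn (continuousOn_dI (hF1 l) x) (fun x => hR (l x))
      (hpos l)).const_mul _
  have e1 : Ex (fun x => ν (l x)) E (fun x => u l x + Real.exp (-τ) * w l x)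
      (fun W => ∑ x, Real.exp (-τ) * w l x * dI (F l) x W) =
      ∑ x, Real.exp (-τ) * w l x * Ex (fun x => ν (l x)) E (eT u w τ l) (DE (F l) x) := by
    unfold Ex
    have e2 : ∀ x, Real.exp (-τ) * w l x * ∫ v, DE (F l) x (WV E (eT u w τ l) v)
        ∂(Measure.pi fun x => ν (l x)) = ∫ v, Real.exp (-τ) * w l x *
        dI (F l) x (WV E (eT u w τ l) v) ∂(Measure.pi fun x => ν (l x)) := fun x => by
      rw [integral_const_mul]
      rfl
    simp only [e2]
    rw [← integral_finset_sum _ fun x _ => hint x]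
    rfl
  rw [e1, ← Finset.sum_neg_distrib]
  refine Finset.sum_congr rfl fun x _ => ?_
  by_cases hx : w l x = 0
  · simp [omT, wT, hx]
  · have h1 := Ex_site (A := A) (E := E) hA (hF l) (hpos l) (m := fun x => ν (l x))
      (fun x => hR (l x)) x (hsm l x hx)
    rw [← h1]
    unfold omT wT
    have := (hpos l x).ne'
    field_simp

end labels

end P365L.T2.Path
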