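import Vale.Agent.P365.T2.Path963

/-!
# P365 T2: derivatives along `rez` and along the imaginary line of one site; vector valued average
-/

set_option autoImplicit false
set_option linter.all false

namespace P365L.T2.Path

open P365L P365T1 Vale.Agent.P365.J376 Matrix Complex MeasureTheory Filter Topology Set

variable {ι : Type*} [Fintype ι] [DecidableEq ι] {Ψ : (ι → ℂ) → ℝ}

theorem hasDerivAt_update {W : ι → ℂ} {z : ι} {c : ℝ → ℂ} {c' : ℂ} {t : ℝ}
    (hc : HasDerivAt c c' t) :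
    HasDerivAt (fun t => Function.update W z (c t)) (Pi.single z c') t := by
  rw [hasDerivAt_pi]
  intro y
  by_cases hy : y = z
  · subst hy
    simpa only [Function.update_self, Pi.single_eq_same] using hc
  · simp only [Function.update_of_ne hy, Pi.single_apply, hy, if_false]
    exact hasDerivAt_const _ _

/-- along the imaginary line of the site `z` -/
theorem hasDerivAt_imz (hΨ : ContDiffOn ℝ 1 Ψ (LH ι)) {W : ι → ℂ} (hW : W ∈ LH ι) (z : ι) :
    HasDerivAt (fun t : ℝ => Ψ (Function.update W z (((W z).re : ℂ) - (t : ℂ) * I)))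
      (dI Ψ z W) (-(W z).im) := by
  have hc : HasDerivAt (fun t : ℝ => ((W z).re : ℂ) - (t : ℂ) * I) (-I) (-(W z).im) := by
    have h1 : HasDerivAt (fun t : ℝ => (t : ℂ)) ((1 : ℝ) : ℂ) (-(W z).im) :=
      (hasDerivAt_id' (-(W z).im)).ofReal_comp
    have h2 := (h1.mul_const I).const_sub ((W z).re : ℂ)
    simpa using h2
  have e : Function.update W z (((W z).re : ℂ) - ((-(W z).im : ℝ) : ℂ) * I) = W := by
    have h3 : ((W z).re : ℂ) - ((-(W z).im : ℝ) : ℂ) * I = W z := by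
      apply Complex.ext <;> simp
    rw [h3, Function.update_eq_self]
  have h := hasFDerivAt_of hΨ hW
  rw [← e] at h
  have h4 := h.comp_hasDerivAt (-(W z).im) (hasDerivAt_update (W := W) (z := z) hc)
  rw [e] at h4
  exact h4

/-- along the real line of the site `z` -/
theorem hasDerivAt_rez (hΨ : ContDiffOn ℝ 1 Ψ (LH ι)) {W : ι → ℂ} (hW : W ∈ LH ι) (z : ι) :
    HasDerivAt (fun u : ℝ => Ψ (rez W z u)) (dR Ψ z W) (W z).re := by
  have hc : HasDerivAt (fun u : ℝ => (u : ℂ) + ((W z).im : ℂ) * I) 1 (W z).re := by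
    have h1 : HasDerivAt (fun t : ℝ => (t : ℂ)) ((1 : ℝ) : ℂ) (W z).re :=
      (hasDerivAt_id' (W z).re).ofReal_comp
    have h2 := h1.add_const (((W z).im : ℂ) * I)
    simpa using h2
  have e : Function.update W z (((W z).re : ℂ) + ((W z).im : ℂ) * I) = W := by
    rw [Complex.re_add_im, Function.update_eq_self]
  have h := hasFDerivAt_of hΨ hW
  rw [← e] at h
  have h4 := h.comp_hasDerivAt (W z).re (hasDerivAt_update (W := W) (z := z) hc)
  rw [e] at h4
  exact h4

/-- identification of `dI` -/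
theorem dI_eq (hΨ : ContDiffOn ℝ 1 Ψ (LH ι)) {W : ι → ℂ} (hW : W ∈ LH ι) {z : ι} {d : ℝ}
    (h : HasDerivAt (fun t : ℝ => Ψ (Function.update W z (((W z).re : ℂ) - (t : ℂ) * I))) d
      (-(W z).im)) : dI Ψ z W = d := (hasDerivAt_imz hΨ hW z).unique h

/-- identification of `dR` -/
theorem dR_eq (hΨ : ContDiffOn ℝ 1 Ψ (LH ι)) {W : ι → ℂ} (hW : W ∈ LH ι) {z : ι} {d : ℝ}
    (h : HasDerivAt (fun u : ℝ => Ψ (rez W z u)) d (W z).re) : dR Ψ z W = d :=
  (hasDerivAt_rez hΨ hW z).unique h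

/-- `dR`, `dI` of a `C²` functional are `C¹` -/
theorem contDiffOn_dR {n : WithTop ℕ∞} (hΨ : ContDiffOn ℝ (n + 1) Ψ (LH ι)) (z : ι) :
    ContDiffOn ℝ n (dR Ψ z) (LH ι) :=
  (hΨ.fderiv_of_isOpen isOpen_LH le_rfl).clm_apply contDiffOn_const

theorem contDiffOn_dI {n : WithTop ℕ∞} (hΨ : ContDiffOn ℝ (n + 1) Ψ (LH ι)) (z : ι) :
    ContDiffOn ℝ n (dI Ψ z) (LH ι) :=
  (hΨ.fderiv_of_isOpen isOpen_LH le_rfl).clm_apply contDiffOn_const

end P365L.T2.Path
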