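import Vale.Agent.P365.T2.H878.LL
import Vale.Agent.P365.T2.PathB963
import Vale.Agent.P365.V4.FlowLoss548b

/-!
# P365 T2: definitions of the master identity (292 / 40): smooth law, law error, moving share

`DV`, `DE`, `HV` (flux), `LL` = helper878's `T2/H878/{Smooth,LL}`.
-/

set_option autoImplicit false
set_option linter.all false

namespace P365L.T2.Path

open P365L P365T1 Vale.Agent.P365.J376 P365H878 Matrix Complex MeasureTheory Filter Topology Set

/-- a law with a `C¹` density of compact support -/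
structure SmLaw (μ : Measure ℝ) (ρ ρ' : ℝ → ℝ) : Prop where
  nonneg : ∀ t, 0 ≤ ρ t
  eq : μ = volume.withDensity fun t => ENNReal.ofReal (ρ t)
  hd : ∀ t, HasDerivAt ρ (ρ' t) t
  cont : Continuous ρ'
  supp : ∃ R : ℝ, ∀ t, R ≤ |t| → ρ t = 0

variable {ι : Type*} [Fintype ι] [DecidableEq ι]

/-- **law error** of the functional `F` at the site `x`: `∫ ρ'(t) * flux dt`, the other potentials
averaged -/
noncomputable def ErrF (A : Matrix ι ι ℝ) (m : ι → Measure ℝ) (E : ℝ) (e : ι → ℝ) (rd : ℝ → ℝ)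
    (F : (ι → ℂ) → ℝ) (x : ι) : ℝ :=
  ∫ v, (∫ t : ℝ, rd t * HV A F x (WV E e (Function.update v x t))) ∂(Measure.pi m)

/-- share of the moving absorption at logarithmic time `τ` -/
noncomputable def omT {Λ : Type*} (u w : (ι → Λ) → ι → ℝ) (τ : ℝ) (l : ι → Λ) (x : ι) : ℝ :=
  wT w τ l x / eT u w τ l x

end P365L.T2.Path
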