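import Vale.Agent.P365.T2.UpsGen844
import Vale.Agent.P365.Open.OneSite

/-!
# P365-T2: bounds and conversions for the one-body entropy (helper844)
-/

set_option linter.all false

namespace P365T2.H844

open Finset P365L P365O
open scoped RealInnerProductSpace ComplexConjugate
open P365T2.H37 (wk HH HD rho)

/-- positions from a finite family of functions -/
noncomputable def fam {κ ι : Type*} [Fintype κ] (F : κ → ι → ℝ) (x : ι) : EuclideanSpace ℝ κ :=
  WithLp.toLp 2 (fun k => F k x)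

theorem tt_fam {κ ι : Type*} [Fintype κ] [Fintype ι] (F : κ → ι → ℝ) (x y : ι) :
    tt (fam F) x y = ∑ k, (F k x - F k y) ^ 2 := by
  unfold tt fam
  rw [EuclideanSpace.norm_sq_eq]
  refine sum_congr rfl fun k _ => ?_
  rw [Real.norm_eq_abs, sq_abs]
  rfl

section Res

variable {κ : Type*} [Fintype κ] {ι : Type*} [Fintype ι] [DecidableEq ι]
variable {A : Matrix ι ι ℝ} {W : ι → ℂ}

theorem sum_pr_Vr_fam (hA : A.IsSymm) (hW : ∀ x, (W x).im < 0) (F : κ → ι → ℝ) :
    ∑ v, pr (TT A W) v * Vr (fam F) (TT A W) v = ∑ k, En A W (F k) := by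
  have h1 : ∀ v, pr (TT A W) v * Vr (fam F) (TT A W) v =
      ∑ k, ∑ y, TT A W v y * (F k v - F k y) ^ 2 := by
    intro v
    rw [pr_Vr (pr_TT_pos hA hW) v, sum_comm]
    refine sum_congr rfl fun y _ => ?_
    rw [tt_comm, tt_fam, mul_sum]
  simp only [h1]
  rw [sum_comm]
  refine sum_congr rfl fun k _ => ?_
  unfold En TT
  refine sum_congr rfl fun v _ => sum_congr rfl fun y _ => ?_
  ring

theorem P_eq_PP (hA : A.IsSymm) (hW : ∀ x, (W x).im < 0) (v y : ι) :
    TT A W v y / pr (TT A W) v = PP A W v y := by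
  rw [pr_TT hA hW]
  unfold TT PP
  have h1 := (mm_pos hA hW v).ne'
  have h2 : (W v).im ≠ 0 := (hW v).ne
  field_simp

theorem mur_fam (hA : A.IsSymm) (hW : ∀ x, (W x).im < 0) (F : κ → ι → ℝ) (v : ι) :
    ‖mur (fam F) (TT A W) v‖ ^ 2 = ∑ k, muf A W (F k) v ^ 2 := by
  rw [EuclideanSpace.norm_sq_eq]
  refine sum_congr rfl fun k _ => ?_
  rw [Real.norm_eq_abs, sq_abs]
  congr 1
  have e1 : (mur (fam F) (TT A W) v) k =
      ∑ y, TT A W v y / pr (TT A W) v * (F k y - F k v) := by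
    unfold mur
    rw [WithLp.ofLp_sum, Finset.sum_apply]
    rfl
  rw [e1]
  have e2 := sum_P (Q := TT A W) v (pr_TT_pos hA hW v)
  have e3 : ∑ y, TT A W v y / pr (TT A W) v * (F k y - F k v) =
      ∑ y, TT A W v y / pr (TT A W) v * F k y -
        (∑ y, TT A W v y / pr (TT A W) v) * F k v := by
    rw [sum_mul, ← sum_sub_distrib]
    exact sum_congr rfl fun y _ => by ring
  rw [e3, e2, one_mul, muf]
  congr 1
  exact sum_congr rfl fun y _ => by rw [P_eq_PP hA hW]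

end Res

section Ups

variable {E : Type*} [NormedAddCommGroup E] [InnerProductSpace ℝ E]
variable {ι : Type*} [Fintype ι] [DecidableEq ι] (Φ : ι → E) (A : Matrix ι ι ℝ) (W : ι → ℂ)

/-- the truncated one-body entropy of an environment -/
noncomputable def Ups (ε : ℝ) (J : ℕ) : ℝ :=
  -∑ x, ∑ k ∈ range (J + 2), rho k * pr (TT A W) x * Gf ε (ur Φ (TT A W) J k x)

variable {Φ A W}

theorem abs_log_le {T u : ℝ} (hT : 0 ≤ T) (hu : 0 ≤ u) (hu3 : u ≤ 3) :
    |Real.log (u + Real.exp (-T))| ≤ T + 2 := by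
  have h1 : Real.log (Real.exp (-T)) ≤ Real.log (u + Real.exp (-T)) :=
    Real.log_le_log (Real.exp_pos _) (by linarith)
  rw [Real.log_exp] at h1
  have h2 : Real.exp (-T) ≤ 1 := Real.exp_le_one_iff.2 (by linarith)
  have h3 : Real.log (u + Real.exp (-T)) ≤ Real.log 4 :=
    Real.log_le_log (by linarith [Real.exp_pos (-T)]) (by linarith)
  have h4 := log_four_le
  rw [abs_le]
  constructor <;> linarith

theorem abs_summand_le (hA : A.IsSymm) (hW : ∀ x, (W x).im < 0) {T : ℝ} (hT : 0 ≤ T) {J k : ℕ}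
    (hk : k < J + 2) (ht4 : ∀ x y, tt Φ x y ≤ 4 ^ J) (x : ι) :
    |rho k * pr (TT A W) x * Gf (Real.exp (-T)) (ur Φ (TT A W) J k x)| ≤
      (T + 2) * (pr (TT A W) x * Pw Φ (TT A W) J k x x) := by
  have hQ0 : ∀ x y, 0 ≤ TT A W x y := TT_nonneg hW
  have hp : ∀ x, 0 < pr (TT A W) x := pr_TT_pos hA hW
  have hr := P365T2.H37.rho_pos k
  have hu0 := ur_nonneg (Φ := Φ) (J := J) (k := k) hQ0 hp x
  have hu3 := ur_le_three (Φ := Φ) hA hW hk ht4 x
  have h1 := abs_log_le hT hu0 hu3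
  unfold Gf
  rw [abs_mul, abs_mul, abs_mul, abs_of_pos hr, abs_of_pos (hp x), abs_of_nonneg hu0]
  calc rho k * pr (TT A W) x * (ur Φ (TT A W) J k x *
        |Real.log (ur Φ (TT A W) J k x + Real.exp (-T))|)
      = (pr (TT A W) x * (rho k * ur Φ (TT A W) J k x)) *
        |Real.log (ur Φ (TT A W) J k x + Real.exp (-T))| := by ring
    _ ≤ (pr (TT A W) x * (rho k * ur Φ (TT A W) J k x)) * (T + 2) := by
        refine mul_le_mul_of_nonneg_left h1 ?_
        have := (hp x).le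
        positivity
    _ = _ := by rw [rho_ur]; ring

/-- **(H3)**: `|Ups| ≤ (T + 2) Σ pi_v V_v` -/
theorem abs_Ups_le (hA : A.IsSymm) (hW : ∀ x, (W x).im < 0) {T : ℝ} (hT : 0 ≤ T) {J : ℕ}
    (ht4 : ∀ x y, tt Φ x y ≤ 4 ^ J) :
    |Ups Φ A W (Real.exp (-T)) J| ≤ (T + 2) * ∑ v, pr (TT A W) v * Vr Φ (TT A W) v := by
  unfold Ups
  rw [abs_neg]
  refine (abs_sum_le_sum_abs _ _).trans ?_
  rw [mul_sum]
  refine sum_le_sum fun x _ => ?_
  refine (abs_sum_le_sum_abs _ _).trans ?_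
  rw [← sum_Pw_self (J := J), mul_sum, mul_sum]
  exact sum_le_sum fun k hk => abs_summand_le hA hW hT (mem_range.1 hk) ht4 x

/-- every summand of `Pos` is nonnegative -/
theorem Pos_term_nonneg (hA : A.IsSymm) (hW : ∀ x, (W x).im < 0) {ε : ℝ} (hε : 0 < ε) {J k : ℕ}
    (x v : ι) :
    0 ≤ TT A W x v * ((lamf ε (ur Φ (TT A W) J k x) - lamf ε (ur Φ (TT A W) J k v)) *
      (Pw Φ (TT A W) J k v v - Pw Φ (TT A W) J k x x)) := by
  have hQ0 : ∀ x y, 0 ≤ TT A W x y := TT_nonneg hW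
  have hp : ∀ x, 0 < pr (TT A W) x := pr_TT_pos hA hW
  have hr := P365T2.H37.rho_pos k
  refine mul_nonneg (hQ0 x v) ?_
  rw [← rho_ur (Φ := Φ) (Q := TT A W) (J := J) (k := k) v,
    ← rho_ur (Φ := Φ) (Q := TT A W) (J := J) (k := k) x]
  have hux := ur_nonneg (Φ := Φ) (J := J) (k := k) hQ0 hp x
  have huv := ur_nonneg (Φ := Φ) (J := J) (k := k) hQ0 hp v
  rcases le_total (ur Φ (TT A W) J k x) (ur Φ (TT A W) J k v) with h | h
  · have h1 := lamf_anti hε hux h
    have h2 := mul_le_mul_of_nonneg_left h hr.le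
    exact mul_nonneg (by linarith) (by linarith)
  · have h1 := lamf_anti hε huv h
    have h2 := mul_le_mul_of_nonneg_left h hr.le
    have h3 : 0 ≤ (lamf ε (ur Φ (TT A W) J k v) - lamf ε (ur Φ (TT A W) J k x)) *
        (rho k * ur Φ (TT A W) J k x - rho k * ur Φ (TT A W) J k v) :=
      mul_nonneg (by linarith) (by linarith)
    nlinarith [h3]

theorem Pos_nonneg (hA : A.IsSymm) (hW : ∀ x, (W x).im < 0) {ε : ℝ} (hε : 0 < ε) (J : ℕ) :
    0 ≤ Pos Φ (TT A W) ε J :=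
  sum_nonneg fun _ _ => sum_nonneg fun x _ => sum_nonneg fun v _ =>
    Pos_term_nonneg hA hW hε x v

/-- each pair and scale of `Pos`, in normalised form: the gain `rho_k T_xv (lam_x - lam_v)(u_v - u_x)`
is at most `Pos` when summed over any set of triples -/
theorem Pos_ge_part (hA : A.IsSymm) (hW : ∀ x, (W x).im < 0) {ε : ℝ} (hε : 0 < ε) {J : ℕ}
    (p : ℕ → ι → ι → Prop) [∀ k x v, Decidable (p k x v)] :
    ∑ k ∈ range (J + 2), ∑ x, ∑ v, (if p k x v then TT A W x v *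
      ((lamf ε (ur Φ (TT A W) J k x) - lamf ε (ur Φ (TT A W) J k v)) *
      (Pw Φ (TT A W) J k v v - Pw Φ (TT A W) J k x x)) else 0) ≤ Pos Φ (TT A W) ε J := by
  refine sum_le_sum fun k _ => sum_le_sum fun x _ => sum_le_sum fun v _ => ?_
  split_ifs
  · exact le_rfl
  · exact Pos_term_nonneg hA hW hε x v

end Ups

end P365T2.H844
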