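import Mathlib

set_option linter.all false

/-!
# P365 / T2 / Para37: the dyadic kernels of the one-body entropy and the one-sided parallelogram.

`hk R t = R t / (R + t)` (`t = |z|²`, `R = r²`), `wk J k` (`k < J + 2`) the increments
`h_1, h_4 - h_1, ..., h_{4^J} - h_{4^(J-1)}, t - h_{4^J}`: nonnegative with sum `t`.

* `para`: for a nondecreasing sequence `lam` with steps at most `c0` the kernel
  `H = Σ lam_k w_k` satisfies `H(a - b) ≥ H(a) + H(b) - 2 H'(a) ⟨a, b⟩ - 5 c0 |b|²`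
  in every real inner product space.
* `para_mean`: the averaged form.
* `uk_le`, `uk_ge`: the normalised kernels `u_k = w_k / ρ_k` satisfy `u_{k+1} ≤ u_k ≤ 16 u_{k+1}`
  on `{0} ∪ [1, 4^J]`.
-/

namespace P365T2.H37

open Finset
open scoped RealInnerProductSpace

variable {E : Type*} [NormedAddCommGroup E] [InnerProductSpace ℝ E]

/-- the bounded kernel `h_R(t) = R t / (R + t)`, `t = |z|²`, `R = r²` -/
noncomputable def hk (R t : ℝ) : ℝ := R * t / (R + t)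

/-- its derivative in `t` -/
noncomputable def hd (R t : ℝ) : ℝ := R ^ 2 / (R + t) ^ 2

theorem hk_nonneg {R t : ℝ} (hR : 0 < R) (ht : 0 ≤ t) : 0 ≤ hk R t := by
  unfold hk; positivity

theorem hk_zero (R : ℝ) : hk R 0 = 0 := by simp [hk]

theorem hk_le_left {R t : ℝ} (hR : 0 < R) (ht : 0 ≤ t) : hk R t ≤ R := by
  unfold hk
  rw [div_le_iff₀ (by positivity)]
  nlinarith

theorem hk_le_right {R t : ℝ} (hR : 0 < R) (ht : 0 ≤ t) : hk R t ≤ t := by
  unfold hk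
  rw [div_le_iff₀ (by positivity)]
  nlinarith

theorem hk_mono_left {R R' t : ℝ} (hR : 0 < R) (h : R ≤ R') (ht : 0 ≤ t) :
    hk R t ≤ hk R' t := by
  unfold hk
  have : 0 < R' := hR.trans_le h
  rw [div_le_div_iff₀ (by positivity) (by positivity)]
  have h1 : 0 ≤ t ^ 2 * (R' - R) := by
    have := sub_nonneg.2 h
    positivity
  nlinarith

theorem hk_mono {R t t' : ℝ} (hR : 0 < R) (ht : 0 ≤ t) (h : t ≤ t') : hk R t ≤ hk R t' := by
  unfold hk
  have : 0 ≤ t' := ht.trans h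
  rw [div_le_div_iff₀ (by positivity) (by positivity)]
  have h1 : 0 ≤ R ^ 2 * (t' - t) := by
    have := sub_nonneg.2 h
    positivity
  nlinarith

theorem hd_nonneg {R t : ℝ} : 0 ≤ hd R t := by
  unfold hd; positivity

theorem hd_le_one {R t : ℝ} (hR : 0 < R) (ht : 0 ≤ t) : hd R t ≤ 1 := by
  unfold hd
  rw [div_le_one (by positivity)]
  nlinarith [mul_nonneg hR.le ht]

theorem hd_mono_left {R R' t : ℝ} (hR : 0 < R) (h : R ≤ R') (ht : 0 ≤ t) :
    hd R t ≤ hd R' t := by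
  unfold hd
  have h' : 0 < R' := hR.trans_le h
  rw [← div_pow, ← div_pow]
  refine pow_le_pow_left₀ (by positivity) ?_ 2
  rw [div_le_div_iff₀ (by positivity) (by positivity)]
  nlinarith [mul_le_mul_of_nonneg_right h ht]

/-- tangent line above the concave kernel -/
theorem hk_tangent {R A t : ℝ} (hR : 0 < R) (hA : 0 ≤ A) (ht : 0 ≤ t) :
    hk R t ≤ hk R A + hd R A * (t - A) := by
  unfold hk hd
  have h1 : 0 < R + A := by positivity
  have h2 : 0 < R + t := by positivity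
  have key : R * A / (R + A) + R ^ 2 / (R + A) ^ 2 * (t - A) - R * t / (R + t) =
      R ^ 2 * (t - A) ^ 2 / ((R + A) ^ 2 * (R + t)) := by
    field_simp
    ring
  have : 0 ≤ R ^ 2 * (t - A) ^ 2 / ((R + A) ^ 2 * (R + t)) := by positivity
  linarith

/-- the defect of the parallelogram for one kernel -/
noncomputable def df (R : ℝ) (a b : E) : ℝ :=
  hk R (‖a - b‖ ^ 2) - hk R (‖a‖ ^ 2) - hk R (‖b‖ ^ 2) + 2 * hd R (‖a‖ ^ 2) * ⟪a, b⟫

theorem df_le_far {R : ℝ} (hR : 0 < R) (a b : E) : df R a b ≤ ‖b‖ ^ 4 / (R + ‖b‖ ^ 2) := by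
  have h0 := norm_sub_sq_real a b
  have h1 := hk_tangent hR (A := ‖a‖ ^ 2) (t := ‖a - b‖ ^ 2) (by positivity) (by positivity)
  have h2 : hd R (‖a‖ ^ 2) * ‖b‖ ^ 2 ≤ ‖b‖ ^ 2 :=
    mul_le_of_le_one_left (by positivity) (hd_le_one hR (by positivity))
  have h3 : ‖b‖ ^ 2 - hk R (‖b‖ ^ 2) = ‖b‖ ^ 4 / (R + ‖b‖ ^ 2) := by
    unfold hk
    have : 0 < R + ‖b‖ ^ 2 := by positivity
    field_simp
    ring
  have h4 : hd R (‖a‖ ^ 2) * (‖a - b‖ ^ 2 - ‖a‖ ^ 2) =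
      hd R (‖a‖ ^ 2) * ‖b‖ ^ 2 - 2 * hd R (‖a‖ ^ 2) * ⟪a, b⟫ := by
    rw [h0]; ring
  unfold df
  linarith

theorem df_le_far' {r : ℝ} (hr : 0 < r) (a b : E) : df (r ^ 2) a b ≤ ‖b‖ ^ 4 / r ^ 2 := by
  refine (df_le_far (by positivity) a b).trans ?_
  exact div_le_div_of_nonneg_left (by positivity) (by positivity) (by nlinarith [sq_nonneg ‖b‖])

theorem df_le_near {r : ℝ} (hr : 0 < r) (a b : E) (hb : r ≤ ‖b‖) :
    df (r ^ 2) a b ≤ 3 / 2 * r * ‖b‖ := by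
  have hR : 0 < r ^ 2 := by positivity
  have hb0 : 0 < ‖b‖ := hr.trans_le hb
  have h1 : hk (r ^ 2) (‖a - b‖ ^ 2) ≤ r ^ 2 := hk_le_left hR (by positivity)
  have h2 : 0 ≤ hk (r ^ 2) (‖a‖ ^ 2) := hk_nonneg hR (by positivity)
  have h3 : r ^ 2 - hk (r ^ 2) (‖b‖ ^ 2) ≤ r * ‖b‖ / 2 := by
    have e : r ^ 2 - hk (r ^ 2) (‖b‖ ^ 2) = r ^ 4 / (r ^ 2 + ‖b‖ ^ 2) := by
      unfold hk
      have : 0 < r ^ 2 + ‖b‖ ^ 2 := by positivity
      field_simp
      ring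
    rw [e, div_le_iff₀ (by positivity)]
    have h5 : r ^ 2 ≤ ‖b‖ ^ 2 := by gcongr
    have h6 : r ^ 2 ≤ r * ‖b‖ := by nlinarith
    nlinarith [mul_nonneg (sub_nonneg.2 h6) (by positivity : (0 : ℝ) ≤ r ^ 2),
      mul_nonneg (mul_nonneg hr.le hb0.le) (sub_nonneg.2 h5)]
  have h4 : 2 * hd (r ^ 2) (‖a‖ ^ 2) * ⟪a, b⟫ ≤ r * ‖b‖ := by
    have h5 : ⟪a, b⟫ ≤ ‖a‖ * ‖b‖ := real_inner_le_norm a b
    have h6 : 2 * hd (r ^ 2) (‖a‖ ^ 2) * ‖a‖ ≤ r := by
      unfold hd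
      have hq : 0 < r ^ 2 + ‖a‖ ^ 2 := by positivity
      have h7 : (r ^ 2) ^ 2 / (r ^ 2 + ‖a‖ ^ 2) ^ 2 ≤ r ^ 2 / (r ^ 2 + ‖a‖ ^ 2) := by
        rw [div_le_div_iff₀ (by positivity) hq]
        have : r ^ 2 ≤ r ^ 2 + ‖a‖ ^ 2 := by nlinarith [sq_nonneg ‖a‖]
        nlinarith [mul_nonneg (mul_nonneg hR.le hq.le) (sub_nonneg.2 this)]
      have h8 : 2 * (r ^ 2 / (r ^ 2 + ‖a‖ ^ 2)) * ‖a‖ ≤ r := by
        rw [show 2 * (r ^ 2 / (r ^ 2 + ‖a‖ ^ 2)) * ‖a‖ =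
          (2 * r ^ 2 * ‖a‖) / (r ^ 2 + ‖a‖ ^ 2) by ring, div_le_iff₀ hq]
        nlinarith [mul_nonneg hr.le (sq_nonneg (r - ‖a‖))]
      have h9 : 0 ≤ ‖a‖ := norm_nonneg a
      nlinarith [mul_le_mul_of_nonneg_right h7 h9]
    have h10 : 0 ≤ 2 * hd (r ^ 2) (‖a‖ ^ 2) := by
      have := @hd_nonneg (r ^ 2) (‖a‖ ^ 2)
      positivity
    calc 2 * hd (r ^ 2) (‖a‖ ^ 2) * ⟪a, b⟫ ≤ 2 * hd (r ^ 2) (‖a‖ ^ 2) * (‖a‖ * ‖b‖) :=
          mul_le_mul_of_nonneg_left h5 h10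
      _ = (2 * hd (r ^ 2) (‖a‖ ^ 2) * ‖a‖) * ‖b‖ := by ring
      _ ≤ r * ‖b‖ := mul_le_mul_of_nonneg_right h6 (norm_nonneg b)
  unfold df
  linarith

/-- potential function for the dyadic sum -/
noncomputable def pot (β r : ℝ) : ℝ :=
  if r ≤ β then 3 / 2 * r * β else 13 / 3 * β ^ 2 - 4 / 3 * (β ^ 4 / r ^ 2)

theorem pot_nonneg {β r : ℝ} (hβ : 0 ≤ β) (hr : 0 < r) : 0 ≤ pot β r := by
  unfold pot
  split_ifs with h
  · positivity
  · push Not at h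
    have h1 : β ^ 4 / r ^ 2 ≤ β ^ 2 := by
      rw [div_le_iff₀ (by positivity)]
      have : β ^ 2 ≤ r ^ 2 := by gcongr
      nlinarith [sq_nonneg β]
    nlinarith [sq_nonneg β]

theorem pot_le {β r : ℝ} (hβ : 0 ≤ β) (hr : 0 < r) : pot β r ≤ 5 * β ^ 2 := by
  unfold pot
  split_ifs with h
  · nlinarith
  · have h1 : 0 ≤ β ^ 4 / r ^ 2 := by positivity
    nlinarith [sq_nonneg β]

theorem pot_step {r : ℝ} (hr : 0 < r) (a b : E) :
    pot ‖b‖ r + max (df (r ^ 2) a b) 0 ≤ pot ‖b‖ (2 * r) := by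
  have hβ : 0 ≤ ‖b‖ := norm_nonneg b
  by_cases h1 : r ≤ ‖b‖
  · have h2 : max (df (r ^ 2) a b) 0 ≤ 3 / 2 * r * ‖b‖ :=
      max_le (df_le_near hr a b h1) (by positivity)
    by_cases h3 : 2 * r ≤ ‖b‖
    · unfold pot
      rw [if_pos h1, if_pos h3]
      linarith
    · unfold pot
      rw [if_pos h1, if_neg h3]
      push Not at h3
      have h4 : ‖b‖ ^ 4 / (2 * r) ^ 2 ≤ ‖b‖ ^ 2 := by
        rw [div_le_iff₀ (by positivity)]
        have : ‖b‖ ^ 2 ≤ (2 * r) ^ 2 := by gcongr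
        nlinarith [sq_nonneg ‖b‖]
      nlinarith
  · have h3 : ¬ (2 * r ≤ ‖b‖) := by
      push Not at h1 ⊢
      linarith
    have h2 : max (df (r ^ 2) a b) 0 ≤ ‖b‖ ^ 4 / r ^ 2 :=
      max_le (df_le_far' hr a b) (by positivity)
    unfold pot
    rw [if_neg h1, if_neg h3]
    have h4 : ‖b‖ ^ 4 / (2 * r) ^ 2 = 1 / 4 * (‖b‖ ^ 4 / r ^ 2) := by
      field_simp
      ring
    rw [h4]
    linarith

/-- **summability of the defects over dyadic scales** -/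
theorem sum_df_le (a b : E) (n : ℕ) :
    ∑ j ∈ range n, max (df ((4 : ℝ) ^ j) a b) 0 ≤ 5 * ‖b‖ ^ 2 := by
  have h : ∀ n : ℕ, ∑ j ∈ range n, max (df ((4 : ℝ) ^ j) a b) 0 ≤ pot ‖b‖ ((2 : ℝ) ^ n) := by
    intro n
    induction n with
    | zero => simpa using pot_nonneg (norm_nonneg b) one_pos
    | succ n ih =>
      rw [sum_range_succ, pow_succ, mul_comm ((2 : ℝ) ^ n) 2]
      have e : (4 : ℝ) ^ n = ((2 : ℝ) ^ n) ^ 2 := by
        rw [← pow_mul, mul_comm, pow_mul]; norm_num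
      rw [e]
      have := pot_step (r := (2 : ℝ) ^ n) (by positivity) a b
      linarith
  exact (h n).trans (pot_le (norm_nonneg b) (by positivity))

/-! ### the family of kernels -/

/-- cumulative kernels: `0, h_1, h_4, ..., h_{4^J}, t` -/
noncomputable def Hc (J k : ℕ) (t : ℝ) : ℝ :=
  if k = 0 then 0 else if k ≤ J + 1 then hk ((4 : ℝ) ^ (k - 1)) t else t

/-- their derivatives -/
noncomputable def Hd (J k : ℕ) (t : ℝ) : ℝ :=
  if k = 0 then 0 else if k ≤ J + 1 then hd ((4 : ℝ) ^ (k - 1)) t else 1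

/-- the `k`-th kernel, `k < J + 2` -/
noncomputable def wk (J k : ℕ) (t : ℝ) : ℝ := Hc J (k + 1) t - Hc J k t

/-- its derivative -/
noncomputable def wd (J k : ℕ) (t : ℝ) : ℝ := Hd J (k + 1) t - Hd J k t

theorem Hc_mono {J k : ℕ} {t : ℝ} (ht : 0 ≤ t) : Hc J k t ≤ Hc J (k + 1) t := by
  unfold Hc
  by_cases h0 : k = 0
  · subst h0
    simp only [if_true, zero_add, one_ne_zero, if_false, Nat.sub_self, pow_zero]
    split_ifs
    · exact hk_nonneg one_pos ht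
    · exact ht
  · rw [if_neg h0, if_neg (Nat.succ_ne_zero k)]
    by_cases h1 : k + 1 ≤ J + 1
    · rw [if_pos (by omega), if_pos h1]
      exact hk_mono_left (by positivity) (pow_le_pow_right₀ (by norm_num) (by omega)) ht
    · rw [if_neg h1]
      split_ifs
      · exact hk_le_right (by positivity) ht
      · exact le_rfl

theorem Hd_mono {J k : ℕ} {t : ℝ} (ht : 0 ≤ t) : Hd J k t ≤ Hd J (k + 1) t := by
  unfold Hd
  by_cases h0 : k = 0
  · subst h0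
    simp only [if_true, zero_add, one_ne_zero, if_false, Nat.sub_self, pow_zero]
    split_ifs
    · exact hd_nonneg
    · exact zero_le_one
  · rw [if_neg h0, if_neg (Nat.succ_ne_zero k)]
    by_cases h1 : k + 1 ≤ J + 1
    · rw [if_pos (by omega), if_pos h1]
      exact hd_mono_left (by positivity) (pow_le_pow_right₀ (by norm_num) (by omega)) ht
    · rw [if_neg h1]
      split_ifs
      · exact hd_le_one (by positivity) ht
      · exact le_rfl

theorem wk_nonneg {J k : ℕ} {t : ℝ} (ht : 0 ≤ t) : 0 ≤ wk J k t :=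
  sub_nonneg.2 (Hc_mono ht)

theorem wd_nonneg {J k : ℕ} {t : ℝ} (ht : 0 ≤ t) : 0 ≤ wd J k t :=
  sub_nonneg.2 (Hd_mono ht)

theorem Hc_top (J : ℕ) (t : ℝ) : Hc J (J + 2) t = t := by
  unfold Hc
  rw [if_neg (by omega), if_neg (by omega)]

theorem Hd_top (J : ℕ) (t : ℝ) : Hd J (J + 2) t = 1 := by
  unfold Hd
  rw [if_neg (by omega), if_neg (by omega)]

theorem sum_wk (J : ℕ) (t : ℝ) : ∑ k ∈ range (J + 2), wk J k t = t := by
  unfold wk
  rw [sum_range_sub (fun k => Hc J k t), Hc_top]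
  simp [Hc]

theorem sum_wd (J : ℕ) (t : ℝ) : ∑ k ∈ range (J + 2), wd J k t = 1 := by
  unfold wd
  rw [sum_range_sub (fun k => Hd J k t), Hd_top]
  simp [Hd]

theorem wk_le {J k : ℕ} (hk' : k < J + 2) {t : ℝ} (ht : 0 ≤ t) : wk J k t ≤ t := by
  conv_rhs => rw [← sum_wk J t]
  exact single_le_sum (f := fun k => wk J k t) (fun i _ => wk_nonneg ht) (mem_range.2 hk')

theorem wk_zero_arg (J k : ℕ) : wk J k 0 = 0 := by
  have h : ∀ k, Hc J k 0 = 0 := by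
    intro k
    unfold Hc
    split_ifs <;> simp [hk_zero]
  unfold wk
  rw [h, h, sub_zero]

/-- the weighted kernel and its derivative -/
noncomputable def HH (J : ℕ) (lam : ℕ → ℝ) (t : ℝ) : ℝ := ∑ k ∈ range (J + 2), lam k * wk J k t

noncomputable def HD (J : ℕ) (lam : ℕ → ℝ) (t : ℝ) : ℝ := ∑ k ∈ range (J + 2), lam k * wd J k t

theorem abs_HD_le {J : ℕ} {lam : ℕ → ℝ} {L t : ℝ} (ht : 0 ≤ t)
    (hL : ∀ k < J + 2, |lam k| ≤ L) : |HD J lam t| ≤ L := by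
  unfold HD
  calc |∑ k ∈ range (J + 2), lam k * wd J k t| ≤ ∑ k ∈ range (J + 2), |lam k * wd J k t| :=
        abs_sum_le_sum_abs _ _
    _ ≤ ∑ k ∈ range (J + 2), L * wd J k t := by
        refine sum_le_sum fun k hk => ?_
        rw [abs_mul, abs_of_nonneg (wd_nonneg ht)]
        exact mul_le_mul_of_nonneg_right (hL k (mem_range.1 hk)) (wd_nonneg ht)
    _ = L := by rw [← mul_sum, sum_wd, mul_one]

/-- the defect of the cumulative kernel -/
noncomputable def dc (J k : ℕ) (a b : E) : ℝ :=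
  Hc J k (‖a - b‖ ^ 2) - Hc J k (‖a‖ ^ 2) - Hc J k (‖b‖ ^ 2) + 2 * Hd J k (‖a‖ ^ 2) * ⟪a, b⟫

theorem dc_zero (J : ℕ) (a b : E) : dc J 0 a b = 0 := by simp [dc, Hc, Hd]

theorem dc_top (J : ℕ) (a b : E) : dc J (J + 2) a b = 0 := by
  unfold dc
  rw [Hc_top, Hc_top, Hc_top, Hd_top, norm_sub_sq_real]
  ring

theorem dc_succ {J k : ℕ} (hk : k < J + 1) (a b : E) : dc J (k + 1) a b = df ((4 : ℝ) ^ k) a b := by
  unfold dc df Hc Hd
  simp only [Nat.succ_ne_zero, if_false, Nat.add_sub_cancel]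
  rw [if_pos (by omega), if_pos (by omega), if_pos (by omega), if_pos (by omega)]

theorem abel_sum (f g : ℕ → ℝ) (n : ℕ) :
    ∑ k ∈ range (n + 1), f k * (g (k + 1) - g k) =
      f n * g (n + 1) - f 0 * g 0 - ∑ k ∈ range n, (f (k + 1) - f k) * g (k + 1) := by
  induction n with
  | zero => simp; ring
  | succ n ih => rw [sum_range_succ, ih, sum_range_succ _ n]; ring

/-- **one-sided parallelogram** -/
theorem para {J : ℕ} {lam : ℕ → ℝ} {c0 : ℝ} (hmono : ∀ k < J + 1, lam k ≤ lam (k + 1))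
    (hstep : ∀ k < J + 1, lam (k + 1) ≤ lam k + c0) (a b : E) :
    HH J lam (‖a‖ ^ 2) + HH J lam (‖b‖ ^ 2) - 2 * HD J lam (‖a‖ ^ 2) * ⟪a, b⟫ -
      5 * c0 * ‖b‖ ^ 2 ≤ HH J lam (‖a - b‖ ^ 2) := by
  have e1 : HH J lam (‖a - b‖ ^ 2) - HH J lam (‖a‖ ^ 2) - HH J lam (‖b‖ ^ 2) +
      2 * HD J lam (‖a‖ ^ 2) * ⟪a, b⟫ =
      ∑ k ∈ range (J + 1 + 1), lam k * (dc J (k + 1) a b - dc J k a b) := by
    unfold HH HD
    rw [mul_sum, sum_mul, ← sum_sub_distrib, ← sum_sub_distrib, ← sum_add_distrib]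
    refine sum_congr rfl fun k _ => ?_
    unfold dc wk wd
    ring
  rw [abel_sum lam (fun k => dc J k a b) (J + 1), dc_zero, dc_top] at e1
  have e2 : ∑ k ∈ range (J + 1), (lam (k + 1) - lam k) * dc J (k + 1) a b ≤
      ∑ k ∈ range (J + 1), c0 * max (df ((4 : ℝ) ^ k) a b) 0 := by
    refine sum_le_sum fun k hk => ?_
    have hk' := mem_range.1 hk
    rw [dc_succ hk']
    have h1 := hmono k hk'
    have h2 := hstep k hk'
    calc (lam (k + 1) - lam k) * df ((4 : ℝ) ^ k) a b ≤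
          (lam (k + 1) - lam k) * max (df ((4 : ℝ) ^ k) a b) 0 :=
          mul_le_mul_of_nonneg_left (le_max_left _ _) (by linarith)
      _ ≤ c0 * max (df ((4 : ℝ) ^ k) a b) 0 :=
          mul_le_mul_of_nonneg_right (by linarith) (le_max_right _ _)
  rw [← mul_sum] at e2
  have hc0 : 0 ≤ c0 := by
    have h1 := hmono 0 (by omega)
    have h2 := hstep 0 (by omega)
    linarith
  have e3 := mul_le_mul_of_nonneg_left (sum_df_le a b (J + 1)) hc0
  simp only [mul_zero, sub_zero, zero_sub] at e1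
  linarith

/-- **averaged form**: `p` a probability vector on a finite set, `Φ` a map to an inner product
space, `μ = Σ p_y (Φ_y - Φ_v)` the mean displacement. -/
theorem para_mean {ι : Type*} [Fintype ι] {J : ℕ} {lam : ℕ → ℝ} {c0 : ℝ}
    (hmono : ∀ k < J + 1, lam k ≤ lam (k + 1)) (hstep : ∀ k < J + 1, lam (k + 1) ≤ lam k + c0)
    {p : ι → ℝ} (hp : ∀ y, 0 ≤ p y) (hp1 : ∑ y, p y = 1) (Φ : ι → E) (x v : ι) :
    HH J lam (‖Φ x - Φ v‖ ^ 2) + ∑ y, p y * HH J lam (‖Φ y - Φ v‖ ^ 2) -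
        2 * HD J lam (‖Φ x - Φ v‖ ^ 2) * ⟪Φ x - Φ v, ∑ y, p y • (Φ y - Φ v)⟫ -
        5 * c0 * ∑ y, p y * ‖Φ y - Φ v‖ ^ 2 ≤
      ∑ y, p y * HH J lam (‖Φ x - Φ y‖ ^ 2) := by
  have h1 : ∀ y, p y * HH J lam (‖Φ x - Φ v‖ ^ 2) + p y * HH J lam (‖Φ y - Φ v‖ ^ 2) -
      p y * (2 * HD J lam (‖Φ x - Φ v‖ ^ 2) * ⟪Φ x - Φ v, Φ y - Φ v⟫) -
      5 * c0 * (p y * ‖Φ y - Φ v‖ ^ 2) ≤ p y * HH J lam (‖Φ x - Φ y‖ ^ 2) := by
    intro y
    have h := mul_le_mul_of_nonneg_left (para hmono hstep (Φ x - Φ v) (Φ y - Φ v)) (hp y)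
    rw [show Φ x - Φ v - (Φ y - Φ v) = Φ x - Φ y by abel_nf] at h
    linarith
  have h2 := sum_le_sum fun y (_ : y ∈ univ) => h1 y
  simp only [sum_sub_distrib, sum_add_distrib] at h2
  rw [← sum_mul, hp1, one_mul, ← mul_sum] at h2
  have h3 : ∑ y, p y * (2 * HD J lam (‖Φ x - Φ v‖ ^ 2) * ⟪Φ x - Φ v, Φ y - Φ v⟫) =
      2 * HD J lam (‖Φ x - Φ v‖ ^ 2) * ⟪Φ x - Φ v, ∑ y, p y • (Φ y - Φ v)⟫ := by
    rw [inner_sum, mul_sum]
    refine sum_congr rfl fun y _ => ?_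
    rw [real_inner_smul_right]
    ring
  rw [h3] at h2
  exact h2

/-! ### normalised kernels -/

/-- normaliser of the `k`-th kernel -/
noncomputable def rho (k : ℕ) : ℝ := if k = 0 then 1 / 3 else (4 : ℝ) ^ (k - 1)

theorem rho_pos (k : ℕ) : 0 < rho k := by
  unfold rho
  split_ifs <;> positivity

/-- normalised kernel -/
noncomputable def uk (J k : ℕ) (t : ℝ) : ℝ := wk J k t / rho k

theorem uk_nonneg {J k : ℕ} {t : ℝ} (ht : 0 ≤ t) : 0 ≤ uk J k t :=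
  div_nonneg (wk_nonneg ht) (rho_pos k).le

theorem uk_first {J : ℕ} {t : ℝ} (ht : 0 ≤ t) : uk J 0 t = 3 * t / (1 + t) := by
  unfold uk wk Hc rho hk
  simp
  have : 1 + t ≠ 0 := by positivity
  field_simp

theorem uk_mid {J k : ℕ} (hk : k < J) {t : ℝ} (ht : 0 ≤ t) :
    uk J (k + 1) t = 3 * t ^ 2 / ((4 ^ (k + 1) + t) * (4 ^ k + t)) := by
  unfold uk wk Hc rho P365T2.H37.hk
  simp only [Nat.succ_ne_zero, if_false, Nat.add_sub_cancel]
  rw [if_pos (by omega), if_pos (by omega)]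
  have h1 : (0 : ℝ) < 4 ^ k := by positivity
  have h2 : (0 : ℝ) < 4 ^ (k + 1) + t := by positivity
  have h3 : (0 : ℝ) < 4 ^ k + t := by positivity
  rw [pow_succ] at h2 ⊢
  field_simp
  ring

theorem uk_last {J : ℕ} {t : ℝ} (ht : 0 ≤ t) :
    uk J (J + 1) t = t ^ 2 / (4 ^ J * (4 ^ J + t)) := by
  unfold uk wk Hc rho P365T2.H37.hk
  simp only [Nat.succ_ne_zero, if_false, Nat.add_sub_cancel]
  rw [if_neg (by omega), if_pos (by omega)]
  have h1 : (0 : ℝ) < 4 ^ J := by positivity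
  have h3 : (0 : ℝ) < 4 ^ J + t := by positivity
  field_simp
  ring

theorem uk_le_three {J k : ℕ} (hk : k < J + 2) {t : ℝ} (ht : 0 ≤ t) (ht4 : t ≤ 4 ^ J) :
    uk J k t ≤ 3 := by
  rcases Nat.eq_zero_or_pos k with h | h
  · subst h
    rw [uk_first ht, div_le_iff₀ (by positivity)]
    linarith
  · obtain ⟨k, rfl⟩ : ∃ j, k = j + 1 := ⟨k - 1, by omega⟩
    rcases Nat.lt_or_ge k J with h2 | h2
    · rw [uk_mid h2 ht, div_le_iff₀ (by positivity)]
      have h1 : (0 : ℝ) < 4 ^ k := by positivity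
      have h3 : (0 : ℝ) < 4 ^ (k + 1) := by positivity
      nlinarith [mul_nonneg h1.le ht, mul_nonneg h3.le ht, mul_pos h1 h3]
    · have h3 : k = J := by omega
      subst h3
      rw [uk_last ht, div_le_iff₀ (by positivity)]
      have h1 : (0 : ℝ) < 4 ^ k := by positivity
      nlinarith [mul_nonneg h1.le ht, mul_nonneg h1.le h1.le,
        mul_nonneg ht (sub_nonneg.2 ht4)]

/-- the normalised kernels decrease -/
theorem uk_le {J k : ℕ} (hJ : 1 ≤ J) (hk : k < J + 1) {t : ℝ} (ht : 0 ≤ t) (ht4 : t ≤ 4 ^ J) :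
    uk J (k + 1) t ≤ uk J k t := by
  rcases Nat.eq_zero_or_pos k with h | h
  · subst h
    rw [uk_mid hJ ht, uk_first ht, div_le_div_iff₀ (by positivity) (by positivity)]
    have : 0 ≤ t * (1 + t) := by positivity
    simp only [zero_add, pow_one, pow_zero]
    nlinarith [mul_nonneg ht ht, mul_nonneg (mul_nonneg ht ht) ht]
  · obtain ⟨k, rfl⟩ : ∃ j, k = j + 1 := ⟨k - 1, by omega⟩
    rw [uk_mid (k := k) (by omega) ht]
    have h1 : (0 : ℝ) < 4 ^ k := by positivity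
    rcases Nat.lt_or_ge (k + 1) J with h2 | h2
    · rw [uk_mid h2 ht, div_le_div_iff₀ (by positivity) (by positivity)]
      have e : (4 : ℝ) ^ (k + 1 + 1) = 16 * 4 ^ k := by rw [pow_succ, pow_succ]; ring
      have e' : (4 : ℝ) ^ (k + 1) = 4 * 4 ^ k := by rw [pow_succ]; ring
      rw [e, e']
      have : 0 ≤ 3 * t ^ 2 * (4 * 4 ^ k + t) * (15 * 4 ^ k) := by positivity
      nlinarith
    · have h3 : J = k + 1 := by omega
      subst h3
      rw [uk_last ht, div_le_div_iff₀ (by positivity) (by positivity)]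
      have e' : (4 : ℝ) ^ (k + 1) = 4 * 4 ^ k := by rw [pow_succ]; ring
      rw [e'] at ht4 ⊢
      have : 0 ≤ t ^ 2 * (4 * 4 ^ k + t) * (12 * 4 ^ k - (4 ^ k + t)) := by
        have : 0 ≤ 12 * 4 ^ k - (4 ^ k + t) := by linarith
        positivity
      nlinarith

/-- and by at most a factor `16` -/
theorem uk_ge {J k : ℕ} (hJ : 1 ≤ J) (hk : k < J + 1) {t : ℝ} (ht : t = 0 ∨ 1 ≤ t)
    (ht4 : t ≤ 4 ^ J) : uk J k t ≤ 16 * uk J (k + 1) t := by
  rcases ht with ht | ht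
  · subst ht
    unfold uk
    rw [wk_zero_arg, wk_zero_arg]
    simp
  have ht0 : 0 ≤ t := by linarith
  rcases Nat.eq_zero_or_pos k with h | h
  · subst h
    rw [uk_mid hJ ht0, uk_first ht0, ← mul_div_assoc,
      div_le_div_iff₀ (by positivity) (by positivity)]
    simp only [zero_add, pow_one, pow_zero]
    nlinarith [mul_nonneg ht0 ht0, mul_nonneg (mul_nonneg ht0 ht0) (sub_nonneg.2 ht),
      mul_nonneg ht0 (sub_nonneg.2 ht)]
  · obtain ⟨k, rfl⟩ : ∃ j, k = j + 1 := ⟨k - 1, by omega⟩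
    rw [uk_mid (k := k) (by omega) ht0]
    have h1 : (0 : ℝ) < 4 ^ k := by positivity
    rcases Nat.lt_or_ge (k + 1) J with h2 | h2
    · rw [uk_mid h2 ht0, ← mul_div_assoc, div_le_div_iff₀ (by positivity) (by positivity)]
      have e : (4 : ℝ) ^ (k + 1 + 1) = 16 * 4 ^ k := by rw [pow_succ, pow_succ]; ring
      have e' : (4 : ℝ) ^ (k + 1) = 4 * 4 ^ k := by rw [pow_succ]; ring
      rw [e, e']
      have : 0 ≤ 3 * t ^ 2 * (4 * 4 ^ k + t) * (15 * t) := by positivity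
      nlinarith
    · have h3 : J = k + 1 := by omega
      subst h3
      rw [uk_last ht0, ← mul_div_assoc, div_le_div_iff₀ (by positivity) (by positivity)]
      have e' : (4 : ℝ) ^ (k + 1) = 4 * 4 ^ k := by rw [pow_succ]; ring
      rw [e'] at ht4 ⊢
      have : 0 ≤ t ^ 2 * (4 * 4 ^ k + t) * (16 * (4 ^ k + t) - 12 * 4 ^ k) := by
        have : 0 ≤ 16 * (4 ^ k + t) - 12 * 4 ^ k := by nlinarith
        positivity
      nlinarith

end P365T2.H37
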