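import Vale.Agent.P365.T2.StrongA968
import Vale.Agent.P365.J376.Bridge

/-!
# P365 T2, row X-STAT, part B: resampling of one site for an arbitrary product law

Environment `WV E e v`, `v` with an arbitrary product law `∏ ν_i`.

* `RP y S C`: the ratio property of the site `y` on the set `S` of environments:
  `(∫ m_y dν_y) * hcE_y[Φ] ≤ C ∫ m_y Φ dν_y` for every `Φ ≥ 0`.
* `RP_of_dens`: it holds if `ν_y ≥ r Leb` on the window `[q - Γ, q + Γ]` of the resonance of `y` and
  `∫ m_y dν_y ≤ C r`.
* `resampleE`: `E[1_S m_y hcE_y[Φ]] ≤ C E[m_y Φ]`.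
-/

set_option autoImplicit false
set_option linter.all false

namespace P365L.T2.X968

open MeasureTheory ProbabilityTheory Set P365L P365L.Stat P365T1 Vale.Agent.P365.J376
open Complex hiding eta
open scoped ComplexConjugate Real ENNReal

variable {ι : Type*} [Fintype ι] [DecidableEq ι]
variable {A : Matrix ι ι ℝ} {a : ι → ℝ} {E : ℝ} {e : ι → ℝ}

theorem WV_im (E : ℝ) (e v : ι → ℝ) (x : ι) : (WV E e v x).im = -e x := by
  simp [WV]

theorem WV_upd (E : ℝ) (e v : ι → ℝ) (y : ι) (s : ℝ) :
    WV E e (Function.update v y s) =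
      Function.update (WV E e v) y (WV E e v y + ((s - v y : ℝ) : ℂ)) := by
  funext x
  by_cases h : x = y
  · subst h
    rw [Function.update_self]
    unfold WV
    rw [Function.update_self]
    push_cast
    ring
  · rw [Function.update_of_ne h]
    unfold WV
    rw [Function.update_of_ne h]

theorem measurable_WV (E : ℝ) (e : ι → ℝ) : Measurable fun v : ι → ℝ => WV E e v := by
  refine measurable_pi_lambda _ fun x => ?_
  unfold WV
  exact (Complex.measurable_ofReal.comp (measurable_coord_sub E x)).sub_const _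

theorem measurable_GrW (x y : ι) : Measurable fun W : ι → ℂ => Gr A W x y :=
  measurable_Gr (fun W : ι → ℂ => W) (fun z => measurable_pi_apply z) x y

theorem measurable_mmW (x : ι) : Measurable fun W : ι → ℂ => mm A W x :=
  Complex.measurable_im.comp (measurable_GrW x x)

theorem measurable_KKW (x y : ι) : Measurable fun W : ι → ℂ => KK A W x y :=
  (measurable_GrW x y).norm.pow_const 2

theorem measurable_kapW (x y : ι) : Measurable fun W : ι → ℂ => kap A W x y :=
  (measurable_KKW x y).div (((measurable_mmW x).mul (measurable_mmW y)).add (measurable_KKW x y))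

theorem measurable_TmW (z w : ι) : Measurable fun W : ι → ℂ => Tm A W a z w := by
  have h : ∀ W : ι → ℂ, Tm A W a z w = (I / 2) * ∑ q, (∑ p,
      conj (Gr A W p z) * Bm A a p q) * Gr A W q w := by
    intro W
    rw [Tm, Matrix.smul_apply, smul_eq_mul, Matrix.mul_apply]
    congr 1
  simp only [h]
  refine Measurable.const_mul ?_ _
  refine Finset.measurable_sum _ fun q _ => Measurable.mul ?_ (measurable_GrW q w)
  refine Finset.measurable_sum _ fun p _ => Measurable.mul_const ?_ _
  exact (Complex.continuous_conj.measurable).comp (measurable_GrW p z)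

theorem measurable_LsW (z : ι) : Measurable fun W : ι → ℂ => Ls A a z W := by
  unfold Ls
  exact ((measurable_TmW z z).norm.pow_const 2).div (measurable_mmW z)

/-! ### the ratio property -/

/-- ratio property of the site `y` on the set `S` of environments -/
def RP (A : Matrix ι ι ℝ) (E : ℝ) (e : ι → ℝ) (ν : ι → Measure ℝ) (y : ι) (S : Set (ι → ℂ))
    (C : ℝ≥0∞) : Prop :=
  ∀ v : ι → ℝ, WV E e v ∈ S → ∀ Φ : (ι → ℂ) → ℝ≥0∞, Measurable Φ →
    (∫⁻ s, ENNReal.ofReal (mm A (WV E e (Function.update v y s)) y) ∂(ν y)) *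
        hcE A (WV E e v) y Φ ≤
      C * ∫⁻ s, ENNReal.ofReal (mm A (WV E e (Function.update v y s)) y) *
        Φ (WV E e (Function.update v y s)) ∂(ν y)

theorem RP.mono {ν : ι → Measure ℝ} {y : ι} {S S' : Set (ι → ℂ)} {C C' : ℝ≥0∞}
    (h : RP A E e ν y S C) (hS : S' ⊆ S) (hC : C ≤ C') : RP A E e ν y S' C' :=
  fun v hv Φ hΦ => (h v (hS hv) Φ hΦ).trans (mul_le_mul_left hC _)

theorem mm_kick_self (hA : A.IsSymm) {W : ι → ℂ} (hW : ∀ x, (W x).im < 0) (y : ι) (x : ℝ) :
    mm A (kick A W y x) y = 1 / (bet (Gr A W y y) * (1 + x ^ 2)) := by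
  have hg := Gr_self_im_pos hA hW y
  have hne := Gr_self_ne_zero hA hW y
  set g := Gr A W y y with hgd
  have h1 := mm_upd_self hA hW y (tw g x)
  have h2 : ‖1 + ((tw g x : ℝ) : ℂ) * g‖ ^ 2 = ‖g‖ ^ 2 * (bet g ^ 2 * (1 + x ^ 2)) := by
    have h3 : (1 : ℂ) + ((tw g x : ℝ) : ℂ) * g = g * ss g (tw g x) := by
      rw [ss, mul_add, mul_inv_cancel₀ hne]; ring
    rw [h3, norm_mul, mul_pow, ss_normSq, tw]
    ring
  have h4 : mm A W y = bet g * ‖g‖ ^ 2 := im_eq_bet hg
  rw [← hgd, h2, h4] at h1
  have hb := bet_pos hg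
  have hn : 0 < ‖g‖ := norm_pos_iff.2 hne
  have hxx := one_add_sq_pos x
  rw [kick, ← hgd, eq_div_iff (by positivity)]
  have h5 : 0 < bet g * ‖g‖ ^ 2 := by positivity
  have h6 : mm A (Function.update W y (W y + ((tw g x : ℝ) : ℂ))) y * (bet g * (1 + x ^ 2)) *
      (bet g * ‖g‖ ^ 2) = 1 * (bet g * ‖g‖ ^ 2) := by
    rw [one_mul]
    calc _ = mm A (Function.update W y (W y + ((tw g x : ℝ) : ℂ))) y *
          (‖g‖ ^ 2 * (bet g ^ 2 * (1 + x ^ 2))) := by ring
      _ = _ := h1
  exact mul_right_cancel₀ h5.ne' h6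

/-- the ratio property from a lower bound of the density on the window of the resonance -/
theorem RP_of_dens (hA : A.IsSymm) (he : ∀ x, 0 < e x) {ν : ι → Measure ℝ} {y : ι}
    {S : Set (ι → ℂ)} {C : ℝ≥0∞}
    (h : ∀ v : ι → ℝ, WV E e v ∈ S → ∃ r : ℝ≥0∞,
      r • (volume : Measure ℝ).restrict
        (Set.Icc (v y + tw (Gr A (WV E e v) y y) (-1)) (v y + tw (Gr A (WV E e v) y y) 1)) ≤ ν y ∧
      ∫⁻ s, ENNReal.ofReal (mm A (WV E e (Function.update v y s)) y) ∂(ν y) ≤ C * r) :
    RP A E e ν y S C := by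
  intro v hv Φ hΦ
  obtain ⟨r, hr, hC⟩ := h v hv
  have hW := WV_neg (E := E) he v
  set g := Gr A (WV E e v) y y with hg
  have hgi := Gr_self_im_pos hA hW y
  rw [← hg] at hgi
  have hb := bet_pos hgi
  set F : ℝ → ℝ≥0∞ := fun s => ENNReal.ofReal (mm A (WV E e (Function.update v y s)) y) *
        Φ (WV E e (Function.update v y s)) with hF
  have key : r * hcE A (WV E e v) y Φ ≤ ∫⁻ s, F s ∂(ν y) := by
    have hder : ∀ x ∈ Set.Ioc (-1 : ℝ) 1,
        HasDerivWithinAt (fun x : ℝ => v y + tw g x) (bet g) (Set.Ioc (-1 : ℝ) 1) x := by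
      intro x _
      have h3 := (((hasDerivAt_id x).const_mul (bet g)).const_add (-(g⁻¹).re)).const_add (v y)
      rw [mul_one] at h3
      exact h3.hasDerivWithinAt
    have hinj : Set.InjOn (fun x : ℝ => v y + tw g x) (Set.Ioc (-1 : ℝ) 1) := by
      intro x _ x' _ hxx
      simp only [tw] at hxx
      have : bet g * x = bet g * x' := by linarith
      exact mul_left_cancel₀ hb.ne' this
    have h1 : hcE A (WV E e v) y Φ = ∫⁻ s in
        (fun x : ℝ => v y + tw g x) '' Set.Ioc (-1 : ℝ) 1, F s := by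
      rw [lintegral_image_eq_lintegral_abs_deriv_mul measurableSet_Ioc hder hinj]
      unfold hcE
      refine setLIntegral_congr_fun measurableSet_Ioc fun x _ => ?_
      have e1 : WV E e (Function.update v y (v y + tw g x)) = kick A (WV E e v) y x := by
        rw [WV_upd, kick, ← hg]
        congr 3
        ring
      have hxx := one_add_sq_pos x
      simp only [hF]
      rw [e1, mm_kick_self hA hW, ← hg, abs_of_pos hb, ← mul_assoc,
        ← ENNReal.ofReal_mul hb.le]
      have e2 : bet g * (1 / (bet g * (1 + x ^ 2))) = 1 / (1 + x ^ 2) := by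
        field_simp
      rw [e2, mul_comm]
    have h2 : (fun x : ℝ => v y + tw g x) '' Set.Ioc (-1 : ℝ) 1 ⊆
        Set.Icc (v y + tw g (-1)) (v y + tw g 1) := by
      rintro s ⟨x, hx, rfl⟩
      simp only [tw]
      constructor
      · nlinarith [mul_le_mul_of_nonneg_left hx.1.le hb.le]
      · nlinarith [mul_le_mul_of_nonneg_left hx.2 hb.le]
    calc r * hcE A (WV E e v) y Φ
        ≤ r * ∫⁻ s in Set.Icc (v y + tw g (-1)) (v y + tw g 1), F s := by
          rw [h1]
          exact mul_le_mul_right (lintegral_mono_set h2) _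
      _ = ∫⁻ s, F s ∂(r • (volume : Measure ℝ).restrict
            (Set.Icc (v y + tw g (-1)) (v y + tw g 1))) := by
          rw [lintegral_smul_measure, smul_eq_mul]
      _ ≤ ∫⁻ s, F s ∂(ν y) := lintegral_mono' hr le_rfl
  calc _ ≤ C * r * hcE A (WV E e v) y Φ := mul_le_mul_left hC _
    _ = C * (r * hcE A (WV E e v) y Φ) := mul_assoc _ _ _
    _ ≤ C * ∫⁻ s, F s ∂(ν y) := mul_le_mul_right key _

/-! ### resampling -/

theorem measurable_hcE (y : ι) {Φ : (ι → ℂ) → ℝ≥0∞} (hΦ : Measurable Φ) :
    Measurable fun W : ι → ℂ => hcE A W y Φ := by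
  unfold hcE
  have h1 : Measurable fun p : (ι → ℂ) × ℝ => kick A p.1 y p.2 := by
    unfold kick tw bet
    refine measurable_pi_lambda _ fun i => ?_
    have hg : Measurable fun p : (ι → ℂ) × ℝ => Gr A p.1 y y :=
      (measurable_GrW y y).comp measurable_fst
    by_cases hi : i = y
    · subst hi
      simp only [Function.update_self]
      refine ((measurable_pi_apply i).comp measurable_fst).add ?_
      refine Complex.measurable_ofReal.comp ?_
      refine (Complex.measurable_re.comp hg.inv).neg.add ?_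
      exact (Complex.measurable_im.comp hg.inv).neg.mul measurable_snd
    · simp only [Function.update_of_ne hi]
      exact (measurable_pi_apply i).comp measurable_fst
  have h2 : Measurable fun p : (ι → ℂ) × ℝ =>
      Φ (kick A p.1 y p.2) * ENNReal.ofReal (1 / (1 + p.2 ^ 2)) :=
    (hΦ.comp h1).mul (by fun_prop)
  exact h2.lintegral_prod_right'

/-- **resampling**: `E[1_S m_y hcE_y[Φ]] ≤ C E[m_y Φ]` -/
theorem resampleE (hA : A.IsSymm) (he : ∀ x, 0 < e x) (ν : ι → Measure ℝ)
    [∀ i, IsProbabilityMeasure (ν i)] {y : ι} {S : Set (ι → ℂ)} (hS : MeasurableSet S)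
    {C : ℝ≥0∞} (h : RP A E e ν y S C) {Φ : (ι → ℂ) → ℝ≥0∞} (hΦ : Measurable Φ) :
    ∫⁻ v, S.indicator (fun W => ENNReal.ofReal (mm A W y) * hcE A W y Φ) (WV E e v)
        ∂(Measure.pi ν) ≤
      C * ∫⁻ v, ENNReal.ofReal (mm A (WV E e v) y) * Φ (WV E e v) ∂(Measure.pi ν) := by
  have hm1 : Measurable fun v : ι → ℝ =>
      S.indicator (fun W => ENNReal.ofReal (mm A W y) * hcE A W y Φ) (WV E e v) :=
    (((measurable_mmW y).ennreal_ofReal.mul (measurable_hcE y hΦ)).indicator hS).comp
      (measurable_WV E e)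
  have hm2 : Measurable fun v : ι → ℝ =>
      ENNReal.ofReal (mm A (WV E e v) y) * Φ (WV E e v) :=
    (((measurable_mmW y).ennreal_ofReal.mul hΦ)).comp (measurable_WV E e)
  have hup : Measurable fun p : (ι → ℝ) × ℝ => Function.update p.1 y p.2 := measurable_update'
  have hm3 : Measurable fun v : ι → ℝ =>
      ∫⁻ s, ENNReal.ofReal (mm A (WV E e (Function.update v y s)) y) *
        Φ (WV E e (Function.update v y s)) ∂(ν y) := by
    have h4 : Measurable fun p : (ι → ℝ) × ℝ =>
        ENNReal.ofReal (mm A (WV E e (Function.update p.1 y p.2)) y) *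
          Φ (WV E e (Function.update p.1 y p.2)) := hm2.comp hup
    exact h4.lintegral_prod_right'
  rw [MAff.lintegral_resample ν y hm1, MAff.lintegral_resample ν y hm2,
    ← lintegral_const_mul C hm3]
  refine lintegral_mono fun v => ?_
  · by_cases hex : ∃ s0 : ℝ, WV E e (Function.update v y s0) ∈ S
    · obtain ⟨s0, hs0⟩ := hex
      have h1 := h _ hs0 Φ hΦ
      simp only [Function.update_idem] at h1
      refine le_trans ?_ h1
      have hinv : ∀ s : ℝ, hcE A (WV E e (Function.update v y s)) y Φ =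
          hcE A (WV E e (Function.update v y s0)) y Φ := by
        intro s
        rw [WV_upd, WV_upd, hcE_upd hA (WV_neg he v), hcE_upd hA (WV_neg he v)]
      have hline : Measurable fun s : ℝ => Function.update v y s :=
        hup.comp (measurable_const.prodMk measurable_id)
      have hml : Measurable fun s : ℝ =>
          ENNReal.ofReal (mm A (WV E e (Function.update v y s)) y) :=
        ((measurable_mmW y).ennreal_ofReal.comp (measurable_WV E e)).comp hline
      rw [← lintegral_mul_const _ hml]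
      refine lintegral_mono fun s => ?_
      refine (Set.indicator_le_self _ _ _).trans (le_of_eq ?_)
      simp only
      rw [hinv s]
    · push Not at hex
      have : ∀ s : ℝ, S.indicator (fun W => ENNReal.ofReal (mm A W y) * hcE A W y Φ)
          (WV E e (Function.update v y s)) = 0 := fun s =>
        Set.indicator_of_notMem (hex s) _
      simp only [this, lintegral_zero]
      exact zero_le

end P365L.T2.X968
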