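import Vale.Agent.P365.T2.Static423

/-!
# P365-T2: the static step in general form.

An arbitrary relation `St w u` (meaning: `w` is moving and strongly coupled to `u`) replaces the condition
`κ_wu ≥ ε₂`; `X` contains the second indices of `R`.  Only triples with `R u x`, `St w u`, `w ≠ x`,
`u ≠ w` enter `Λ`, and only `x ∈ X` enter `M2` and the total energy of `T`.
-/

set_option linter.all false

namespace P365T2.StaticGen

open Matrix Complex P365L P365T2.Static
open scoped ComplexConjugate

variable {ι : Type*} [Fintype ι] [DecidableEq ι]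
variable {A : Matrix ι ι ℝ} {W : ι → ℂ} {a : ι → ℝ}

/-- **STATIC STEP, pathwise, general form.** -/
theorem static_gen (hA : A.IsSymm) (hW : ∀ x, (W x).im < 0) (R : ι → ι → Prop)
    [∀ u x, Decidable (R u x)] (St : ι → ι → Prop) [∀ w u, Decidable (St w u)] (X : ι → Prop)
    [DecidablePred X] {e1 e2 δ : ℝ} (he1 : 0 < e1) (he2 : 0 < e2) (hδ : 0 < δ)
    (hX : ∀ u x, R u x → X x) (hR1 : ∀ u x, R u x → u ≠ x)
    (hR2 : ∀ u x, R u x → e1 ≤ kap A W u x)
    (hSt : ∀ u x w, R u x → St w u → e2 ≤ kap A W w u)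
    (hR3 : ∀ u x, R u x → ∑ w ∈ Finset.univ.filter (fun w => ¬ St w u), PP A W u w ≤ δ) :
    ∑ u, ∑ x, (if R u x then (-(W u).im) * (-(W x).im) * ‖Ym A W a u x‖ ^ 2 else 0) ≤
      144 * ((∑ u, ∑ x, if R u x then
          (-(W u).im) * (-(W x).im) * (kap A W u x * ‖Tm A W a u x‖ ^ 2) else 0) / e1 +
        (∑ x, if X x then (-(W x).im) * (mm A W x * muf A W a x ^ 2) else 0) +
        (∑ w, ∑ x, if w ≠ x then (-(W w).im) * (-(W x).im) * (‖Tm A W a w x‖ ^ 2 *
          ∑ u, if R u x ∧ St w u ∧ u ≠ w then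
            (-(W u).im) * mm A W u * (kap A W w u * kap A W u x) else 0) else 0) / (e1 * e2) +
        δ / e1 * ∑ w, ∑ x, if X x then
          (-(W w).im) * (-(W x).im) * ‖Tm A W a w x‖ ^ 2 else 0) := by
  classical
  set e : ι → ℝ := fun x => -(W x).im with he
  have hepos : ∀ x, 0 < e x := fun x => by simp only [he]; linarith [hW x]
  set t : ι → ι → ℝ := fun w x => ‖Tm A W a w x‖ with ht
  set g : ι → ι → ℝ := fun w u => ‖Gr A W w u‖ with hg
  set y : ι → ι → ℝ := fun u x => if R u x then ‖Ym A W a u x‖ else 0 with hy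
  have ht0 : ∀ w x, 0 ≤ t w x := fun w x => norm_nonneg _
  have hg0 : ∀ w x, 0 ≤ g w x := fun w x => norm_nonneg _
  have hy0 : ∀ u x, 0 ≤ y u x := fun u x => by
    simp only [hy]; split_ifs
    · exact norm_nonneg _
    · exact le_rfl
  have hm0 : ∀ x, 0 < mm A W x := mm_pos hA hW
  -- the energy of `R`
  set S : ℝ := ∑ u, ∑ x, e u * e x * y u x ^ 2 with hS
  have hSS : ∑ u, ∑ x, (if R u x then (-(W u).im) * (-(W x).im) * ‖Ym A W a u x‖ ^ 2 else 0) = S := by
    refine Finset.sum_congr rfl fun u _ => Finset.sum_congr rfl fun x _ => ?_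
    by_cases h : R u x
    · simp only [hy, if_pos h]; rfl
    · simp only [hy, if_neg h]; ring
  have hS0 : 0 ≤ S := Finset.sum_nonneg fun u _ => Finset.sum_nonneg fun x _ =>
    mul_nonneg (mul_nonneg (hepos u).le (hepos x).le) (sq_nonneg _)
  -- step 1: norms in the identity
  have h1 : S / 4 ≤ ∑ w, ∑ x, e w * e x * (t w x * ((1 / 2) * y w x + ∑ u, g w u * (e u * y u x))) := by
    have hq := quad_identity (a := a) hA hW R
    rw [hSS] at hq
    have hn : ‖((1 / 4 * S : ℝ) : ℂ)‖ = S / 4 := by
      rw [Complex.norm_real, Real.norm_of_nonneg (by positivity)]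
      ring
    rw [← hn, hq]
    refine (norm_sum_le _ _).trans (Finset.sum_le_sum fun w _ => ?_)
    refine (norm_sum_le _ _).trans (Finset.sum_le_sum fun x _ => ?_)
    rw [norm_mul, norm_mul, norm_mul, Complex.norm_real, Complex.norm_real, RCLike.norm_conj,
      Real.norm_of_nonneg (hepos w).le, Real.norm_of_nonneg (hepos x).le]
    have h2 : ‖(I / 2) * (if R w x then Ym A W a w x else 0) +
        ∑ u, conj (Gr A W w u) * (((-(W u).im : ℝ) : ℂ) * (if R u x then Ym A W a u x else 0))‖ ≤
        (1 / 2) * y w x + ∑ u, g w u * (e u * y u x) := by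
      refine (norm_add_le _ _).trans (add_le_add ?_ ?_)
      · rw [norm_mul]
        have : ‖(I / 2 : ℂ)‖ = 1 / 2 := by simp
        rw [this]
        refine mul_le_mul_of_nonneg_left ?_ (by norm_num)
        simp only [hy]
        split_ifs
        · exact le_rfl
        · simp
      · refine (norm_sum_le _ _).trans (Finset.sum_le_sum fun u _ => ?_)
        rw [norm_mul, norm_mul, RCLike.norm_conj, Complex.norm_real,
          Real.norm_of_nonneg (hepos u).le]
        refine mul_le_mul_of_nonneg_left (mul_le_mul_of_nonneg_left ?_ (hepos u).le) (hg0 _ _)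
        simp only [hy]
        split_ifs
        · exact le_rfl
        · simp
    exact mul_le_mul_of_nonneg_left (mul_le_mul_of_nonneg_left h2 (ht0 w x))
      (mul_nonneg (hepos w).le (hepos x).le)
  -- step 2: pointwise bound of a triple
  have h2 : ∀ w x u, e w * e x * (t w x * (g w u * (e u * y u x))) ≤
      (if u = w then e w * e x * (t w x * y w x) else 0) +
      (if w = x then e x * e u * ((if X x then 8 * (e x ^ 2 * t x x ^ 2 * g x u ^ 2) else 0) +
        1 / 32 * y u x ^ 2) else 0) +
      (if w ≠ x then e w * e x * (t w x ^ 2 * ((8 / (e1 * e2)) * (if R u x ∧ St w u ∧ u ≠ w then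
        e u * mm A W u * (kap A W w u * kap A W u x) else 0))) else 0) +
      (1 / 32) * (e u * e x * y u x ^ 2 * (e w * g w u ^ 2 / mm A W u)) +
      (8 * δ / e1) * ((if X x then e w * e x * t w x ^ 2 else 0) *
        (e u * mm A W u * kap A W u x)) +
      (1 / (32 * δ)) * (e u * e x * y u x ^ 2 *
        (if ¬ St w u then e w * g w u ^ 2 / mm A W u else 0)) := by
    intro w x u
    have hew := hepos w
    have hex := hepos x
    have heu := hepos u
    have hmu := hm0 u
    have hk1 := kap_nonneg hA hW w u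
    have hk2 := kap_nonneg hA hW u x
    have n1 : 0 ≤ (if u = w then e w * e x * (t w x * y w x) else 0) := by
      split_ifs
      · exact mul_nonneg (mul_nonneg hew.le hex.le) (mul_nonneg (ht0 _ _) (hy0 _ _))
      · exact le_rfl
    have n2 : 0 ≤ (if w = x then e x * e u * ((if X x then 8 * (e x ^ 2 * t x x ^ 2 * g x u ^ 2)
        else 0) + 1 / 32 * y u x ^ 2) else 0) := by
      split_ifs <;> positivity
    have n3 : 0 ≤ (if w ≠ x then e w * e x * (t w x ^ 2 * ((8 / (e1 * e2)) *
        (if R u x ∧ St w u ∧ u ≠ w then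
          e u * mm A W u * (kap A W w u * kap A W u x) else 0))) else 0) := by
      split_ifs <;> positivity
    have n4 : 0 ≤ (1 / 32) * (e u * e x * y u x ^ 2 * (e w * g w u ^ 2 / mm A W u)) := by positivity
    have n5 : 0 ≤ (8 * δ / e1) * ((if X x then e w * e x * t w x ^ 2 else 0) *
        (e u * mm A W u * kap A W u x)) := by
      split_ifs <;> positivity
    have n6 : 0 ≤ (1 / (32 * δ)) * (e u * e x * y u x ^ 2 *
        (if ¬ St w u then e w * g w u ^ 2 / mm A W u else 0)) := by
      split_ifs <;> positivity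
    by_cases hR : R u x
    swap
    · have : y u x = 0 := by simp only [hy, if_neg hR]
      have hz : e w * e x * (t w x * (g w u * (e u * y u x))) = 0 := by rw [this]; ring
      linarith
    by_cases huw : u = w
    · subst huw
      have h3 : e u * e x * (t u x * (g u u * (e u * y u x))) ≤ e u * e x * (t u x * y u x) := by
        have h4 : g u u * (e u * y u x) ≤ y u x := by
          have h5 := e_mul_norm_self_le hA hW u
          have h6 : g u u * (e u * y u x) = (e u * g u u) * y u x := by ring
          rw [h6]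
          calc (e u * g u u) * y u x ≤ 1 * y u x := mul_le_mul_of_nonneg_right h5 (hy0 _ _)
            _ = y u x := one_mul _
        exact mul_le_mul_of_nonneg_left (mul_le_mul_of_nonneg_left h4 (ht0 _ _)) (by positivity)
      rw [if_pos rfl] at n1 ⊢
      linarith
    by_cases hwx : w = x
    · subst hwx
      have h3 : e w * e w * (t w w * (g w u * (e u * y u w))) ≤
          e w * e u * (8 * (e w ^ 2 * t w w ^ 2 * g w u ^ 2) + 1 / 32 * y u w ^ 2) := by
        have h4 : e w * (t w w * (g w u * y u w)) ≤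
            8 * (e w ^ 2 * t w w ^ 2 * g w u ^ 2) + 1 / 32 * y u w ^ 2 := by
          nlinarith [sq_nonneg (16 * (e w * t w w * g w u) - y u w)]
        calc e w * e w * (t w w * (g w u * (e u * y u w)))
            = e w * e u * (e w * (t w w * (g w u * y u w))) := by ring
          _ ≤ _ := mul_le_mul_of_nonneg_left h4 (by positivity)
      have hXw : X w := hX u w hR
      rw [if_pos rfl, if_pos hXw] at n2
      rw [if_pos hXw] at n5
      rw [if_pos rfl, if_pos hXw, if_pos hXw]
      linarith
    have hXx : X x := hX u x hR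
    by_cases hk : ¬ St w u
    · have h3 := amgm_weak (t := t w x) (g := g w u) (y := y u x) hmu he1 hδ (hR2 u x hR)
      have h4 : e w * e x * (t w x * (g w u * (e u * y u x))) ≤
          (8 * δ / e1) * (e w * e x * t w x ^ 2 * (e u * mm A W u * kap A W u x)) +
          (1 / (32 * δ)) * (e u * e x * y u x ^ 2 * (e w * g w u ^ 2 / mm A W u)) := by
        calc e w * e x * (t w x * (g w u * (e u * y u x)))
            = (e w * e x * e u) * (t w x * g w u * y u x) := by ring
          _ ≤ (e w * e x * e u) * ((8 * δ / e1) * (t w x ^ 2 * mm A W u * kap A W u x) +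
              (1 / (32 * δ)) * (g w u ^ 2 * y u x ^ 2 / mm A W u)) :=
              mul_le_mul_of_nonneg_left h3 (by positivity)
          _ = _ := by ring
      simp only [if_pos hk, if_pos hXx] at n2 n5 n6 ⊢
      linarith
    · rw [not_not] at hk
      have h3 := amgm_strong (t := t w x) (g := g w u) (y := y u x) hmu he1 he2 (hR2 u x hR)
        (hSt u x w hR hk)
      have h4 : e w * e x * (t w x * (g w u * (e u * y u x))) ≤
          e w * e x * (t w x ^ 2 * ((8 / (e1 * e2)) *
            (e u * mm A W u * (kap A W w u * kap A W u x)))) +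
          (1 / 32) * (e u * e x * y u x ^ 2 * (e w * g w u ^ 2 / mm A W u)) := by
        calc e w * e x * (t w x * (g w u * (e u * y u x)))
            = (e w * e x * e u) * (t w x * g w u * y u x) := by ring
          _ ≤ (e w * e x * e u) * ((8 / (e1 * e2)) *
              (t w x ^ 2 * mm A W u * (kap A W w u * kap A W u x)) +
              (1 / 32) * (g w u ^ 2 * y u x ^ 2 / mm A W u)) :=
              mul_le_mul_of_nonneg_left h3 (by positivity)
          _ = _ := by ring
      have hc : R u x ∧ St w u ∧ u ≠ w := ⟨hR, hk, huw⟩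
      rw [if_pos hwx, if_pos hc] at n3 ⊢
      linarith
  -- step 3: summation
  set J : ℝ := ∑ u, ∑ x, if R u x then
      (-(W u).im) * (-(W x).im) * (kap A W u x * ‖Tm A W a u x‖ ^ 2) else 0 with hJ
  set M : ℝ := ∑ x, if X x then (-(W x).im) * (mm A W x * muf A W a x ^ 2) else 0 with hM
  set L : ℝ := ∑ w, ∑ x, if w ≠ x then (-(W w).im) * (-(W x).im) * (‖Tm A W a w x‖ ^ 2 *
      ∑ u, if R u x ∧ St w u ∧ u ≠ w then
        (-(W u).im) * mm A W u * (kap A W w u * kap A W u x) else 0) else 0 with hL
  set Q : ℝ := ∑ w, ∑ x, if X x then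
      (-(W w).im) * (-(W x).im) * ‖Tm A W a w x‖ ^ 2 else 0 with hQ
  have hrow : ∀ u, ∑ w, e w * g w u ^ 2 / mm A W u = 1 := by
    intro u
    rw [← PP_sum hA hW u]
    refine Finset.sum_congr rfl fun w _ => ?_
    rw [PP, KK_symm hA u w, KK]
  -- s1
  have s1 : ∑ w, ∑ x, ∑ u, (if u = w then e w * e x * (t w x * y w x) else 0) =
      ∑ w, ∑ x, e w * e x * (t w x * y w x) := by
    refine Finset.sum_congr rfl fun w _ => Finset.sum_congr rfl fun x _ => ?_
    rw [Finset.sum_ite_eq' Finset.univ w]
    simp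
  -- s2
  have s2 : ∑ w, ∑ x, ∑ u, (if w = x then e x * e u *
      ((if X x then 8 * (e x ^ 2 * t x x ^ 2 * g x u ^ 2) else 0) +
      1 / 32 * y u x ^ 2) else 0) ≤ 8 * M + S / 32 := by
    have h3 : ∀ w, ∑ x, ∑ u, (if w = x then e x * e u *
        ((if X x then 8 * (e x ^ 2 * t x x ^ 2 * g x u ^ 2) else 0) +
        1 / 32 * y u x ^ 2) else 0) = ∑ u, e w * e u *
        ((if X w then 8 * (e w ^ 2 * t w w ^ 2 * g w u ^ 2) else 0) +
        1 / 32 * y u w ^ 2) := by
      intro w
      rw [Finset.sum_eq_single w]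
      · exact Finset.sum_congr rfl fun u _ => if_pos rfl
      · intro b _ hb
        exact Finset.sum_eq_zero fun u _ => if_neg (Ne.symm hb)
      · intro h; exact absurd (Finset.mem_univ w) h
    rw [Finset.sum_congr rfl fun w _ => h3 w]
    have h4 : ∀ w, ∑ u, e w * e u * ((if X w then 8 * (e w ^ 2 * t w w ^ 2 * g w u ^ 2) else 0) +
        1 / 32 * y u w ^ 2) =
        8 * (if X w then e w ^ 3 * t w w ^ 2 * mm A W w else 0) +
          (1 / 32) * ∑ u, e u * e w * y u w ^ 2 := by
      intro w
      by_cases hXw : X w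
      · simp only [if_pos hXw]
        rw [mm_eq hA hW w, Finset.mul_sum, Finset.mul_sum, Finset.mul_sum,
          ← Finset.sum_add_distrib]
        refine Finset.sum_congr rfl fun u _ => ?_
        rw [KK]
        ring
      · simp only [if_neg hXw]
        rw [mul_zero, zero_add, Finset.mul_sum]
        refine Finset.sum_congr rfl fun u _ => ?_
        ring
    rw [Finset.sum_congr rfl fun w _ => h4 w, Finset.sum_add_distrib, ← Finset.mul_sum,
      ← Finset.mul_sum]
    have h5 : ∑ w, (if X w then e w ^ 3 * t w w ^ 2 * mm A W w else 0) ≤ M := by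
      refine Finset.sum_le_sum fun w _ => ?_
      by_cases hXw : X w
      swap
      · rw [if_neg hXw, if_neg hXw]
      rw [if_pos hXw, if_pos hXw]
      have h6 : t w w ^ 2 = (mm A W w * muf A W a w) ^ 2 := by
        simp only [ht]
        rw [Tm_self hA hW, Complex.norm_real, Real.norm_eq_abs, sq_abs]
      rw [h6]
      have h7 := e_mul_mm_le_one hA hW w
      have h8 : 0 ≤ e w * mm A W w := mul_nonneg (hepos w).le (hm0 w).le
      have h9 : (e w * mm A W w) ^ 2 ≤ 1 := pow_le_one₀ h8 h7
      calc e w ^ 3 * (mm A W w * muf A W a w) ^ 2 * mm A W w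
          = (e w * mm A W w) ^ 2 * (e w * (mm A W w * muf A W a w ^ 2)) := by ring
        _ ≤ 1 * (e w * (mm A W w * muf A W a w ^ 2)) :=
            mul_le_mul_of_nonneg_right h9 (mul_nonneg (hepos w).le
              (mul_nonneg (hm0 w).le (sq_nonneg _)))
        _ = (-(W w).im) * (mm A W w * muf A W a w ^ 2) := by rw [one_mul]
    have h6 : ∑ w, ∑ u, e u * e w * y u w ^ 2 = S := by
      rw [hS, Finset.sum_comm]
    rw [h6]
    linarith
  -- s3
  have s3 : ∑ w, ∑ x, ∑ u, (if w ≠ x then e w * e x * (t w x ^ 2 * ((8 / (e1 * e2)) *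
      (if R u x ∧ St w u ∧ u ≠ w then
        e u * mm A W u * (kap A W w u * kap A W u x) else 0))) else 0) = (8 / (e1 * e2)) * L := by
    rw [hL, Finset.mul_sum]
    refine Finset.sum_congr rfl fun w _ => ?_
    rw [Finset.mul_sum]
    refine Finset.sum_congr rfl fun x _ => ?_
    by_cases h : w ≠ x
    · rw [if_pos h, Finset.sum_congr rfl fun u _ => if_pos h, ← Finset.mul_sum, ← Finset.mul_sum,
        ← Finset.mul_sum]
      ring
    · rw [if_neg h, Finset.sum_congr rfl fun u _ => if_neg h]
      simp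
  -- s4
  have s4 : ∑ w, ∑ x, ∑ u, (1 / 32) * (e u * e x * y u x ^ 2 * (e w * g w u ^ 2 / mm A W u)) =
      S / 32 := by
    have h3 : ∑ w, ∑ x, ∑ u, (1 / 32) * (e u * e x * y u x ^ 2 * (e w * g w u ^ 2 / mm A W u)) =
        ∑ x, ∑ u, ∑ w, (1 / 32) * (e u * e x * y u x ^ 2 * (e w * g w u ^ 2 / mm A W u)) := by
      rw [Finset.sum_comm]
      refine Finset.sum_congr rfl fun x _ => ?_
      rw [Finset.sum_comm]
    rw [h3]
    have h4 : ∀ x u, ∑ w, (1 / 32) * (e u * e x * y u x ^ 2 * (e w * g w u ^ 2 / mm A W u)) =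
        (1 / 32) * (e u * e x * y u x ^ 2) := by
      intro x u
      rw [← Finset.mul_sum, ← Finset.mul_sum, hrow u, mul_one]
    rw [Finset.sum_congr rfl fun x _ => Finset.sum_congr rfl fun u _ => h4 x u, Finset.sum_comm]
    rw [hS, Finset.sum_div]
    refine Finset.sum_congr rfl fun u _ => ?_
    rw [Finset.sum_div]
    refine Finset.sum_congr rfl fun x _ => ?_
    ring
  -- s5
  have s5 : ∑ w, ∑ x, ∑ u, (8 * δ / e1) *
      ((if X x then e w * e x * t w x ^ 2 else 0) * (e u * mm A W u * kap A W u x)) ≤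
        (8 * δ / e1) * Q := by
    rw [hQ, Finset.mul_sum]
    refine Finset.sum_le_sum fun w _ => ?_
    rw [Finset.mul_sum]
    refine Finset.sum_le_sum fun x _ => ?_
    rw [← Finset.mul_sum, ← Finset.mul_sum]
    have h3 := sum_kap_le_one hA hW x
    have h4 : 0 ≤ (if X x then e w * e x * t w x ^ 2 else 0) := by
      have := hepos w
      have := hepos x
      split_ifs <;> positivity
    have h5 : (if X x then e w * e x * t w x ^ 2 else 0) * ∑ u, e u * mm A W u * kap A W u x ≤
        (if X x then e w * e x * t w x ^ 2 else 0) * 1 := mul_le_mul_of_nonneg_left h3 h4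
    rw [mul_one] at h5
    exact mul_le_mul_of_nonneg_left h5 (by positivity)
  -- s6
  have s6 : ∑ w, ∑ x, ∑ u, (1 / (32 * δ)) * (e u * e x * y u x ^ 2 *
      (if ¬ St w u then e w * g w u ^ 2 / mm A W u else 0)) ≤ S / 32 := by
    have h3 : ∑ w, ∑ x, ∑ u, (1 / (32 * δ)) * (e u * e x * y u x ^ 2 *
        (if ¬ St w u then e w * g w u ^ 2 / mm A W u else 0)) =
        ∑ x, ∑ u, ∑ w, (1 / (32 * δ)) * (e u * e x * y u x ^ 2 *
        (if ¬ St w u then e w * g w u ^ 2 / mm A W u else 0)) := by
      rw [Finset.sum_comm]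
      refine Finset.sum_congr rfl fun x _ => ?_
      rw [Finset.sum_comm]
    rw [h3, Finset.sum_comm, hS, Finset.sum_div]
    refine Finset.sum_le_sum fun u _ => ?_
    rw [Finset.sum_div]
    refine Finset.sum_le_sum fun x _ => ?_
    rw [← Finset.mul_sum, ← Finset.mul_sum]
    by_cases hR : R u x
    · have h4 : ∑ w, (if ¬ St w u then e w * g w u ^ 2 / mm A W u else 0) ≤ δ := by
        rw [← Finset.sum_filter]
        refine le_trans (le_of_eq (Finset.sum_congr rfl fun w _ => ?_)) (hR3 u x hR)
        rw [PP, KK_symm hA u w, KK]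
      have h5 : 0 ≤ e u * e x * y u x ^ 2 := by
        have := hepos u
        have := hepos x
        positivity
      calc 1 / (32 * δ) * (e u * e x * y u x ^ 2 *
            ∑ w, (if ¬ St w u then e w * g w u ^ 2 / mm A W u else 0))
          ≤ 1 / (32 * δ) * (e u * e x * y u x ^ 2 * δ) :=
            mul_le_mul_of_nonneg_left (mul_le_mul_of_nonneg_left h4 h5) (by positivity)
        _ = e u * e x * y u x ^ 2 / 32 := by field_simp
    · have h4 : y u x = 0 := by simp only [hy, if_neg hR]
      rw [h4]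
      simp
  -- diagonal part in `J`
  have s0 : (3 / 2) * ∑ w, ∑ x, e w * e x * (t w x * y w x) ≤ 18 * J / e1 + S / 32 := by
    have h3 : ∀ w x, (3 / 2) * (e w * e x * (t w x * y w x)) ≤
        18 / e1 * (if R w x then (-(W w).im) * (-(W x).im) * (kap A W w x * ‖Tm A W a w x‖ ^ 2)
          else 0) + (1 / 32) * (e w * e x * y w x ^ 2) := by
      intro w x
      by_cases hR : R w x
      · rw [if_pos hR]
        have hk := hR2 w x hR
        have h4 : (3 / 2) * (t w x * y w x) ≤ 18 / e1 * (kap A W w x * t w x ^ 2) +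
            (1 / 32) * y w x ^ 2 := by
          have h5 : 18 * t w x ^ 2 ≤ 18 / e1 * (kap A W w x * t w x ^ 2) := by
            have h6 : 18 / e1 * (e1 * t w x ^ 2) = 18 * t w x ^ 2 := by field_simp
            rw [← h6]
            gcongr
          nlinarith [sq_nonneg (24 * t w x - y w x)]
        have h7 : 0 ≤ e w * e x := mul_nonneg (hepos w).le (hepos x).le
        calc (3 / 2) * (e w * e x * (t w x * y w x)) = e w * e x * ((3 / 2) * (t w x * y w x)) := by
              ring
          _ ≤ e w * e x * (18 / e1 * (kap A W w x * t w x ^ 2) + (1 / 32) * y w x ^ 2) :=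
              mul_le_mul_of_nonneg_left h4 h7
          _ = _ := by simp only [he, ht]; ring
      · have h4 : y w x = 0 := by simp only [hy, if_neg hR]
        rw [if_neg hR, h4]
        simp
    rw [Finset.mul_sum]
    have h4 : 18 * J / e1 + S / 32 = ∑ w, ∑ x, (18 / e1 * (if R w x then
        (-(W w).im) * (-(W x).im) * (kap A W w x * ‖Tm A W a w x‖ ^ 2) else 0) +
        (1 / 32) * (e w * e x * y w x ^ 2)) := by
      simp only [Finset.sum_add_distrib, ← Finset.mul_sum]
      rw [← hJ, ← hS]
      ring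
    rw [h4]
    refine Finset.sum_le_sum fun w _ => ?_
    rw [Finset.mul_sum]
    exact Finset.sum_le_sum fun x _ => h3 w x
  -- put together
  have h4 : ∑ w, ∑ x, e w * e x * (t w x * ((1 / 2) * y w x + ∑ u, g w u * (e u * y u x))) ≤
      (1 / 2) * (∑ w, ∑ x, e w * e x * (t w x * y w x)) +
      ((∑ w, ∑ x, e w * e x * (t w x * y w x)) + (8 * M + S / 32) + (8 / (e1 * e2)) * L + S / 32 +
        (8 * δ / e1) * Q + S / 32) := by
    have h5 : ∑ w, ∑ x, e w * e x * (t w x * ((1 / 2) * y w x + ∑ u, g w u * (e u * y u x))) =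
        (1 / 2) * (∑ w, ∑ x, e w * e x * (t w x * y w x)) +
        ∑ w, ∑ x, ∑ u, e w * e x * (t w x * (g w u * (e u * y u x))) := by
      rw [Finset.mul_sum, ← Finset.sum_add_distrib]
      refine Finset.sum_congr rfl fun w _ => ?_
      rw [Finset.mul_sum, ← Finset.sum_add_distrib]
      refine Finset.sum_congr rfl fun x _ => ?_
      rw [← Finset.mul_sum, ← Finset.mul_sum]
      ring
    rw [h5]
    refine add_le_add le_rfl ?_
    refine (Finset.sum_le_sum fun w _ => Finset.sum_le_sum fun x _ =>
      Finset.sum_le_sum fun u _ => h2 w x u).trans ?_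
    simp only [Finset.sum_add_distrib]
    rw [s1, s3, s4]
    linarith
  rw [hSS]
  have h5 : S ≤ 8 * (18 * J / e1 + 8 * M + (8 / (e1 * e2)) * L + (8 * δ / e1) * Q) := by
    linarith
  have hM0 : 0 ≤ M := Finset.sum_nonneg fun x _ => by
    split_ifs
    · exact mul_nonneg (hepos x).le (mul_nonneg (hm0 x).le (sq_nonneg _))
    · exact le_rfl
  have hQ0 : 0 ≤ Q := Finset.sum_nonneg fun w _ => Finset.sum_nonneg fun x _ => by
    split_ifs
    · exact mul_nonneg (mul_nonneg (hepos w).le (hepos x).le) (sq_nonneg _)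
    · exact le_rfl
  have hL0 : 0 ≤ L := Finset.sum_nonneg fun w _ => Finset.sum_nonneg fun x _ => by
    split_ifs
    · exact mul_nonneg (mul_nonneg (hepos w).le (hepos x).le) (mul_nonneg (sq_nonneg _)
        (Finset.sum_nonneg fun u _ => by
          split_ifs
          · exact mul_nonneg (mul_nonneg (hepos u).le (hm0 u).le)
              (mul_nonneg (kap_nonneg hA hW w u) (kap_nonneg hA hW u x))
          · exact le_rfl))
    · exact le_rfl
  have hLe : 0 ≤ L / (e1 * e2) := div_nonneg hL0 (mul_pos he1 he2).le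
  have hQe : 0 ≤ δ / e1 * Q := mul_nonneg (div_nonneg hδ.le he1.le) hQ0
  have h6 : 8 * (18 * J / e1 + 8 * M + (8 / (e1 * e2)) * L + (8 * δ / e1) * Q) =
      144 * (J / e1) + 64 * M + 64 * (L / (e1 * e2)) + 64 * (δ / e1 * Q) := by ring
  rw [h6] at h5
  linarith

end P365T2.StaticGen
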