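import Vale.Agent.P365.T2.OneDet2_905
import Vale.Agent.P365.T2.StaticGen423

/-!
# P365-T2, ONE: the deterministic half on a Green function (helper905)
-/

set_option linter.all false

namespace P365T2.H905

open Matrix Complex P365L P365T2.Static P365T2.StaticGen
open scoped ComplexConjugate

variable {ι κ : Type*} [Fintype ι] [iD : DecidableEq ι] [Fintype κ]

/-- the datum of a Green function, a family of position functions and row weights -/
noncomputable def datOf (A : Matrix ι ι ℝ) (W : ι → ℂ) (hA : A.IsSymm) (hW : ∀ x, (W x).im < 0)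
    (F : κ → ι → ℝ) (om : ι → ℝ) (h0 : ∀ x, 0 ≤ om x) (h1 : ∀ x, om x ≤ 1) : Dat ι κ where
  e := fun x => -(W x).im
  m := mm A W
  K := KK A W
  a := F
  om := om
  he := fun x => by linarith [hW x]
  hm := mm_pos hA hW
  hK := fun x y => KK_nonneg x y
  hsym := KK_symm hA
  hW := fun x => (mm_eq hA hW x).symm
  hom0 := h0
  hom1 := h1

section

variable {A : Matrix ι ι ℝ} {W : ι → ℂ} (hA : A.IsSymm) (hW : ∀ x, (W x).im < 0)
  (F : κ → ι → ℝ) (om : ι → ℝ) (h0 : ∀ x, 0 ≤ om x) (h1 : ∀ x, om x ≤ 1)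

/-- `|T^j_zw|^2` -/
noncomputable def T2of (A : Matrix ι ι ℝ) (W : ι → ℂ) (F : κ → ι → ℝ) (j : κ) (z w : ι) : ℝ :=
  ‖Tm A W (F j) z w‖ ^ 2

/-- `mu^j_x ^ 2` -/
noncomputable def mu2of (A : Matrix ι ι ℝ) (W : ι → ℂ) (F : κ → ι → ℝ) (j : κ) (x : ι) : ℝ :=
  muf A W (F j) x ^ 2

theorem T2of_nonneg (j : κ) (z w : ι) : 0 ≤ T2of A W F j z w := sq_nonneg _

theorem mu2of_nonneg (j : κ) (x : ι) : 0 ≤ mu2of A W F j x := sq_nonneg _

theorem datOf_kap (u x : ι) : (datOf A W hA hW F om h0 h1).kap u x = kap A W u x := rfl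

theorem datOf_P (u x : ι) : (datOf A W hA hW F om h0 h1).P u x = PP A W u x := rfl

theorem datOf_pw (u : ι) : (datOf A W hA hW F om h0 h1).pw u = (-(W u).im) * mm A W u := rfl

/-- the energy identity, summed over the family -/
theorem datOf_TE :
    ∑ j, ∑ w, ∑ x, (datOf A W hA hW F om h0 h1).e w * (datOf A W hA hW F om h0 h1).e x *
      T2of A W F j w x ≤ (datOf A W hA hW F om h0 h1).En / 4 := by
  have h : ∑ j, ∑ w, ∑ x, (datOf A W hA hW F om h0 h1).e w *
      (datOf A W hA hW F om h0 h1).e x * T2of A W F j w x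
      = ∑ j, (1 / 4) * ∑ z, ∑ w, (-(W z).im) * (-(W w).im) * KK A W z w * (F j z - F j w) ^ 2 := by
    apply Finset.sum_congr rfl
    intro j _
    exact energy_identity (a := F j) hA hW
  rw [h, ← Finset.mul_sum]
  have h2 : (datOf A W hA hW F om h0 h1).En
      = ∑ j, ∑ z, ∑ w, (-(W z).im) * (-(W w).im) * KK A W z w * (F j z - F j w) ^ 2 := by
    unfold Dat.En Dat.d2
    rw [Finset.sum_comm (s := (Finset.univ : Finset κ))]
    apply Finset.sum_congr rfl
    intro z _
    rw [Finset.sum_comm]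
    apply Finset.sum_congr rfl
    intro w _
    rw [Finset.mul_sum]
    rfl
  rw [h2]
  apply le_of_eq
  ring

/-- the static step, in the form consumed by `one_det` / `det_le` -/
theorem datOf_StatH :
    Ker.StatH (datOf A W hA hW F om h0 h1) (T2of A W F) (mu2of A W F) := by
  intro j R iR St iSt X iX iE e1 e2 δ he1 he2 hδ hX hR1 hR2 hSt hR3
  have hi : iE = iD := Subsingleton.elim _ _
  subst hi
  have key := static_gen (A := A) (W := W) (a := F j) hA hW R St X he1 he2 hδ hX hR1
    (fun u x h => hR2 u x h) (fun u x w h h' => hSt u x w h h') (fun u x h => hR3 u x h)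
  have e : ∀ u x : ι, ‖Ym A W (F j) u x‖ ^ 2 = (F j u - F j x) ^ 2 * KK A W u x := by
    intro u x
    unfold Ym KK
    rw [norm_mul, mul_pow, ← Complex.ofReal_sub, Complex.norm_real, Real.norm_eq_abs, sq_abs]
  have e2' : ∑ u, ∑ x, (if R u x then (-(W u).im) * (-(W x).im) * ‖Ym A W (F j) u x‖ ^ 2 else 0)
      = ∑ u, ∑ x, (if R u x then (datOf A W hA hW F om h0 h1).e u *
        (datOf A W hA hW F om h0 h1).e x * (((datOf A W hA hW F om h0 h1).a j u -
          (datOf A W hA hW F om h0 h1).a j x) ^ 2 * (datOf A W hA hW F om h0 h1).K u x)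
        else 0) := by
    apply Finset.sum_congr rfl
    intro u _
    apply Finset.sum_congr rfl
    intro x _
    rw [e]
    rfl
  rw [e2'] at key
  exact key

end

end P365T2.H905
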