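import Vale.Agent.P365.T2.OneDet2_905
import Vale.Agent.P365.T2.H320.KerR

/-!
# P365-T2, ONE: the top scales of `(om)` (helper905)

The metric of the truncated field saturates at `2^J`; at the scales `s ≥ k0` every row counts as
heavy, and this is paid by the fourth moment of the energy.
-/

set_option linter.all false

namespace P365T2.H905

open Finset P365T2.H37 P365T2.H320K

variable {ι κ : Type*} [Fintype ι] [Fintype κ]

/-- `∑_{s ≥ k0} w_s t ≤ t² / 4^{k0-1}` -/
theorem sum_top_wk {J k0 : ℕ} (h1 : 1 ≤ k0) (h2 : k0 ≤ J + 1) {t : ℝ} (ht : 0 ≤ t) :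
    ∑ s ∈ (range (J + 2)).filter (fun s => k0 ≤ s), wk J s t ≤ t ^ 2 / 4 ^ (k0 - 1) := by
  have h3 : (range (J + 2)).filter (fun s => k0 ≤ s) = Ico k0 (J + 2) := by
    ext s
    simp only [mem_filter, mem_range, mem_Ico]
    omega
  rw [h3]
  have h4 : ∑ s ∈ Ico k0 (J + 2), wk J s t = Hc J (J + 2) t - Hc J k0 t := by
    unfold wk
    rw [Finset.sum_Ico_eq_sub _ (by omega), sum_range_sub (fun k => Hc J k t),
      sum_range_sub (fun k => Hc J k t)]
    ring
  rw [h4, Hc_top]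
  unfold Hc
  rw [if_neg (by omega), if_pos h2]
  unfold P365T2.H37.hk
  have h5 : (0 : ℝ) < 4 ^ (k0 - 1) := by positivity
  have h6 : t - 4 ^ (k0 - 1) * t / (4 ^ (k0 - 1) + t) = t ^ 2 / (4 ^ (k0 - 1) + t) := by
    field_simp
    ring
  rw [h6]
  exact div_le_div_of_nonneg_left (sq_nonneg t) h5 (by linarith)

open Classical in
/-- the heavy predicate with all rows at the top scales -/
theorem BH_top (D : Dat ι κ) {J k0 : ℕ} (h1 : 1 ≤ k0) (h2 : k0 ≤ J + 1) {c1 : ℝ} (hc1 : 0 < c1)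
    (Mv : Finset ι) (H1 H2 : ℕ → ι → Prop) (h12 : ∀ s v, s < k0 → H1 s v → H2 s v) :
    (kerR D J).BH Mv c1 H1
      ≤ (kerR D J).BH Mv c1 H2
        + 1 / (c1 * 4 ^ (k0 - 1)) * ∑ v, ∑ x, D.e v * D.e x * D.K v x * D.d2 v x ^ 2 := by
  set k := kerR D J with hk
  have hop : ∀ v, 0 ≤ D.om v * D.pw v := fun v => mul_nonneg (D.hom0 v) (D.pw_pos v).le
  -- the top scales
  have h3 : k.BH Mv c1 H1
      ≤ k.BH Mv c1 H2
        + ∑ s ∈ k.Sc.filter (fun s => k0 ≤ s), k.rad s ^ 2 * ∑ v, 1 / c1 * (D.pw v * k.u s v) := by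
    unfold Ker.BH
    rw [Finset.sum_filter, ← Finset.sum_add_distrib]
    apply Finset.sum_le_sum
    intro s hs
    have e2 : 0 ≤ k.rad s ^ 2 * ∑ v ∈ Mv.filter (fun v => c1 ≤ k.u s v),
        (if H2 s v then D.om v * D.pw v else 0) := by
      apply mul_nonneg (sq_nonneg _)
      apply Finset.sum_nonneg
      intro v _
      split_ifs
      · exact hop v
      · exact le_rfl
    by_cases hsk : k0 ≤ s
    · rw [if_pos hsk]
      have e1 : ∑ v ∈ Mv.filter (fun v => c1 ≤ k.u s v),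
          (if H1 s v then D.om v * D.pw v else 0)
          ≤ ∑ v, 1 / c1 * (D.pw v * k.u s v) := by
        calc ∑ v ∈ Mv.filter (fun v => c1 ≤ k.u s v),
              (if H1 s v then D.om v * D.pw v else 0)
            ≤ ∑ v ∈ Mv.filter (fun v => c1 ≤ k.u s v), 1 / c1 * (D.pw v * k.u s v) := by
              apply Finset.sum_le_sum
              intro v hv
              have hv' := (Finset.mem_filter.1 hv).2
              have h4 : 1 ≤ 1 / c1 * k.u s v := by
                rw [div_mul_eq_mul_div, le_div_iff₀ hc1]; linarith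
              have h5 : D.om v * D.pw v ≤ D.pw v := by
                have := D.hom1 v
                have := (D.pw_pos v).le
                nlinarith
              have h6 := mul_le_mul_of_nonneg_left h4 (D.pw_pos v).le
              have h7 : (if H1 s v then D.om v * D.pw v else 0) ≤ D.om v * D.pw v := by
                split_ifs
                · exact le_rfl
                · exact hop v
              calc (if H1 s v then D.om v * D.pw v else 0) ≤ D.pw v * 1 := by
                    rw [mul_one]; exact h7.trans h5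
                _ ≤ D.pw v * (1 / c1 * k.u s v) := h6
                _ = _ := by ring
          _ ≤ _ := Finset.sum_le_sum_of_subset_of_nonneg (Finset.subset_univ _)
              fun v _ _ => mul_nonneg (by positivity)
                (mul_nonneg (D.pw_pos v).le (k.u_nonneg s v))
      have e3 := mul_le_mul_of_nonneg_left e1 (sq_nonneg (k.rad s))
      linarith
    · rw [if_neg hsk, add_zero]
      apply mul_le_mul_of_nonneg_left _ (sq_nonneg _)
      apply Finset.sum_le_sum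
      intro v _
      by_cases hH : H1 s v
      · rw [if_pos hH, if_pos (h12 s v (not_le.1 hsk) hH)]
      · rw [if_neg hH]
        split_ifs
        · exact hop v
        · exact le_rfl
  -- the content of the top scales
  have h4 : ∑ s ∈ k.Sc.filter (fun s => k0 ≤ s), k.rad s ^ 2 * ∑ v, 1 / c1 * (D.pw v * k.u s v)
      ≤ 1 / (c1 * 4 ^ (k0 - 1)) * ∑ v, ∑ x, D.e v * D.e x * D.K v x * D.d2 v x ^ 2 := by
    have e1 : ∑ s ∈ k.Sc.filter (fun s => k0 ≤ s), k.rad s ^ 2 * ∑ v, 1 / c1 * (D.pw v * k.u s v)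
        = ∑ v, ∑ x, 1 / c1 * (D.pw v * D.P v x) *
          ∑ s ∈ (range (J + 2)).filter (fun s => k0 ≤ s), wk J s (D.d2 v x) := by
      simp only [Ker.u, Finset.mul_sum]
      rw [Finset.sum_comm]
      apply Finset.sum_congr rfl
      intro v _
      rw [Finset.sum_comm]
      apply Finset.sum_congr rfl
      intro x _
      apply Finset.sum_congr (by rw [hk, kerR_Sc])
      intro s _
      rw [hk, kerR_rad_sq, kerR_w, uk]
      have := (rho_pos s).ne'
      field_simp
    rw [e1, Finset.mul_sum]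
    apply Finset.sum_le_sum
    intro v _
    rw [Finset.mul_sum]
    apply Finset.sum_le_sum
    intro x _
    have e2 := sum_top_wk h1 h2 (D.d2_nonneg v x)
    have e3 : 0 ≤ 1 / c1 * (D.pw v * D.P v x) :=
      mul_nonneg (by positivity) (mul_nonneg (D.pw_pos v).le (D.P_nonneg v x))
    have e4 : D.pw v * D.P v x = D.e v * D.e x * D.K v x := by
      unfold Dat.pw Dat.P
      have := (D.hm v).ne'
      field_simp
    calc 1 / c1 * (D.pw v * D.P v x) *
          ∑ s ∈ (range (J + 2)).filter (fun s => k0 ≤ s), wk J s (D.d2 v x)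
        ≤ 1 / c1 * (D.pw v * D.P v x) * (D.d2 v x ^ 2 / 4 ^ (k0 - 1)) :=
          mul_le_mul_of_nonneg_left e2 e3
      _ = _ := by
          rw [e4]
          field_simp
  linarith

open Classical in
/-- **(om)** with the heavy predicate at the scales `s < k0` only -/
theorem om_top (D : Dat ι κ) {J k0 : ℕ} (h1 : 1 ≤ k0) (h2 : k0 ≤ J + 1)
    {Mv Z : Finset ι} {θ c1 : ℝ} {sv : ι → ℕ} {pos : ℝ → ℝ → ℝ}
    {q0 L CF M ε : ℝ} (hθ : 0 < θ) (hc1 : 0 < c1) (hC : 0 < CF) (hM : 0 < M) (hq : 0 < q0)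
    (hL : 0 < L) (hε : 0 < ε) (hεh : ε ≤ 1 / 2) (hsv : (kerR D J).Scl Mv θ c1 sv)
    (hp0 : ∀ a b, 0 ≤ a → 0 ≤ b → 0 ≤ pos a b)
    (hp : ∀ a b, c1 ≤ a → 0 ≤ b → b ≤ q0 → M ≤ pos a b) (Hv : ℕ → ι → Prop)
    (hHv : ∀ s, s < k0 → ∀ v, CF < ∑ x ∈ univ.filter
      (fun x => D.dd v x ≤ L * (kerR D J).rad s), D.pw x * (kerR D J).u s x → Hv s v)
    (H2 : ℕ → ι → Prop) (h12 : ∀ s v, s < k0 → Hv s v → H2 s v) :
    Om D Mv Z θ ε ≤ 4 / (θ * M) * (kerR D J).Pos pos Mv + 2 / L * D.En
        + 4 / (θ * q0) * Ker.BadE D Z + 2 * ε * CF / q0 * D.En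
        + 4 / θ * (kerR D J).BH Mv c1 H2
        + 4 / (θ * (c1 * 4 ^ (k0 - 1))) *
          ∑ v, ∑ x, D.e v * D.e x * D.K v x * D.d2 v x ^ 2 := by
  have h3 := (kerR D J).om_le (Z := Z) hθ hC hM hq hL hε hεh hsv hp0 hp
    (fun s v => s < k0 → Hv s v) (fun s _ v h hs => hHv s hs v h)
  have h4 := BH_top D h1 h2 hc1 Mv (fun s v => s < k0 → Hv s v) H2
    (fun s v hs h => h12 s v hs (h hs))
  have h5 := mul_le_mul_of_nonneg_left h4 (show 0 ≤ 4 / θ by positivity)
  have h6 : 4 / θ * (1 / (c1 * 4 ^ (k0 - 1)) *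
      ∑ v, ∑ x, D.e v * D.e x * D.K v x * D.d2 v x ^ 2)
      = 4 / (θ * (c1 * 4 ^ (k0 - 1))) *
        ∑ v, ∑ x, D.e v * D.e x * D.K v x * D.d2 v x ^ 2 := by
    have : (0:ℝ) < 4 ^ (k0 - 1) := by positivity
    field_simp
  rw [mul_add, h6] at h5
  rw [mul_one] at h3
  linarith

/-- balls of the truncated metric at low scales -/
theorem ball_low {R t ℓ : ℝ} (hR : 0 < R) (ht : 0 ≤ t) (hℓ : ℓ ≤ R / 4)
    (h : P365T2.H37.hk R t ≤ ℓ) : t ≤ 4 / 3 * ℓ := by
  unfold P365T2.H37.hk at h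
  have h1 : 0 < R + t := by linarith
  rw [div_le_iff₀ h1] at h
  have h2 : 3 / 4 * R * t ≤ R * ℓ := by nlinarith
  have h3 : R * (3 / 4 * t) ≤ R * ℓ := by linarith
  have h4 := le_of_mul_le_mul_left h3 hR
  linarith

end P365T2.H905
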