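import Vale.Agent.P365.V4.Free227

/-!
# P365-T2: numbers for the free floor `b` (`exp (-(r_I) ^ A) ≤ b ≤ 1`, `A ≤ 5 β`), factors `tF`
-/

set_option linter.all false

namespace P365T2.SeqF

open P365T2.SeqG P365V4.Free Filter
open scoped ENNReal

variable {β : ℕ} [hβ : Fact (2 ≤ β)] {rs I A : ℕ} {b : ℝ}

theorem log_tF_of_le {i : ℕ} (hi : i ≤ I) :
    Real.log (1 / tF β rs I b i) ≤ 4 + (rr β rs i : ℝ) + (rr β rs i : ℝ) ^ 5 := by
  rw [tF_of_le hi]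
  exact log_inv_t_of_le hi

omit hβ in
theorem log_tF_last (hb : Real.exp (-((rr β rs I : ℝ) ^ A)) ≤ b) :
    Real.log (1 / tF β rs I b (I + 1)) ≤ 4 + (rr β rs I : ℝ) ^ A := by
  have hb0 : 0 < b := (Real.exp_pos _).trans_le hb
  rw [tF_last, one_div, Real.log_inv, Real.log_div hb0.ne' (by norm_num)]
  have h1 : -((rr β rs I : ℝ) ^ A) ≤ Real.log b := by
    rw [← Real.log_exp (-((rr β rs I : ℝ) ^ A))]
    exact Real.log_le_log (Real.exp_pos _) hb
  have h2 : Real.log 33 ≤ 4 := by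
    have h3 : (33 : ℝ) ≤ Real.exp 4 := by
      have h4 : (2.7182818283 : ℝ) < Real.exp 1 := Real.exp_one_gt_d9
      have h5 : Real.exp 4 = Real.exp 1 ^ 4 := by
        rw [← Real.exp_nat_mul]
        norm_num
      rw [h5]
      calc (33 : ℝ) ≤ 2.7182818283 ^ 4 := by norm_num
        _ ≤ Real.exp 1 ^ 4 := pow_le_pow_left₀ (by norm_num) h4.le 4
    calc Real.log 33 ≤ Real.log (Real.exp 4) := Real.log_le_log (by norm_num) h3
      _ = 4 := Real.log_exp 4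
  linarith

theorem log_tF_nonneg (hb0 : 0 < b) (hb1 : b ≤ 1) (i : ℕ) :
    0 ≤ Real.log (1 / tF β rs I b i) := by
  refine Real.log_nonneg ?_
  rw [le_div_iff₀ (tF_pos hb0 i), one_mul]
  exact tF_le_one hb1 i

theorem pow_big (h : 2 ≤ rs) (i : ℕ) : (1024 : ℝ) ≤ (rr β rs i : ℝ) ^ (5 * β) := by
  have h2 := two_le_cast_rr (β := β) h i
  have h3 : (2 : ℝ) ^ 10 ≤ (rr β rs i : ℝ) ^ 10 := pow_le_pow_left₀ (by norm_num) h2 10
  have h4 : (rr β rs i : ℝ) ^ 10 ≤ (rr β rs i : ℝ) ^ (5 * β) :=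
    pow_le_pow_right₀ (by linarith) (by have := hβ.out; omega)
  calc (1024 : ℝ) = 2 ^ 10 := by norm_num
    _ ≤ _ := h3.trans h4

theorem le_pow5β (h : 2 ≤ rs) (i : ℕ) : (rr β rs (i + 1) : ℝ) ≤ (rr β rs i : ℝ) ^ (5 * β) := by
  have h2 := two_le_cast_rr (β := β) h i
  rw [rr_succ_cast]
  exact pow_le_pow_right₀ (by linarith) (by omega)

/-- **the logarithmic lengths of the stages**, free floor -/
theorem log_tF (h : 2 ≤ rs) (hA : A ≤ 5 * β) (hb : Real.exp (-((rr β rs I : ℝ) ^ A)) ≤ b)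
    {i : ℕ} (hi : i ≤ I) :
    Real.log (1 / tF β rs I b (i + 1)) ≤ 3 * (rr β rs i : ℝ) ^ (5 * β) := by
  rcases Nat.lt_or_ge i I with hlt | hge
  · rw [tF_of_le (show i + 1 ≤ I by omega)]
    exact log_inv_t h hi
  · obtain rfl : i = I := le_antisymm hi hge
    have h1 := log_tF_last (A := A) hb
    have h2 := two_le_cast_rr (β := β) h i
    have h3 : (rr β rs i : ℝ) ^ A ≤ (rr β rs i : ℝ) ^ (5 * β) :=
      pow_le_pow_right₀ (by linarith) hA
    have h4 := pow_big (β := β) h i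
    linarith

/-- log length + `r_{i+1} ^ 5` + `r_{i+1}` -/
theorem log_tF_add (h : 2 ≤ rs) (hA : A ≤ 5 * β) (hb : Real.exp (-((rr β rs I : ℝ) ^ A)) ≤ b)
    {i : ℕ} (hi : i ≤ I) :
    Real.log (1 / tF β rs I b (i + 1)) + (rr β rs (i + 1) : ℝ) ^ 5 + rr β rs (i + 1) ≤
      5 * (rr β rs i : ℝ) ^ (5 * β) := by
  have h1 := log_tF h hA hb hi
  have h2 := le_pow5β (β := β) h i
  have h3 := pow5β (β := β) (rs := rs) i
  linarith

/-- lower bound of the own absorption during stage `i + 1` -/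
theorem own_ge_F (h : 2 ≤ rs) (hA : A ≤ 5 * β) (hb : Real.exp (-((rr β rs I : ℝ) ^ A)) ≤ b)
    {i : ℕ} (hi : i ≤ I) :
    Real.exp (-(8 * (rr β rs i : ℝ) ^ (5 * β))) ≤
      tF β rs I b (i + 1) * (e0S β rs i * Real.exp (-(aS β rs i))) := by
  rcases Nat.lt_or_ge i I with hlt | hge
  · rw [tF_of_le (show i + 1 ≤ I by omega)]
    exact own_ge h hi
  · obtain rfl : i = I := le_antisymm hi hge
    have hb0 : 0 < b := (Real.exp_pos _).trans_le hb
    have h1 := log_tF (A := A) h hA hb le_rfl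
    have h0 := tF_pos (β := β) (rs := rs) (I := i) hb0 (i + 1)
    rw [one_div, Real.log_inv] at h1
    have h2 : Real.exp (-(3 * (rr β rs i : ℝ) ^ (5 * β))) ≤ tF β rs i b (i + 1) := by
      rw [← Real.exp_log h0]
      exact Real.exp_le_exp.2 (by linarith)
    have h3 := two_le_cast_rr (β := β) h i
    have h5 : (rr β rs i : ℝ) ≤ (rr β rs i : ℝ) ^ (5 * β) := by
      calc (rr β rs i : ℝ) = (rr β rs i : ℝ) ^ 1 := (pow_one _).symm
        _ ≤ _ := pow_le_pow_right₀ (by linarith) (by have := hβ.out; omega)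
    have h6 : (rr β rs i : ℝ) ^ 5 ≤ (rr β rs i : ℝ) ^ (5 * β) :=
      pow_le_pow_right₀ (by linarith) (by have := hβ.out; omega)
    calc Real.exp (-(8 * (rr β rs i : ℝ) ^ (5 * β)))
        ≤ Real.exp (-(3 * (rr β rs i : ℝ) ^ (5 * β)) + (-(rr β rs i : ℝ) +
          -((rr β rs i : ℝ) ^ 5))) := Real.exp_le_exp.2 (by
            have : 0 ≤ (rr β rs i : ℝ) ^ (5 * β) := by positivity
            linarith)
      _ = Real.exp (-(3 * (rr β rs i : ℝ) ^ (5 * β))) * (e0S β rs i * Real.exp (-(aS β rs i))) := by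
          rw [Real.exp_add, Real.exp_add]
          rfl
      _ ≤ _ := mul_le_mul_of_nonneg_right h2 (by
          have := e0S_pos (β := β) rs i
          positivity)

/-- tails of sums of `1 / r_i ^ 2` -/
theorem sum_inv_sq_tail (h : 2 ≤ rs) (i₀ n : ℕ) :
    ∑ i ∈ Finset.Ico i₀ n, (1 : ℝ) / (rr β rs i : ℝ) ^ 2 ≤ 1 / rr β rs i₀ := by
  have h2 := two_le_cast_rr (β := β) h i₀
  calc ∑ i ∈ Finset.Ico i₀ n, (1 : ℝ) / (rr β rs i : ℝ) ^ 2
      ≤ ∑ i ∈ Finset.Ico i₀ n, 1 / (rr β rs i₀ : ℝ) * (1 / rr β rs i) := by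
        refine Finset.sum_le_sum fun i hi => ?_
        rw [Finset.mem_Ico] at hi
        have h3 := two_le_cast_rr (β := β) h i
        have h4 : rr β rs i₀ ≤ rr β rs i := rr_mono (by omega) hi.1
        have h5 : (rr β rs i₀ : ℝ) ≤ rr β rs i := by exact_mod_cast h4
        rw [one_div_mul_one_div, pow_two]
        refine one_div_le_one_div_of_le (by nlinarith) ?_
        nlinarith
    _ = 1 / (rr β rs i₀ : ℝ) * ∑ i ∈ Finset.Ico i₀ n, (1 : ℝ) / rr β rs i := by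
        rw [Finset.mul_sum]
    _ ≤ 1 / (rr β rs i₀ : ℝ) * 1 := by
        refine mul_le_mul_of_nonneg_left ?_ (by positivity)
        refine le_trans (Finset.sum_le_sum_of_subset_of_nonneg (t := Finset.range n) ?_
          fun i _ _ => by positivity) (sum_inv_rr (β := β) h n)
        intro i hi
        rw [Finset.mem_Ico] at hi
        rw [Finset.mem_range]
        exact hi.2
    _ = _ := mul_one _

/-- **linear errors, late start**: rate `η_i ≤ 1 / r_i ^ (5 β + 2)` -/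
theorem htail_F (h : 2 ≤ rs) (hA : A ≤ 5 * β) (hb : Real.exp (-((rr β rs I : ℝ) ^ A)) ≤ b)
    (hb1 : b ≤ 1) (i₀ : ℕ) {Ca : ℝ} {η : ℕ → ℝ} (hCa : 0 ≤ Ca) (hη0 : ∀ i, 0 ≤ η i)
    (hη : ∀ i, η i ≤ 1 / (rr β rs i : ℝ) ^ (5 * β + 2)) :
    ∑ i ∈ Finset.Ico i₀ (I + 1), Ca * η i * Real.log (1 / tF β rs I b (i + 1)) ≤
      3 * Ca / rr β rs i₀ := by
  have hb0 : 0 < b := (Real.exp_pos _).trans_le hb
  calc ∑ i ∈ Finset.Ico i₀ (I + 1), Ca * η i * Real.log (1 / tF β rs I b (i + 1))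
      ≤ ∑ i ∈ Finset.Ico i₀ (I + 1), 3 * Ca * (1 / (rr β rs i : ℝ) ^ 2) := by
        refine Finset.sum_le_sum fun i hi => ?_
        rw [Finset.mem_Ico] at hi
        have h1 := log_tF (β := β) h hA hb (show i ≤ I by omega)
        have h2 := two_le_cast_rr (β := β) h i
        have h0 := log_tF_nonneg (β := β) (rs := rs) (I := I) hb0 hb1 (i + 1)
        calc Ca * η i * Real.log (1 / tF β rs I b (i + 1))
            ≤ Ca * (1 / (rr β rs i : ℝ) ^ (5 * β + 2)) * (3 * (rr β rs i : ℝ) ^ (5 * β)) := by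
              gcongr
              exact hη i
          _ = 3 * Ca * (1 / (rr β rs i : ℝ) ^ 2) := by
              rw [pow_add]
              field_simp
    _ = 3 * Ca * ∑ i ∈ Finset.Ico i₀ (I + 1), 1 / (rr β rs i : ℝ) ^ 2 := by
        rw [Finset.mul_sum]
    _ ≤ 3 * Ca * (1 / rr β rs i₀) :=
        mul_le_mul_of_nonneg_left (sum_inv_sq_tail (β := β) h i₀ (I + 1)) (by positivity)
    _ = _ := by ring

/-- **quadratic errors, late start**: rate `η_i ≤ 1 / r_i ^ (10 β + 2)` -/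
theorem htail_sq (h : 2 ≤ rs) (hA : A ≤ 5 * β) (hb : Real.exp (-((rr β rs I : ℝ) ^ A)) ≤ b)
    (hb1 : b ≤ 1) (i₀ : ℕ) {η : ℕ → ℝ} (hη0 : ∀ i, 0 ≤ η i)
    (hη : ∀ i, η i ≤ 1 / (rr β rs i : ℝ) ^ (10 * β + 2)) :
    ∑ i ∈ Finset.Ico i₀ (I + 1), η i * (Real.log (1 / tF β rs I b (i + 1)) +
      (rr β rs (i + 1) : ℝ) ^ 5 + rr β rs (i + 1)) ^ 2 ≤ 25 / rr β rs i₀ := by
  have hb0 : 0 < b := (Real.exp_pos _).trans_le hb
  calc ∑ i ∈ Finset.Ico i₀ (I + 1), η i * (Real.log (1 / tF β rs I b (i + 1)) +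
        (rr β rs (i + 1) : ℝ) ^ 5 + rr β rs (i + 1)) ^ 2
      ≤ ∑ i ∈ Finset.Ico i₀ (I + 1), 25 * (1 / (rr β rs i : ℝ) ^ 2) := by
        refine Finset.sum_le_sum fun i hi => ?_
        rw [Finset.mem_Ico] at hi
        have h1 := log_tF_add (β := β) h hA hb (show i ≤ I by omega)
        have h2 := two_le_cast_rr (β := β) h i
        have h0 := log_tF_nonneg (β := β) (rs := rs) (I := I) hb0 hb1 (i + 1)
        have h3 : (0 : ℝ) ≤ (rr β rs (i + 1) : ℝ) ^ 5 := by positivity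
        have h4 : (0 : ℝ) ≤ (rr β rs (i + 1) : ℝ) := Nat.cast_nonneg _
        calc η i * (Real.log (1 / tF β rs I b (i + 1)) +
              (rr β rs (i + 1) : ℝ) ^ 5 + rr β rs (i + 1)) ^ 2
            ≤ 1 / (rr β rs i : ℝ) ^ (10 * β + 2) * (5 * (rr β rs i : ℝ) ^ (5 * β)) ^ 2 := by
              gcongr
              exact hη i
          _ = 25 * (1 / (rr β rs i : ℝ) ^ 2) := by
              rw [mul_pow, ← pow_mul, show 5 * β * 2 = 10 * β by ring, pow_add]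
              field_simp
              norm_num
    _ = 25 * ∑ i ∈ Finset.Ico i₀ (I + 1), 1 / (rr β rs i : ℝ) ^ 2 := by
        rw [Finset.mul_sum]
    _ ≤ 25 * (1 / rr β rs i₀) :=
        mul_le_mul_of_nonneg_left (sum_inv_sq_tail (β := β) h i₀ (I + 1)) (by norm_num)
    _ = _ := by ring

omit hβ in
theorem sqrt_rate (rs i n : ℕ) :
    Real.sqrt (1 / (rr β rs i : ℝ) ^ (2 * n)) = 1 / (rr β rs i : ℝ) ^ n := by
  have h1 : (1 : ℝ) / (rr β rs i : ℝ) ^ (2 * n) = (1 / (rr β rs i : ℝ) ^ n) ^ 2 := by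
    rw [div_pow, one_pow, ← pow_mul, mul_comm n 2]
  rw [h1, Real.sqrt_sq (by positivity)]

/-- **the number of 227's request**: `K ≥ 2 (10 β + 2)`, square roots of the rates, squares of the
logarithmic lengths, any late start -/
theorem exists_late {K : ℕ} (hK : 2 * (10 * β + 2) ≤ K) {ε C : ℝ} (hε : 0 < ε) (hC : 0 ≤ C) :
    ∃ i₁ : ℕ, ∀ rs : ℕ, 2 ≤ rs → ∀ A : ℕ, A ≤ 5 * β → ∀ I : ℕ, ∀ b : ℝ,
      Real.exp (-((rr β rs I : ℝ) ^ A)) ≤ b → b ≤ 1 → ∀ i₀ : ℕ, i₁ ≤ i₀ →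
      ∑ i ∈ Finset.Ico i₀ (I + 1), C * Real.sqrt (1 / (rr β rs i : ℝ) ^ K) *
        (Real.log (1 / tF β rs I b (i + 1)) + (rr β rs (i + 1) : ℝ) ^ 5 +
          rr β rs (i + 1)) ^ 2 ≤ ε := by
  obtain ⟨i₁, hi₁⟩ := exists_nat_gt (25 * C / ε)
  refine ⟨i₁, fun rs h A hA I b hb hb1 i₀ hi => ?_⟩
  have h1 : ∀ i, Real.sqrt (1 / (rr β rs i : ℝ) ^ K) ≤ 1 / (rr β rs i : ℝ) ^ (10 * β + 2) := by
    intro i
    rw [← sqrt_rate (β := β) rs i (10 * β + 2)]
    refine Real.sqrt_le_sqrt ?_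
    have h2 := two_le_cast_rr (β := β) h i
    exact one_div_le_one_div_of_le (by positivity) (pow_le_pow_right₀ (by linarith) hK)
  have h3 := htail_sq (β := β) h hA hb hb1 i₀
    (η := fun i => Real.sqrt (1 / (rr β rs i : ℝ) ^ K)) (fun i => Real.sqrt_nonneg _) h1
  have h4 : (i₀ : ℝ) ≤ rr β rs i₀ := by exact_mod_cast (lt_rr (β := β) h i₀).le
  have h5 : (i₁ : ℝ) ≤ i₀ := by exact_mod_cast hi
  have h6 : 25 * C / ε < rr β rs i₀ := by linarith
  have h7 := two_le_cast_rr (β := β) h i₀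
  calc ∑ i ∈ Finset.Ico i₀ (I + 1), C * Real.sqrt (1 / (rr β rs i : ℝ) ^ K) *
        (Real.log (1 / tF β rs I b (i + 1)) + (rr β rs (i + 1) : ℝ) ^ 5 +
          rr β rs (i + 1)) ^ 2
      = C * ∑ i ∈ Finset.Ico i₀ (I + 1), Real.sqrt (1 / (rr β rs i : ℝ) ^ K) *
        (Real.log (1 / tF β rs I b (i + 1)) + (rr β rs (i + 1) : ℝ) ^ 5 +
          rr β rs (i + 1)) ^ 2 := by
        rw [Finset.mul_sum]
        exact Finset.sum_congr rfl fun i _ => by ring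
    _ ≤ C * (25 / rr β rs i₀) := mul_le_mul_of_nonneg_left h3 hC
    _ ≤ ε := by
        rw [div_lt_iff₀ hε] at h6
        rw [← mul_div_assoc, div_le_iff₀ (by linarith)]
        linarith

/-- linear version of `exists_late` -/
theorem exists_late_lin {K : ℕ} (hK : 5 * β + 2 ≤ K) {ε C : ℝ} (hε : 0 < ε) (hC : 0 ≤ C) :
    ∃ i₁ : ℕ, ∀ rs : ℕ, 2 ≤ rs → ∀ A : ℕ, A ≤ 5 * β → ∀ I : ℕ, ∀ b : ℝ,
      Real.exp (-((rr β rs I : ℝ) ^ A)) ≤ b → b ≤ 1 → ∀ i₀ : ℕ, i₁ ≤ i₀ →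
      ∑ i ∈ Finset.Ico i₀ (I + 1), C * (1 / (rr β rs i : ℝ) ^ K) *
        Real.log (1 / tF β rs I b (i + 1)) ≤ ε := by
  obtain ⟨i₁, hi₁⟩ := exists_nat_gt (3 * C / ε)
  refine ⟨i₁, fun rs h A hA I b hb hb1 i₀ hi => ?_⟩
  have h3 := htail_F (β := β) h hA hb hb1 i₀ (Ca := C)
    (η := fun i => 1 / (rr β rs i : ℝ) ^ K) hC (fun i => by positivity) (fun i => by
      have h2 := two_le_cast_rr (β := β) h i
      exact one_div_le_one_div_of_le (by positivity) (pow_le_pow_right₀ (by linarith) hK))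
  have h4 : (i₀ : ℝ) ≤ rr β rs i₀ := by exact_mod_cast (lt_rr (β := β) h i₀).le
  have h5 : (i₁ : ℝ) ≤ i₀ := by exact_mod_cast hi
  have h6 : 3 * C / ε < rr β rs i₀ := by linarith
  have h7 := two_le_cast_rr (β := β) h i₀
  refine h3.trans ?_
  rw [div_lt_iff₀ hε] at h6
  rw [div_le_iff₀ (by linarith)]
  linarith

/-- the full sum from the first stage on -/
theorem hsum_F (h : 2 ≤ rs) (hA : A ≤ 5 * β) (hb : Real.exp (-((rr β rs I : ℝ) ^ A)) ≤ b)
    (hb1 : b ≤ 1) {Ca : ℝ} {η : ℕ → ℝ} (hCa : 0 ≤ Ca) (hη0 : ∀ i, 0 ≤ η i)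
    (hη : ∀ i, η i ≤ 1 / (rr β rs i : ℝ) ^ (5 * β + 2)) :
    10 * Real.log (1 / tF β rs I b 0) +
      ∑ i ∈ Finset.range (I + 1), Ca * η i * Real.log (1 / tF β rs I b (i + 1)) ≤
      10 * (4 + (rs : ℝ) + (rs : ℝ) ^ 5) + 3 * Ca / rs := by
  have h1 := htail_F (β := β) h hA hb hb1 0 hCa hη0 hη
  rw [← Finset.range_eq_Ico, rr_zero] at h1
  have h2 := log_tF_of_le (β := β) (rs := rs) (b := b) (Nat.zero_le I)
  rw [rr_zero] at h2
  linarith

/-- the window `[e0_{i+1} / e0_i, 1]` of stage `i + 1` is inside the stage -/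
theorem tF_le_ratio (h : 2 ≤ rs) {i : ℕ} (hi : i < I) :
    tF β rs I b (i + 1) ≤ e0S β rs (i + 1) / e0S β rs i := by
  rw [tF_of_le (show i + 1 ≤ I by omega), tS_of_le (show i + 1 ≤ I by omega)]
  have h1 := e0S_pos (β := β) rs i
  have h2 := e0S_le_one (β := β) rs i
  have h3 := e0S_pos (β := β) rs (i + 1)
  have h4 : Real.exp (-(aS β rs (i + 1))) ≤ 1 :=
    Real.exp_le_one_iff.2 (by linarith [aS_nonneg (β := β) rs (i + 1)])
  have h5 := Real.exp_pos (-(aS β rs (i + 1)))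
  rw [le_div_iff₀ h1]
  have h6 : e0S β rs (i + 1) * Real.exp (-(aS β rs (i + 1))) / 33 ≤ e0S β rs (i + 1) := by
    have : e0S β rs (i + 1) * Real.exp (-(aS β rs (i + 1))) ≤ e0S β rs (i + 1) * 1 :=
      mul_le_mul_of_nonneg_left h4 h3.le
    linarith
  have h7 : 0 ≤ e0S β rs (i + 1) * Real.exp (-(aS β rs (i + 1))) / 33 := by positivity
  nlinarith

/-- logarithmic length of the window `[e0_{i+1} / e0_i, 1]` -/
theorem log_ratio (rs i : ℕ) :
    Real.log (1 / (e0S β rs (i + 1) / e0S β rs i)) = rr β rs (i + 1) - rr β rs i := by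
  have h1 := e0S_pos (β := β) rs i
  have h2 := e0S_pos (β := β) rs (i + 1)
  rw [one_div_div, Real.log_div h1.ne' h2.ne', e0S, e0S, Real.log_exp, Real.log_exp]
  ring

/-- the window is long -/
theorem log_ratio_ge (h : 2 ≤ rs) (i : ℕ) :
    (rr β rs i : ℝ) ≤ Real.log (1 / (e0S β rs (i + 1) / e0S β rs i)) := by
  rw [log_ratio, rr_succ_cast]
  have h2 := two_le_cast_rr (β := β) h i
  have h3 : (rr β rs i : ℝ) ^ 2 ≤ (rr β rs i : ℝ) ^ β :=
    pow_le_pow_right₀ (by linarith) hβ.out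
  nlinarith

end P365T2.SeqF
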