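import Vale.Agent.P365.T2.SeqF795
import Vale.Agent.P365.T2.H213.Spec
import Vale.Agent.P365.T2.H908.Mono

/-!
# P365-T2: numbers of X-KJSTAR (part c)

Transport of a functional through the stages `j + 1, …, i` of the world: sums of
`rate * polynomial * logarithmic length` from `j` on, product of the factors up to `j`, choice of
the modulus `gf`.
-/

set_option linter.all false

namespace P365T2.KJnum

open P365L P365O P365T1 P365L.TL P365T1.Conc P365T2.SeqG P365T2.SeqF P365V4.Free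
open P365T2.ConcG P365T2.H213 Filter
open scoped ENNReal

section gen

variable {β : ℕ} [hβ : Fact (2 ≤ β)] {rs I : ℕ} {b : ℝ}

theorem one_le_cast_rr (h : 2 ≤ rs) (i : ℕ) : (1 : ℝ) ≤ rr β rs i := by
  have := two_le_cast_rr (β := β) h i
  linarith

theorem succ_le_cast_rr (h : 2 ≤ rs) (i : ℕ) : ((i : ℝ) + 1) ≤ rr β rs i := by
  have := lt_rr (β := β) h i
  exact_mod_cast this

/-- rate times polynomial -/
theorem sum_rate {K p : ℕ} (h : 2 ≤ rs) (hK : p + 2 ≤ K) {c : ℝ} (hc : 0 ≤ c) {X : ℕ → ℝ}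
    {j i : ℕ} (hX : ∀ k, j ≤ k → k < i → X k ≤ c * (rr β rs k : ℝ) ^ p) :
    ∑ k ∈ Finset.Ico j i, 1 / (rr β rs k : ℝ) ^ K * X k ≤ c / ((j : ℝ) + 1) := by
  calc ∑ k ∈ Finset.Ico j i, 1 / (rr β rs k : ℝ) ^ K * X k
      ≤ ∑ k ∈ Finset.Ico j i, c * (1 / (rr β rs k : ℝ) ^ 2) := by
        refine Finset.sum_le_sum fun k hk => ?_
        rw [Finset.mem_Ico] at hk
        have h1 := one_le_cast_rr (β := β) h k
        have h2 : (0 : ℝ) < (rr β rs k : ℝ) ^ K := by positivity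
        have h3 : (rr β rs k : ℝ) ^ p * (rr β rs k : ℝ) ^ 2 ≤ (rr β rs k : ℝ) ^ K := by
          rw [← pow_add]
          exact pow_le_pow_right₀ h1 hK
        calc 1 / (rr β rs k : ℝ) ^ K * X k ≤ 1 / (rr β rs k : ℝ) ^ K * (c * (rr β rs k : ℝ) ^ p) :=
              mul_le_mul_of_nonneg_left (hX k hk.1 hk.2) (by positivity)
          _ = c * ((rr β rs k : ℝ) ^ p / (rr β rs k : ℝ) ^ K) := by ring
          _ ≤ c * (1 / (rr β rs k : ℝ) ^ 2) := by
              refine mul_le_mul_of_nonneg_left ?_ hc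
              rw [div_le_div_iff₀ h2 (by positivity), one_mul]
              exact h3
    _ = c * ∑ k ∈ Finset.Ico j i, 1 / (rr β rs k : ℝ) ^ 2 := by rw [Finset.mul_sum]
    _ ≤ c * (1 / rr β rs j) := mul_le_mul_of_nonneg_left (sum_inv_sq_tail (β := β) h j i) hc
    _ ≤ c * (1 / ((j : ℝ) + 1)) := by
        refine mul_le_mul_of_nonneg_left (one_div_le_one_div_of_le (by positivity)
          (succ_le_cast_rr h j)) hc
    _ = _ := by ring

/-- logarithmic length of a stage which is not the last one (no condition on `b`) -/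
theorem log_tF' (h : 2 ≤ rs) {k : ℕ} (hk : k < I) :
    Real.log (1 / tF β rs I b (k + 1)) ≤ 3 * (rr β rs k : ℝ) ^ (5 * β) := by
  rw [tF_of_le (show k + 1 ≤ I by omega)]
  exact log_inv_t h (show k ≤ I by omega)

theorem log_tF'_nonneg {k : ℕ} (hk : k < I) :
    0 ≤ Real.log (1 / tF β rs I b (k + 1)) := by
  rw [tF_of_le (show k + 1 ≤ I by omega)]
  exact log_inv_t_nonneg rs I (k + 1)

/-- **the sum of the transport**, explicit: `≤ 3 B c / (j + 1)`;
`q` = power of the logarithmic length -/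
theorem sum_KJ {K p q : ℕ} (h : 2 ≤ rs) (hK : p + 5 * β * q + 2 ≤ K) {B c : ℝ} (hB : 0 ≤ B)
    (hc : 0 ≤ c) {LL : ℕ → ℝ} {j i : ℕ} (hi : i ≤ I)
    (hL : ∀ k, j ≤ k → k < i → LL k ≤ c * (rr β rs k : ℝ) ^ p) :
    ∑ k ∈ Finset.Ico j i, B * (1 / (rr β rs k : ℝ) ^ K) * LL k *
      Real.log (1 / tF β rs I b (k + 1)) ^ q ≤ B * c * 3 ^ q / ((j : ℝ) + 1) := by
  have h1 := sum_rate (β := β) (K := K) (p := p + 5 * β * q) h hK
    (c := B * c * 3 ^ q) (by positivity)
    (X := fun k => B * LL k * Real.log (1 / tF β rs I b (k + 1)) ^ q) (j := j) (i := i)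
    (fun k hk hki => by
      have h2 := log_tF' (β := β) (b := b) h (show k < I by omega)
      have h3 := log_tF'_nonneg (β := β) (rs := rs) (b := b) (show k < I by omega)
      have h4 := hL k hk hki
      have h5 : (0 : ℝ) ≤ rr β rs k := Nat.cast_nonneg _
      calc B * LL k * Real.log (1 / tF β rs I b (k + 1)) ^ q
          ≤ B * (c * (rr β rs k : ℝ) ^ p) * (3 * (rr β rs k : ℝ) ^ (5 * β)) ^ q := by
            refine mul_le_mul (mul_le_mul_of_nonneg_left h4 hB) (pow_le_pow_left₀ h3 h2 q)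
              (pow_nonneg h3 q) (by positivity)
        _ = B * c * 3 ^ q * (rr β rs k : ℝ) ^ (p + 5 * β * q) := by
            rw [mul_pow, ← pow_mul, pow_add]
            ring)
  refine le_trans (le_of_eq ?_) h1
  refine Finset.sum_congr rfl fun k _ => ?_
  ring

/-- `r_{k+1}`, `a_{k+1}` and constants are at most `r_k ^ (5 β)` -/
theorem LL_le (h : 2 ≤ rs) (k : ℕ) {C : ℝ} (hC : 0 ≤ C) :
    (rr β rs (k + 1) : ℝ) + aS β rs (k + 1) + C ≤ (2 + C) * (rr β rs k : ℝ) ^ (5 * β) := by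
  have h1 := one_le_cast_rr (β := β) h (k + 1)
  have h2 := one_le_cast_rr (β := β) h k
  have h3 : (rr β rs (k + 1) : ℝ) ≤ (rr β rs k : ℝ) ^ (5 * β) := by
    rw [← pow5β]
    calc (rr β rs (k + 1) : ℝ) = (rr β rs (k + 1) : ℝ) ^ 1 := (pow_one _).symm
      _ ≤ _ := pow_le_pow_right₀ h1 (by norm_num)
  have h4 : aS β rs (k + 1) = (rr β rs k : ℝ) ^ (5 * β) := by
    unfold aS
    exact pow5β k
  have h5 : C ≤ C * (rr β rs k : ℝ) ^ (5 * β) :=
    le_mul_of_one_le_right hC (one_le_pow₀ h2)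
  rw [h4]
  linarith

end gen

/-! ### choice of the modulus -/

/-- **choice of `gf`**: `C2 j` = bound at the beginning of the stage `j`, `c / (j + 1)` = errors of
the stages from `j` on -/
theorem exists_gf (C2 : ℕ → ℝ) {c : ℝ} (hc : 0 ≤ c) :
    ∃ gf : ℝ → ℝ, (∀ r, 1 ≤ gf r) ∧ ∀ η : ℝ, 0 < η → ∃ i₀ : ℕ, ∀ i, i₀ ≤ i →
      ∀ r ∈ Set.Icc η 1, ∃ j, j ≤ i ∧ C2 j / gf r + c / ((j : ℝ) + 1) ≤ r := by
  set J : ℝ → ℕ := fun r => ⌈2 * c / r⌉₊ with hJ
  refine ⟨fun r => max 1 (2 * |C2 (J r)| / r), fun r => le_max_left _ _, fun η hη =>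
    ⟨J η, fun i hi r hr => ⟨J r, ?_, ?_⟩⟩⟩
  · refine le_trans ?_ hi
    refine Nat.ceil_le_ceil ?_
    exact div_le_div_of_nonneg_left (by positivity) hη hr.1
  · have hr0 : 0 < r := hη.trans_le hr.1
    have h1 : C2 (J r) / max 1 (2 * |C2 (J r)| / r) ≤ r / 2 := by
      have h2 : (0 : ℝ) < max 1 (2 * |C2 (J r)| / r) := lt_max_of_lt_left one_pos
      rw [div_le_iff₀ h2]
      have h3 : 2 * |C2 (J r)| / r ≤ max 1 (2 * |C2 (J r)| / r) := le_max_right _ _
      rw [div_le_iff₀ hr0] at h3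
      have h4 := le_abs_self (C2 (J r))
      nlinarith
    have h5 : c / ((J r : ℝ) + 1) ≤ r / 2 := by
      have h6 : 2 * c / r ≤ (J r : ℝ) := Nat.le_ceil _
      rw [div_le_iff₀ hr0] at h6
      rw [div_le_iff₀ (by positivity)]
      nlinarith
    linarith

/-! ### the concrete worlds -/

instance : Fact (2 ≤ 8) := ⟨by norm_num⟩

/-- product of the factors of the stages `k < j`; independent of `I`, `b`, `N` -/
noncomputable def thf (rs j : ℕ) : ℝ :=
  ∏ k ∈ Finset.range j, e0S 8 rs k * Real.exp (-(aS 8 rs k)) / 33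

theorem thf_pos (rs j : ℕ) : 0 < thf rs j :=
  Finset.prod_pos fun k _ => by
    have := e0S_pos (β := 8) rs k
    positivity

theorem th_World {lam : ℝ} {yf : ℕ → ℤ × ℤ} {Vsf : ℕ → ℤ × ℤ → ℝ} {rs I N : ℕ} [NeZero N]
    {b : ℝ} {fl : (PP 8 yf rs I).Lb → Tor N → ℝ} {b' : ℝ} {j : ℕ} (hj : j ≤ I + 1) :
    H908.th (World lam yf Vsf rs I N b fl b') j = thf rs j := by
  unfold H908.th thf
  refine Finset.prod_congr rfl fun k hk => ?_
  rw [Finset.mem_range] at hk
  show tF 8 rs I b k = _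
  rw [tF_of_le (show k ≤ I by omega), tS_of_le (show k ≤ I by omega)]

end P365T2.KJnum
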