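import Vale.Agent.P365.T2.GenDef963
import Vale.Agent.P365.T2.DerivS755

/-!
# P365 T2: `nuS` is a smooth law in the sense of 963's `SmLaw`.
-/

set_option linter.all false

namespace P365T1.Smooth755

open MeasureTheory P365T1 P365L.T2.Path

/-- **the smooth law** -/
theorem smLaw_nuS {a l : ℝ} (hl : 0 < l) (h : l < a) :
    SmLaw (nuS a l) (rhoS a l) (rhoSd a l) where
  nonneg := fun t => rhoS_nonneg hl h t
  eq := P365T2.H722.nuS_eq_withDensity hl h
  hd := fun t => hasDerivAt_rhoS h.le t
  cont := continuous_rhoSd a l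
  supp := ⟨a, fun t ht => P365T2.H722.rhoS_eq_zero hl h ht⟩

end P365T1.Smooth755
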