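import Vale.Agent.P365.T2.StrongGood968
import Vale.Agent.P365.T2.OneWire905
import Vale.Agent.P365.T2.H862.BadSum

/-!
# P365 T2, row X-STAT: final form (the fact `res` of 259 / 179), real expectations

`ZW A E lam M W = {x | x ∉ M or the pole of x is not good}`.  `JSW`, `MSW`, `LamSW` are 905's
`Ker.JS`, `Ker.MS`, `Ker.LamS` of `datOf` with `Z = ZW` (`JSW_eq`, `MSW_eq`, `LamSW_eq` : rfl).
`LossW = Σ_j Σ_{x∈M} e_x m_x μ_x²`, `BadW = Σ_j Σ_{x∈M bad} e_x Mf_x`.

`res_all : Ex JSW + Ex MSW + Ex LamSW ≤ CR (Ex LossW + Ex BadW)`.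
-/

set_option autoImplicit false
set_option linter.all false

namespace P365L.T2.X968

open MeasureTheory ProbabilityTheory Set P365L P365L.Stat P365O P365T1 Vale.Agent.P365.J376
open P365T2.H862 P365T2.H905
open P365L.T2 (ew ew_pos)
open Complex hiding eta
open scoped ComplexConjugate Real ENNReal Classical

variable {ι κ : Type*} [Fintype ι] [DecidableEq ι] [Fintype κ]
variable {A : Matrix ι ι ℝ} {E : ℝ} {e : ι → ℝ}

theorem pz_eq_pV (W : ι → ℂ) (y : ι) : pz A W E y = pV A E W y := by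
  unfold pz sz sg pV
  apply Complex.ext
  · simp
    ring
  · simp

/-- sites which are not moving or whose pole is not good -/
noncomputable def ZW (A : Matrix ι ι ℝ) (E lam : ℝ) (M : Finset ι) (W : ι → ℂ) : Finset ι :=
  Finset.univ.filter fun x => x ∉ M ∨ pz A W E x ∉ GdL lam

theorem not_mem_ZW {lam : ℝ} {M : Finset ι} {W : ι → ℂ} {x : ι} :
    x ∉ ZW A E lam M W ↔ x ∈ M ∧ W ∈ SG A E lam x := by
  unfold ZW
  rw [Finset.mem_filter, pz_eq_pV]
  simp only [Finset.mem_univ, true_and, not_or, not_not]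
  rfl

noncomputable def JSW (A : Matrix ι ι ℝ) (E lam : ℝ) (M : Finset ι) (F : κ → ι → ℝ) (ε1 : ℝ)
    (W : ι → ℂ) : ℝ :=
  ∑ j, ∑ u, ∑ x, if u ∉ ZW A E lam M W ∧ x ∉ ZW A E lam M W ∧ u ≠ x ∧ ε1 ≤ kap A W u x then
    (-(W u).im) * (-(W x).im) * (kap A W u x * T2of A W F j u x) else 0

noncomputable def MSW (A : Matrix ι ι ℝ) (E lam : ℝ) (M : Finset ι) (F : κ → ι → ℝ)
    (W : ι → ℂ) : ℝ :=
  ∑ j, ∑ x, if x ∉ ZW A E lam M W then (-(W x).im) * (mm A W x * mu2of A W F j x) else 0

noncomputable def LamSW (A : Matrix ι ι ℝ) (E lam : ℝ) (M : Finset ι) (F : κ → ι → ℝ)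
    (ε1 ε2 : ℝ) (W : ι → ℂ) : ℝ :=
  ∑ j, ∑ w, ∑ x, if w ∉ ZW A E lam M W ∧ x ∉ ZW A E lam M W ∧ w ≠ x then
    (-(W w).im) * (-(W x).im) * (T2of A W F j w x *
      ∑ u, if u ∉ ZW A E lam M W ∧ u ≠ w ∧ u ≠ x ∧ ε2 ≤ kap A W w u ∧ ε1 ≤ kap A W u x then
        (-(W u).im) * mm A W u * (kap A W w u * kap A W u x) else 0) else 0

/-- the loss of the moving sites -/
noncomputable def LossW (A : Matrix ι ι ℝ) (M : Finset ι) (F : κ → ι → ℝ) (W : ι → ℂ) : ℝ :=
  ∑ j, ∑ x ∈ M, (-(W x).im) * (mm A W x * muf A W (F j) x ^ 2)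

/-- the content of the bad moving sites -/
noncomputable def BadW (A : Matrix ι ι ℝ) (E lam : ℝ) (M : Finset ι) (F : κ → ι → ℝ)
    (W : ι → ℂ) : ℝ :=
  ∑ j, ∑ x ∈ M, if pz A W E x ∈ GdL lam then 0 else (-(W x).im) * Mf A W (F j) x

section wire

variable {W : ι → ℂ} (hA : A.IsSymm) (hW : ∀ x, (W x).im < 0)
  (F : κ → ι → ℝ) (om : ι → ℝ) (h0 : ∀ x, 0 ≤ om x) (h1 : ∀ x, om x ≤ 1)
  (lam : ℝ) (M : Finset ι) (ε1 ε2 : ℝ)

theorem ite_eq' {p : Prop} {i1 i2 : Decidable p} {a b a' b' : ℝ} (h : a = a') (h' : b = b') :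
    @ite ℝ p i1 a b = @ite ℝ p i2 a' b' := by
  subst h h'
  congr

theorem JSW_eq : JSW A E lam M F ε1 W =
    Ker.JS (datOf A W hA hW F om h0 h1) (T2of A W F) (ZW A E lam M W) ε1 := by
  unfold JSW Ker.JS
  refine Finset.sum_congr rfl fun j _ => Finset.sum_congr rfl fun u _ =>
    Finset.sum_congr rfl fun x _ => ?_
  exact ite_eq' rfl rfl

theorem MSW_eq : MSW A E lam M F W =
    Ker.MS (datOf A W hA hW F om h0 h1) (mu2of A W F) (ZW A E lam M W) := by
  unfold MSW Ker.MS
  refine Finset.sum_congr rfl fun j _ => Finset.sum_congr rfl fun x _ => ?_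
  exact ite_eq' rfl rfl

theorem LamSW_eq : LamSW A E lam M F ε1 ε2 W =
    Ker.LamS (datOf A W hA hW F om h0 h1) (T2of A W F) (ZW A E lam M W) ε1 ε2 := by
  unfold LamSW Ker.LamS
  refine Finset.sum_congr rfl fun j _ => Finset.sum_congr rfl fun w _ =>
    Finset.sum_congr rfl fun x _ => ?_
  refine ite_eq' ?_ rfl
  refine congrArg₂ (· * ·) rfl (congrArg₂ (· * ·) rfl ?_)
  refine Finset.sum_congr rfl fun u _ => ?_
  exact ite_eq' rfl rfl

end wire

/-! ### pointwise comparison -/

theorem sumM (M : Finset ι) (f : ι → ℝ) : ∑ u, (if u ∈ M then f u else 0) = ∑ u ∈ M, f u := by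
  rw [← Finset.sum_filter]
  refine Finset.sum_congr ?_ fun _ _ => rfl
  ext u
  simp

section pointwise

variable {W : ι → ℂ} {F : κ → ι → ℝ} {lam : ℝ} {M : Finset ι} {ε1 ε2 : ℝ}

theorem JSW_le (hA : A.IsSymm) (hW : ∀ x, (W x).im < 0) :
    JSW A E lam M F ε1 W ≤ ∑ j, Jst A (F j) M (SG A E lam) ε1 W := by
  unfold JSW Jst
  refine Finset.sum_le_sum fun j _ => ?_
  have hnn : ∀ u x, 0 ≤ (if W ∈ SG A E lam x ∧ ε1 ≤ kap A W u x then
      ew W u * ew W x * (kap A W u x * ‖Tm A W (F j) u x‖ ^ 2) else 0) := by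
    intro u x
    split_ifs
    · exact mul_nonneg (mul_nonneg (ew_pos hW u).le (ew_pos hW x).le)
        (mul_nonneg (kap_nonneg hA hW u x) (sq_nonneg _))
    · exact le_rfl
  have h1 : ∀ u x, (if u ∉ ZW A E lam M W ∧ x ∉ ZW A E lam M W ∧ u ≠ x ∧ ε1 ≤ kap A W u x then
      (-(W u).im) * (-(W x).im) * (kap A W u x * T2of A W F j u x) else 0) ≤
      (if u ∈ M then (if x ∈ M then (if W ∈ SG A E lam x ∧ ε1 ≤ kap A W u x then
        ew W u * ew W x * (kap A W u x * ‖Tm A W (F j) u x‖ ^ 2) else 0) else 0) else 0) := by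
    intro u x
    by_cases hc : u ∉ ZW A E lam M W ∧ x ∉ ZW A E lam M W ∧ u ≠ x ∧ ε1 ≤ kap A W u x
    · have hu := (not_mem_ZW.1 hc.1)
      have hx := (not_mem_ZW.1 hc.2.1)
      rw [if_pos hc, if_pos hu.1, if_pos hx.1, if_pos ⟨hx.2, hc.2.2.2⟩]
      exact le_rfl
    · rw [if_neg hc]
      by_cases hu : u ∈ M
      · by_cases hx : x ∈ M
        · rw [if_pos hu, if_pos hx]
          exact hnn u x
        · rw [if_pos hu, if_neg hx]
      · rw [if_neg hu]
  refine (Finset.sum_le_sum fun u _ => Finset.sum_le_sum fun x _ => h1 u x).trans (le_of_eq ?_)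
  rw [← Finset.sum_filter_add_sum_filter_not Finset.univ (fun u => u ∈ M)]
  have h2 : ∑ u ∈ Finset.univ.filter (fun u => ¬ u ∈ M), ∑ x, (if u ∈ M then (if x ∈ M then
      (if W ∈ SG A E lam x ∧ ε1 ≤ kap A W u x then
        ew W u * ew W x * (kap A W u x * ‖Tm A W (F j) u x‖ ^ 2) else 0) else 0) else 0) = 0 :=
    Finset.sum_eq_zero fun u hu => Finset.sum_eq_zero fun x _ =>
      if_neg (Finset.mem_filter.1 hu).2
  rw [h2, add_zero]
  have h3 : Finset.univ.filter (fun u : ι => u ∈ M) = M := by ext; simp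
  rw [h3]
  refine Finset.sum_congr rfl fun u hu => ?_
  simp only [if_pos hu]
  rw [← Finset.sum_filter, h3]

theorem MSW_le (hA : A.IsSymm) (hW : ∀ x, (W x).im < 0) :
    MSW A E lam M F W ≤ LossW A M F W := by
  unfold MSW LossW
  refine Finset.sum_le_sum fun j _ => ?_
  have h3 : Finset.univ.filter (fun u : ι => u ∈ M) = M := by ext; simp
  rw [← Finset.sum_filter]
  refine Finset.sum_le_sum_of_subset_of_nonneg ?_ fun x _ _ => ?_
  · intro x hx
    exact (not_mem_ZW.1 (Finset.mem_filter.1 hx).2).1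
  · exact mul_nonneg (by linarith [hW x]) (mul_nonneg (mm_pos hA hW x).le (sq_nonneg _))

theorem LamSW_le (hA : A.IsSymm) (hW : ∀ x, (W x).im < 0) :
    LamSW A E lam M F ε1 ε2 W ≤ ∑ j, Lst A (F j) M (SG A E lam) ε1 ε2 W := by
  classical
  unfold LamSW Lst
  refine Finset.sum_le_sum fun j _ => ?_
  have hk0 := fun u x => kap_nonneg (A := A) hA hW u x
  have hm0 := fun u => (mm_pos (A := A) hA hW u).le
  have he0 : ∀ u, 0 ≤ -(W u).im := fun u => by linarith [hW u]
  set q : ι → ι → ι → ℝ := fun w x u =>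
    if W ∈ SG A E lam u ∧ ε2 ≤ kap A W w u ∧ ε1 ≤ kap A W u x then
      ew W w * ew W x * ‖Tm A W (F j) w x‖ ^ 2 *
        (ew W u * mm A W u * (kap A W w u * kap A W u x)) else 0 with hq
  have hq0 : ∀ w x u, 0 ≤ q w x u := by
    intro w x u
    rw [hq]
    simp only
    split_ifs
    · exact mul_nonneg (mul_nonneg (mul_nonneg (he0 w) (he0 x)) (sq_nonneg _))
        (mul_nonneg (mul_nonneg (he0 u) (hm0 u)) (mul_nonneg (hk0 w u) (hk0 u x)))
    · exact le_rfl
  have h1 : ∀ w x, (if w ∉ ZW A E lam M W ∧ x ∉ ZW A E lam M W ∧ w ≠ x then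
      (-(W w).im) * (-(W x).im) * (T2of A W F j w x *
      ∑ u, if u ∉ ZW A E lam M W ∧ u ≠ w ∧ u ≠ x ∧ ε2 ≤ kap A W w u ∧ ε1 ≤ kap A W u x then
        (-(W u).im) * mm A W u * (kap A W w u * kap A W u x) else 0) else 0) ≤
      (if w ∈ M then (if x ∈ M then ∑ u ∈ M, q w x u else 0) else 0) := by
    intro w x
    by_cases hc : w ∉ ZW A E lam M W ∧ x ∉ ZW A E lam M W ∧ w ≠ x
    · have hw := (not_mem_ZW.1 hc.1)
      have hx := (not_mem_ZW.1 hc.2.1)
      rw [if_pos hc, if_pos hw.1, if_pos hx.1, ← mul_assoc, Finset.mul_sum]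
      rw [← sumM M (q w x)]
      refine Finset.sum_le_sum fun u _ => ?_
      by_cases hd : u ∉ ZW A E lam M W ∧ u ≠ w ∧ u ≠ x ∧ ε2 ≤ kap A W w u ∧ ε1 ≤ kap A W u x
      · have hu := (not_mem_ZW.1 hd.1)
        have h5 : W ∈ SG A E lam u ∧ ε2 ≤ kap A W w u ∧ ε1 ≤ kap A W u x :=
          ⟨hu.2, hd.2.2.2.1, hd.2.2.2.2⟩
        rw [if_pos hd, if_pos hu.1, hq]
        simp only
        rw [if_pos h5]
        exact le_rfl
      · rw [if_neg hd, mul_zero]
        split_ifs
        · exact hq0 w x u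
        · exact le_rfl
    · rw [if_neg hc]
      split_ifs
      · exact Finset.sum_nonneg fun u _ => hq0 w x u
      · exact le_rfl
      · exact le_rfl
  refine (Finset.sum_le_sum fun w _ => Finset.sum_le_sum fun x _ => h1 w x).trans (le_of_eq ?_)
  have h3 : Finset.univ.filter (fun u : ι => u ∈ M) = M := by ext; simp
  have h4 : ∀ w, (∑ x, if w ∈ M then (if x ∈ M then ∑ u ∈ M, q w x u else 0) else 0) =
      if w ∈ M then ∑ x ∈ M, ∑ u ∈ M, q w x u else 0 := by
    intro w
    by_cases hw : w ∈ M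
    · simp only [if_pos hw]
      rw [← Finset.sum_filter, h3]
    · simp only [if_neg hw, Finset.sum_const_zero]
  simp only [h4]
  rw [← Finset.sum_filter, h3]

theorem Loss_eq (hA : A.IsSymm) (hW : ∀ x, (W x).im < 0) :
    LossW A M F W = ∑ j, Loss A (F j) M W := by
  unfold LossW Loss
  refine Finset.sum_congr rfl fun j _ => Finset.sum_congr rfl fun x _ => ?_
  rw [Ls_eq hA hW]
  rfl

theorem Bad_eq (hA : A.IsSymm) :
    ∑ j, Bad A (F j) M (SG A E lam) W = BadW A E lam M F W := by
  unfold BadW Bad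
  refine Finset.sum_congr rfl fun j _ => Finset.sum_congr rfl fun x _ => ?_
  have h1 : (W ∉ SG A E lam x) ↔ ¬ (pz A W E x ∈ GdL lam) := by
    rw [pz_eq_pV]; rfl
  by_cases hc : pz A W E x ∈ GdL lam
  · rw [if_neg (fun h => h1.1 h hc), if_pos hc]
  · rw [if_pos (h1.2 hc), if_neg hc, Mf, Finset.mul_sum]
    refine Finset.sum_congr rfl fun z _ => ?_
    unfold ew
    rw [KK_symm hA z x]
    ring

end pointwise

/-! ### bounds and integrability -/

section int

variable {F : κ → ι → ℝ} {lam : ℝ} {M : Finset ι} {ε1 ε2 : ℝ}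

/-- bound of everything -/
noncomputable def Bd0 (F : κ → ι → ℝ) : ℝ := ∑ j, ∑ u, ∑ x, (F j u - F j x) ^ 2

theorem Bd0_nonneg (F : κ → ι → ℝ) : 0 ≤ Bd0 F :=
  Finset.sum_nonneg fun j _ => Finset.sum_nonneg fun u _ => Finset.sum_nonneg fun x _ =>
    sq_nonneg _

theorem T_bd (hA : A.IsSymm) {W : ι → ℂ} (hW : ∀ x, (W x).im < 0) :
    ∑ j, ∑ x, ∑ z, ew W x * (ew W z * ‖Tm A W (F j) z x‖ ^ 2) ≤ Bd0 F := by
  unfold Bd0
  refine Finset.sum_le_sum fun j _ => ?_
  rw [Finset.sum_comm (f := fun u x => (F j u - F j x) ^ 2)]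
  refine Finset.sum_le_sum fun x _ => ?_
  rw [← Finset.mul_sum, row_T hA hW x]
  have h1 : ew W x * (1 / 4 * ∑ z, ew W z * (KK A W z x * (F j z - F j x) ^ 2)) =
      ∑ z, 1 / 4 * (((-(W z).im) * (-(W x).im) * KK A W z x) * (F j z - F j x) ^ 2) := by
    rw [Finset.mul_sum, Finset.mul_sum]
    refine Finset.sum_congr rfl fun z _ => ?_
    unfold ew
    ring
  rw [h1]
  refine Finset.sum_le_sum fun z _ => ?_
  have h2 := e_mul_KK_mul_e_le hA hW z x
  nlinarith [mul_le_mul_of_nonneg_right h2 (sq_nonneg (F j z - F j x)),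
    sq_nonneg (F j z - F j x)]

theorem Jst_nn_sum (hA : A.IsSymm) {W : ι → ℂ} (hW : ∀ x, (W x).im < 0) :
    0 ≤ JSW A E lam M F ε1 W := by
  unfold JSW
  refine Finset.sum_nonneg fun j _ => Finset.sum_nonneg fun u _ => Finset.sum_nonneg fun x _ => ?_
  split_ifs
  · exact mul_nonneg (mul_nonneg (by linarith [hW u]) (by linarith [hW x]))
      (mul_nonneg (kap_nonneg hA hW u x) (sq_nonneg _))
  · exact le_rfl

theorem MSW_nonneg (hA : A.IsSymm) {W : ι → ℂ} (hW : ∀ x, (W x).im < 0) :
    0 ≤ MSW A E lam M F W := by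
  unfold MSW
  refine Finset.sum_nonneg fun j _ => Finset.sum_nonneg fun x _ => ?_
  by_cases hx : x ∉ ZW A E lam M W
  · rw [if_pos hx]
    exact mul_nonneg (by linarith [hW x]) (mul_nonneg (mm_pos hA hW x).le (sq_nonneg _))
  · rw [if_neg hx]

theorem LamSW_nonneg (hA : A.IsSymm) {W : ι → ℂ} (hW : ∀ x, (W x).im < 0) :
    0 ≤ LamSW A E lam M F ε1 ε2 W := by
  unfold LamSW
  refine Finset.sum_nonneg fun j _ => Finset.sum_nonneg fun w _ => Finset.sum_nonneg fun x _ => ?_
  split_ifs
  · refine mul_nonneg (mul_nonneg (by linarith [hW w]) (by linarith [hW x]))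
      (mul_nonneg (sq_nonneg _) (Finset.sum_nonneg fun u _ => ?_))
    split_ifs
    · exact mul_nonneg (mul_nonneg (by linarith [hW u]) (mm_pos hA hW u).le)
        (mul_nonneg (kap_nonneg hA hW w u) (kap_nonneg hA hW u x))
    · exact le_rfl
  · exact le_rfl

theorem LossW_nonneg (hA : A.IsSymm) {W : ι → ℂ} (hW : ∀ x, (W x).im < 0) :
    0 ≤ LossW A M F W :=
  Finset.sum_nonneg fun j _ => Finset.sum_nonneg fun x _ =>
    mul_nonneg (by linarith [hW x]) (mul_nonneg (mm_pos hA hW x).le (sq_nonneg _))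

theorem BadW_nonneg (hA : A.IsSymm) {W : ι → ℂ} (hW : ∀ x, (W x).im < 0) :
    0 ≤ BadW A E lam M F W := by
  rw [← Bad_eq hA]
  exact Finset.sum_nonneg fun j _ => Bad_nonneg hW M _

theorem em_le_one (hA : A.IsSymm) {W : ι → ℂ} (hW : ∀ x, (W x).im < 0) (x : ι) :
    (-(W x).im) * mm A W x ≤ 1 := by
  have h1 := e_mul_KK_le hA hW x x
  have h5 : mm A W x ^ 2 ≤ KK A W x x := by
    unfold mm KK
    rw [← sq_abs]
    exact pow_le_pow_left₀ (abs_nonneg _) (Complex.abs_im_le_norm _) 2
  have h6 := mm_pos hA hW x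
  have h7 : 0 < -(W x).im := by linarith [hW x]
  have h8 : (-(W x).im) * mm A W x ^ 2 ≤ mm A W x :=
    (mul_le_mul_of_nonneg_left h5 h7.le).trans h1
  have h9 : (-(W x).im) * mm A W x * mm A W x ≤ 1 * mm A W x := by nlinarith
  exact le_of_mul_le_mul_right h9 h6

theorem JSW_bd (hA : A.IsSymm) {W : ι → ℂ} (hW : ∀ x, (W x).im < 0) :
    JSW A E lam M F ε1 W ≤ Bd0 F := by
  refine le_trans ?_ (T_bd (F := F) hA hW)
  unfold JSW
  refine Finset.sum_le_sum fun j _ => ?_
  rw [Finset.sum_comm]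
  refine Finset.sum_le_sum fun x _ => Finset.sum_le_sum fun u _ => ?_
  have hu := ew_pos hW u
  have hx := ew_pos hW x
  have h0 : 0 ≤ ew W x * (ew W u * ‖Tm A W (F j) u x‖ ^ 2) := by positivity
  split_ifs
  · have h1 := (kap_lt_one (A := A) hA hW u x).le
    have h2 : kap A W u x * T2of A W F j u x ≤ 1 * ‖Tm A W (F j) u x‖ ^ 2 :=
      mul_le_mul_of_nonneg_right h1 (sq_nonneg _)
    have h3 := mul_le_mul_of_nonneg_left h2 (mul_pos hu hx).le
    have h4 : (-(W u).im) * (-(W x).im) = ew W u * ew W x := rfl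
    rw [h4]
    nlinarith
  · exact h0

theorem LossW_bd (hA : A.IsSymm) {W : ι → ℂ} (hW : ∀ x, (W x).im < 0) :
    LossW A M F W ≤ 4 * Bd0 F := by
  -- `e_x m_x μ_x² = e_x |T_xx|²/m_x ≤ e_x e_x |T_xx|²`? use `|T_xx|² = m² μ²`
  have h0 : LossW A M F W ≤ ∑ j, ∑ x, (-(W x).im) * (mm A W x * muf A W (F j) x ^ 2) := by
    unfold LossW
    refine Finset.sum_le_sum fun j _ => ?_
    exact Finset.sum_le_sum_of_subset_of_nonneg (Finset.subset_univ _) fun x _ _ =>
      mul_nonneg (by linarith [hW x]) (mul_nonneg (mm_pos hA hW x).le (sq_nonneg _))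
  refine h0.trans ?_
  unfold Bd0
  rw [Finset.mul_sum]
  refine Finset.sum_le_sum fun j _ => ?_
  rw [Finset.mul_sum]
  refine Finset.sum_le_sum fun x _ => ?_
  have h1 := em_le_one hA hW x
  have hP := PP_sum hA hW x
  have hP0 := fun y => PP_nonneg (A := A) hA hW x y
  have h2 : muf A W (F j) x = ∑ y, PP A W x y * (F j y - F j x) := by
    unfold muf
    simp only [mul_sub, Finset.sum_sub_distrib, ← Finset.sum_mul, hP, one_mul]
  have h3 : muf A W (F j) x ^ 2 ≤ ∑ y, PP A W x y * (F j y - F j x) ^ 2 := by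
    rw [h2]
    have h4 := Finset.sum_mul_sq_le_sq_mul_sq Finset.univ (fun y => Real.sqrt (PP A W x y))
      (fun y => Real.sqrt (PP A W x y) * (F j y - F j x))
    have e1 : ∀ y, Real.sqrt (PP A W x y) * (Real.sqrt (PP A W x y) * (F j y - F j x)) =
        PP A W x y * (F j y - F j x) := fun y => by
      rw [← mul_assoc, Real.mul_self_sqrt (hP0 y)]
    have e2 : ∀ y, (Real.sqrt (PP A W x y) * (F j y - F j x)) ^ 2 =
        PP A W x y * (F j y - F j x) ^ 2 := fun y => by
      rw [mul_pow, Real.sq_sqrt (hP0 y)]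
    have e3 : ∀ y, Real.sqrt (PP A W x y) ^ 2 = PP A W x y := fun y => Real.sq_sqrt (hP0 y)
    simp only [e1, e2, e3] at h4
    rw [hP, one_mul] at h4
    exact h4
  have h4 : ∑ y, PP A W x y * (F j y - F j x) ^ 2 ≤ ∑ y, (F j x - F j y) ^ 2 := by
    refine Finset.sum_le_sum fun y _ => ?_
    have h5 : PP A W x y ≤ 1 := by
      rw [← hP]
      exact Finset.single_le_sum (fun z _ => hP0 z) (Finset.mem_univ y)
    have h6 := mul_le_mul_of_nonneg_right h5 (sq_nonneg (F j y - F j x))
    nlinarith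
  have h5 : 0 ≤ ∑ y, (F j x - F j y) ^ 2 := Finset.sum_nonneg fun y _ => sq_nonneg _
  have h6 : 0 < mm A W x := mm_pos hA hW x
  have h7 : 0 < -(W x).im := by linarith [hW x]
  calc (-(W x).im) * (mm A W x * muf A W (F j) x ^ 2)
      = (-(W x).im) * mm A W x * muf A W (F j) x ^ 2 := by ring
    _ ≤ 1 * muf A W (F j) x ^ 2 := mul_le_mul_of_nonneg_right h1 (sq_nonneg _)
    _ ≤ 4 * ∑ y, (F j x - F j y) ^ 2 := by linarith [h3.trans h4]

theorem BadW_bd (hA : A.IsSymm) {W : ι → ℂ} (hW : ∀ x, (W x).im < 0) :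
    BadW A E lam M F W ≤ Bd0 F := by
  have h0 : BadW A E lam M F W ≤ ∑ j, ∑ x, (-(W x).im) * Mf A W (F j) x := by
    unfold BadW
    refine Finset.sum_le_sum fun j _ => ?_
    have hn : ∀ x, 0 ≤ (-(W x).im) * Mf A W (F j) x := fun x => by
      have h1 : 0 ≤ Mf A W (F j) x := Finset.sum_nonneg fun z _ =>
        mul_nonneg (mul_nonneg (by linarith [hW z]) (KK_nonneg _ _)) (sq_nonneg _)
      exact mul_nonneg (by linarith [hW x]) h1
    refine (Finset.sum_le_sum fun x _ => ?_).trans
      (Finset.sum_le_sum_of_subset_of_nonneg (Finset.subset_univ M) fun x _ _ => hn x)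
    split_ifs
    · exact hn x
    · exact le_rfl
  refine h0.trans ?_
  unfold Bd0 Mf
  refine Finset.sum_le_sum fun j _ => Finset.sum_le_sum fun x _ => ?_
  rw [Finset.mul_sum]
  refine Finset.sum_le_sum fun z _ => ?_
  have h2 := e_mul_KK_mul_e_le hA hW x z
  have h3 := mul_le_mul_of_nonneg_right h2 (sq_nonneg (F j x - F j z))
  calc (-(W x).im) * ((-(W z).im) * KK A W x z * (F j z - F j x) ^ 2)
      = (-(W x).im) * (-(W z).im) * KK A W x z * (F j x - F j z) ^ 2 := by ring
    _ ≤ 1 * (F j x - F j z) ^ 2 := h3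
    _ = (F j x - F j z) ^ 2 := one_mul _

theorem LamSW_bd (hA : A.IsSymm) {W : ι → ℂ} (hW : ∀ x, (W x).im < 0) :
    LamSW A E lam M F ε1 ε2 W ≤ Fintype.card ι * Bd0 F := by
  have h0 : LamSW A E lam M F ε1 ε2 W ≤
      Fintype.card ι * ∑ j, ∑ x, ∑ z, ew W x * (ew W z * ‖Tm A W (F j) z x‖ ^ 2) := by
    unfold LamSW
    rw [Finset.mul_sum]
    refine Finset.sum_le_sum fun j _ => ?_
    rw [Finset.mul_sum, Finset.sum_comm]
    refine Finset.sum_le_sum fun x _ => ?_
    rw [Finset.mul_sum]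
    refine Finset.sum_le_sum fun w _ => ?_
    have hw := ew_pos hW w
    have hx := ew_pos hW x
    have hs : ∑ u, (if u ∉ ZW A E lam M W ∧ u ≠ w ∧ u ≠ x ∧ ε2 ≤ kap A W w u ∧
        ε1 ≤ kap A W u x then (-(W u).im) * mm A W u * (kap A W w u * kap A W u x) else 0) ≤
        Fintype.card ι := by
      have : ∀ u, (if u ∉ ZW A E lam M W ∧ u ≠ w ∧ u ≠ x ∧ ε2 ≤ kap A W w u ∧
        ε1 ≤ kap A W u x then (-(W u).im) * mm A W u * (kap A W w u * kap A W u x) else 0) ≤
          (1 : ℝ) := by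
        intro u
        have h1 := em_le_one hA hW u
        have h2 := (kap_lt_one (A := A) hA hW w u).le
        have h3 := (kap_lt_one (A := A) hA hW u x).le
        have h4 := kap_nonneg (A := A) hA hW w u
        have h5 := kap_nonneg (A := A) hA hW u x
        have h6 : 0 ≤ (-(W u).im) * mm A W u :=
          mul_nonneg (by linarith [hW u]) (mm_pos hA hW u).le
        split_ifs
        · have h7 : kap A W w u * kap A W u x ≤ 1 := mul_le_one₀ h2 h5 h3
          exact mul_le_one₀ h1 (mul_nonneg h4 h5) h7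
        · exact zero_le_one
      refine (Finset.sum_le_sum fun u _ => this u).trans ?_
      rw [Finset.sum_const, Finset.card_univ, nsmul_eq_mul, mul_one]
    have hT : 0 ≤ ‖Tm A W (F j) w x‖ ^ 2 := sq_nonneg _
    have hc : (0 : ℝ) ≤ Fintype.card ι := Nat.cast_nonneg _
    split_ifs
    · have h4 : (-(W w).im) * (-(W x).im) = ew W w * ew W x := rfl
      rw [h4]
      have h5 : 0 ≤ ew W w * ew W x * ‖Tm A W (F j) w x‖ ^ 2 := by positivity
      have h6 := mul_le_mul_of_nonneg_left hs h5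
      calc _ = ew W w * ew W x * ‖Tm A W (F j) w x‖ ^ 2 *
            ∑ u, (if u ∉ ZW A E lam M W ∧ u ≠ w ∧ u ≠ x ∧ ε2 ≤ kap A W w u ∧
            ε1 ≤ kap A W u x then (-(W u).im) * mm A W u * (kap A W w u * kap A W u x)
            else 0) := by rw [← mul_assoc]; rfl
        _ ≤ _ := h6
        _ = _ := by ring
    · positivity
  exact h0.trans (mul_le_mul_of_nonneg_left (T_bd hA hW) (Nat.cast_nonneg _))

/-! measurability -/

theorem measSet_notZ (x : ι) : MeasurableSet {W : ι → ℂ | x ∉ ZW A E lam M W} := by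
  have h : {W : ι → ℂ | x ∉ ZW A E lam M W} = {W | x ∈ M ∧ W ∈ SG A E lam x} := by
    ext W
    exact not_mem_ZW
  rw [h]
  by_cases hx : x ∈ M
  · simp only [hx, true_and]
    exact measurableSet_SG E lam x
  · simp only [hx, false_and]
    exact MeasurableSet.empty

theorem measurable_mufW (a : ι → ℝ) (x : ι) : Measurable fun W : ι → ℂ => muf A W a x := by
  unfold muf PP
  refine (Finset.measurable_sum _ fun y _ => ?_).sub_const _
  exact ((((Complex.measurable_im.comp (measurable_pi_apply y)).neg).mul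
      (measurable_KKW x y)).div (measurable_mmW x)).mul_const _

theorem meas_im (x : ι) : Measurable fun W : ι → ℂ => -(W x).im :=
  (Complex.measurable_im.comp (measurable_pi_apply x)).neg

theorem measurable_JSW : Measurable fun W : ι → ℂ => JSW A E lam M F ε1 W := by
  unfold JSW T2of
  refine Finset.measurable_sum _ fun j _ => Finset.measurable_sum _ fun u _ =>
    Finset.measurable_sum _ fun x _ => ?_
  refine Measurable.ite ?_ ?_ measurable_const
  · exact (measSet_notZ u).inter ((measSet_notZ x).inter ((MeasurableSet.const _).inter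
      (measurableSet_le measurable_const (measurable_kapW u x))))
  · exact ((meas_im u).mul (meas_im x)).mul
      ((measurable_kapW u x).mul ((measurable_TmW u x).norm.pow_const 2))

theorem measurable_MSW : Measurable fun W : ι → ℂ => MSW A E lam M F W := by
  unfold MSW mu2of
  refine Finset.measurable_sum _ fun j _ => Finset.measurable_sum _ fun x _ => ?_
  refine Measurable.ite (measSet_notZ x) ?_ measurable_const
  exact (meas_im x).mul ((measurable_mmW x).mul ((measurable_mufW _ x).pow_const 2))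

theorem measurable_LamSW : Measurable fun W : ι → ℂ => LamSW A E lam M F ε1 ε2 W := by
  unfold LamSW T2of
  refine Finset.measurable_sum _ fun j _ => Finset.measurable_sum _ fun w _ =>
    Finset.measurable_sum _ fun x _ => ?_
  refine Measurable.ite ?_ ?_ measurable_const
  · exact (measSet_notZ w).inter ((measSet_notZ x).inter (MeasurableSet.const _))
  · refine ((meas_im w).mul (meas_im x)).mul (((measurable_TmW w x).norm.pow_const 2).mul ?_)
    refine Finset.measurable_sum _ fun u _ => ?_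
    refine Measurable.ite ?_ ?_ measurable_const
    · exact (measSet_notZ u).inter ((MeasurableSet.const _).inter ((MeasurableSet.const _).inter
        ((measurableSet_le measurable_const (measurable_kapW w u)).inter
          (measurableSet_le measurable_const (measurable_kapW u x)))))
    · exact ((meas_im u).mul (measurable_mmW u)).mul
        ((measurable_kapW w u).mul (measurable_kapW u x))

theorem measurable_LossW : Measurable fun W : ι → ℂ => LossW A M F W := by
  unfold LossW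
  refine Finset.measurable_sum _ fun j _ => Finset.measurable_sum _ fun x _ => ?_
  exact (meas_im x).mul ((measurable_mmW x).mul ((measurable_mufW _ x).pow_const 2))

theorem measurable_BadW : Measurable fun W : ι → ℂ => BadW A E lam M F W := by
  unfold BadW Mf
  refine Finset.measurable_sum _ fun j _ => Finset.measurable_sum _ fun x _ => ?_
  refine Measurable.ite ?_ measurable_const ?_
  · have h : {W : ι → ℂ | pz A W E x ∈ GdL lam} = SG A E lam x := by
      ext W
      show pz A W E x ∈ GdL lam ↔ pV A E W x ∈ GdL lam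
      rw [pz_eq_pV]
    rw [h]
    exact measurableSet_SG E lam x
  · refine (meas_im x).mul (Finset.measurable_sum _ fun y _ => ?_)
    exact ((meas_im y).mul (measurable_KKW x y)).mul_const _

end int

/-! ### expectations -/

section ex

variable {ν : ι → Measure ℝ} [∀ i, IsProbabilityMeasure (ν i)]
variable {F : κ → ι → ℝ} {lam al be : ℝ} {M : Finset ι} {ε1 ε2 : ℝ}

theorem int_of_bd (he : ∀ x, 0 < e x) {G : (ι → ℂ) → ℝ} (hm : Measurable G) {B : ℝ}
    (h0 : ∀ W : ι → ℂ, (∀ x, (W x).im < 0) → 0 ≤ G W)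
    (hB : ∀ W : ι → ℂ, (∀ x, (W x).im < 0) → G W ≤ B) :
    Integrable (fun v => G (WV E e v)) (Measure.pi ν) := by
  refine Integrable.of_bound (hm.comp (measurable_WV E e)).aestronglyMeasurable B
    (Filter.Eventually.of_forall fun v => ?_)
  show ‖G (WV E e v)‖ ≤ B
  rw [Real.norm_eq_abs, abs_of_nonneg (h0 _ (WV_neg he v))]
  exact hB _ (WV_neg he v)

theorem Ex_le_of_lint (he : ∀ x, 0 < e x) {G H : (ι → ℂ) → ℝ} (hG : Measurable G)
    (hH : Measurable H) {B : ℝ}
    (hG0 : ∀ W : ι → ℂ, (∀ x, (W x).im < 0) → 0 ≤ G W)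
    (hH0 : ∀ W : ι → ℂ, (∀ x, (W x).im < 0) → 0 ≤ H W)
    (hHB : ∀ W : ι → ℂ, (∀ x, (W x).im < 0) → H W ≤ B) {c : ℝ} (hc : 0 ≤ c)
    (h : ∫⁻ v, ENNReal.ofReal (G (WV E e v)) ∂(Measure.pi ν) ≤
      ENNReal.ofReal c * ∫⁻ v, ENNReal.ofReal (H (WV E e v)) ∂(Measure.pi ν)) :
    Ex ν E e G ≤ c * Ex ν E e H := by
  have hHi := int_of_bd (ν := ν) (E := E) he hH hH0 hHB
  have h1 : ∫⁻ v, ENNReal.ofReal (H (WV E e v)) ∂(Measure.pi ν) =
      ENNReal.ofReal (Ex ν E e H) := by
    unfold Ex
    rw [ofReal_integral_eq_lintegral_ofReal hHi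
      (Filter.Eventually.of_forall fun v => hH0 _ (WV_neg he v))]
  have hEx0 : 0 ≤ Ex ν E e H := integral_nonneg fun v => hH0 _ (WV_neg he v)
  rw [h1, ← ENNReal.ofReal_mul hc] at h
  unfold Ex at *
  rw [integral_eq_lintegral_of_nonneg_ae
    (Filter.Eventually.of_forall fun v => hG0 _ (WV_neg he v))
    (hG.comp (measurable_WV E e)).aestronglyMeasurable]
  exact ENNReal.toReal_le_of_le_ofReal (mul_nonneg hc hEx0) h

/-- constants -/
noncomputable def cL (lam al be : ℝ) : ℝ := max (CL lam al be) 0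

noncomputable def CJ (lam al be ε : ℝ) : ℝ := 130 / ε * cL lam al be + 1 / 2

noncomputable def CLam (lam al be ε1 ε2 : ℝ) : ℝ :=
  114549248 / ε1 * (cL lam al be * (CJ lam al be (ε1 * ε2 / 968) + 1 / 4))

theorem cL_nonneg : 0 ≤ cL lam al be := le_max_right _ _

theorem CJ_nonneg {ε : ℝ} (hε : 0 < ε) : 0 ≤ CJ lam al be ε := by
  have := cL_nonneg (lam := lam) (al := al) (be := be)
  unfold CJ
  positivity

theorem CLam_nonneg (h1 : 0 < ε1) (h2 : 0 < ε2) : 0 ≤ CLam lam al be ε1 ε2 := by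
  have := cL_nonneg (lam := lam) (al := al) (be := be)
  have h3 : 0 ≤ CJ lam al be (ε1 * ε2 / 968) := CJ_nonneg (by positivity)
  unfold CLam
  positivity

theorem ofReal_cL : ENNReal.ofReal (CL lam al be) = ENNReal.ofReal (cL lam al be) := by
  unfold cL
  rcases le_total (CL lam al be) 0 with h | h
  · rw [max_eq_right h, ENNReal.ofReal_of_nonpos h, ENNReal.ofReal_zero]
  · rw [max_eq_left h]

variable (hA : A.IsSymm) (he : ∀ x, 0 < e x) (hlaw : ∀ x ∈ M, EdgeLaw lam al be (ν x))
include hA he hlaw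

theorem Ex_JSW_le (h1 : 0 < ε1) :
    Ex ν E e (JSW A E lam M F ε1) ≤ CJ lam al be ε1 * Ex ν E e (LossW A M F) := by
  refine Ex_le_of_lint he measurable_JSW measurable_LossW
    (fun W hW => Jst_nn_sum hA hW) (fun W hW => LossW_nonneg hA hW)
    (fun W hW => LossW_bd hA hW) (CJ_nonneg h1) ?_
  have hS : ∀ w, MeasurableSet (SG A E lam w) := measurableSet_SG E lam
  calc ∫⁻ v, ENNReal.ofReal (JSW A E lam M F ε1 (WV E e v)) ∂(Measure.pi ν)
      ≤ ∫⁻ v, ∑ j, ENNReal.ofReal (Jst A (F j) M (SG A E lam) ε1 (WV E e v))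
          ∂(Measure.pi ν) := by
        refine lintegral_mono fun v => ?_
        have hW := WV_neg (E := E) he v
        rw [← ENNReal.ofReal_sum_of_nonneg fun j _ => Jst_nonneg hA hW M _ _]
        exact ENNReal.ofReal_le_ofReal (JSW_le hA hW)
    _ = ∑ j, ∫⁻ v, ENNReal.ofReal (Jst A (F j) M (SG A E lam) ε1 (WV E e v))
          ∂(Measure.pi ν) := by
        refine lintegral_finsetSum _ fun j _ => ?_
        have hm : Measurable fun W : ι → ℂ => Jst A (F j) M (SG A E lam) ε1 W := by
          unfold Jst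
          refine Finset.measurable_sum _ fun z _ => Finset.measurable_sum _ fun w _ => ?_
          refine Measurable.ite ((hS w).inter
            (measurableSet_le measurable_const (measurable_kapW z w))) ?_ measurable_const
          exact ((meas_ew z).mul (meas_ew w)).mul
            ((measurable_kapW z w).mul ((measurable_TmW z w).norm.pow_const 2))
        exact (hm.comp (measurable_WV E e)).ennreal_ofReal
    _ ≤ ∑ j, ENNReal.ofReal (CJ lam al be ε1) *
          ∫⁻ v, ENNReal.ofReal (Loss A (F j) M (WV E e v)) ∂(Measure.pi ν) := by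
        refine Finset.sum_le_sum fun j _ => ?_
        refine (J_le (a := F j) hA he h1 hS fun w hw => RP_edge hA he (hlaw w hw)).trans
          (le_of_eq ?_)
        have := cL_nonneg (lam := lam) (al := al) (be := be)
        rw [ofReal_cL, ← ENNReal.ofReal_mul (by positivity),
          ← ENNReal.ofReal_add (by positivity) (by norm_num)]
        rfl
    _ = ENNReal.ofReal (CJ lam al be ε1) *
          ∫⁻ v, ENNReal.ofReal (LossW A M F (WV E e v)) ∂(Measure.pi ν) := by
        have hLm : ∀ j, Measurable fun v : ι → ℝ =>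
            ENNReal.ofReal (Loss A (F j) M (WV E e v)) :=
          fun j => ((measurable_Loss (a := F j) M).comp (measurable_WV E e)).ennreal_ofReal
        rw [← Finset.mul_sum, ← lintegral_finsetSum _ fun j _ => hLm j]
        congr 1
        refine lintegral_congr fun v => ?_
        have hW := WV_neg (E := E) he v
        rw [Loss_eq hA hW, ENNReal.ofReal_sum_of_nonneg fun j _ => Loss_nonneg hA hW M]

theorem Ex_MSW_le : Ex ν E e (MSW A E lam M F) ≤ Ex ν E e (LossW A M F) := by
  unfold Ex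
  refine integral_mono (int_of_bd he measurable_MSW (fun W hW => MSW_nonneg hA hW)
    (fun W hW => (MSW_le hA hW).trans (LossW_bd hA hW)))
    (int_of_bd he measurable_LossW (fun W hW => LossW_nonneg hA hW)
      (fun W hW => LossW_bd hA hW)) fun v => ?_
  exact MSW_le hA (WV_neg he v)

theorem Ex_LamSW_le (h1 : 0 < ε1) (h2 : 0 < ε2) :
    Ex ν E e (LamSW A E lam M F ε1 ε2) ≤ CLam lam al be ε1 ε2 *
      Ex ν E e (fun W => LossW A M F W + BadW A E lam M F W) := by
  have hε' : 0 < ε1 * ε2 / 968 := by positivity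
  have hcJ : 0 ≤ CJ lam al be (ε1 * ε2 / 968) := CJ_nonneg hε'
  have hcL := cL_nonneg (lam := lam) (al := al) (be := be)
  refine Ex_le_of_lint he measurable_LamSW (measurable_LossW.add measurable_BadW)
    (fun W hW => LamSW_nonneg hA hW)
    (fun W hW => add_nonneg (LossW_nonneg hA hW) (BadW_nonneg hA hW))
    (fun W hW => add_le_add (LossW_bd hA hW) (BadW_bd hA hW)) (CLam_nonneg h1 h2) ?_
  have hS : ∀ w, MeasurableSet (SG A E lam w) := measurableSet_SG E lam
  have hLm : ∀ j, Measurable fun v : ι → ℝ => ENNReal.ofReal (Loss A (F j) M (WV E e v)) :=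
    fun j => ((measurable_Loss (a := F j) M).comp (measurable_WV E e)).ennreal_ofReal
  have hBm : ∀ j, Measurable fun v : ι → ℝ =>
      ENNReal.ofReal (Bad A (F j) M (SG A E lam) (WV E e v)) :=
    fun j => ((measurable_Bad (a := F j) M hS).comp (measurable_WV E e)).ennreal_ofReal
  calc ∫⁻ v, ENNReal.ofReal (LamSW A E lam M F ε1 ε2 (WV E e v)) ∂(Measure.pi ν)
      ≤ ∫⁻ v, ∑ j, ENNReal.ofReal (Lst A (F j) M (SG A E lam) ε1 ε2 (WV E e v))
          ∂(Measure.pi ν) := by
        refine lintegral_mono fun v => ?_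
        have hW := WV_neg (E := E) he v
        have hnn : ∀ j : κ, 0 ≤ Lst A (F j) M (SG A E lam) ε1 ε2 (WV E e v) := by
          intro j
          unfold Lst
          refine Finset.sum_nonneg fun z _ => Finset.sum_nonneg fun x _ =>
            Finset.sum_nonneg fun u _ => ?_
          split_ifs
          · exact mul_nonneg (mul_nonneg (mul_nonneg (ew_pos hW z).le (ew_pos hW x).le)
              (sq_nonneg _)) (mul_nonneg (mul_nonneg (ew_pos hW u).le (mm_pos hA hW u).le)
              (mul_nonneg (kap_nonneg hA hW z u) (kap_nonneg hA hW u x)))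
          · exact le_rfl
        rw [← ENNReal.ofReal_sum_of_nonneg fun j _ => hnn j]
        exact ENNReal.ofReal_le_ofReal (LamSW_le hA hW)
    _ = ∑ j, ∫⁻ v, ENNReal.ofReal (Lst A (F j) M (SG A E lam) ε1 ε2 (WV E e v))
          ∂(Measure.pi ν) := by
        refine lintegral_finsetSum _ fun j _ => ?_
        have hm : Measurable fun W : ι → ℂ => Lst A (F j) M (SG A E lam) ε1 ε2 W := by
          unfold Lst
          refine Finset.measurable_sum _ fun z _ => Finset.measurable_sum _ fun x _ =>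
            Finset.measurable_sum _ fun u _ => ?_
          refine Measurable.ite ((hS u).inter
            ((measurableSet_le measurable_const (measurable_kapW z u)).inter
              (measurableSet_le measurable_const (measurable_kapW u x)))) ?_ measurable_const
          exact (((meas_ew z).mul (meas_ew x)).mul ((measurable_TmW z x).norm.pow_const 2)).mul
            (((meas_ew u).mul (measurable_mmW u)).mul
              ((measurable_kapW z u).mul (measurable_kapW u x)))
        exact (hm.comp (measurable_WV E e)).ennreal_ofReal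
    _ ≤ ∑ j, ENNReal.ofReal (CLam lam al be ε1 ε2) *
          (∫⁻ v, ENNReal.ofReal (Loss A (F j) M (WV E e v)) ∂(Measure.pi ν) +
            ∫⁻ v, ENNReal.ofReal (Bad A (F j) M (SG A E lam) (WV E e v)) ∂(Measure.pi ν)) := by
        refine Finset.sum_le_sum fun j _ => ?_
        refine (Lam_le (a := F j) hA he h1 h2 hS
          fun w hw => RP_edge hA he (hlaw w hw)).trans ?_
        rw [ofReal_cL, ← ENNReal.ofReal_mul (by positivity),
          ← ENNReal.ofReal_add (by positivity) (by norm_num)]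
        set x := ∫⁻ v, ENNReal.ofReal (Loss A (F j) M (WV E e v)) ∂(Measure.pi ν)
        set y := ∫⁻ v, ENNReal.ofReal (Bad A (F j) M (SG A E lam) (WV E e v)) ∂(Measure.pi ν)
        have h3 : ENNReal.ofReal (130 / (ε1 * ε2 / 968) * cL lam al be + 1 / 2) * x +
            ENNReal.ofReal (1 / 4) * y ≤
            ENNReal.ofReal (CJ lam al be (ε1 * ε2 / 968) + 1 / 4) * (x + y) := by
          rw [mul_add]
          refine add_le_add (mul_le_mul_left (ENNReal.ofReal_le_ofReal ?_) _)
            (mul_le_mul_left (ENNReal.ofReal_le_ofReal ?_) _)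
          · unfold CJ
            linarith
          · linarith
        calc ENNReal.ofReal (114549248 / ε1) * (ENNReal.ofReal (cL lam al be) *
              (ENNReal.ofReal (130 / (ε1 * ε2 / 968) * cL lam al be + 1 / 2) * x +
                ENNReal.ofReal (1 / 4) * y))
            ≤ ENNReal.ofReal (114549248 / ε1) * (ENNReal.ofReal (cL lam al be) *
              (ENNReal.ofReal (CJ lam al be (ε1 * ε2 / 968) + 1 / 4) * (x + y))) :=
              mul_le_mul_right (mul_le_mul_right h3 _) _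
          _ = ENNReal.ofReal (CLam lam al be ε1 ε2) * (x + y) := by
              rw [← mul_assoc, ← mul_assoc, ← ENNReal.ofReal_mul (by positivity),
                ← ENNReal.ofReal_mul (by positivity)]
              congr 2
              unfold CLam
              ring
    _ = ENNReal.ofReal (CLam lam al be ε1 ε2) *
          ∫⁻ v, ENNReal.ofReal (LossW A M F (WV E e v) + BadW A E lam M F (WV E e v))
            ∂(Measure.pi ν) := by
        rw [← Finset.mul_sum, Finset.sum_add_distrib, ← lintegral_finsetSum _ fun j _ => hLm j,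
          ← lintegral_finsetSum _ fun j _ => hBm j, ← lintegral_add_left
            (Finset.measurable_sum _ fun j _ => hLm j)]
        congr 1
        refine lintegral_congr fun v => ?_
        have hW := WV_neg (E := E) he v
        rw [ENNReal.ofReal_add (LossW_nonneg hA hW) (BadW_nonneg hA hW), Loss_eq hA hW,
          ← Bad_eq hA, ENNReal.ofReal_sum_of_nonneg fun j _ => Loss_nonneg hA hW M,
          ENNReal.ofReal_sum_of_nonneg fun j _ => Bad_nonneg hW M _]

theorem integrable_JSW : Integrable (fun v => JSW A E lam M F ε1 (WV E e v)) (Measure.pi ν) :=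
  int_of_bd he measurable_JSW (fun W hW => Jst_nn_sum hA hW) (fun W hW => JSW_bd hA hW)

theorem integrable_MSW : Integrable (fun v => MSW A E lam M F (WV E e v)) (Measure.pi ν) :=
  int_of_bd he measurable_MSW (fun W hW => MSW_nonneg hA hW)
    (fun W hW => (MSW_le hA hW).trans (LossW_bd hA hW))

theorem integrable_LamSW :
    Integrable (fun v => LamSW A E lam M F ε1 ε2 (WV E e v)) (Measure.pi ν) :=
  int_of_bd he measurable_LamSW (fun W hW => LamSW_nonneg hA hW) (fun W hW => LamSW_bd hA hW)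

theorem integrable_LossW : Integrable (fun v => LossW A M F (WV E e v)) (Measure.pi ν) :=
  int_of_bd he measurable_LossW (fun W hW => LossW_nonneg hA hW) (fun W hW => LossW_bd hA hW)

theorem integrable_BadW : Integrable (fun v => BadW A E lam M F (WV E e v)) (Measure.pi ν) :=
  int_of_bd he measurable_BadW (fun W hW => BadW_nonneg hA hW) (fun W hW => BadW_bd hA hW)

/-- **(res)** -/
theorem res_all (h1 : 0 < ε1) (h2 : 0 < ε2) :
    Ex ν E e (JSW A E lam M F ε1) + Ex ν E e (MSW A E lam M F) +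
        Ex ν E e (LamSW A E lam M F ε1 ε2) ≤
      (CJ lam al be ε1 + 1 + CLam lam al be ε1 ε2) *
        (Ex ν E e (LossW A M F) + Ex ν E e (BadW A E lam M F)) := by
  have e1 := Ex_JSW_le (F := F) (E := E) hA he hlaw h1
  have e2 := Ex_MSW_le (F := F) (E := E) hA he hlaw
  have e3 := Ex_LamSW_le (F := F) (E := E) hA he hlaw h1 h2
  have e4 : Ex ν E e (fun W => LossW A M F W + BadW A E lam M F W) =
      Ex ν E e (LossW A M F) + Ex ν E e (BadW A E lam M F) := by
    unfold Ex
    exact integral_add (integrable_LossW hA he hlaw) (integrable_BadW hA he hlaw)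
  rw [e4] at e3
  have hL : 0 ≤ Ex ν E e (LossW A M F) :=
    integral_nonneg fun v => LossW_nonneg hA (WV_neg he v)
  have hB : 0 ≤ Ex ν E e (BadW A E lam M F) :=
    integral_nonneg fun v => BadW_nonneg hA (WV_neg he v)
  have c1 := CJ_nonneg (lam := lam) (al := al) (be := be) h1
  have c2 := CLam_nonneg (lam := lam) (al := al) (be := be) h1 h2
  nlinarith [mul_nonneg c1 hB]

end ex

end P365L.T2.X968
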