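import Vale.Agent.P365.T1.HCnum320

/-!
# P365-T2: constants of the centre hub for `T ≤ 8 r ^ A` and the rate `1 / r ^ n`, any `A`, `n`.

`q = r ^ (2 * (A + n + 2))`.
-/

set_option autoImplicit false
set_option linter.all false

namespace P365T2.HCnumG

open Filter Topology Real P365T1.HCnum

/-- the constants of (HC), windows `w ≤ exp (-r)`, any exponent `A` of `T` and any rate `n` -/
theorem hc_numG {C κ : ℝ} (hC : 1 ≤ C) (hκ0 : 0 < κ) (hκ1 : κ < 1) (ms R0 A n : ℕ) :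
    ∀ᶠ r : ℕ in atTop, ∀ w b ε T k g : ℝ, 0 ≤ w → w ≤ Real.exp (-(r : ℝ)) →
      0 ≤ b → b ≤ Real.exp (-(r : ℝ)) → 0 ≤ ε → ε ≤ 3 * Real.exp (-(r : ℝ)) →
      0 ≤ T → T ≤ 8 * (r : ℝ) ^ A → 0 ≤ k → k ≤ 8 * (r : ℝ) + 8 → 0 ≤ g →
      g ≤ κ ^ (r - (R0 + 1)) →
      1 ≤ (r : ℝ) ^ (2 * (A + n + 2)) ∧
      C * ((k + 1) * (1 + T)) ≤ ((r : ℝ) ^ (2 * (A + n + 2))) ^ 2 ∧
      (32 * (2 * (r : ℝ) + 1) ^ (2 * ms + 2) * (w + b) + 32 * (2 * (r : ℝ) + 1) ^ ms * g) *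
        (C * ((k + 1) ^ 4 * ((r : ℝ) ^ (2 * (A + n + 2))) ^ 5)) ≤ 1 ∧
      ε + 1 / (r : ℝ) ^ (2 * (A + n + 2)) ≤ 1 / C ∧
      C * ((k + 1) * Real.sqrt (ε + 1 / (r : ℝ) ^ (2 * (A + n + 2)))) ≤ 1 / (r : ℝ) ^ n := by
  have hC0 : 0 < C := by linarith
  obtain ⟨p, hp⟩ : ∃ p, p = A + n + 2 := ⟨_, rfl⟩
  rw [← hp]
  filter_upwards [ev_ge 1, ev_ge (153 * C), ev_ge (4 * C), ev_ge (34 * C),
    ev_exp (2 * p) (A := 3) (by norm_num),
    ev_exp (2 * ms + 6 + 10 * p) (A := 2 * (64 * 3 ^ (2 * ms + 2) * 83521 * C)) (by positivity),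
    ev_shift hκ0 hκ1 (ms + 4 + 10 * p) (R0 + 1) (A := 2 * (32 * 3 ^ ms * 83521 * C))
      (by positivity)]
    with r h1 hb1 hb3 hb4 hexp hexp2 hsh w b ε T k g hw0 hw hb0 hb hε0 hε hT0 hT hk0 hk hg0 hg
  generalize hx : (r : ℝ) = x at *
  have hx0 : 0 < x := by linarith
  have hxp : ∀ n : ℕ, 1 ≤ x ^ n := fun n => one_le_pow₀ h1
  have hk1 : k + 1 ≤ 17 * x := by linarith
  have hxx : ∀ {n m : ℕ}, n ≤ m → x ^ n ≤ x ^ m := fun h => pow_le_pow_right₀ h1 h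
  refine ⟨hxp _, ?_, ?_, ?_, ?_⟩
  · -- (b)
    have h2 : 1 + T ≤ 9 * x ^ A := by linarith [hxp A]
    calc C * ((k + 1) * (1 + T)) ≤ C * ((17 * x) * (9 * x ^ A)) := by gcongr
      _ = (153 * C) * x ^ (A + 1) := by ring
      _ ≤ x * x ^ (A + 1) := by gcongr
      _ = x ^ (A + 2) := by ring
      _ ≤ x ^ (2 * p * 2) := hxx (by omega)
      _ = (x ^ (2 * p)) ^ 2 := by rw [← pow_mul]
  · -- (c)
    have hq : C * ((k + 1) ^ 4 * (x ^ (2 * p)) ^ 5) ≤ 83521 * C * x ^ (4 + 10 * p) := by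
      calc C * ((k + 1) ^ 4 * (x ^ (2 * p)) ^ 5) ≤ C * ((17 * x) ^ 4 * (x ^ (2 * p)) ^ 5) := by
            gcongr
        _ = 83521 * C * x ^ (4 + 10 * p) := by
            rw [← pow_mul, pow_add, show 10 * p = 2 * p * 5 by ring]
            ring
    have hq0 : 0 ≤ C * ((k + 1) ^ 4 * (x ^ (2 * p)) ^ 5) := by positivity
    have hy : 2 * x + 1 ≤ 3 * x := by linarith
    have e1 : 32 * (2 * x + 1) ^ (2 * ms + 2) * (w + b) ≤
        64 * 3 ^ (2 * ms + 2) * (x ^ (2 * ms + 2) * Real.exp (-x)) := by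
      calc 32 * (2 * x + 1) ^ (2 * ms + 2) * (w + b)
          ≤ 32 * (3 * x) ^ (2 * ms + 2) * (Real.exp (-x) + Real.exp (-x)) := by gcongr
        _ = _ := by
            rw [mul_pow]
            ring
    have e2 : 32 * (2 * x + 1) ^ ms * g ≤ 32 * 3 ^ ms * (x ^ ms * κ ^ (r - (R0 + 1))) := by
      calc 32 * (2 * x + 1) ^ ms * g ≤ 32 * (3 * x) ^ ms * κ ^ (r - (R0 + 1)) := by gcongr
        _ = _ := by
            rw [mul_pow]
            ring
    have f1 : 32 * (2 * x + 1) ^ (2 * ms + 2) * (w + b) *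
        (C * ((k + 1) ^ 4 * (x ^ (2 * p)) ^ 5)) ≤ 1 / 2 := by
      calc _ ≤ 64 * 3 ^ (2 * ms + 2) * (x ^ (2 * ms + 2) * Real.exp (-x)) *
            (83521 * C * x ^ (4 + 10 * p)) := by gcongr
        _ = (64 * 3 ^ (2 * ms + 2) * 83521 * C) * (x ^ (2 * ms + 6 + 10 * p) * Real.exp (-x)) := by
            rw [show 2 * ms + 6 + 10 * p = (2 * ms + 2) + (4 + 10 * p) by ring,
              pow_add x (2 * ms + 2) (4 + 10 * p)]
            ring
        _ ≤ 1 / 2 := by linarith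
    have f2 : 32 * (2 * x + 1) ^ ms * g * (C * ((k + 1) ^ 4 * (x ^ (2 * p)) ^ 5)) ≤ 1 / 2 := by
      calc _ ≤ 32 * 3 ^ ms * (x ^ ms * κ ^ (r - (R0 + 1))) * (83521 * C * x ^ (4 + 10 * p)) := by
            gcongr
        _ = (32 * 3 ^ ms * 83521 * C) * (x ^ (ms + 4 + 10 * p) * κ ^ (r - (R0 + 1))) := by
            rw [show ms + 4 + 10 * p = ms + (4 + 10 * p) by ring, pow_add x ms (4 + 10 * p)]
            ring
        _ ≤ 1 / 2 := by linarith
    rw [add_mul]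
    linarith
  · -- (d)
    have h2 : 3 * Real.exp (-x) ≤ 3 / x := by
      have h3 : x ≤ Real.exp x := by linarith [Real.add_one_le_exp x]
      rw [Real.exp_neg, le_div_iff₀ hx0]
      calc 3 * (Real.exp x)⁻¹ * x ≤ 3 * (Real.exp x)⁻¹ * Real.exp x := by gcongr
        _ = 3 := by field_simp
    have h3 : 1 / x ^ (2 * p) ≤ 1 / x := by
      gcongr
      calc x = x ^ 1 := (pow_one x).symm
        _ ≤ x ^ (2 * p) := hxx (by omega)
    have h4 : 4 / x ≤ 1 / C := by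
      rw [div_le_div_iff₀ hx0 hC0]
      linarith
    have h5 : 3 / x + 1 / x = 4 / x := by ring
    linarith
  · -- (e)
    have h2 : ε ≤ 1 / x ^ (2 * p) := by
      refine hε.trans ?_
      rw [le_div_iff₀ (by positivity)]
      linarith
    have h3 : Real.sqrt (ε + 1 / x ^ (2 * p)) ≤ 2 / x ^ p := by
      rw [Real.sqrt_le_left (by positivity)]
      have e : (2 / x ^ p) ^ 2 = 4 * (1 / x ^ (2 * p)) := by
        rw [div_pow, ← pow_mul, mul_comm p 2]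
        ring
      rw [e]
      have : 0 ≤ 1 / x ^ (2 * p) := by positivity
      linarith
    have h6 : x ^ p = x ^ A * (x ^ n * x * x) := by
      rw [hp]
      ring
    have h7 : 0 < x ^ n := by positivity
    have h8 : 0 < x ^ A := by positivity
    calc C * ((k + 1) * Real.sqrt (ε + 1 / x ^ (2 * p))) ≤ C * ((17 * x) * (2 / x ^ p)) := by
          gcongr
      _ = (34 * C) * x / x ^ p := by ring
      _ ≤ x * x / x ^ p := by gcongr
      _ = 1 / (x ^ A * x ^ n) := by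
          rw [h6]
          field_simp
      _ ≤ 1 / x ^ n := by
          refine one_div_le_one_div_of_le h7 ?_
          have := hxp A
          nlinarith

end P365T2.HCnumG
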