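import Vale.Agent.P365.T2.SeqGB795
import Vale.Agent.P365.T2.HCnumG795

/-!
# P365-T2: the parameters of the centre hub (HC) for a general base `β`, any rate `1 / r ^ n` and
any floor `b₁ ≤ exp (-r (I + 1))`.
-/

set_option autoImplicit false
set_option linter.all false

namespace P365T2.HCnumG

open Filter Topology Real P365T2.SeqG P365T1.HCnum

variable {β : ℕ} [hβ : Fact (2 ≤ β)]

/-- sums of the strengths with the next strength as a floor -/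
theorem sum_e0S_floor {rs : ℕ} (h : 2 ≤ rs) (I : ℕ) {i : ℕ} (hi : i ≤ I + 1) :
    ∑ j ∈ Finset.Ico i (I + 1), e0S β rs j + e0S β rs (I + 1) ≤ 2 * e0S β rs i := by
  obtain ⟨d, hd⟩ : ∃ d, I + 1 = i + d := ⟨I + 1 - i, by omega⟩
  induction d generalizing i with
  | zero =>
    have : i = I + 1 := by omega
    subst this
    simp only [Finset.Ico_self, Finset.sum_empty, zero_add]
    have h2 := e0S_pos (β := β) rs (I + 1)
    linarith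
  | succ d ih =>
    rw [Finset.sum_eq_sum_Ico_succ_bot (show i < I + 1 by omega)]
    have h1 := ih (i := i + 1) (by omega) (by omega)
    have h2 := e0S_succ (β := β) h i
    linarith

theorem tail_e0S_floor {rs : ℕ} (h : 2 ≤ rs) {I i : ℕ} (hi : i ≤ I) :
    ∑ j ∈ Finset.Ico (i + 1) (I + 1), e0S β rs j + e0S β rs (I + 1) ≤ e0S β rs i :=
  (sum_e0S_floor h I (show i + 1 ≤ I + 1 by omega)).trans (e0S_succ h i)

theorem e0S_antitone {rs : ℕ} (h : 1 ≤ rs) {i j : ℕ} (hij : i ≤ j) :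
    e0S β rs j ≤ e0S β rs i := by
  unfold e0S
  refine Real.exp_le_exp.2 ?_
  have h1 : rr β rs i ≤ rr β rs j := rr_mono h hij
  have h2 : (rr β rs i : ℝ) ≤ rr β rs j := by exact_mod_cast h1
  linarith

variable (β) in
/-- **the numerical hypotheses of the centre hub**, rate `1 / r ^ n`, floor `b₁` -/
theorem hc_paramsG {C κ : ℝ} (hC : 1 ≤ C) (hκ0 : 0 < κ) (hκ1 : κ < 1) (ms R0 n : ℕ) :
    ∃ R : ℕ, 2 ≤ R ∧ ∀ rs : ℕ, R ≤ rs → ∀ I i : ℕ, i ≤ I →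
      ∀ b₁ : ℝ, 0 ≤ b₁ → b₁ ≤ e0S β rs (I + 1) → ∃ δ ε T q : ℝ,
      2 * (Real.exp (-(rr β rs i : ℝ)) + b₁) * (2 * (rr β rs i : ℝ) + 1) ^ (ms + 2) ≤ 1 ∧
      32 * (2 * (rr β rs i : ℝ) + 1) ^ ms * κ ^ (rr β rs i - R0) ≤ δ ∧
      32 * (2 * (rr β rs i : ℝ) + 1) ^ (2 * ms + 2) * (Real.exp (-(rr β rs i : ℝ)) + b₁) ≤ δ ∧
      b₁ + (∑ j ∈ Finset.Ico (i + 1) (I + 1), e0S β rs j) + 2 * e0S β rs i ≤ ε ∧ ε ≤ 1 / 2 ∧
      0 ≤ T ∧ Real.exp (-T) ≤ tS β rs I (i + 1) * (e0S β rs i * Real.exp (-(aS β rs i))) ∧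
      1 ≤ q ∧ C * (8 * (rr β rs i : ℝ) + 9) * (1 + T) ≤ q ^ 2 ∧
      δ * (C * (8 * (rr β rs i : ℝ) + 9) ^ 4 * q ^ 5) ≤ 1 ∧ ε + 1 / q ≤ 1 / C ∧
      C * (8 * (rr β rs i : ℝ) + 9) * Real.sqrt (ε + 1 / q) ≤ 1 / (rr β rs i : ℝ) ^ n := by
  obtain ⟨R, hR2, hR⟩ := exists_rs β (((hc_numG hC hκ0 hκ1 ms R0 (5 * β) n).and
    (window_num ms)).and (ev_exp 0 (A := 6) (by norm_num)))
  refine ⟨R, hR2, fun rs hrs I i hi b₁ hb0 hb1 => ?_⟩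
  have hrs2 : 2 ≤ rs := hR2.trans hrs
  obtain ⟨⟨hnum, hwin⟩, h6⟩ := hR rs hrs i
  have hb : b₁ ≤ Real.exp (-(rr β rs i : ℝ)) :=
    hb1.trans (e0S_antitone (β := β) (by omega) (by omega))
  have hw0 : (0 : ℝ) ≤ Real.exp (-(rr β rs i : ℝ)) := (Real.exp_pos _).le
  have hr0 : (0 : ℝ) ≤ (rr β rs i : ℝ) := Nat.cast_nonneg _
  have hT0 : (0 : ℝ) ≤ 8 * (rr β rs i : ℝ) ^ (5 * β) := by positivity
  have hg0 : (0 : ℝ) ≤ κ ^ (rr β rs i - (R0 + 1)) := by positivity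
  obtain ⟨a1, a2, a3, a4, a5⟩ := hnum (Real.exp (-(rr β rs i : ℝ))) b₁
    (3 * Real.exp (-(rr β rs i : ℝ))) (8 * (rr β rs i : ℝ) ^ (5 * β)) (8 * (rr β rs i : ℝ) + 8)
    (κ ^ (rr β rs i - (R0 + 1))) hw0 le_rfl hb0 hb (by positivity) le_rfl hT0 le_rfl
    (by positivity) le_rfl hg0 le_rfl
  have e9 : 8 * (rr β rs i : ℝ) + 8 + 1 = 8 * (rr β rs i : ℝ) + 9 := by ring
  rw [e9] at a2 a3 a5
  have hκ : κ ^ (rr β rs i - R0) ≤ κ ^ (rr β rs i - (R0 + 1)) :=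
    pow_le_pow_of_le_one hκ0.le hκ1.le (by omega)
  refine ⟨32 * (2 * (rr β rs i : ℝ) + 1) ^ (2 * ms + 2) *
      (Real.exp (-(rr β rs i : ℝ)) + b₁) +
      32 * (2 * (rr β rs i : ℝ) + 1) ^ ms * κ ^ (rr β rs i - (R0 + 1)),
    3 * Real.exp (-(rr β rs i : ℝ)), 8 * (rr β rs i : ℝ) ^ (5 * β),
    (rr β rs i : ℝ) ^ (2 * (5 * β + n + 2)),
    hwin _ _ le_rfl hb, ?_, ?_, ?_, ?_, hT0, own_ge hrs2 hi, a1, ?_, ?_, a4, ?_⟩
  · have h1 : 0 ≤ 32 * (2 * (rr β rs i : ℝ) + 1) ^ (2 * ms + 2) *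
      (Real.exp (-(rr β rs i : ℝ)) + b₁) := by positivity
    have h2 : 32 * (2 * (rr β rs i : ℝ) + 1) ^ ms * κ ^ (rr β rs i - R0) ≤
        32 * (2 * (rr β rs i : ℝ) + 1) ^ ms * κ ^ (rr β rs i - (R0 + 1)) := by gcongr
    linarith
  · have h1 : 0 ≤ 32 * (2 * (rr β rs i : ℝ) + 1) ^ ms * κ ^ (rr β rs i - (R0 + 1)) := by
      positivity
    linarith
  · have h1 := tail_e0S_floor (β := β) hrs2 hi
    have h2 : e0S β rs i = Real.exp (-(rr β rs i : ℝ)) := rfl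
    rw [h2] at h1 ⊢
    linarith
  · rw [pow_zero, one_mul] at h6
    linarith
  · rw [mul_assoc]
    exact a2
  · rw [mul_assoc C]
    exact a3
  · rw [mul_assoc]
    exact a5

end P365T2.HCnumG
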