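import Vale.Agent.P365.T1.Lab37

/-!
# P365 T2: the smooth law `nuS a l` has a density of class `C^{1,1}`; the density ratio of the
shift of the movable part of the uniform law.
-/

set_option linter.all false

namespace P365T1.Smooth755

open MeasureTheory Set P365T1 P365T1.Bump P365T1.OneVar P365T1.Lab37
open scoped ENNReal

/-! ### the bump is Lipschitz -/

theorem hat_lip (x y : ℝ) : |max (1 - x ^ 2) 0 - max (1 - y ^ 2) 0| ≤ 2 * |x - y| := by
  wlog h : y ^ 2 ≤ x ^ 2 generalizing x y with H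
  · rw [abs_sub_comm, abs_sub_comm x y]
    exact H y x (le_of_lt (not_le.1 h))
  have h0 := abs_nonneg (x - y)
  by_cases hy : 1 ≤ y ^ 2
  · rw [max_eq_right (by linarith), max_eq_right (by linarith), sub_zero, abs_zero]
    positivity
  · push Not at hy
    rw [max_eq_left (by linarith : (0 : ℝ) ≤ 1 - y ^ 2)]
    have hy1 : |y| < 1 := by
      rw [← sq_abs] at hy
      nlinarith [abs_nonneg y]
    by_cases hx : 1 ≤ x ^ 2
    · rw [max_eq_right (by linarith), zero_sub, abs_neg, abs_of_nonneg (by linarith)]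
      have hx1 : 1 ≤ |x| := by
        rw [← sq_abs] at hx
        nlinarith [abs_nonneg x]
      have h1 : |x| - |y| ≤ |x - y| := abs_sub_abs_le_abs_sub x y
      have h2 : 1 - y ^ 2 = (1 - |y|) * (1 + |y|) := by
        rw [← sq_abs y]
        ring
      rw [h2]
      have h3 : 0 ≤ |y| := abs_nonneg y
      nlinarith
    · push Not at hx
      rw [max_eq_left (by linarith : (0 : ℝ) ≤ 1 - x ^ 2)]
      have hx1 : |x| < 1 := by
        rw [← sq_abs] at hx
        nlinarith [abs_nonneg x]
      have h2 : 1 - x ^ 2 - (1 - y ^ 2) = (y - x) * (y + x) := by ring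
      rw [h2, abs_mul, abs_sub_comm y x]
      have h3 : |y + x| ≤ 2 := (abs_add_le _ _).trans (by linarith)
      calc |x - y| * |y + x| ≤ |x - y| * 2 := mul_le_mul_of_nonneg_left h3 h0
        _ = _ := mul_comm _ _

theorem hat_sq_lip (x y : ℝ) :
    |(max (1 - x ^ 2) 0) ^ 2 - (max (1 - y ^ 2) 0) ^ 2| ≤ 4 * |x - y| := by
  obtain ⟨p, hp⟩ : ∃ p, p = max (1 - x ^ 2) 0 := ⟨_, rfl⟩
  obtain ⟨q, hq⟩ : ∃ q, q = max (1 - y ^ 2) 0 := ⟨_, rfl⟩
  have h := hat_lip x y
  rw [← hp, ← hq] at h ⊢
  have hp0 : 0 ≤ p := hp ▸ le_max_right _ _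
  have hq0 : 0 ≤ q := hq ▸ le_max_right _ _
  have hp1 : p ≤ 1 := hp ▸ max_le (by nlinarith) zero_le_one
  have hq1 : q ≤ 1 := hq ▸ max_le (by nlinarith) zero_le_one
  have e : p ^ 2 - q ^ 2 = (p - q) * (p + q) := by ring
  rw [e, abs_mul, abs_of_nonneg (by linarith : (0 : ℝ) ≤ p + q)]
  have h1 := abs_nonneg (p - q)
  nlinarith

theorem rhoB_lip {l : ℝ} (hl : 0 < l) (u v : ℝ) :
    |rhoB 0 l u - rhoB 0 l v| ≤ 15 / (4 * l ^ 2) * |u - v| := by
  have h := hat_sq_lip ((u - 0) / l) ((v - 0) / l)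
  have e1 : (u - 0) / l - (v - 0) / l = (u - v) / l := by ring
  rw [e1, abs_div, abs_of_pos hl] at h
  unfold rhoB
  rw [← mul_sub, abs_mul, abs_of_pos (by positivity : (0 : ℝ) < 15 / (16 * l))]
  calc 15 / (16 * l) * _ ≤ 15 / (16 * l) * (4 * (|u - v| / l)) :=
        mul_le_mul_of_nonneg_left h (by positivity)
    _ = _ := by
        field_simp
        ring

/-! ### the primitive of the bump -/

/-- primitive of the bump -/
noncomputable def PB (l x : ℝ) : ℝ := ∫ t in (0 : ℝ)..x, rhoB 0 l t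

theorem intB (l x y : ℝ) : IntervalIntegrable (rhoB 0 l) volume x y :=
  (continuous_rhoB 0 l).intervalIntegrable _ _

theorem PB_sub (l x y : ℝ) : PB l y - PB l x = ∫ t in x..y, rhoB 0 l t :=
  intervalIntegral.integral_interval_sub_left (intB l _ _) (intB l _ _)

theorem PB_lip {l : ℝ} (hl : 0 < l) (x y : ℝ) :
    |PB l y - PB l x| ≤ 15 / (16 * l) * |y - x| := by
  rw [PB_sub]
  have h := intervalIntegral.norm_integral_le_of_norm_le_const (a := x) (b := y)
    (f := rhoB 0 l) (C := 15 / (16 * l)) (fun t _ => by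
      rw [Real.norm_eq_abs, abs_of_nonneg (rhoB_nonneg hl)]
      exact rhoB_le hl)
  rwa [Real.norm_eq_abs] at h

theorem PB_second {l : ℝ} (hl : 0 < l) (x t : ℝ) :
    |PB l (x + t) + PB l (x - t) - 2 * PB l x| ≤ 15 / (4 * l ^ 2) * t ^ 2 := by
  wlog ht : 0 ≤ t generalizing t with H
  · have h := H (-t) (by linarith)
    have e1 : x + -t = x - t := by ring
    have e2 : x - -t = x + t := by ring
    rw [e1, e2, neg_sq] at h
    rwa [add_comm (PB l (x + t))]
  have e1 : PB l (x + t) - PB l x = ∫ u in (0 : ℝ)..t, rhoB 0 l (x + u) := by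
    rw [PB_sub, intervalIntegral.integral_comp_add_left (fun u => rhoB 0 l u) x, add_zero]
  have e2 : PB l x - PB l (x - t) = ∫ u in (0 : ℝ)..t, rhoB 0 l (x - u) := by
    rw [PB_sub, intervalIntegral.integral_comp_sub_left (fun u => rhoB 0 l u) x, sub_zero]
  have e3 : PB l (x + t) + PB l (x - t) - 2 * PB l x =
      ∫ u in (0 : ℝ)..t, (rhoB 0 l (x + u) - rhoB 0 l (x - u)) := by
    rw [intervalIntegral.integral_sub, ← e1, ← e2]
    · ring
    · exact ((continuous_rhoB 0 l).comp (continuous_const.add continuous_id)).intervalIntegrable _ _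
    · exact ((continuous_rhoB 0 l).comp (continuous_const.sub continuous_id)).intervalIntegrable _ _
  rw [e3]
  have h1 : |∫ u in (0 : ℝ)..t, (rhoB 0 l (x + u) - rhoB 0 l (x - u))| ≤
      ∫ u in (0 : ℝ)..t, 15 / (4 * l ^ 2) * (2 * u) := by
    rw [← Real.norm_eq_abs]
    refine intervalIntegral.norm_integral_le_of_norm_le ht ?_ ?_
    · refine Filter.Eventually.of_forall fun u hu => ?_
      rw [Real.norm_eq_abs]
      refine (rhoB_lip hl _ _).trans ?_
      have : x + u - (x - u) = 2 * u := by ring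
      rw [this, abs_of_pos (by linarith [hu.1] : (0 : ℝ) < 2 * u)]
    · exact (by fun_prop : Continuous fun u : ℝ => 15 / (4 * l ^ 2) * (2 * u)).intervalIntegrable _ _
  refine h1.trans (le_of_eq ?_)
  rw [intervalIntegral.integral_const_mul, intervalIntegral.integral_const_mul, integral_id]
  ring

/-- **the smooth density is a difference quotient of the primitive of the bump** -/
theorem rhoS_eq_PB {a l : ℝ} (hla : l ≤ a) (v : ℝ) :
    rhoS a l v = (2 * (a - l))⁻¹ * (PB l (v + (a - l)) - PB l (v - (a - l))) := by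
  rw [rhoS, muc, integral_Icc_eq_integral_Ioc, ← intervalIntegral.integral_of_le (by linarith)]
  congr 1
  have h1 : ∀ c, rhoB c l v = rhoB 0 l (v - c) := fun c => rhoB_eq_shift _ _ _
  simp only [h1]
  rw [intervalIntegral.integral_comp_sub_left (fun u => rhoB 0 l u) v, PB_sub, sub_neg_eq_add]

/-- constant of the first difference -/
noncomputable def K1 (a l : ℝ) : ℝ := 15 / (16 * l * (a - l))

/-- constant of the second difference -/
noncomputable def K2 (a l : ℝ) : ℝ := 15 / (4 * l ^ 2 * (a - l))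

theorem K1_nonneg {a l : ℝ} (hl : 0 < l) (h : l < a) : 0 ≤ K1 a l := by
  have : 0 < a - l := by linarith
  unfold K1
  positivity

theorem K2_nonneg {a l : ℝ} (hl : 0 < l) (h : l < a) : 0 ≤ K2 a l := by
  have : 0 < a - l := by linarith
  unfold K2
  positivity

/-- **the smooth density is Lipschitz** -/
theorem rhoS_lip {a l : ℝ} (hl : 0 < l) (h : l < a) (u v : ℝ) :
    |rhoS a l u - rhoS a l v| ≤ K1 a l * |u - v| := by
  have ha : 0 < a - l := by linarith
  rw [rhoS_eq_PB h.le, rhoS_eq_PB h.le, ← mul_sub, abs_mul,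
    abs_of_pos (by positivity : (0 : ℝ) < (2 * (a - l))⁻¹)]
  have h1 := PB_lip hl (v + (a - l)) (u + (a - l))
  have h2 := PB_lip hl (v - (a - l)) (u - (a - l))
  have e1 : u + (a - l) - (v + (a - l)) = u - v := by ring
  have e2 : u - (a - l) - (v - (a - l)) = u - v := by ring
  rw [e1] at h1
  rw [e2] at h2
  have h3 : |PB l (u + (a - l)) - PB l (u - (a - l)) - (PB l (v + (a - l)) - PB l (v - (a - l)))| ≤
      2 * (15 / (16 * l) * |u - v|) := by
    have e : PB l (u + (a - l)) - PB l (u - (a - l)) - (PB l (v + (a - l)) - PB l (v - (a - l))) =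
        (PB l (u + (a - l)) - PB l (v + (a - l))) -
          (PB l (u - (a - l)) - PB l (v - (a - l))) := by ring
    rw [e]
    exact (abs_sub _ _).trans (by linarith)
  calc (2 * (a - l))⁻¹ * _ ≤ (2 * (a - l))⁻¹ * (2 * (15 / (16 * l) * |u - v|)) :=
        mul_le_mul_of_nonneg_left h3 (by positivity)
    _ = _ := by
        unfold K1
        field_simp

/-- **second differences of the smooth density** -/
theorem rhoS_second {a l : ℝ} (hl : 0 < l) (h : l < a) (v t : ℝ) :
    |rhoS a l (v + t) + rhoS a l (v - t) - 2 * rhoS a l v| ≤ K2 a l * t ^ 2 := by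
  have ha : 0 < a - l := by linarith
  rw [rhoS_eq_PB h.le, rhoS_eq_PB h.le, rhoS_eq_PB h.le]
  have h1 := PB_second hl (v + (a - l)) t
  have h2 := PB_second hl (v - (a - l)) t
  have e : (2 * (a - l))⁻¹ * (PB l (v + t + (a - l)) - PB l (v + t - (a - l))) +
      (2 * (a - l))⁻¹ * (PB l (v - t + (a - l)) - PB l (v - t - (a - l))) -
      2 * ((2 * (a - l))⁻¹ * (PB l (v + (a - l)) - PB l (v - (a - l)))) =
      (2 * (a - l))⁻¹ * ((PB l (v + (a - l) + t) + PB l (v + (a - l) - t) -
        2 * PB l (v + (a - l))) - (PB l (v - (a - l) + t) + PB l (v - (a - l) - t) -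
        2 * PB l (v - (a - l)))) := by
    have e1 : v + t + (a - l) = v + (a - l) + t := by ring
    have e2 : v + t - (a - l) = v - (a - l) + t := by ring
    have e3 : v - t + (a - l) = v + (a - l) - t := by ring
    have e4 : v - t - (a - l) = v - (a - l) - t := by ring
    rw [e1, e2, e3, e4]
    ring
  rw [e, abs_mul, abs_of_pos (by positivity : (0 : ℝ) < (2 * (a - l))⁻¹)]
  calc (2 * (a - l))⁻¹ * _ ≤ (2 * (a - l))⁻¹ * (2 * (15 / (4 * l ^ 2) * t ^ 2)) := by
        refine mul_le_mul_of_nonneg_left ?_ (by positivity)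
        exact (abs_sub _ _).trans (by linarith)
    _ = _ := by
        unfold K2
        field_simp

end P365T1.Smooth755
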