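import Vale.Agent.P365.T2.H79.Flow
import Vale.Agent.P365.T2.DerivS755

/-!
# P365 T2: `nuS` satisfies the two law conditions of `T2/H79/Flow.lean`.
-/

set_option linter.all false

namespace P365T1.Smooth755

open MeasureTheory P365T1 P365T2.H79

/-- **the smooth law** is `SmL` -/
theorem smL_nuS {a l : ℝ} (hl : 0 < l) (h : l < a) : SmL (nuS a l) a (K1 a l) :=
  ⟨rhoS a l, rhoSd a l, fun v => hasDerivAt_rhoS h.le v, continuous_rhoSd a l,
    fun v => rhoS_nonneg hl h v, fun v => abs_rhoSd_le hl h v,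
    fun v hv => P365T2.H722.rhoS_eq_zero hl h hv, P365T2.H722.nuS_eq_withDensity hl h⟩

/-- the constant -/
noncomputable def cC2 (a l : ℝ) : ℝ := 5500 * ((1 + 2 * a ^ 2) / l ^ 2 + 2)

theorem cC2_nonneg (a l : ℝ) : 0 ≤ cC2 a l := by
  unfold cC2
  positivity

/-- **the smooth law** is `C2` -/
theorem c2_nuS {a l : ℝ} (hl : 0 < l) (h : l < a) : C2 (nuS a l) (cC2 a l) := by
  intro s hs
  have h1 := norm_cauchy2_nuS hl h hs.ne'
  have e : (fun v : ℝ => tt s v ^ 2) = fun v : ℝ => 1 / ((v : ℂ) - s) ^ 2 := by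
    funext v
    rw [tt, inv_pow, one_div]
  rw [e]
  exact h1

end P365T1.Smooth755
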