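import Vale.Agent.P365.T1c.NormNum376
import Vale.Agent.P365.T1.HBnumL614

/-!
# P365-T2: numbers of the bulk hub for any rate `1 / r ^ K` (copies of 376's `normal_num` and of
614's `etaL`).
-/

set_option linter.all false

namespace P365T2.HBnumG

open Real Filter P365T1.Seq P365T1.HBasm.Num P365T1.HBnumL

/-- **the numbers of NORMAL**, any rate `1 / r ^ K` -/
theorem normal_numK {c Dm : ℝ} (hc : 0 ≤ c) (hD : 0 ≤ Dm) (K : ℕ) :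
    ∀ᶠ r : ℕ in atTop, ∀ n : ℕ, n = 9 * (8 * r) ^ 2 →
      2 * (e1R c n * (25 * (8 * (r : ℝ)) ^ 2) +
        K2R c r n * exp (3 * (r : ℝ)) ^ ((8 * r) ^ 2) * (8 * (r : ℝ)) ^ 2 *
          exp (-((r : ℝ) ^ 5))) ≤ 1 / (r : ℝ) ^ K / 2 ∧
      2 * (exp (-(r : ℝ)) * exp (-((r : ℝ) ^ 5))) * A1R c Dm r n ≤ 1 / (r : ℝ) ^ K / 2 := by
  set G : ℝ := 8 * (1024 + (8 * 576 ^ 2 + 4 * 576) * (256 * (π * Dm))) with hG
  have hG0 : 0 ≤ G := by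
    rw [hG]
    have := pi_pos
    positivity
  have e1 := ev_pow_exp_le (2 * (2 * (7372800 + 147456))) (K + 4) (c := 1) one_pos (ε := 1) one_pos
  have e2 := ev_pow_exp_le (2 * G) (K + 6) (c := 1) one_pos (ε := 1) one_pos
  have e3 : ∀ᶠ r : ℕ in atTop, BB c + 600 ≤ (r : ℝ) :=
    (tendsto_natCast_atTop_atTop (R := ℝ)).eventually_ge_atTop _
  filter_upwards [e1, e2, e3, eventually_ge_atTop 1] with r h1 h2 h3 hr n hn0
  have hn : (n : ℝ) = 576 * (r : ℝ) ^ 2 := by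
    rw [hn0]
    push_cast
    ring
  have hr1 : (1 : ℝ) ≤ r := by exact_mod_cast hr
  have hr0 : (0 : ℝ) < r := by linarith
  have p2 : (1 : ℝ) ≤ (r : ℝ) ^ 2 := one_le_pow₀ hr1
  have p24 : (r : ℝ) ^ 2 ≤ (r : ℝ) ^ 4 := pow_le_pow_right₀ hr1 (by norm_num)
  have p34 : (r : ℝ) ^ 3 ≤ (r : ℝ) ^ 4 := pow_le_pow_right₀ hr1 (by norm_num)
  have p14 : (r : ℝ) ≤ (r : ℝ) ^ 4 := by
    calc (r : ℝ) = (r : ℝ) ^ 1 := (pow_one _).symm
      _ ≤ (r : ℝ) ^ 4 := pow_le_pow_right₀ hr1 (by norm_num)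
  have hexp := expo_le hc hr hn
  have hrK : (0 : ℝ) < (r : ℝ) ^ K := by positivity
  have hE : exp (-(r : ℝ)) = exp (-(1 * (r : ℝ))) := by rw [one_mul]
  have p5 : (BB c + 600) * (r : ℝ) ^ 4 ≤ (r : ℝ) ^ 5 := by
    calc (BB c + 600) * (r : ℝ) ^ 4 ≤ r * (r : ℝ) ^ 4 :=
          mul_le_mul_of_nonneg_right h3 (by positivity)
      _ = (r : ℝ) ^ 5 := by ring
  have p40 : (0 : ℝ) ≤ (r : ℝ) ^ 4 := by positivity
  have hK : K2R c r n ≤ 4 * (576 * (r : ℝ) ^ 2) * exp (BB c * (r : ℝ) ^ 4) := by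
    rw [K2R_eq, hn]
    rw [hn] at hexp
    gcongr
  have hen : exp (-(n : ℝ)) ≤ exp (-(r : ℝ)) := by
    refine exp_le_exp.2 ?_
    rw [hn]
    nlinarith
  constructor
  · have t1 : e1R c n * (25 * (8 * (r : ℝ)) ^ 2) ≤ 7372800 * (r : ℝ) ^ 4 * exp (-(r : ℝ)) := by
      rw [e1R_eq, hn] at *
      calc 8 * (576 * (r : ℝ) ^ 2) * exp (-(576 * (r : ℝ) ^ 2)) * (25 * (8 * (r : ℝ)) ^ 2)
          = 7372800 * (r : ℝ) ^ 4 * exp (-(576 * (r : ℝ) ^ 2)) := by ring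
        _ ≤ 7372800 * (r : ℝ) ^ 4 * exp (-(r : ℝ)) :=
          mul_le_mul_of_nonneg_left hen (by positivity)
    have t2 : K2R c r n * exp (3 * (r : ℝ)) ^ ((8 * r) ^ 2) * (8 * (r : ℝ)) ^ 2 *
          exp (-((r : ℝ) ^ 5)) ≤ 147456 * (r : ℝ) ^ 4 * exp (-(r : ℝ)) := by
      have q1 : exp (3 * (r : ℝ)) ^ ((8 * r) ^ 2) = exp (192 * (r : ℝ) ^ 3) := by
        rw [← exp_nat_mul]
        congr 1
        push_cast
        ring
      rw [q1]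
      calc K2R c r n * exp (192 * (r : ℝ) ^ 3) * (8 * (r : ℝ)) ^ 2 * exp (-((r : ℝ) ^ 5))
          ≤ 4 * (576 * (r : ℝ) ^ 2) * exp (BB c * (r : ℝ) ^ 4) * exp (192 * (r : ℝ) ^ 3) *
            (8 * (r : ℝ)) ^ 2 * exp (-((r : ℝ) ^ 5)) := by gcongr
        _ = 147456 * (r : ℝ) ^ 4 *
            (exp (BB c * (r : ℝ) ^ 4) * exp (192 * (r : ℝ) ^ 3) * exp (-((r : ℝ) ^ 5))) := by ring
        _ ≤ 147456 * (r : ℝ) ^ 4 * exp (-(r : ℝ)) := by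
            refine mul_le_mul_of_nonneg_left ?_ (by positivity)
            rw [← exp_add, ← exp_add]
            refine exp_le_exp.2 ?_
            nlinarith
    have t3 : 2 * (2 * (7372800 + 147456)) * (r : ℝ) ^ (K + 4) * exp (-(1 * (r : ℝ))) =
        (2 * ((7372800 + 147456) * (r : ℝ) ^ 4 * exp (-(r : ℝ)))) * (r : ℝ) ^ K * 2 := by
      rw [hE]
      ring
    rw [t3] at h1
    rw [div_div, le_div_iff₀ (by positivity)]
    calc 2 * (e1R c n * (25 * (8 * (r : ℝ)) ^ 2) +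
        K2R c r n * exp (3 * (r : ℝ)) ^ ((8 * r) ^ 2) * (8 * (r : ℝ)) ^ 2 *
          exp (-((r : ℝ) ^ 5))) * ((r : ℝ) ^ K * 2)
        ≤ (2 * ((7372800 + 147456) * (r : ℝ) ^ 4 * exp (-(r : ℝ)))) * ((r : ℝ) ^ K * 2) := by
          refine mul_le_mul_of_nonneg_right ?_ (by positivity)
          linarith
      _ = (2 * ((7372800 + 147456) * (r : ℝ) ^ 4 * exp (-(r : ℝ)))) * (r : ℝ) ^ K * 2 := by ring
      _ ≤ 1 := h1
  · have hD' : 0 ≤ π * Dm := mul_nonneg pi_pos.le hD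
    have u1 : (2 : ℝ) ^ n ≤ exp ((BB c + 576) * (r : ℝ) ^ 4) := by
      have q1 : (2 : ℝ) ≤ exp 1 := by
        have := add_one_le_exp (1 : ℝ)
        linarith
      have hB0 : 0 ≤ BB c := by
        unfold BB
        positivity
      calc (2 : ℝ) ^ n ≤ exp 1 ^ n := pow_le_pow_left₀ (by norm_num) q1 n
        _ = exp (n : ℝ) := by rw [← exp_nat_mul, mul_one]
        _ ≤ _ := by
          refine exp_le_exp.2 ?_
          rw [hn]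
          nlinarith
    have hB0 : 0 ≤ BB c := by
      unfold BB
      positivity
    have one_le : 1 ≤ exp ((BB c + 576) * (r : ℝ) ^ 4) := one_le_exp (by positivity)
    have u2 : e1R c n * n ≤ 8 * 576 ^ 2 * (r : ℝ) ^ 4 * exp ((BB c + 576) * (r : ℝ) ^ 4) := by
      rw [e1R_eq, hn] at *
      have q2 : exp (-(576 * (r : ℝ) ^ 2)) ≤ 1 := exp_le_one_iff.2 (by nlinarith)
      calc 8 * (576 * (r : ℝ) ^ 2) * exp (-(576 * (r : ℝ) ^ 2)) * (576 * (r : ℝ) ^ 2)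
          = 8 * 576 ^ 2 * (r : ℝ) ^ 4 * exp (-(576 * (r : ℝ) ^ 2)) := by ring
        _ ≤ 8 * 576 ^ 2 * (r : ℝ) ^ 4 * exp ((BB c + 576) * (r : ℝ) ^ 4) :=
          mul_le_mul_of_nonneg_left (q2.trans one_le) (by positivity)
    have u3 : K2R c r n ≤ 4 * 576 * (r : ℝ) ^ 4 * exp ((BB c + 576) * (r : ℝ) ^ 4) := by
      refine hK.trans ?_
      calc 4 * (576 * (r : ℝ) ^ 2) * exp (BB c * (r : ℝ) ^ 4)
          ≤ 4 * (576 * (r : ℝ) ^ 4) * exp ((BB c + 576) * (r : ℝ) ^ 4) := by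
            gcongr
            linarith
        _ = _ := by ring
    have u4 : A1R c Dm r n ≤ G / 2 * (r : ℝ) ^ 6 * exp ((BB c + 576) * (r : ℝ) ^ 4) := by
      unfold A1R
      set X := exp ((BB c + 576) * (r : ℝ) ^ 4) with hX
      have p26 : (r : ℝ) ^ 2 ≤ (r : ℝ) ^ 6 := pow_le_pow_right₀ hr1 (by norm_num)
      calc 4 * (4 * (2 * (8 * (r : ℝ))) ^ 2 * 2 ^ n +
            (e1R c n * n + K2R c r n) * ((2 * (8 * (r : ℝ))) ^ 2 * (π * Dm)))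
          ≤ 4 * (4 * (2 * (8 * (r : ℝ))) ^ 2 * X +
            (8 * 576 ^ 2 * (r : ℝ) ^ 4 * X + 4 * 576 * (r : ℝ) ^ 4 * X) *
              ((2 * (8 * (r : ℝ))) ^ 2 * (π * Dm))) := by gcongr
        _ = 4 * (1024 * (r : ℝ) ^ 2 + (8 * 576 ^ 2 + 4 * 576) * (256 * (π * Dm)) *
              (r : ℝ) ^ 6) * X := by ring
        _ ≤ 4 * (1024 * (r : ℝ) ^ 6 + (8 * 576 ^ 2 + 4 * 576) * (256 * (π * Dm)) *
              (r : ℝ) ^ 6) * X := by gcongr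
        _ = G / 2 * (r : ℝ) ^ 6 * X := by
            rw [hG]
            ring
    have t3 : 2 * G * (r : ℝ) ^ (K + 6) * exp (-(1 * (r : ℝ))) =
        (G * (r : ℝ) ^ 6 * exp (-(r : ℝ))) * ((r : ℝ) ^ K * 2) := by
      rw [hE]
      ring
    rw [t3] at h2
    rw [div_div, le_div_iff₀ (by positivity)]
    calc 2 * (exp (-(r : ℝ)) * exp (-((r : ℝ) ^ 5))) * A1R c Dm r n * ((r : ℝ) ^ K * 2)
        ≤ 2 * (exp (-(r : ℝ)) * exp (-((r : ℝ) ^ 5))) *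
          (G / 2 * (r : ℝ) ^ 6 * exp ((BB c + 576) * (r : ℝ) ^ 4)) * ((r : ℝ) ^ K * 2) := by
          gcongr
      _ = (G * (r : ℝ) ^ 6 * exp (-(r : ℝ))) * ((r : ℝ) ^ K * 2) *
          (exp (-((r : ℝ) ^ 5)) * exp ((BB c + 576) * (r : ℝ) ^ 4)) := by ring
      _ ≤ (G * (r : ℝ) ^ 6 * exp (-(r : ℝ))) * ((r : ℝ) ^ K * 2) * 1 := by
          refine mul_le_mul_of_nonneg_left ?_ (by positivity)
          rw [← exp_add, exp_le_one_iff]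
          nlinarith
      _ ≤ 1 := by
          rw [mul_one]
          exact h2


/-- **LONG**: `η_L = C (2R+1)^2 (R+1)^2 (1/2)^n` with `R = 2 m = 16 r` and `n ≥ r` -/
theorem long_numK (C : ℝ) (hC : 0 ≤ C) (K : ℕ) :
    ∃ R0 : ℕ, ∀ r : ℕ, R0 ≤ r → ∀ n : ℕ, r ≤ 10 * n + 100 →
      C * (2 * (16 * (r : ℝ)) + 1) ^ 2 * (16 * (r : ℝ) + 1) ^ 2 * (1 / 2) ^ n ≤
        1 / (r : ℝ) ^ K / 2 := by
  obtain ⟨R, hR⟩ := term (q := 1 / 2) (by norm_num) (by norm_num) (C * (32 ^ 2 * 16 ^ 2))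
    (by positivity) 4 K
  refine ⟨R, fun r hr n hn => le_trans ?_ (hR r hr n hn)⟩
  have h0 : (0 : ℝ) ≤ r := Nat.cast_nonneg r
  have h1 : (2 * (16 * (r : ℝ)) + 1) ^ 2 ≤ 32 ^ 2 * ((r : ℝ) + 1) ^ 2 := by
    rw [← mul_pow]
    exact pow_le_pow_left₀ (by positivity) (by linarith) 2
  have h2 : (16 * (r : ℝ) + 1) ^ 2 ≤ 16 ^ 2 * ((r : ℝ) + 1) ^ 2 := by
    rw [← mul_pow]
    exact pow_le_pow_left₀ (by positivity) (by linarith) 2
  have h3 : (2 * (16 * (r : ℝ)) + 1) ^ 2 * (16 * (r : ℝ) + 1) ^ 2 ≤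
      32 ^ 2 * 16 ^ 2 * ((r : ℝ) + 1) ^ 4 :=
    calc (2 * (16 * (r : ℝ)) + 1) ^ 2 * (16 * (r : ℝ) + 1) ^ 2
        ≤ (32 ^ 2 * ((r : ℝ) + 1) ^ 2) * (16 ^ 2 * ((r : ℝ) + 1) ^ 2) :=
          mul_le_mul h1 h2 (by positivity) (by positivity)
      _ = _ := by ring
  refine mul_le_mul_of_nonneg_right ?_ (by positivity)
  rw [mul_assoc, mul_assoc C]
  exact mul_le_mul_of_nonneg_left h3 hC

/-- **LONG, in the form of `H509`**: block side `m = 8 r`, `R = 2 m`, `3 n + 6 ≥ m`-type `n ≥ r` -/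
theorem etaLK (C3 Cc : ℝ) (h3 : 0 ≤ C3) (hc : 0 ≤ Cc) (K : ℕ) :
    ∃ R0 : ℕ, ∀ r : ℕ, R0 ≤ r → ∀ R n : ℕ, R = 2 * (8 * r) → r ≤ n →
      C3 * ((R : ℝ) + 1) ^ 2 * Cc * (2 * (R : ℝ) + 1) ^ 2 * (1 / 2) ^ n ≤
        1 / (r : ℝ) ^ K / 2 := by
  obtain ⟨R0, hR⟩ := long_numK (C3 * Cc) (mul_nonneg h3 hc) K
  refine ⟨R0, fun r hr R n hRr hn => le_trans (le_of_eq ?_) (hR r hr n (by omega))⟩
  subst hRr
  push_cast
  ring



end P365T2.HBnumG
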