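import Vale.Agent.P365.T2.K1cH235

/-!
# P365-T2, (K1) = (A'): law error of a concave function of the energy, bump law at the site.

`Conc Φ dΦ Lp` : `Φ' = dΦ`, `0 ≤ dΦ ≤ Lp`, `dΦ` antitone.
`cost_bump_Phi` : the analogue of `exists_cost_bump` for `Φ(En)`, one factor
`Lg s_z = 1 + log (1 + 1/Im s_z) + log (1 + |s_z|)` worse.
-/

set_option linter.all false

namespace P365T1.K1

open MeasureTheory Complex P365L P365O P365T1.Bump Set
open scoped Real ComplexConjugate

section alg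

variable {ι : Type*} [Fintype ι] [DecidableEq ι] {A : Matrix ι ι ℝ} {W : ι → ℂ}

/-- energy of the system with `z` removed -/
noncomputable def Ei (A : Matrix ι ι ℝ) (W : ι → ℂ) (f : ι → ℝ) (z : ι) : ℝ :=
  ∑ a, ∑ b, (-(W a).im) * (-(W b).im) * ‖Gi A W z a b‖ ^ 2 * (f a - f b) ^ 2

theorem Ei_upd (hA : A.IsSymm) (hW : ∀ x, (W x).im < 0) {z : ι} {v : ℂ} (hv : v.im < 0)
    (f : ι → ℝ) : Ei A (Function.update W z v) f z = Ei A W f z := by
  unfold Ei
  refine Finset.sum_congr rfl fun a _ => Finset.sum_congr rfl fun b _ => ?_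
  rw [Gi_upd hA hW hv]
  by_cases ha : a = z
  · subst ha
    rw [Gi_left hA hW]
    simp
  · by_cases hb : b = z
    · subst hb
      rw [Gi_right hA hW]
      simp
    · rw [Function.update_of_ne ha, Function.update_of_ne hb]

/-- **the energy as a function of `G_zz`** -/
theorem En_eq (hA : A.IsSymm) (hW : ∀ x, (W x).im < 0) (f : ι → ℝ) (z : ι) :
    En A W f = Ei A W f z + (Cz A W f z * Gr A W z z).re -
      2 * Bf A W f z ^ 2 * ‖Gr A W z z‖ ^ 2 := by
  set g := Gr A W z z with hg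
  have e1 : ∀ a b, (-(W a).im) * (-(W b).im) * KK A W a b * (f a - f b) ^ 2 =
      (-(W a).im) * (-(W b).im) * ‖Gi A W z a b‖ ^ 2 * (f a - f b) ^ 2 +
      2 * ((((-(W a).im) * (-(W b).im) * (f a - f b) ^ 2 : ℝ) : ℂ) *
        (conj (Gi A W z a b) * gw A W z a * gw A W z b) * g).re +
      ‖g‖ ^ 2 * (((-(W a).im) * ‖gw A W z a‖ ^ 2) * ((-(W b).im) * ‖gw A W z b‖ ^ 2) *
        (f a - f b) ^ 2) := by
    intro a b
    have h1 : KK A W a b = ‖Gi A W z a b‖ ^ 2 +
        2 * (conj (Gi A W z a b) * gw A W z a * gw A W z b * g).re +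
        ‖gw A W z a‖ ^ 2 * ‖gw A W z b‖ ^ 2 * ‖g‖ ^ 2 := by
      rw [KK, Gr_eq_Gi hA hW z a b, ← hg]
      have h2 : ∀ p q : ℂ, ‖p + q‖ ^ 2 = ‖p‖ ^ 2 + 2 * (conj p * q).re + ‖q‖ ^ 2 := by
        intro p q
        rw [← Complex.normSq_eq_norm_sq, ← Complex.normSq_eq_norm_sq, ← Complex.normSq_eq_norm_sq,
          Complex.normSq_apply, Complex.normSq_apply, Complex.normSq_apply]
        simp
        ring
      rw [h2, norm_mul, norm_mul, mul_pow, mul_pow]
      congr 3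
      ring
    rw [h1]
    have h3 : ((((-(W a).im) * (-(W b).im) * (f a - f b) ^ 2 : ℝ) : ℂ) *
        (conj (Gi A W z a b) * gw A W z a * gw A W z b) * g).re =
        ((-(W a).im) * (-(W b).im) * (f a - f b) ^ 2) *
          (conj (Gi A W z a b) * gw A W z a * gw A W z b * g).re := by
      rw [mul_assoc, Complex.re_ofReal_mul]
    rw [h3]
    ring
  have e2 : ∑ a, ∑ b, ((-(W a).im) * ‖gw A W z a‖ ^ 2) * ((-(W b).im) * ‖gw A W z b‖ ^ 2) *
      (f a - f b) ^ 2 = 2 * Sf A W z * Nf A W f z - 2 * Bf A W f z ^ 2 := by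
    have := sum_sum_sq (fun a => (-(W a).im) * ‖gw A W z a‖ ^ 2) (fun a => f a - f z)
    rw [Sf, Nf, Bf, ← this]
    refine Finset.sum_congr rfl fun a _ => Finset.sum_congr rfl fun b _ => ?_
    congr 1
    ring
  have e3 : ∑ a, ∑ b, ((((-(W a).im) * (-(W b).im) * (f a - f b) ^ 2 : ℝ) : ℂ) *
        (conj (Gi A W z a b) * gw A W z a * gw A W z b) * g).re = (c0 A W f z * g).re := by
    rw [c0, Finset.sum_mul, Complex.re_sum]
    refine Finset.sum_congr rfl fun a _ => ?_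
    rw [Finset.sum_mul, Complex.re_sum]
  have e4 : (Cz A W f z * g).re = 2 * (c0 A W f z * g).re + 2 * Nf A W f z * g.im := by
    rw [Cz]
    have : (2 * c0 A W f z - 2 * I * ((Nf A W f z : ℝ) : ℂ)) * g =
        ((2 : ℝ) : ℂ) * (c0 A W f z * g) - ((2 * Nf A W f z : ℝ) : ℂ) * (I * g) := by
      push_cast
      ring
    rw [this, Complex.sub_re, Complex.re_ofReal_mul, Complex.re_ofReal_mul, Complex.I_mul_re]
    ring
  have e5 : g.im = Sf A W z * ‖g‖ ^ 2 := mm_eq_Sf hA hW z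
  rw [En, e4, e5]
  simp only [e1, Finset.sum_add_distrib, ← Finset.mul_sum]
  rw [e2, e3, Ei]
  ring

/-- the coefficient in the variable `(u - s_z)⁻¹` -/
noncomputable def Kz (A : Matrix ι ι ℝ) (W : ι → ℂ) (f : ι → ℝ) (z : ι) : ℂ :=
  Cz A W f z + ((2 * Bf A W f z ^ 2 / (sz A W z).im : ℝ) : ℂ) * I

theorem sz_im_eq (hA : A.IsSymm) (hW : ∀ x, (W x).im < 0) (z : ι) :
    (sz A W z).im = Sf A W z := by
  rw [sz_im, sg_im hA hW]
  ring

theorem norm_Kz_le (hA : A.IsSymm) (hW : ∀ x, (W x).im < 0) (f : ι → ℝ) (z : ι) :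
    ‖Kz A W f z‖ ≤ 12 * Nf A W f z := by
  have h1 := norm_Cz_le hA hW f z
  have h2 := Bf_sq_le hA hW f z
  have h3 := sz_im_pos hA hW z
  have h4 : 2 * Bf A W f z ^ 2 / (sz A W z).im ≤ 2 * Nf A W f z := by
    rw [div_le_iff₀ h3, sz_im_eq hA hW]
    linarith
  have h5 : 0 ≤ 2 * Bf A W f z ^ 2 / (sz A W z).im := by positivity
  rw [Kz]
  refine (norm_add_le _ _).trans ?_
  rw [norm_mul, norm_I, mul_one, Complex.norm_real, Real.norm_eq_abs, abs_of_nonneg h5]
  linarith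

theorem norm_sq_inv_eq {s : ℂ} (hs : 0 < s.im) (u : ℝ) :
    ‖((u : ℂ) - s)⁻¹‖ ^ 2 = (((u : ℂ) - s)⁻¹).im / s.im := by
  rw [Complex.inv_im, ← Complex.normSq_eq_norm_sq, Complex.normSq_inv]
  simp
  field_simp

/-- **the energy as a function of the potential of `z`** -/
theorem En_rez (hA : A.IsSymm) (hW : ∀ x, (W x).im < 0) (f : ι → ℝ) (z : ι) (u : ℝ) :
    En A (rez W z u) f = Fx (Ei A W f z) (Kz A W f z) (sz A W z) u := by
  have hv : ((u : ℂ) + ((W z).im : ℂ) * I).im < 0 := by rw [rez_im]; exact hW z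
  have hs := sz_im_pos hA hW z
  have h1 : Bf A (rez W z u) f z = Bf A W f z := Bf_upd hA hW hv f
  have h2 : Cz A (rez W z u) f z = Cz A W f z := Cz_upd hA hW hv f
  have h3 : Ei A (rez W z u) f z = Ei A W f z := Ei_upd hA hW hv f
  rw [En_eq hA (rez_neg hW z u) f z, h1, h2, h3, Gr_rez hA hW, norm_sq_inv_eq hs, Fx, Kz]
  set q := ((u : ℂ) - sz A W z)⁻¹
  have h4 : ((Cz A W f z + ((2 * Bf A W f z ^ 2 / (sz A W z).im : ℝ) : ℂ) * I) * q).re =
      (Cz A W f z * q).re - (2 * Bf A W f z ^ 2 / (sz A W z).im) * q.im := by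
    rw [add_mul, Complex.add_re, mul_assoc, Complex.re_ofReal_mul, Complex.I_mul_re]
    ring
  rw [h4]
  ring

/-- the derivative is above the harmonic one -/
theorem dEn_rez_ge (hA : A.IsSymm) (hW : ∀ x, (W x).im < 0) (f : ι → ℝ) (z : ι) (u : ℝ) :
    (I * Kz A W f z / ((u : ℂ) - sz A W z) ^ 2).re ≤ dEn A (rez W z u) f z := by
  have hs := sz_im_pos hA hW z
  have hne := sub_sz_ne hA hW z u
  rw [dEn_rez hA hW, Kz, ← sz_im_eq hA hW]
  set s := sz A W z
  set k : ℝ := Bf A W f z ^ 2 with hk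
  have hk0 : 0 ≤ k := sq_nonneg _
  set w := (u : ℂ) - s with hw
  have hwi : w.im = -s.im := by
    rw [hw]
    simp
  have h1 : (I * (Cz A W f z + ((2 * k / s.im : ℝ) : ℂ) * I) / w ^ 2).re =
      (I * Cz A W f z * (1 / w ^ 2)).re - (2 * k / s.im) * (1 / w ^ 2).re := by
    have : I * (Cz A W f z + ((2 * k / s.im : ℝ) : ℂ) * I) / w ^ 2 =
        I * Cz A W f z * (1 / w ^ 2) - ((2 * k / s.im : ℝ) : ℂ) * (1 / w ^ 2) := by
      field_simp
      linear_combination (((2 * k / s.im : ℝ) : ℂ)) * Complex.I_sq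
    rw [this, Complex.sub_re, Complex.re_ofReal_mul]
  have h2 : 0 ≤ 4 * k * s.im * ‖w⁻¹‖ ^ 4 + (2 * k / s.im) * (1 / w ^ 2).re := by
    have hN : 0 < Complex.normSq w := Complex.normSq_pos.2 hne
    have h3 : (1 / w ^ 2).re = (w.re ^ 2 - w.im ^ 2) / Complex.normSq w ^ 2 := by
      rw [one_div, Complex.inv_re, map_pow]
      congr 1
      rw [sq, Complex.mul_re]
      ring
    have h4 : ‖w⁻¹‖ ^ 4 = 1 / Complex.normSq w ^ 2 := by
      rw [norm_inv, inv_pow, Complex.normSq_eq_norm_sq, one_div]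
      congr 1
      ring
    have h5 : Complex.normSq w = w.re ^ 2 + w.im ^ 2 := by
      rw [Complex.normSq_apply]
      ring
    have h6 : 4 * k * s.im * ‖w⁻¹‖ ^ 4 + (2 * k / s.im) * (1 / w ^ 2).re =
        (2 * k / s.im) * ((w.re ^ 2 + w.im ^ 2) / Complex.normSq w ^ 2) := by
      rw [h3, h4, hwi]
      field_simp
      ring
    rw [h6]
    positivity
  rw [h1]
  linarith

end alg

/-! ### the bump law -/

theorem integral_nuB_real {v₀ l : ℝ} (hl : 0 < l) (F : ℝ → ℝ) :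
    ∫ v, F v ∂(nuB v₀ l) = ∫ x, bu x * F (v₀ + l * x) := by
  rw [integral_nuB hl]
  have h1 := Measure.integral_comp_mul_left (fun y => l * rhoB v₀ l (v₀ + y) * F (v₀ + y)) l
  have h2 : ∫ y, l * rhoB v₀ l (v₀ + y) * F (v₀ + y) = l * ∫ v, rhoB v₀ l v • F v := by
    rw [integral_add_left_eq_self (fun y => l * rhoB v₀ l y * F y) v₀, ← integral_const_mul]
    refine integral_congr_ae (Filter.Eventually.of_forall fun v => ?_)
    simp only [smul_eq_mul]
    ring
  rw [h2, abs_of_pos (inv_pos.2 hl), smul_eq_mul, inv_mul_cancel_left₀ hl.ne'] at h1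
  rw [← h1]
  refine integral_congr_ae (Filter.Eventually.of_forall fun x => ?_)
  simp only
  have h3 : l * rhoB v₀ l (v₀ + l * x) = bu x := by
    unfold rhoB bu
    have : (v₀ + l * x - v₀) / l = x := by
      field_simp
      ring
    rw [this]
    field_simp
  rw [h3]

theorem Lg_scale {l R : ℝ} (hl : 0 < l) {s : ℂ} (hs : 0 < s.im) {c : ℝ} (hc : |c| ≤ R) :
    Lg ((s - c) / l) ≤ (1 + Real.log (1 + l) + Real.log (1 + 1 / l) + R) * Lg s := by
  have hR : 0 ≤ R := (abs_nonneg c).trans hc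
  have h1 := Lg_ge_one hs
  have e1 : ((s - c) / l).im = s.im / l := by
    rw [Complex.div_ofReal_im]
    simp
  have e2 : ‖(s - c) / l‖ = ‖s - c‖ / l := by
    rw [norm_div, Complex.norm_real, Real.norm_eq_abs, abs_of_pos hl]
  have e3 : ‖s - c‖ ≤ ‖s‖ + |c| := by
    refine (norm_sub_le _ _).trans ?_
    rw [Complex.norm_real, Real.norm_eq_abs]
  have hn := norm_nonneg s
  have b1 : Real.log (1 + 1 / (s.im / l)) ≤ Real.log (1 + l) + Real.log (1 + 1 / s.im) := by
    rw [← Real.log_mul (by positivity) (by positivity)]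
    refine Real.log_le_log (by positivity) ?_
    have : (1 + l) * (1 + 1 / s.im) = 1 + 1 / (s.im / l) + l + 1 / s.im := by
      field_simp
      ring
    rw [this]
    have : 0 < 1 / s.im := by positivity
    linarith
  have b2 : Real.log (1 + ‖s - c‖ / l) ≤ Real.log (1 + 1 / l) + Real.log (1 + ‖s‖) +
      Real.log (1 + |c|) := by
    rw [← Real.log_mul (by positivity) (by positivity), ← Real.log_mul (by positivity)
      (by positivity)]
    refine Real.log_le_log (by positivity) ?_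
    have h2 : ‖s - c‖ / l ≤ (‖s‖ + |c|) * (1 / l) := by
      rw [mul_one_div]
      gcongr
    have h3 : (1 + 1 / l) * (1 + ‖s‖) * (1 + |c|) = 1 + (‖s‖ + |c|) * (1 / l) +
        (‖s‖ + |c| + ‖s‖ * |c| + 1 / l + 1 / l * (‖s‖ * |c|)) := by ring
    rw [h3]
    have h4 : 0 ≤ ‖s‖ + |c| + ‖s‖ * |c| + 1 / l + 1 / l * (‖s‖ * |c|) := by positivity
    linarith
  have b3 : Real.log (1 + |c|) ≤ R := by
    have := Real.log_le_sub_one_of_pos (by positivity : 0 < 1 + |c|)
    linarith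
  have c1 : 0 ≤ Real.log (1 + l) := Real.log_nonneg (by linarith)
  have c2 : 0 ≤ Real.log (1 + 1 / l) := Real.log_nonneg (by
    have : 0 < 1 / l := by positivity
    linarith)
  have e4 : Lg ((s - c) / l) ≤ Lg s + (Real.log (1 + l) + Real.log (1 + 1 / l) + R) := by
    unfold Lg
    rw [e1, e2]
    linarith
  nlinarith

/-- **(A'): cost of lowering the absorption of one site for a concave function of the energy,
bump law**, constant uniform in bounded centres and energies -/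
theorem cost_bump_Phi {l R : ℝ} (hl : 0 < l) (hR : 0 ≤ R) :
    ∃ C : ℝ, 0 < C ∧ ∀ v₀ E : ℝ, |v₀| ≤ R → |E| ≤ R →
      ∀ (κ : Type) [Fintype κ] [DecidableEq κ] (A : Matrix κ κ ℝ) (W : κ → ℂ)
      (_ : A.IsSymm) (_ : ∀ x, (W x).im < 0) (f : κ → ℝ) (z : κ)
      (Φ dΦ : ℝ → ℝ) (Lp : ℝ) (_ : Conc Φ dΦ Lp),
      -(∫ v, dΦ (En A (rez W z (v - E)) f) * dEn A (rez W z (v - E)) f z ∂(nuB v₀ l)) ≤
        C * Lp * Lg (sz A W z) * (Nf A W f z / (1 + ‖sg A W z‖ ^ 2)) := by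
  set B : ℝ := 1 + Real.log (1 + l) + Real.log (1 + 1 / l) + 2 * R with hB
  have c1 : 0 ≤ Real.log (1 + l) := Real.log_nonneg (by linarith)
  have c2 : 0 ≤ Real.log (1 + 1 / l) := Real.log_nonneg (by
    have : 0 < 1 / l := by positivity
    linarith)
  have hB1 : 1 ≤ B := by
    rw [hB]
    linarith
  refine ⟨(7600 * 12 / l ^ 2) * (1 + 2 * l ^ 2 + 8 * R ^ 2) * B, by positivity, ?_⟩
  intro v₀ E hv hE κ _ _ A W hA hW f z Φ dΦ Lp H
  set s := sz A W z with hs'
  have hs : 0 < s.im := sz_im_pos hA hW z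
  set c : ℝ := v₀ - E with hc
  have hcR : |c| ≤ 2 * R := by
    calc |v₀ - E| ≤ |v₀| + |E| := abs_sub _ _
      _ ≤ _ := by linarith
  set s1 : ℂ := (s - c) / l with hs1
  have hs1i : 0 < s1.im := by
    rw [hs1, Complex.div_ofReal_im]
    simp
    positivity
  have hlc : (l : ℂ) ≠ 0 := by exact_mod_cast hl.ne'
  have hLp := H.Lp_nonneg
  have hN := Nf_nonneg hW (A := A) f z
  set K := Kz A W f z with hK
  have e0 : ∀ x : ℝ, ((v₀ + l * x - E : ℝ) : ℂ) - s = l * ((x : ℂ) - s1) := by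
    intro x
    rw [hs1, hc]
    push_cast
    field_simp
    ring
  have hx0 : ∀ x : ℝ, (x : ℂ) - s1 ≠ 0 := fun x => sne hs1i x
  have e1 : ∀ x : ℝ, En A (rez W z (v₀ + l * x - E)) f = Fx (Ei A W f z) (K / l) s1 x := by
    intro x
    rw [En_rez hA hW, Fx, Fx, e0, mul_inv, ← hK]
    congr 2
    field_simp
  have e2 : ∀ x : ℝ, (I * K / (((v₀ + l * x - E : ℝ) : ℂ) - s) ^ 2).re =
      l⁻¹ * (I * (K / l) / ((x : ℂ) - s1) ^ 2).re := by
    intro x
    rw [e0, ← Complex.re_ofReal_mul]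
    congr 1
    have := hx0 x
    push_cast
    field_simp
  rw [integral_nuB_real hl]
  -- lower bound of the integrand
  set G : ℝ → ℝ := fun x => dΦ (Fx (Ei A W f z) (K / l) s1 x) with hG
  have hGm : Measurable G := H.measurable.comp (continuous_Fx hs1i).measurable
  have hGb : ∀ x, |G x| ≤ Lp := fun x => by
    rw [abs_of_nonneg (H.nonneg _)]
    exact H.le _
  have gen : ∀ g : ℝ → ℝ, Continuous g → ∀ M : ℝ, (∀ x, |g x| ≤ M) →
      Integrable fun x => bu x * (G x * g x) := by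
    intro g hg M hM
    refine (integrable_bu.mul_const (Lp * M)).mono' ?_ (Filter.Eventually.of_forall fun x => ?_)
    · exact (continuous_bu.measurable.mul (hGm.mul hg.measurable)).aestronglyMeasurable
    · rw [norm_mul, Real.norm_eq_abs, abs_of_nonneg (bu_nonneg _), norm_mul]
      refine mul_le_mul_of_nonneg_left ?_ (bu_nonneg _)
      exact mul_le_mul (hGb x) (hM x) (abs_nonneg _) hLp
  have k1 : Continuous fun x : ℝ => (I * (K / l) / ((x : ℂ) - s1) ^ 2).re :=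
    Complex.continuous_re.comp (Continuous.div continuous_const (by fun_prop)
      fun x => pow_ne_zero _ (hx0 x))
  have k2 : ∀ x : ℝ, |(I * (K / l) / ((x : ℂ) - s1) ^ 2).re| ≤ ‖K / l‖ / s1.im ^ 2 := by
    intro x
    refine (Complex.abs_re_le_norm _).trans ?_
    rw [norm_div, norm_mul, norm_I, one_mul, norm_pow]
    exact div_le_div_of_nonneg_left (norm_nonneg _) (by positivity) (by gcongr; exact nge hs1i x)
  have k3 : Continuous fun x : ℝ => dEn A (rez W z (v₀ + l * x - E)) f z := by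
    simp only [dEn_rez hA hW]
    have hcont : Continuous fun x : ℝ => (((v₀ + l * x - E : ℝ) : ℂ) - sz A W z)⁻¹ :=
      (continuous_inv_sub hA hW z).comp (by fun_prop)
    refine (continuous_const.mul (hcont.norm.pow 4)).add
      (Complex.continuous_re.comp (continuous_const.mul ?_))
    simp only [one_div, ← inv_pow]
    exact hcont.pow 2
  have k4 : ∀ x : ℝ, |dEn A (rez W z (v₀ + l * x - E)) f z| ≤
      4 * Bf A W f z ^ 2 * Sf A W z * (s.im⁻¹) ^ 4 + ‖Cz A W f z‖ * (s.im⁻¹) ^ 2 := by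
    intro x
    rw [dEn_rez hA hW]
    have h1 := norm_inv_sub_le hA hW z (v₀ + l * x - E)
    rw [← hs'] at h1 ⊢
    refine (abs_add_le _ _).trans (add_le_add ?_ ?_)
    · rw [abs_of_nonneg (mul_nonneg (mul_nonneg (by positivity) (Sf_pos hA hW z).le)
        (by positivity))]
      refine mul_le_mul_of_nonneg_left ?_ (mul_nonneg (by positivity) (Sf_pos hA hW z).le)
      gcongr
    · refine (Complex.abs_re_le_norm _).trans ?_
      rw [norm_mul, norm_mul, norm_I, one_mul]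
      refine mul_le_mul_of_nonneg_left ?_ (norm_nonneg _)
      rw [one_div, ← inv_pow, norm_pow]
      gcongr
  have i1 := gen _ k1 _ k2
  have i2 := gen _ k3 _ k4
  have step1 : -(∫ x, bu x * (dΦ (En A (rez W z (v₀ + l * x - E)) f) *
      dEn A (rez W z (v₀ + l * x - E)) f z)) ≤
      l⁻¹ * -(∫ x, bu x * (G x * (I * (K / l) / ((x : ℂ) - s1) ^ 2).re)) := by
    simp only [e1]
    rw [mul_neg, neg_le_neg_iff, ← integral_const_mul]
    refine integral_mono (i1.const_mul _) i2 fun x => ?_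
    have h1 := dEn_rez_ge hA hW f z (v₀ + l * x - E)
    rw [← hK, ← hs', e2] at h1
    have h2 := mul_le_mul_of_nonneg_left (mul_le_mul_of_nonneg_left h1 (H.nonneg
      (Fx (Ei A W f z) (K / l) s1 x))) (bu_nonneg x)
    show l⁻¹ * (bu x * (G x * (I * (K / l) / ((x : ℂ) - s1) ^ 2).re)) ≤
      bu x * (G x * dEn A (rez W z (v₀ + l * x - E)) f z)
    calc _ = bu x * (G x * (l⁻¹ * (I * (K / l) / ((x : ℂ) - s1) ^ 2).re)) := by ring
      _ ≤ _ := h2
  have step2 := core1 (F0 := Ei A W f z) (K := K / l) hs1i H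
  refine step1.trans ((mul_le_mul_of_nonneg_left step2 (inv_nonneg.2 hl.le)).trans ?_)
  -- constants
  have n1 : ‖K / l‖ = ‖K‖ / l := by
    rw [norm_div, Complex.norm_real, Real.norm_eq_abs, abs_of_pos hl]
  have n2 : ‖K‖ ≤ 12 * Nf A W f z := norm_Kz_le hA hW f z
  have n3 : Lg s1 ≤ B * Lg s := by
    have := Lg_scale hl hs hcR
    rwa [hB]
  have n4 : 1 + ‖sg A W z‖ ^ 2 ≤ (1 + 2 * l ^ 2 + 8 * R ^ 2) * (1 + ‖s1‖ ^ 2) := by
    have h1 := norm_sg_le_norm_sz hA hW z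
    rw [← hs'] at h1
    have h2 : ‖s‖ ≤ l * ‖s1‖ + 2 * R := by
      have h3 : s = l * s1 + c := by
        rw [hs1]
        field_simp
        ring
      calc ‖s‖ = ‖(l : ℂ) * s1 + c‖ := by rw [← h3]
        _ ≤ ‖(l : ℂ) * s1‖ + ‖(c : ℂ)‖ := norm_add_le _ _
        _ = l * ‖s1‖ + |c| := by
          rw [norm_mul, Complex.norm_real, Complex.norm_real, Real.norm_eq_abs, Real.norm_eq_abs,
            abs_of_pos hl]
        _ ≤ _ := by linarith
    have h3 : ‖s‖ ^ 2 ≤ 2 * (l * ‖s1‖) ^ 2 + 8 * R ^ 2 := by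
      have h4 : ‖s‖ ^ 2 ≤ (l * ‖s1‖ + 2 * R) ^ 2 := by gcongr
      nlinarith [sq_nonneg (l * ‖s1‖ - 2 * R)]
    nlinarith [sq_nonneg l, sq_nonneg R, sq_nonneg ‖s1‖, mul_nonneg (sq_nonneg R)
      (sq_nonneg ‖s1‖)]
  have hLg : 0 ≤ Lg s := by linarith [Lg_ge_one hs]
  have hLg1 : 0 ≤ Lg s1 := by linarith [Lg_ge_one hs1i]
  set q : ℝ := 1 + 2 * l ^ 2 + 8 * R ^ 2 with hq
  have hq0 : 0 < q := by positivity
  have n5 : 1 / (1 + ‖s1‖ ^ 2) ≤ q * (1 / (1 + ‖sg A W z‖ ^ 2)) := by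
    rw [mul_one_div, div_le_div_iff₀ (by positivity) (by positivity), one_mul]
    exact n4
  calc l⁻¹ * (7600 * Lp * (‖K / l‖ * Lg s1 / (1 + ‖s1‖ ^ 2)))
      = (7600 / l ^ 2) * Lp * (‖K‖ * Lg s1 * (1 / (1 + ‖s1‖ ^ 2))) := by
        rw [n1]
        field_simp
    _ ≤ (7600 / l ^ 2) * Lp * ((12 * Nf A W f z) * (B * Lg s) *
        (q * (1 / (1 + ‖sg A W z‖ ^ 2)))) := by
        refine mul_le_mul_of_nonneg_left ?_ (by positivity)
        refine mul_le_mul (mul_le_mul n2 n3 hLg1 (by positivity)) n5 (by positivity)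
          (by positivity)
    _ = _ := by ring

end P365T1.K1
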