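import Vale.Agent.P365.T1a.Cost
import Vale.Agent.P365.L5.Cau

/-!
# P365-T2, (K1): law error of a concave function of the energy, one variable.

Part a: the unit bump, its Cauchy averages, the exchange of averages.
-/

set_option linter.all false

namespace P365T1.K1

open MeasureTheory Complex P365L
open scoped Real

/-- the unit bump -/
noncomputable def bu (x : ℝ) : ℝ := (15 / 16) * (max (1 - x ^ 2) 0) ^ 2

theorem bu_nonneg (x : ℝ) : 0 ≤ bu x := by
  unfold bu
  positivity

theorem bu_le (x : ℝ) : bu x ≤ 1 := by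
  unfold bu
  have h1 : max (1 - x ^ 2) 0 ≤ 1 := max_le (by linarith [sq_nonneg x]) zero_le_one
  have h2 : 0 ≤ max (1 - x ^ 2) 0 := le_max_right _ _
  nlinarith

theorem continuous_bu : Continuous bu := by
  unfold bu
  fun_prop

theorem bu_zero {x : ℝ} (hx : 1 ≤ |x|) : bu x = 0 := by
  unfold bu
  have h : 1 ≤ x ^ 2 := by
    rw [← sq_abs]
    nlinarith
  rw [max_eq_right (by linarith)]
  ring

theorem bu_eq_rhoB (x : ℝ) : bu x = Bump.rhoB 0 1 x := by
  unfold bu Bump.rhoB
  norm_num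

theorem integrable_bu : Integrable bu := by
  have := Bump.integrable_rhoB (v₀ := 0) (l := 1) one_pos
  exact this.congr (Filter.Eventually.of_forall fun x => (bu_eq_rhoB x).symm)

theorem integral_bu : ∫ x, bu x = 1 := by
  simp only [bu_eq_rhoB]
  exact Bump.integral_rhoB_one one_pos

theorem m_ineq (p q : ℝ) : |(max q 0) ^ 2 - (max p 0) ^ 2 - 2 * max p 0 * (q - p)| ≤ (q - p) ^ 2 := by
  rw [abs_le]
  rcases le_total p 0 with hp | hp <;> rcases le_total q 0 with hq | hq
  · rw [max_eq_right hp, max_eq_right hq]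
    constructor <;> nlinarith [sq_nonneg (q - p)]
  · rw [max_eq_right hp, max_eq_left hq]
    constructor <;> nlinarith [sq_nonneg (q - p), mul_nonneg hq (neg_nonneg.2 hp), sq_nonneg p]
  · rw [max_eq_left hp, max_eq_right hq]
    constructor <;> nlinarith [sq_nonneg (q - p), mul_nonneg hp (neg_nonneg.2 hq), sq_nonneg q,
      sq_nonneg p]
  · rw [max_eq_left hp, max_eq_left hq]
    constructor <;> nlinarith [sq_nonneg (q - p)]

theorem bu_second {x : ℝ} (hx : |x| ≤ 2) (τ : ℝ) :
    |bu (x + τ) + bu (x - τ) - 2 * bu x| ≤ 76 * (τ ^ 2 / (1 + τ ^ 2)) := by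
  have hx2 : x ^ 2 ≤ 4 := by
    rw [← sq_abs]
    nlinarith [abs_nonneg x]
  rcases le_total (τ ^ 2) 1 with hτ | hτ
  · have h1 := m_ineq (1 - x ^ 2) (1 - (x + τ) ^ 2)
    have h2 := m_ineq (1 - x ^ 2) (1 - (x - τ) ^ 2)
    have h0 : 0 ≤ max (1 - x ^ 2) 0 := le_max_right _ _
    have h01 : max (1 - x ^ 2) 0 ≤ 1 := max_le (by linarith [sq_nonneg x]) zero_le_one
    have h3 : |bu (x + τ) + bu (x - τ) - 2 * bu x| ≤ 38 * τ ^ 2 := by
      unfold bu
      set m := max (1 - x ^ 2) 0
      set a := max (1 - (x + τ) ^ 2) 0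
      set c := max (1 - (x - τ) ^ 2) 0
      rw [abs_le] at h1 h2 ⊢
      have h4 : (1 - (x + τ) ^ 2 - (1 - x ^ 2)) ^ 2 + (1 - (x - τ) ^ 2 - (1 - x ^ 2)) ^ 2 ≤
          34 * τ ^ 2 := by
        have : (1 - (x + τ) ^ 2 - (1 - x ^ 2)) ^ 2 + (1 - (x - τ) ^ 2 - (1 - x ^ 2)) ^ 2 =
            8 * x ^ 2 * τ ^ 2 + 2 * τ ^ 2 * τ ^ 2 := by ring
        rw [this]
        nlinarith [mul_le_mul_of_nonneg_right hx2 (sq_nonneg τ),
          mul_le_mul_of_nonneg_right hτ (sq_nonneg τ)]
      have h5 : 0 ≤ m * τ ^ 2 := mul_nonneg h0 (sq_nonneg τ)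
      have h6 : m * τ ^ 2 ≤ τ ^ 2 := by
        nlinarith [mul_le_mul_of_nonneg_right h01 (sq_nonneg τ)]
      obtain ⟨h1a, h1b⟩ := h1
      obtain ⟨h2a, h2b⟩ := h2
      constructor <;> nlinarith
    refine h3.trans ?_
    rw [mul_div_assoc', le_div_iff₀ (by positivity)]
    nlinarith [sq_nonneg τ, mul_le_mul_of_nonneg_right hτ (sq_nonneg τ)]
  · have h1 := bu_nonneg (x + τ)
    have h2 := bu_nonneg (x - τ)
    have h3 := bu_nonneg x
    have h4 := bu_le (x + τ)
    have h5 := bu_le (x - τ)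
    have h6 := bu_le x
    have h7 : |bu (x + τ) + bu (x - τ) - 2 * bu x| ≤ 2 := by
      rw [abs_le]
      constructor <;> linarith
    refine h7.trans ?_
    rw [mul_div_assoc', le_div_iff₀ (by positivity)]
    nlinarith

/-! ### the Cauchy law -/

theorem nu_integral (f : ℝ → ℝ) : ∫ t, f t ∂nu = ∫ t, (π⁻¹ * (t ^ 2 + 1)⁻¹) * f t := by
  have h1 : nu = volume.withDensity (ProbabilityTheory.cauchyPDF 0 1) :=
    ProbabilityTheory.cauchyMeasure_of_scale_ne_zero 0 one_ne_zero
  rw [h1, integral_withDensity_eq_integral_toReal_smul (ProbabilityTheory.measurable_cauchyPDF 0 1)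
    (Filter.Eventually.of_forall fun x => ENNReal.ofReal_lt_top)]
  refine integral_congr_ae (Filter.Eventually.of_forall fun t => ?_)
  simp only [ProbabilityTheory.cauchyPDF, ENNReal.toReal_ofReal
    (ProbabilityTheory.cauchyPDF_pos 0 one_ne_zero t).le, smul_eq_mul]
  congr 1
  simp only [ProbabilityTheory.cauchyPDFReal, NNReal.coe_one, mul_one, sub_zero, one_pow]

theorem nu_neg (f : ℝ → ℝ) : ∫ t, f (-t) ∂nu = ∫ t, f t ∂nu := by
  rw [nu_integral, nu_integral, ← integral_neg_eq_self]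
  refine integral_congr_ae (Filter.Eventually.of_forall fun t => ?_)
  simp only [neg_neg, even_two, Even.neg_pow]

/-- average of `1/(x + h t - s)` -/
theorem avg_inv {s : ℂ} (hs : 0 < s.im) {h : ℝ} (hh : 0 < h) (x : ℝ) :
    Integrable (fun t : ℝ => (((x + h * t : ℝ) : ℂ) - s)⁻¹) nu ∧
      ∫ t : ℝ, (((x + h * t : ℝ) : ℂ) - s)⁻¹ ∂nu = ((x : ℂ) - s - h * I)⁻¹ := by
  set q : ℂ := (s - x) / h with hq
  have hqi : 0 < q.im := by
    rw [hq, Complex.div_ofReal_im]
    simp
    positivity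
  have hhc : (h : ℂ) ≠ 0 := by exact_mod_cast hh.ne'
  obtain ⟨h1, h2⟩ := P365L5.integral_inv_sub hqi
  have e : ∀ t : ℝ, (((x + h * t : ℝ) : ℂ) - s)⁻¹ = (h : ℂ)⁻¹ * ((t : ℂ) - q)⁻¹ := by
    intro t
    rw [← mul_inv]
    congr 1
    rw [hq]
    push_cast
    field_simp
    ring
  simp only [e]
  refine ⟨h1.const_mul _, ?_⟩
  rw [integral_const_mul, h2, ← mul_inv]
  congr 1
  rw [hq]
  field_simp
  ring

theorem avg_one_div {h : ℝ} (hh : 0 < h) :
    Integrable (fun t : ℝ => (h * t) ^ 2 / (1 + (h * t) ^ 2)) nu ∧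
      ∫ t : ℝ, (h * t) ^ 2 / (1 + (h * t) ^ 2) ∂nu = h / (1 + h) := by
  have hI : 0 < I.im := by simp
  obtain ⟨h1, h2⟩ := avg_inv hI hh 0
  have e : ∀ t : ℝ, (h * t) ^ 2 / (1 + (h * t) ^ 2) =
      1 - ((((0 + h * t : ℝ) : ℂ) - I)⁻¹).im := by
    intro t
    rw [Complex.inv_im, Complex.normSq_apply]
    simp
    have : 0 < 1 + (h * t) ^ 2 := by positivity
    have h3 : h * t * (h * t) + 1 ≠ 0 := by nlinarith
    field_simp
    ring
  simp only [e]
  have h3 := h1.im
  simp only [RCLike.im_eq_complex_im] at h3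
  refine ⟨(integrable_const _).sub h3, ?_⟩
  rw [integral_sub (integrable_const _) h3]
  have h4 := integral_im h1
  simp only [RCLike.im_eq_complex_im] at h4
  rw [h4, h2]
  have h5 : (((0 : ℝ) : ℂ) - I - h * I)⁻¹.im = 1 / (1 + h) := by
    have h6 : ((0 : ℝ) : ℂ) - I - h * I = -((1 + h : ℝ) : ℂ) * I := by
      push_cast
      ring
    rw [h6, Complex.inv_im, Complex.normSq_apply]
    simp
    have : 1 + h ≠ 0 := by positivity
    have h7 : (-h + -1) * (-h + -1) = (1 + h) * (1 + h) := by ring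
    rw [h7]
    field_simp
  rw [h5]
  simp
  field_simp
  ring

/-- **Cauchy average of the bump** -/
theorem avg_bu {h : ℝ} (hh : 0 < h) (x : ℝ) :
    |(∫ t, bu (x + h * t) ∂nu) - bu x| ≤ 190 * h / (1 + x ^ 2) := by
  have hc : Continuous fun t : ℝ => bu (x + h * t) := continuous_bu.comp (by fun_prop)
  have hint : Integrable (fun t : ℝ => bu (x + h * t)) nu := by
    refine Integrable.of_bound hc.aestronglyMeasurable 1 (Filter.Eventually.of_forall fun t => ?_)
    rw [Real.norm_eq_abs, abs_of_nonneg (bu_nonneg _)]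
    exact bu_le _
  have hc' : Continuous fun t : ℝ => bu (x - h * t) := continuous_bu.comp (by fun_prop)
  have hint' : Integrable (fun t : ℝ => bu (x - h * t)) nu := by
    refine Integrable.of_bound hc'.aestronglyMeasurable 1 (Filter.Eventually.of_forall fun t => ?_)
    rw [Real.norm_eq_abs, abs_of_nonneg (bu_nonneg _)]
    exact bu_le _
  rcases le_total |x| 2 with hx | hx
  · have h1 : ∫ t, bu (x - h * t) ∂nu = ∫ t, bu (x + h * t) ∂nu := by
      rw [← nu_neg fun t => bu (x + h * t)]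
      refine integral_congr_ae (Filter.Eventually.of_forall fun t => ?_)
      simp only [mul_neg, sub_eq_add_neg]
    have h2 : (∫ t, bu (x + h * t) ∂nu) - bu x =
        (1 / 2) * ∫ t, (bu (x + h * t) + bu (x - h * t) - 2 * bu x) ∂nu := by
      have e1 : ∫ t, (bu (x + h * t) + bu (x - h * t) - 2 * bu x) ∂nu =
          (∫ t, (bu (x + h * t) + bu (x - h * t)) ∂nu) - ∫ t, 2 * bu x ∂nu :=
        integral_sub (hint.add hint') (integrable_const _)
      rw [e1, integral_add hint hint', h1]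
      simp
      ring
    obtain ⟨h3, h4⟩ := avg_one_div hh
    have h5 : |∫ t, (bu (x + h * t) + bu (x - h * t) - 2 * bu x) ∂nu| ≤ 76 * (h / (1 + h)) := by
      rw [← h4, ← integral_const_mul]
      refine abs_integral_le_integral_abs.trans ?_
      refine integral_mono ((hint.add hint').sub (integrable_const _)).abs (h3.const_mul _) ?_
      intro t
      exact bu_second hx (h * t)
    have h6 : h / (1 + h) ≤ h := by
      rw [div_le_iff₀ (by positivity)]
      nlinarith
    have hx2 : x ^ 2 ≤ 4 := by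
      rw [← sq_abs]
      nlinarith [abs_nonneg x]
    rw [h2, abs_mul, abs_of_pos (by norm_num : (0 : ℝ) < 1 / 2), le_div_iff₀ (by positivity)]
    have h7 := abs_nonneg (∫ t, (bu (x + h * t) + bu (x - h * t) - 2 * bu x) ∂nu)
    nlinarith
  · have hx0 : bu x = 0 := bu_zero (by linarith)
    have hx4 : 4 ≤ x ^ 2 := by
      rw [← sq_abs]
      nlinarith
    rw [hx0, sub_zero, abs_of_nonneg (integral_nonneg fun t => bu_nonneg _), nu_integral]
    have h1 : ∀ t : ℝ, (π⁻¹ * (t ^ 2 + 1)⁻¹) * bu (x + h * t) ≤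
        (4 * h ^ 2 / (π * x ^ 2)) * bu (x + h * t) := by
      intro t
      by_cases hb : 1 ≤ |x + h * t|
      · rw [bu_zero hb, mul_zero, mul_zero]
      · push Not at hb
        refine mul_le_mul_of_nonneg_right ?_ (bu_nonneg _)
        have h2 : |x| ≤ 2 * |h * t| := by
          have : |x| ≤ |x + h * t| + |h * t| := by
            calc |x| = |(x + h * t) - h * t| := by rw [add_sub_cancel_right]
              _ ≤ _ := abs_sub _ _
          linarith
        have h3 : x ^ 2 ≤ 4 * (h * t) ^ 2 := by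
          rw [← sq_abs x, ← sq_abs (h * t)]
          nlinarith [abs_nonneg x]
        rw [← mul_inv, inv_eq_one_div, div_le_div_iff₀ (by positivity) (by positivity)]
        nlinarith [Real.pi_pos, mul_le_mul_of_nonneg_left h3 Real.pi_pos.le, sq_nonneg h,
          mul_nonneg Real.pi_pos.le (sq_nonneg h)]
    have h2 : Integrable fun t : ℝ => bu (x + h * t) := by
      have := (integrable_bu.comp_add_left x)
      exact (this.comp_mul_left' hh.ne')
    have h3 : ∫ t : ℝ, bu (x + h * t) = h⁻¹ := by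
      have e1 := Measure.integral_comp_mul_left (fun y => bu (x + y)) h
      have e2 : ∫ y, bu (x + y) = 1 := by
        rw [integral_add_left_eq_self, integral_bu]
      rw [e2, abs_of_pos (inv_pos.2 hh)] at e1
      simpa using e1
    have h4 : Integrable fun t : ℝ => (π⁻¹ * (t ^ 2 + 1)⁻¹) * bu (x + h * t) := by
      refine Integrable.mono' (h2.const_mul π⁻¹) ?_ (Filter.Eventually.of_forall fun t => ?_)
      · refine (Continuous.mul ?_ hc).aestronglyMeasurable
        refine continuous_const.mul (Continuous.inv₀ (by fun_prop) fun t => by positivity)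
      · rw [Real.norm_eq_abs, abs_of_nonneg (mul_nonneg (by positivity) (bu_nonneg _))]
        refine mul_le_mul_of_nonneg_right ?_ (bu_nonneg _)
        have : (t ^ 2 + 1)⁻¹ ≤ 1 := inv_le_one_of_one_le₀ (by nlinarith [sq_nonneg t])
        calc _ ≤ π⁻¹ * 1 := by gcongr
          _ = _ := mul_one _
    calc _ ≤ ∫ t : ℝ, (4 * h ^ 2 / (π * x ^ 2)) * bu (x + h * t) :=
          integral_mono h4 (h2.const_mul _) h1
      _ = (4 * h ^ 2 / (π * x ^ 2)) * h⁻¹ := by rw [integral_const_mul, h3]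
      _ = 4 * h / (π * x ^ 2) := by field_simp
      _ ≤ _ := by
        rw [div_le_div_iff₀ (by positivity) (by positivity)]
        have hp := Real.pi_gt_three
        nlinarith [mul_pos hh (by positivity : 0 < x ^ 2),
          mul_le_mul_of_nonneg_left hx4 hh.le,
          mul_le_mul_of_nonneg_left hp.le (mul_pos hh (by positivity : 0 < x ^ 2)).le]

end P365T1.K1
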