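import Vale.Agent.P365.T2.K1aH235

/-!
# P365-T2, (K1), part b: the one-variable inequality for a concave function of
`F(x) = F0 + Re (K/(x-s))`.
-/

set_option linter.all false

namespace P365T1.K1

open MeasureTheory Complex P365L
open scoped Real

theorem swap {U : ℝ → ℝ} (hU : Continuous U) {M : ℝ} (hM : ∀ x, |U x| ≤ M) (h : ℝ) :
    ∫ x, bu x * ∫ t, U (x + h * t) ∂nu = ∫ x, (∫ t, bu (x + h * t) ∂nu) * U x := by
  have hM0 : 0 ≤ M := (abs_nonneg _).trans (hM 0)
  have i1 : Integrable (fun p : ℝ × ℝ => bu p.1 * U (p.1 + h * p.2)) (volume.prod nu) := by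
    have h1 : Integrable (fun p : ℝ × ℝ => bu p.1 * M) (volume.prod nu) :=
      integrable_bu.mul_prod (integrable_const M)
    refine h1.mono' ?_ (Filter.Eventually.of_forall fun p => ?_)
    · refine Continuous.aestronglyMeasurable ?_
      exact (continuous_bu.comp continuous_fst).mul (hU.comp (by fun_prop))
    · rw [norm_mul, Real.norm_eq_abs, abs_of_nonneg (bu_nonneg _), Real.norm_eq_abs]
      exact mul_le_mul_of_nonneg_left (hM _) (bu_nonneg _)
  have hc2 : Continuous fun p : ℝ × ℝ => bu (p.1 - h * p.2) * U p.1 :=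
    (continuous_bu.comp (by fun_prop)).mul (hU.comp continuous_fst)
  have i2' : ∀ t : ℝ, Integrable (fun x : ℝ => M * bu (x - h * t)) := fun t =>
    (integrable_bu.comp_sub_right (h * t)).const_mul M
  have i2 : Integrable (fun p : ℝ × ℝ => bu (p.1 - h * p.2) * U p.1) (volume.prod nu) := by
    rw [integrable_prod_iff' hc2.aestronglyMeasurable]
    have hb : ∀ t x : ℝ, ‖bu (x - h * t) * U x‖ ≤ M * bu (x - h * t) := by
      intro t x
      rw [norm_mul, Real.norm_eq_abs, abs_of_nonneg (bu_nonneg _), Real.norm_eq_abs, mul_comm]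
      exact mul_le_mul_of_nonneg_right (hM _) (bu_nonneg _)
    refine ⟨Filter.Eventually.of_forall fun t => ?_, ?_⟩
    · refine (i2' t).mono' ?_ (Filter.Eventually.of_forall fun x => hb t x)
      exact (hc2.comp (by fun_prop : Continuous fun x : ℝ => (x, t))).aestronglyMeasurable
    · refine Integrable.of_bound (C := M) ?_ (Filter.Eventually.of_forall fun t => ?_)
      · exact (hc2.stronglyMeasurable.norm.integral_prod_left' (μ := volume)).aestronglyMeasurable
      · rw [Real.norm_eq_abs, abs_of_nonneg (integral_nonneg fun _ => norm_nonneg _)]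
        calc ∫ x, ‖bu (x - h * t) * U x‖ ≤ ∫ x, M * bu (x - h * t) :=
              integral_mono_of_nonneg (Filter.Eventually.of_forall fun _ => norm_nonneg _) (i2' t)
                (Filter.Eventually.of_forall fun x => hb t x)
          _ = M := by rw [integral_const_mul, integral_sub_right_eq_self (fun x => bu x) (h * t),
              integral_bu, mul_one]
  calc ∫ x, bu x * ∫ t, U (x + h * t) ∂nu = ∫ x, ∫ t, bu x * U (x + h * t) ∂nu := by
        refine integral_congr_ae (Filter.Eventually.of_forall fun x => ?_)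
        exact (integral_const_mul _ _).symm
    _ = ∫ t, (∫ x, bu x * U (x + h * t)) ∂nu := integral_integral_swap i1
    _ = ∫ t, (∫ x, bu (x - h * t) * U x) ∂nu := by
        refine integral_congr_ae (Filter.Eventually.of_forall fun t => ?_)
        have := integral_sub_right_eq_self (fun x => bu x * U (x + h * t)) (h * t) (μ := volume)
        simp only [sub_add_cancel] at this
        exact this.symm
    _ = ∫ x, ∫ t, bu (x - h * t) * U x ∂nu := (integral_integral_swap i2).symm
    _ = _ := by
        refine integral_congr_ae (Filter.Eventually.of_forall fun x => ?_)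
        show ∫ t, bu (x - h * t) * U x ∂nu = (∫ t, bu (x + h * t) ∂nu) * U x
        rw [integral_mul_const, ← nu_neg fun t => bu (x + h * t)]
        congr 1
        refine integral_congr_ae (Filter.Eventually.of_forall fun t => ?_)
        simp only [mul_neg, sub_eq_add_neg]

/-- the one-variable function -/
noncomputable def Fx (F0 : ℝ) (K s : ℂ) (x : ℝ) : ℝ := F0 + (K * ((x : ℂ) - s)⁻¹).re

variable {F0 : ℝ} {K s : ℂ}

theorem sne (hs : 0 < s.im) (x : ℝ) : (x : ℂ) - s ≠ 0 := Bump.sub_ne hs x

theorem nge (hs : 0 < s.im) (x : ℝ) : s.im ≤ ‖(x : ℂ) - s‖ := Bump.norm_sub_ge hs x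

theorem continuous_Fx (hs : 0 < s.im) : Continuous (Fx F0 K s) := by
  unfold Fx
  refine continuous_const.add (Complex.continuous_re.comp (continuous_const.mul ?_))
  exact (Complex.continuous_ofReal.sub continuous_const).inv₀ (sne hs)

theorem Fx_sub_le (hs : 0 < s.im) (x : ℝ) : |Fx F0 K s x - F0| ≤ ‖K‖ * ‖(x : ℂ) - s‖⁻¹ := by
  unfold Fx
  rw [add_sub_cancel_left]
  refine (Complex.abs_re_le_norm _).trans ?_
  rw [norm_mul, norm_inv]

theorem Fx_sub_zero_le (hs : 0 < s.im) (x : ℝ) :
    |Fx F0 K s x - Fx F0 K s 0| ≤ ‖K‖ * (|x| / (‖(x : ℂ) - s‖ * ‖s‖)) := by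
  have h0 := sne hs x
  have h1 : s ≠ 0 := by
    rintro rfl
    simp at hs
  have e : Fx F0 K s x - Fx F0 K s 0 = (K * ((x : ℂ) / (((x : ℂ) - s) * s))).re := by
    unfold Fx
    have e1 : (K * ((x : ℂ) / (((x : ℂ) - s) * s))) =
        K * ((x : ℂ) - s)⁻¹ - K * (((0 : ℝ) : ℂ) - s)⁻¹ := by
      push_cast
      rw [zero_sub, inv_neg]
      field_simp
      ring
    rw [e1, Complex.sub_re]
    ring
  rw [e]
  refine (Complex.abs_re_le_norm _).trans ?_
  rw [norm_mul, norm_div, norm_mul, Complex.norm_real, Real.norm_eq_abs]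

/-- Cauchy average of `F` -/
theorem avg_Fx (hs : 0 < s.im) {h : ℝ} (hh : 0 < h) (x : ℝ) :
    Integrable (fun t : ℝ => Fx F0 K s (x + h * t)) nu ∧
      ∫ t : ℝ, Fx F0 K s (x + h * t) ∂nu = F0 + (K * ((x : ℂ) - s - h * I)⁻¹).re := by
  obtain ⟨h1, h2⟩ := avg_inv hs hh x
  have h3 := (h1.const_mul K).re
  simp only [RCLike.re_eq_complex_re] at h3
  refine ⟨(integrable_const _).add h3, ?_⟩
  unfold Fx
  rw [integral_add (integrable_const _) h3]
  have h4 := integral_re (h1.const_mul K)
  simp only [RCLike.re_eq_complex_re] at h4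
  rw [h4, integral_const_mul, h2]
  simp

theorem diff_quot (hs : 0 < s.im) {h : ℝ} (hh : 0 < h) (x : ℝ) :
    |(K * ((x : ℂ) - s - h * I)⁻¹).re - (K * ((x : ℂ) - s)⁻¹).re -
      h * (I * K / ((x : ℂ) - s) ^ 2).re| ≤ h ^ 2 * (‖K‖ / s.im ^ 3) := by
  have h0 := sne hs x
  have h1 := nge hs x
  set w : ℂ := (x : ℂ) - s with hw
  have him : (w - h * I).im = -(s.im + h) := by
    rw [hw]
    simp
    ring
  have h2 : s.im ≤ ‖w - h * I‖ := by
    have := Complex.abs_im_le_norm (w - h * I)
    rw [him, abs_neg, abs_of_pos (by positivity)] at this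
    linarith
  have h3 : w - h * I ≠ 0 := by
    rw [← norm_pos_iff]
    linarith
  have e : (K * (w - h * I)⁻¹).re - (K * w⁻¹).re - h * (I * K / w ^ 2).re =
      (-(h : ℂ) ^ 2 * K / (w ^ 2 * (w - h * I))).re := by
    have e1 : -(h : ℂ) ^ 2 * K / (w ^ 2 * (w - h * I)) =
        K * (w - h * I)⁻¹ - K * w⁻¹ - (h : ℂ) * (I * K / w ^ 2) := by
      field_simp
      linear_combination (-(h : ℂ) ^ 2 * K) * Complex.I_sq
    rw [e1, Complex.sub_re, Complex.sub_re, Complex.re_ofReal_mul]
  rw [e]
  refine (Complex.abs_re_le_norm _).trans ?_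
  rw [norm_div, norm_mul, norm_neg, norm_pow, Complex.norm_real, Real.norm_eq_abs, sq_abs,
    norm_mul, norm_pow, mul_div_assoc]
  refine mul_le_mul_of_nonneg_left ?_ (sq_nonneg h)
  refine div_le_div_of_nonneg_left (norm_nonneg _) (by positivity) ?_
  calc s.im ^ 3 = s.im ^ 2 * s.im := by ring
    _ ≤ ‖w‖ ^ 2 * ‖w - h * I‖ := by gcongr

/-! ### concave functions -/

structure Conc (Φ dΦ : ℝ → ℝ) (Lp : ℝ) : Prop where
  der : ∀ x, HasDerivAt Φ (dΦ x) x
  nonneg : ∀ x, 0 ≤ dΦ x
  le : ∀ x, dΦ x ≤ Lp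
  anti : Antitone dΦ

variable {Φ dΦ : ℝ → ℝ} {Lp : ℝ}

theorem Conc.continuous (H : Conc Φ dΦ Lp) : Continuous Φ :=
  continuous_iff_continuousAt.2 fun x => (H.der x).continuousAt

theorem Conc.Lp_nonneg (H : Conc Φ dΦ Lp) : 0 ≤ Lp := (H.nonneg 0).trans (H.le 0)

theorem Conc.lip (H : Conc Φ dΦ Lp) (a b : ℝ) : |Φ a - Φ b| ≤ Lp * |a - b| := by
  have h := Convex.norm_image_sub_le_of_norm_hasDerivWithin_le (f := Φ) (f' := dΦ) (s := Set.univ)
    (C := Lp) (x := b) (y := a) (fun x _ => (H.der x).hasDerivWithinAt)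
    (fun x _ => by rw [Real.norm_eq_abs, abs_of_nonneg (H.nonneg x)]; exact H.le x)
    convex_univ (Set.mem_univ _) (Set.mem_univ _)
  simpa [Real.norm_eq_abs] using h

/-- the tangent line -/
theorem Conc.tangent (H : Conc Φ dΦ Lp) (a b : ℝ) : Φ b - Φ a ≤ dΦ a * (b - a) := by
  rcases lt_trichotomy a b with hab | hab | hab
  · obtain ⟨c, hc, h⟩ := exists_hasDerivAt_eq_slope Φ dΦ hab H.continuous.continuousOn
      fun x _ => H.der x
    have h1 : Φ b - Φ a = dΦ c * (b - a) := by
      rw [h, div_mul_cancel₀ _ (sub_ne_zero.2 hab.ne')]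
    rw [h1]
    exact mul_le_mul_of_nonneg_right (H.anti hc.1.le) (sub_nonneg.2 hab.le)
  · subst hab
    simp
  · obtain ⟨c, hc, h⟩ := exists_hasDerivAt_eq_slope Φ dΦ hab H.continuous.continuousOn
      fun x _ => H.der x
    have h1 : Φ a - Φ b = dΦ c * (a - b) := by
      rw [h, div_mul_cancel₀ _ (sub_ne_zero.2 hab.ne')]
    have h2 : dΦ a * (a - b) ≤ dΦ c * (a - b) :=
      mul_le_mul_of_nonneg_right (H.anti hc.2.le) (sub_nonneg.2 hab.le)
    nlinarith

theorem Conc.measurable (H : Conc Φ dΦ Lp) : Measurable dΦ := H.anti.measurable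

/-- **core inequality**: the boundary derivative of a concave function of `F` -/
theorem core0 (hs : 0 < s.im) (H : Conc Φ dΦ Lp) (r : ℝ) :
    -(∫ x, bu x * (dΦ (Fx F0 K s x) * (I * K / ((x : ℂ) - s) ^ 2).re)) ≤
      190 * ∫ x, |Φ (Fx F0 K s x) - r| / (1 + x ^ 2) := by
  set F := Fx F0 K s with hF
  have hFc : Continuous F := continuous_Fx hs
  set V : ℝ → ℝ := fun x => Φ (F x) - r with hV
  have hVc : Continuous V := (H.continuous.comp hFc).sub continuous_const
  set M : ℝ := Lp * (‖K‖ * s.im⁻¹) + |Φ F0 - r| with hM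
  have hVM : ∀ x, |V x| ≤ M := by
    intro x
    calc |V x| = |(Φ (F x) - Φ F0) + (Φ F0 - r)| := by
          rw [hV]
          ring_nf
      _ ≤ |Φ (F x) - Φ F0| + |Φ F0 - r| := abs_add_le _ _
      _ ≤ M := by
        rw [hM]
        refine add_le_add_left ((H.lip _ _).trans ?_) _
        refine mul_le_mul_of_nonneg_left ?_ H.Lp_nonneg
        refine (Fx_sub_le hs x).trans ?_
        exact mul_le_mul_of_nonneg_left (inv_anti₀ hs (nge hs x)) (norm_nonneg _)
  set D : ℝ → ℝ := fun x => (I * K / ((x : ℂ) - s) ^ 2).re with hD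
  have hDc : Continuous D := by
    refine Complex.continuous_re.comp (Continuous.div continuous_const (by fun_prop) fun x => ?_)
    exact pow_ne_zero _ (sne hs x)
  have hDb : ∀ x, |D x| ≤ ‖K‖ / s.im ^ 2 := by
    intro x
    refine (Complex.abs_re_le_norm _).trans ?_
    rw [norm_div, norm_mul, norm_I, one_mul, norm_pow]
    exact div_le_div_of_nonneg_left (norm_nonneg _) (by positivity)
      (by gcongr; exact nge hs x)
  have hdm : Measurable fun x => dΦ (F x) := H.measurable.comp hFc.measurable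
  have hdb : ∀ x, |dΦ (F x)| ≤ Lp := fun x => by
    rw [abs_of_nonneg (H.nonneg _)]
    exact H.le _
  have hint : ∀ g : ℝ → ℝ, Continuous g → ∀ B : ℝ, (∀ x, |g x| ≤ B) →
      Integrable fun x => bu x * (dΦ (F x) * g x) := by
    intro g hg B hB
    refine (integrable_bu.mul_const (Lp * B)).mono' ?_ (Filter.Eventually.of_forall fun x => ?_)
    · exact (continuous_bu.measurable.mul (hdm.mul hg.measurable)).aestronglyMeasurable
    · rw [norm_mul, Real.norm_eq_abs, abs_of_nonneg (bu_nonneg _), norm_mul]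
      refine mul_le_mul_of_nonneg_left ?_ (bu_nonneg _)
      exact mul_le_mul (hdb x) (hB x) (abs_nonneg _) H.Lp_nonneg
  have hRint : Integrable fun x => |V x| / (1 + x ^ 2) := by
    refine (integrable_inv_one_add_sq.const_mul M).mono' ?_ (Filter.Eventually.of_forall fun x => ?_)
    · exact (hVc.abs.div (by fun_prop) fun x => by positivity).aestronglyMeasurable
    · rw [Real.norm_eq_abs, abs_of_nonneg (by positivity), div_eq_mul_inv]
      exact mul_le_mul_of_nonneg_right (hVM x) (by positivity)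
  -- the inequality at scale `h`
  have key : ∀ h : ℝ, 0 < h → -(∫ x, bu x * (dΦ (F x) * D x)) ≤
      190 * (∫ x, |V x| / (1 + x ^ 2)) + h * (Lp * (‖K‖ / s.im ^ 3)) := by
    intro h hh
    -- increments
    set G : ℝ → ℝ := fun x => (K * ((x : ℂ) - s - h * I)⁻¹).re - (K * ((x : ℂ) - s)⁻¹).re with hG
    have hne : ∀ x : ℝ, (x : ℂ) - s - h * I ≠ 0 := by
      intro x hx
      have := congrArg Complex.im hx
      simp at this
      linarith
    have hGc : Continuous G := by
      refine Continuous.sub (Complex.continuous_re.comp (continuous_const.mul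
        (Continuous.inv₀ (by fun_prop) hne))) (Complex.continuous_re.comp (continuous_const.mul
        (Continuous.inv₀ (by fun_prop) (sne hs))))
    have hGd : ∀ x, |G x - h * D x| ≤ h ^ 2 * (‖K‖ / s.im ^ 3) := fun x => diff_quot hs hh x
    have hGb : ∀ x, |G x| ≤ h ^ 2 * (‖K‖ / s.im ^ 3) + h * (‖K‖ / s.im ^ 2) := by
      intro x
      have h1 := hGd x
      have h2 := hDb x
      calc |G x| = |(G x - h * D x) + h * D x| := by rw [sub_add_cancel]
        _ ≤ |G x - h * D x| + |h * D x| := abs_add_le _ _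
        _ ≤ _ := by
          rw [abs_mul, abs_of_pos hh]
          gcongr
    have hPV : ∀ x, Integrable (fun t : ℝ => V (x + h * t)) nu := fun x =>
      Integrable.of_bound (hVc.comp (by fun_prop : Continuous fun t : ℝ => x + h * t)
        ).aestronglyMeasurable M (Filter.Eventually.of_forall fun t => hVM _)
    have step : ∀ x, (∫ t, V (x + h * t) ∂nu) - V x ≤ dΦ (F x) * G x := by
      intro x
      obtain ⟨f1, f2⟩ := avg_Fx (F0 := F0) (K := K) hs hh x
      have e1 : (∫ t, V (x + h * t) ∂nu) - V x = ∫ t, (V (x + h * t) - V x) ∂nu := by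
        rw [integral_sub (hPV x) (integrable_const _)]
        simp
      have e2 : dΦ (F x) * G x = ∫ t, dΦ (F x) * (F (x + h * t) - F x) ∂nu := by
        rw [integral_const_mul, integral_sub f1 (integrable_const _), f2]
        simp only [hG, hF, Fx, integral_const, probReal_univ, smul_eq_mul, one_mul]
        ring
      rw [e1, e2]
      refine integral_mono ((hPV x).sub (integrable_const _))
        ((f1.sub (integrable_const _)).const_mul _) fun t => ?_
      have := H.tangent (F x) (F (x + h * t))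
      simp only [hV]
      linarith
    have hPVb : ∀ x, |∫ t, V (x + h * t) ∂nu| ≤ M := by
      intro x
      refine abs_integral_le_integral_abs.trans ?_
      calc ∫ t, |V (x + h * t)| ∂nu ≤ ∫ t, M ∂nu :=
            integral_mono (hPV x).abs (integrable_const _) fun t => hVM _
        _ = M := by simp
    have hPVm : Measurable fun x => ∫ t, V (x + h * t) ∂nu := by
      have : StronglyMeasurable fun p : ℝ × ℝ => V (p.1 + h * p.2) :=
        (hVc.comp (by fun_prop : Continuous fun p : ℝ × ℝ => p.1 + h * p.2)).stronglyMeasurable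
      exact (this.integral_prod_right' (ν := nu)).measurable
    have i1 : Integrable fun x => bu x * ∫ t, V (x + h * t) ∂nu := by
      refine (integrable_bu.mul_const M).mono' ?_ (Filter.Eventually.of_forall fun x => ?_)
      · exact (continuous_bu.measurable.mul hPVm).aestronglyMeasurable
      · rw [norm_mul, Real.norm_eq_abs, abs_of_nonneg (bu_nonneg _)]
        exact mul_le_mul_of_nonneg_left (hPVb x) (bu_nonneg _)
    have i2 : Integrable fun x => bu x * V x := by
      refine (integrable_bu.mul_const M).mono' ?_ (Filter.Eventually.of_forall fun x => ?_)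
      · exact (continuous_bu.mul hVc).aestronglyMeasurable
      · rw [norm_mul, Real.norm_eq_abs, abs_of_nonneg (bu_nonneg _)]
        exact mul_le_mul_of_nonneg_left (hVM x) (bu_nonneg _)
    have hq : ∀ x, |((∫ t, bu (x + h * t) ∂nu) - bu x) * V x| ≤
        190 * h * (|V x| / (1 + x ^ 2)) := by
      intro x
      rw [abs_mul]
      calc _ ≤ (190 * h / (1 + x ^ 2)) * |V x| :=
            mul_le_mul_of_nonneg_right (avg_bu hh x) (abs_nonneg _)
        _ = _ := by ring
    have hPbm : Measurable fun x => ∫ t, bu (x + h * t) ∂nu := by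
      have : StronglyMeasurable fun p : ℝ × ℝ => bu (p.1 + h * p.2) :=
        (continuous_bu.comp (by fun_prop : Continuous fun p : ℝ × ℝ => p.1 + h * p.2)
          ).stronglyMeasurable
      exact (this.integral_prod_right' (ν := nu)).measurable
    have i3 : Integrable fun x => ((∫ t, bu (x + h * t) ∂nu) - bu x) * V x := by
      refine (hRint.const_mul (190 * h)).mono' ?_ (Filter.Eventually.of_forall hq)
      exact ((hPbm.sub continuous_bu.measurable).mul hVc.measurable).aestronglyMeasurable
    have i4 : Integrable fun x => (∫ t, bu (x + h * t) ∂nu) * V x := by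
      have := i3.add i2
      refine this.congr (Filter.Eventually.of_forall fun x => ?_)
      simp only [Pi.add_apply]
      ring
    have e3 : ∫ x, (bu x * (∫ t, V (x + h * t) ∂nu) - bu x * V x) =
        ∫ x, ((∫ t, bu (x + h * t) ∂nu) - bu x) * V x := by
      rw [integral_sub i1 i2, swap hVc hVM h]
      rw [← integral_sub i4 i2]
      exact integral_congr_ae (Filter.Eventually.of_forall fun x => by ring)
    have e4 : -(190 * h * ∫ x, |V x| / (1 + x ^ 2)) ≤
        ∫ x, ((∫ t, bu (x + h * t) ∂nu) - bu x) * V x := by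
      rw [← integral_const_mul, ← integral_neg]
      refine integral_mono (hRint.const_mul _).neg i3 fun x => ?_
      exact (abs_le.1 (hq x)).1
    have e5 : ∫ x, (bu x * (∫ t, V (x + h * t) ∂nu) - bu x * V x) ≤
        ∫ x, bu x * (dΦ (F x) * G x) := by
      refine integral_mono (i1.sub i2) (hint G hGc _ hGb) fun x => ?_
      have := mul_le_mul_of_nonneg_left (step x) (bu_nonneg x)
      simp only
      linarith
    have e6 : ∫ x, bu x * (dΦ (F x) * G x) ≤
        h * (∫ x, bu x * (dΦ (F x) * D x)) + h ^ 2 * (Lp * (‖K‖ / s.im ^ 3)) := by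
      have e7 : h ^ 2 * (Lp * (‖K‖ / s.im ^ 3)) =
          ∫ x, bu x * (h ^ 2 * (Lp * (‖K‖ / s.im ^ 3))) := by
        rw [integral_mul_const, integral_bu, one_mul]
      rw [e7, ← integral_const_mul, ← integral_add ((hint D hDc _ hDb).const_mul h)
        (integrable_bu.mul_const _)]
      refine integral_mono (hint G hGc _ hGb) (((hint D hDc _ hDb).const_mul h).add
        (integrable_bu.mul_const _)) fun x => ?_
      simp only
      have h1 := (abs_le.1 (hGd x)).2
      have h2 : dΦ (F x) * (G x - h * D x) ≤ Lp * (h ^ 2 * (‖K‖ / s.im ^ 3)) := by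
        calc dΦ (F x) * (G x - h * D x) ≤ dΦ (F x) * (h ^ 2 * (‖K‖ / s.im ^ 3)) :=
              mul_le_mul_of_nonneg_left h1 (H.nonneg _)
          _ ≤ _ := mul_le_mul_of_nonneg_right (H.le _) (by positivity)
      have h3 := mul_le_mul_of_nonneg_left h2 (bu_nonneg x)
      nlinarith
    have e8 : -(190 * h * ∫ x, |V x| / (1 + x ^ 2)) ≤
        h * (∫ x, bu x * (dΦ (F x) * D x)) + h ^ 2 * (Lp * (‖K‖ / s.im ^ 3)) :=
      (e4.trans e3.symm.le).trans (e5.trans e6)
    have e9 : h * (-(∫ x, bu x * (dΦ (F x) * D x))) ≤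
        h * (190 * (∫ x, |V x| / (1 + x ^ 2)) + h * (Lp * (‖K‖ / s.im ^ 3))) := by
      linarith
    exact le_of_mul_le_mul_left e9 hh
  refine le_of_forall_pos_le_add fun ε hε => ?_
  set c : ℝ := Lp * (‖K‖ / s.im ^ 3) with hc
  have hc0 : 0 ≤ c := mul_nonneg H.Lp_nonneg (by positivity)
  have h1 := key (ε / (c + 1)) (by positivity)
  refine h1.trans (add_le_add_right ?_ _)
  rw [div_mul_eq_mul_div, div_le_iff₀ (by positivity)]
  nlinarith

end P365T1.K1
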