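import Vale.Agent.P365.T2.K1bH235

/-!
# P365-T2, (K1), part c: integral estimates.
-/

set_option linter.all false

namespace P365T1.K1

open MeasureTheory Complex P365L Set
open scoped Real

theorem int_inv {y R : ℝ} (hy : 0 < y) (hR : 0 ≤ R) :
    ∫ p in (0 : ℝ)..R, (p + y)⁻¹ = Real.log ((R + y) / y) := by
  have h := intervalIntegral.integral_comp_add_right (fun p : ℝ => p⁻¹) y (a := 0) (b := R)
  rw [h, zero_add, integral_inv_of_pos hy (by linarith)]

/-- `1/(|x - a| + y)` on `[a - R, a + R]` -/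
theorem int_abs {a y R : ℝ} (hy : 0 < y) (hR : 0 ≤ R) :
    IntegrableOn (fun x : ℝ => (|x - a| + y)⁻¹) (Icc (a - R) (a + R)) ∧
      ∫ x in Icc (a - R) (a + R), (|x - a| + y)⁻¹ = 2 * Real.log ((R + y) / y) := by
  have hc : Continuous fun x : ℝ => (|x - a| + y)⁻¹ :=
    Continuous.inv₀ (by fun_prop) fun x => by positivity
  refine ⟨hc.continuousOn.integrableOn_Icc, ?_⟩
  rw [integral_Icc_eq_integral_Ioc, ← intervalIntegral.integral_of_le (by linarith)]
  have h1 : ∫ x in (a - R)..(a + R), (|x - a| + y)⁻¹ = ∫ p in (-R)..R, (|p| + y)⁻¹ := by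
    have := intervalIntegral.integral_comp_sub_right (fun p : ℝ => (|p| + y)⁻¹) a
      (a := a - R) (b := a + R)
    rw [this]
    congr 1 <;> ring
  have hc' : Continuous fun x : ℝ => (|x| + y)⁻¹ :=
    Continuous.inv₀ (by fun_prop) fun x => by positivity
  have h2 : ∫ p in (-R)..R, (|p| + y)⁻¹ =
      (∫ p in (-R)..0, (|p| + y)⁻¹) + ∫ p in (0 : ℝ)..R, (|p| + y)⁻¹ :=
    (intervalIntegral.integral_add_adjacent_intervals (hc'.intervalIntegrable _ _)
      (hc'.intervalIntegrable _ _)).symm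
  have h3 : ∫ p in (0 : ℝ)..R, (|p| + y)⁻¹ = Real.log ((R + y) / y) := by
    rw [← int_inv hy hR]
    refine intervalIntegral.integral_congr fun p hp => ?_
    rw [uIcc_of_le hR] at hp
    simp only [abs_of_nonneg hp.1]
  have h4 : ∫ p in (-R)..0, (|p| + y)⁻¹ = ∫ p in (0 : ℝ)..R, (|p| + y)⁻¹ := by
    have := intervalIntegral.integral_comp_neg (fun p : ℝ => (|p| + y)⁻¹) (a := 0) (b := R)
    simp only [abs_neg, neg_zero] at this
    exact this.symm
  rw [h1, h2, h4, h3]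
  ring

theorem inv_norm_le {s : ℂ} (hs : 0 < s.im) (x : ℝ) :
    ‖(x : ℂ) - s‖⁻¹ ≤ 2 * (|x - s.re| + s.im)⁻¹ := by
  have h0 : 0 < |x - s.re| + s.im := by positivity
  have h1 := Complex.abs_re_le_norm ((x : ℂ) - s)
  have h2 := Bump.norm_sub_ge hs x
  simp only [Complex.sub_re, Complex.ofReal_re] at h1
  have h3 : (|x - s.re| + s.im) / 2 ≤ ‖(x : ℂ) - s‖ := by linarith
  calc ‖(x : ℂ) - s‖⁻¹ ≤ ((|x - s.re| + s.im) / 2)⁻¹ := inv_anti₀ (by positivity) h3
    _ = _ := by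
      rw [inv_div, div_eq_mul_inv]

theorem int_one_add_sq_tail {R : ℝ} (hR : 0 < R) :
    IntegrableOn (fun x : ℝ => (1 + x ^ 2)⁻¹) (Icc (-R) R)ᶜ ∧
      ∫ x in (Icc (-R) R)ᶜ, (1 + x ^ 2)⁻¹ ≤ 2 / R := by
  refine ⟨integrable_inv_one_add_sq.integrableOn, ?_⟩
  have e : (Icc (-R) R)ᶜ = Iio (-R) ∪ Ioi R := by
    ext x
    simp only [mem_compl_iff, mem_Icc, not_and_or, not_le, mem_union, mem_Iio, mem_Ioi]
  rw [e, setIntegral_union (by
      rw [Set.disjoint_left]
      intro x hx hx'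
      simp only [mem_Iio, mem_Ioi] at hx hx'
      linarith) measurableSet_Ioi integrable_inv_one_add_sq.integrableOn
      integrable_inv_one_add_sq.integrableOn, ← integral_Iic_eq_integral_Iio,
    integral_Iic_inv_one_add_sq, integral_Ioi_inv_one_add_sq, Real.arctan_neg]
  have h1 : Real.arctan R = π / 2 - Real.arctan R⁻¹ := by
    rw [Real.arctan_inv_of_pos hR]
    ring
  have h2 : Real.arctan R⁻¹ ≤ R⁻¹ := by
    have h3 := Real.le_tan (x := Real.arctan R⁻¹) (Real.arctan_nonneg.2 (by positivity))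
      (Real.arctan_lt_pi_div_two _)
    rwa [Real.tan_arctan] at h3
  rw [h1]
  have h3 : 2 / R = 2 * R⁻¹ := div_eq_mul_inv _ _
  rw [h3]
  linarith

/-- the log factor -/
noncomputable def Lg (s : ℂ) : ℝ := 1 + Real.log (1 + 1 / s.im) + Real.log (1 + ‖s‖)

theorem Lg_ge_one {s : ℂ} (hs : 0 < s.im) : 1 ≤ Lg s := by
  unfold Lg
  have h1 : 0 ≤ Real.log (1 + 1 / s.im) := Real.log_nonneg (by
    have : 0 < 1 / s.im := by positivity
    linarith)
  have h2 : 0 ≤ Real.log (1 + ‖s‖) := Real.log_nonneg (by linarith [norm_nonneg s])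
  linarith

/-- small `s`, reference at infinity -/
theorem int_small {F0 : ℝ} {K s : ℂ} (hs : 0 < s.im) (h1 : ‖s‖ ≤ 1) :
    ∫ x, |Fx F0 K s x - F0| / (1 + x ^ 2) ≤ 8 * ‖K‖ * Lg s := by
  set a := s.re
  set y := s.im with hy
  obtain ⟨i1, e1⟩ := int_abs (a := a) hs zero_le_one
  have i2 : Integrable ((Icc (a - 1) (a + 1)).indicator fun x : ℝ => (|x - a| + y)⁻¹) :=
    i1.integrable_indicator measurableSet_Icc
  have hb : ∀ x : ℝ, |Fx F0 K s x - F0| / (1 + x ^ 2) ≤
      ‖K‖ * (2 * (Icc (a - 1) (a + 1)).indicator (fun x : ℝ => (|x - a| + y)⁻¹) x +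
        2 * (1 + x ^ 2)⁻¹) := by
    intro x
    have hp : 0 < 1 + x ^ 2 := by positivity
    have hF := Fx_sub_le (F0 := F0) (K := K) hs x
    have hn := inv_norm_le hs x
    have hq : 0 < (|x - a| + y)⁻¹ := inv_pos.2 (by positivity)
    calc |Fx F0 K s x - F0| / (1 + x ^ 2) ≤ (‖K‖ * (2 * (|x - a| + y)⁻¹)) / (1 + x ^ 2) := by
          gcongr
          exact hF.trans (mul_le_mul_of_nonneg_left hn (norm_nonneg _))
      _ = ‖K‖ * (2 * (|x - a| + y)⁻¹ * (1 + x ^ 2)⁻¹) := by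
          rw [div_eq_mul_inv]
          ring
      _ ≤ _ := by
        refine mul_le_mul_of_nonneg_left ?_ (norm_nonneg _)
        by_cases hx : x ∈ Icc (a - 1) (a + 1)
        · rw [Set.indicator_of_mem hx]
          have : (1 + x ^ 2)⁻¹ ≤ 1 := inv_le_one_of_one_le₀ (by nlinarith [sq_nonneg x])
          have h3 : 0 < (1 + x ^ 2)⁻¹ := by positivity
          nlinarith
        · rw [Set.indicator_of_notMem hx]
          have h2 : 1 ≤ |x - a| := by
            by_contra hc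
            push Not at hc
            rw [abs_lt] at hc
            exact hx ⟨by linarith [hc.1], by linarith [hc.2]⟩
          have h3 : (|x - a| + y)⁻¹ ≤ 1 := inv_le_one_of_one_le₀ (by linarith)
          have h4 : 0 < (1 + x ^ 2)⁻¹ := by positivity
          nlinarith
  have hint : Integrable fun x : ℝ => ‖K‖ *
      (2 * (Icc (a - 1) (a + 1)).indicator (fun x : ℝ => (|x - a| + y)⁻¹) x +
        2 * (1 + x ^ 2)⁻¹) :=
    ((i2.const_mul 2).add (integrable_inv_one_add_sq.const_mul 2)).const_mul _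
  have h2 := integral_mono_of_nonneg (Filter.Eventually.of_forall fun x =>
    div_nonneg (abs_nonneg (Fx F0 K s x - F0)) (by positivity : 0 ≤ 1 + x ^ 2)) hint
    (Filter.Eventually.of_forall hb)
  refine h2.trans ?_
  rw [integral_const_mul, integral_add (i2.const_mul 2) (integrable_inv_one_add_sq.const_mul 2),
    integral_const_mul, integral_const_mul, integral_indicator measurableSet_Icc, e1,
    integral_univ_inv_one_add_sq]
  have hL : Real.log ((1 + y) / y) = Real.log (1 + 1 / y) := by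
    congr 1
    field_simp
    ring
  rw [hL]
  have h3 : 0 ≤ Real.log (1 + ‖s‖) := Real.log_nonneg (by linarith [norm_nonneg s])
  have h4 := Real.pi_lt_four
  have h5 : 0 ≤ Real.log (1 + 1 / y) := Real.log_nonneg (by
    have : 0 < 1 / y := by positivity
    linarith)
  have h6 : 2 * (2 * Real.log (1 + 1 / y)) + 2 * π ≤ 8 * Lg s := by
    unfold Lg
    rw [← hy]
    linarith
  calc ‖K‖ * (2 * (2 * Real.log (1 + 1 / y)) + 2 * π) ≤ ‖K‖ * (8 * Lg s) :=
        mul_le_mul_of_nonneg_left h6 (norm_nonneg _)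
    _ = _ := by ring

theorem aux_l7 {g r : ℝ} (hg : 0 ≤ g) (hr : 1 ≤ r) :
    (1 / r ^ 2) * (20 * g) ≤ 40 * g / (1 + r ^ 2) := by
  have h4 : 1 ≤ r ^ 2 := by nlinarith
  rw [one_div_mul_eq_div, div_le_div_iff₀ (by positivity) (by positivity)]
  nlinarith [mul_le_mul_of_nonneg_left h4 hg]

theorem aux_l6 {r A B c g : ℝ} (hr : 0 < r) (hc : c ≤ 2 / r ^ 2) (h : 2 * (2 * A) + 2 * (2 * B) + 2 ≤
    20 * g) : (1 / r ^ 2) * (2 * (2 * A) + 2 * (2 * B)) + c ≤ (1 / r ^ 2) * (20 * g) := by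
  have e : (1 / r ^ 2) * (2 * (2 * A) + 2 * (2 * B)) + 2 / r ^ 2 = (1 / r ^ 2) *
      (2 * (2 * A) + 2 * (2 * B) + 2) := by
    ring
  have h2 : (1 / r ^ 2) * (2 * (2 * A) + 2 * (2 * B) + 2) ≤ (1 / r ^ 2) * (20 * g) :=
    mul_le_mul_of_nonneg_left h (by positivity)
  linarith

theorem pt_in {s : ℂ} (hs : 0 < s.im) (hr0 : 0 < ‖s‖) (x : ℝ) :
    |x| / (‖(x : ℂ) - s‖ * ‖s‖ * (1 + x ^ 2)) ≤
      (1 / ‖s‖ ^ 2) * (2 * (|x - s.re| + s.im)⁻¹ + 2 * (|x| + 1)⁻¹) := by
  set r := ‖s‖ with hr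
  have hp : 0 < 1 + x ^ 2 := by positivity
  have hn := inv_norm_le hs x
  have hw : 0 < ‖(x : ℂ) - s‖ := hs.trans_le (nge hs x)
  have hrw : r ≤ |x| + ‖(x : ℂ) - s‖ := by
    calc r = ‖(x : ℂ) - ((x : ℂ) - s)‖ := by rw [sub_sub_cancel]
      _ ≤ ‖(x : ℂ)‖ + ‖(x : ℂ) - s‖ := norm_sub_le _ _
      _ = _ := by rw [Complex.norm_real, Real.norm_eq_abs]
  set w := ‖(x : ℂ) - s‖ with hwdef
  have h4 : |x| * |x| = x ^ 2 := by rw [← sq, sq_abs]
  have g1 : |x| / (w * r * (1 + x ^ 2)) ≤ (1 / r ^ 2) * (w⁻¹ + |x| / (1 + x ^ 2)) := by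
    have h2 : (1 / r ^ 2) * (w⁻¹ + |x| / (1 + x ^ 2)) =
        ((1 + x ^ 2) + |x| * w) / (r ^ 2 * w * (1 + x ^ 2)) := by
      field_simp
    rw [h2, div_le_div_iff₀ (by positivity) (by positivity)]
    have h3 : |x| * r ≤ (1 + x ^ 2) + |x| * w := by
      have := mul_le_mul_of_nonneg_left hrw (abs_nonneg x)
      nlinarith
    have h5 : 0 < r * w * (1 + x ^ 2) := by positivity
    calc |x| * (r ^ 2 * w * (1 + x ^ 2)) = (|x| * r) * (r * w * (1 + x ^ 2)) := by ring
      _ ≤ ((1 + x ^ 2) + |x| * w) * (r * w * (1 + x ^ 2)) := mul_le_mul_of_nonneg_right h3 h5.le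
      _ = _ := by ring
  have g2 : |x| / (1 + x ^ 2) ≤ 2 * (|x| + 1)⁻¹ := by
    rw [← div_eq_mul_inv, div_le_div_iff₀ (by positivity) (by positivity)]
    nlinarith [sq_nonneg (|x| - 1), abs_nonneg x]
  exact g1.trans (mul_le_mul_of_nonneg_left (add_le_add hn g2) (by positivity))

theorem pt_out {s : ℂ} (hs : 0 < s.im) (hr0 : 0 < ‖s‖) {x : ℝ} (hx : 2 * ‖s‖ < |x|) :
    |x| / (‖(x : ℂ) - s‖ * ‖s‖ * (1 + x ^ 2)) ≤ (2 / ‖s‖) * (1 + x ^ 2)⁻¹ := by
  set r := ‖s‖ with hr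
  have hw : 0 < ‖(x : ℂ) - s‖ := hs.trans_le (nge hs x)
  have hxw : |x| ≤ r + ‖(x : ℂ) - s‖ := by
    calc |x| = ‖((x : ℂ) - s) + s‖ := by
          rw [sub_add_cancel, Complex.norm_real, Real.norm_eq_abs]
      _ ≤ ‖(x : ℂ) - s‖ + ‖s‖ := norm_add_le _ _
      _ = _ := by ring
  set w := ‖(x : ℂ) - s‖ with hwdef
  have g1 : |x| ≤ 2 * w := by linarith
  rw [div_mul_eq_mul_div, ← div_eq_mul_inv, div_div, div_le_div_iff₀ (by positivity) (by positivity)]
  have : 0 < (1 + x ^ 2) * r := by positivity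
  calc |x| * ((1 + x ^ 2) * r) ≤ (2 * w) * ((1 + x ^ 2) * r) :=
        mul_le_mul_of_nonneg_right g1 this.le
    _ = _ := by ring

/-- large `s`, reference at zero -/
theorem int_large {F0 : ℝ} {K s : ℂ} (hs : 0 < s.im) (h1 : 1 ≤ ‖s‖) :
    ∫ x, |Fx F0 K s x - Fx F0 K s 0| / (1 + x ^ 2) ≤ 40 * ‖K‖ * Lg s / (1 + ‖s‖ ^ 2) := by
  set a := s.re
  set y := s.im with hy
  set r := ‖s‖ with hr
  have hr0 : 0 < r := by linarith
  have har : |a| ≤ r := Complex.abs_re_le_norm s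
  have hyr : y ≤ r := (le_abs_self _).trans (Complex.abs_im_le_norm s)
  obtain ⟨i1, e1⟩ := int_abs (a := a) hs (by positivity : 0 ≤ 3 * r)
  obtain ⟨i3, e3⟩ := int_abs (a := 0) (y := 1) one_pos (by positivity : 0 ≤ 2 * r)
  rw [zero_sub, zero_add] at i3 e3
  simp only [sub_zero] at i3 e3
  obtain ⟨i5, e5⟩ := int_one_add_sq_tail (by positivity : 0 < 2 * r)
  set f1 : ℝ → ℝ := (Icc (a - 3 * r) (a + 3 * r)).indicator fun x : ℝ => (|x - a| + y)⁻¹ with hf1
  set f2 : ℝ → ℝ := (Icc (-(2 * r)) (2 * r)).indicator fun x : ℝ => (|x| + 1)⁻¹ with hf2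
  set f3 : ℝ → ℝ := (Icc (-(2 * r)) (2 * r))ᶜ.indicator fun x : ℝ => (1 + x ^ 2)⁻¹ with hf3
  have j1 : Integrable f1 := i1.integrable_indicator measurableSet_Icc
  have j2 : Integrable f2 := i3.integrable_indicator measurableSet_Icc
  have j3 : Integrable f3 := i5.integrable_indicator measurableSet_Icc.compl
  have k1 : ∫ x, f1 x = 2 * Real.log ((3 * r + y) / y) := by
    rw [hf1, integral_indicator measurableSet_Icc, e1]
  have k2 : ∫ x, f2 x = 2 * Real.log ((2 * r + 1) / 1) := by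
    rw [hf2, integral_indicator measurableSet_Icc, e3]
  have k3 : ∫ x, f3 x ≤ 2 / (2 * r) := by
    rw [hf3, integral_indicator measurableSet_Icc.compl]
    exact e5
  have n1 : ∀ x, 0 ≤ f1 x := fun x => Set.indicator_nonneg (fun x _ => by positivity) x
  have n2 : ∀ x, 0 ≤ f2 x := fun x => Set.indicator_nonneg (fun x _ => by positivity) x
  have n3 : ∀ x, 0 ≤ f3 x := fun x => Set.indicator_nonneg (fun x _ => by positivity) x
  have hb : ∀ x : ℝ, |Fx F0 K s x - Fx F0 K s 0| / (1 + x ^ 2) ≤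
      ‖K‖ * ((1 / r ^ 2) * (2 * f1 x + 2 * f2 x) + (2 / r) * f3 x) := by
    intro x
    have hp : 0 < 1 + x ^ 2 := by positivity
    have hF := Fx_sub_zero_le (F0 := F0) (K := K) hs x
    have hw : 0 < ‖(x : ℂ) - s‖ := hs.trans_le (nge hs x)
    calc |Fx F0 K s x - Fx F0 K s 0| / (1 + x ^ 2)
        ≤ (‖K‖ * (|x| / (‖(x : ℂ) - s‖ * r))) / (1 + x ^ 2) := by gcongr
      _ = ‖K‖ * (|x| / (‖(x : ℂ) - s‖ * r * (1 + x ^ 2))) := by
          field_simp
      _ ≤ _ := by
        refine mul_le_mul_of_nonneg_left ?_ (norm_nonneg _)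
        by_cases hx : x ∈ Icc (-(2 * r)) (2 * r)
        · have hx' : |x| ≤ 2 * r := abs_le.2 hx
          have hx1 : x ∈ Icc (a - 3 * r) (a + 3 * r) := by
            have h2 : |x - a| ≤ 3 * r := by
              calc |x - a| ≤ |x| + |a| := abs_sub _ _
                _ ≤ _ := by linarith
            rw [abs_le] at h2
            exact ⟨by linarith [h2.1], by linarith [h2.2]⟩
          have q1 : f1 x = (|x - a| + y)⁻¹ := Set.indicator_of_mem hx1 _
          have q2 : f2 x = (|x| + 1)⁻¹ := Set.indicator_of_mem hx _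
          have g3 : 0 ≤ (2 / r) * f3 x := mul_nonneg (by positivity) (n3 x)
          have g1 := pt_in hs hr0 x
          rw [q1, q2]
          rw [← hr] at g1
          linarith
        · have hx' : 2 * r < |x| := by
            by_contra hc
            push Not at hc
            exact hx (abs_le.1 hc)
          have q3 : f3 x = (1 + x ^ 2)⁻¹ := Set.indicator_of_mem hx _
          have g3 : 0 ≤ (1 / r ^ 2) * (2 * f1 x + 2 * f2 x) :=
            mul_nonneg (by positivity) (by linarith [n1 x, n2 x])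
          have g4 := pt_out hs hr0 hx'
          rw [q3]
          rw [← hr] at g4
          linarith
  have hint : Integrable fun x : ℝ => ‖K‖ * ((1 / r ^ 2) * (2 * f1 x + 2 * f2 x) +
      (2 / r) * f3 x) :=
    ((((j1.const_mul 2).add (j2.const_mul 2)).const_mul _).add (j3.const_mul _)).const_mul _
  have h2 := integral_mono_of_nonneg (Filter.Eventually.of_forall fun x =>
    div_nonneg (abs_nonneg (Fx F0 K s x - Fx F0 K s 0)) (by positivity : 0 ≤ 1 + x ^ 2)) hint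
    (Filter.Eventually.of_forall hb)
  refine h2.trans ?_
  have hsum : ∫ x, ((1 / r ^ 2) * (2 * f1 x + 2 * f2 x) + (2 / r) * f3 x) =
      (1 / r ^ 2) * (2 * (2 * Real.log ((3 * r + y) / y)) +
        2 * (2 * Real.log ((2 * r + 1) / 1))) + (2 / r) * ∫ x, f3 x := by
    have s1 : ∫ x, (2 * f1 x + 2 * f2 x) = 2 * (2 * Real.log ((3 * r + y) / y)) +
        2 * (2 * Real.log ((2 * r + 1) / 1)) := by
      rw [integral_add (j1.const_mul 2) (j2.const_mul 2), integral_const_mul, integral_const_mul,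
        k1, k2]
    have s2 : Integrable fun x => (1 / r ^ 2) * (2 * f1 x + 2 * f2 x) :=
      ((j1.const_mul 2).add (j2.const_mul 2)).const_mul _
    rw [integral_add s2 (j3.const_mul _), integral_const_mul, integral_const_mul, s1]
  rw [integral_const_mul, hsum]
  have l1 : Real.log ((3 * r + y) / y) ≤ 2 + Real.log (1 + r) + Real.log (1 + 1 / y) := by
    have h3 : (3 * r + y) / y ≤ 3 * ((1 + r) * (1 + 1 / y)) := by
      have e : 3 * ((1 + r) * (1 + 1 / y)) = 3 * ((1 + r) * (y + 1)) / y := by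
        field_simp
      rw [e, div_le_div_iff_of_pos_right hs]
      nlinarith [mul_pos hr0 hs]
    refine (Real.log_le_log (by positivity) h3).trans ?_
    rw [Real.log_mul (by norm_num) (by positivity), Real.log_mul (by positivity) (by positivity)]
    have h4 : Real.log 3 ≤ 2 := by
      have := Real.log_le_sub_one_of_pos (by norm_num : (0 : ℝ) < 3)
      linarith
    linarith
  have l2 : Real.log ((2 * r + 1) / 1) ≤ 1 + Real.log (1 + r) := by
    rw [div_one]
    refine (Real.log_le_log (by positivity) (by linarith : 2 * r + 1 ≤ 2 * (1 + r))).trans ?_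
    rw [Real.log_mul (by norm_num) (by positivity)]
    have h4 : Real.log 2 ≤ 1 := by
      have := Real.log_le_sub_one_of_pos (by norm_num : (0 : ℝ) < 2)
      linarith
    linarith
  have l3 : (2 / r) * ∫ x, f3 x ≤ 2 / r ^ 2 := by
    calc (2 / r) * ∫ x, f3 x ≤ (2 / r) * (2 / (2 * r)) :=
          mul_le_mul_of_nonneg_left k3 (by positivity)
      _ = _ := by
        field_simp
  have l4 : 0 ≤ Real.log (1 + r) := Real.log_nonneg (by linarith)
  have l5 : 0 ≤ Real.log (1 + 1 / y) := Real.log_nonneg (by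
    have : 0 < 1 / y := by positivity
    linarith)
  have l6 : (1 / r ^ 2) * (2 * (2 * Real.log ((3 * r + y) / y)) +
      2 * (2 * Real.log ((2 * r + 1) / 1))) + (2 / r) * ∫ x, f3 x ≤ (1 / r ^ 2) * (20 * Lg s) := by
    refine aux_l6 hr0 l3 ?_
    unfold Lg
    rw [← hy, ← hr]
    linarith
  have l7 : (1 / r ^ 2) * (20 * Lg s) ≤ 40 * Lg s / (1 + r ^ 2) :=
    aux_l7 (by linarith [Lg_ge_one hs]) h1
  calc _ ≤ ‖K‖ * ((1 / r ^ 2) * (20 * Lg s)) := mul_le_mul_of_nonneg_left l6 (norm_nonneg _)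
    _ ≤ ‖K‖ * (40 * Lg s / (1 + r ^ 2)) := mul_le_mul_of_nonneg_left l7 (norm_nonneg _)
    _ = _ := by ring

/-- **one variable, unit bump**: -/
theorem core1 {F0 : ℝ} {K s : ℂ} (hs : 0 < s.im) {Φ dΦ : ℝ → ℝ} {Lp : ℝ} (H : Conc Φ dΦ Lp) :
    -(∫ x, bu x * (dΦ (Fx F0 K s x) * (I * K / ((x : ℂ) - s) ^ 2).re)) ≤
      7600 * Lp * (‖K‖ * Lg s / (1 + ‖s‖ ^ 2)) := by
  have hg := Lg_ge_one hs
  have hLp := H.Lp_nonneg
  have gen : ∀ r : ℝ, ∫ x, |Φ (Fx F0 K s x) - Φ r| / (1 + x ^ 2) ≤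
      Lp * ∫ x, |Fx F0 K s x - r| / (1 + x ^ 2) := by
    intro r
    have hFc := continuous_Fx (F0 := F0) (K := K) hs
    rw [← integral_const_mul]
    have hint : Integrable fun x => |Fx F0 K s x - r| / (1 + x ^ 2) := by
      refine (integrable_inv_one_add_sq.const_mul (‖K‖ * s.im⁻¹ + |F0 - r|)).mono' ?_
        (Filter.Eventually.of_forall fun x => ?_)
      · exact (((hFc.sub continuous_const).abs).div (by fun_prop) fun x => by positivity
          ).aestronglyMeasurable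
      · rw [Real.norm_eq_abs, abs_of_nonneg (by positivity), div_eq_mul_inv]
        refine mul_le_mul_of_nonneg_right ?_ (by positivity)
        calc |Fx F0 K s x - r| = |(Fx F0 K s x - F0) + (F0 - r)| := by ring_nf
          _ ≤ |Fx F0 K s x - F0| + |F0 - r| := abs_add_le _ _
          _ ≤ _ := by
            refine add_le_add_left ((Fx_sub_le hs x).trans ?_) _
            exact mul_le_mul_of_nonneg_left (inv_anti₀ hs (nge hs x)) (norm_nonneg _)
    refine integral_mono_of_nonneg (Filter.Eventually.of_forall fun x => by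
      show 0 ≤ |Φ (Fx F0 K s x) - Φ r| / (1 + x ^ 2)
      positivity) (hint.const_mul Lp) (Filter.Eventually.of_forall fun x => ?_)
    show |Φ (Fx F0 K s x) - Φ r| / (1 + x ^ 2) ≤ Lp * (|Fx F0 K s x - r| / (1 + x ^ 2))
    rw [← mul_div_assoc]
    gcongr
    exact H.lip _ _
  rcases le_total ‖s‖ 1 with h1 | h1
  · refine (core0 hs H (Φ F0)).trans ?_
    have h2 := (gen F0).trans (mul_le_mul_of_nonneg_left (int_small hs h1) hLp)
    have h3 : 8 * ‖K‖ * Lg s ≤ 16 * (‖K‖ * Lg s / (1 + ‖s‖ ^ 2)) := by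
      rw [mul_div_assoc', le_div_iff₀ (by positivity)]
      have h4 : ‖s‖ ^ 2 ≤ 1 := pow_le_one₀ (norm_nonneg _) h1
      have h5 : 0 ≤ ‖K‖ * Lg s := mul_nonneg (norm_nonneg _) (by linarith)
      nlinarith
    have h6 := mul_le_mul_of_nonneg_left h3 hLp
    have h7 : 0 ≤ Lp * (‖K‖ * Lg s / (1 + ‖s‖ ^ 2)) :=
      mul_nonneg hLp (div_nonneg (mul_nonneg (norm_nonneg _) (by linarith)) (by positivity))
    nlinarith
  · refine (core0 hs H (Φ (Fx F0 K s 0))).trans ?_
    have h2 := (gen (Fx F0 K s 0)).trans (mul_le_mul_of_nonneg_left (int_large hs h1) hLp)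
    have h3 : Lp * (40 * ‖K‖ * Lg s / (1 + ‖s‖ ^ 2)) =
        40 * (Lp * (‖K‖ * Lg s / (1 + ‖s‖ ^ 2))) := by ring
    rw [h3] at h2
    nlinarith

end P365T1.K1
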