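import Vale.Agent.P365.MathlibUsed

/-!
# P365 T2, section X: kernels of the one-body entropy (87's (T))

`hk s t = t / (1 + s t)` (`t = |z|^2`, `s = 1/r^2`), conditionally negative definite kernel of scale
`r`; `par` = one-sided parallelogram inequality for `H = top |z|^2 - ∑ δ_j h_{s_j}`.
-/

set_option linter.all false

namespace Vale.Agent.P365.T2.H573

open Finset

/-- `q t = t / (1+t)^2` -/
noncomputable def q (t : ℝ) : ℝ := t / (1 + t) ^ 2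

/-- `φ t = t / (1+t)` -/
noncomputable def ph (t : ℝ) : ℝ := t / (1 + t)

/-- the kernel `h_s`, as a function of `t = |z|^2` -/
noncomputable def hk (s t : ℝ) : ℝ := t / (1 + s * t)

theorem q_nonneg {t : ℝ} (ht : 0 ≤ t) : 0 ≤ q t := by unfold q; positivity

theorem ph_nonneg {t : ℝ} (ht : 0 ≤ t) : 0 ≤ ph t := by unfold ph; positivity

theorem ph_le_one {t : ℝ} (ht : 0 ≤ t) : ph t ≤ 1 := by
  unfold ph
  rw [div_le_one (by linarith)]
  linarith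

theorem q_le_ph {t : ℝ} (ht : 0 ≤ t) : q t ≤ 4 / 3 * (ph (4 * t) - ph t) := by
  unfold q ph
  have h1 : (0 : ℝ) < 1 + t := by linarith
  have h2 : (0 : ℝ) < 1 + 4 * t := by linarith
  have e : 4 / 3 * (4 * t / (1 + 4 * t) - t / (1 + t)) = 4 * t / ((1 + 4 * t) * (1 + t)) := by
    field_simp
    ring
  rw [e, div_le_div_iff₀ (by positivity) (by positivity)]
  nlinarith [mul_nonneg ht ht, mul_nonneg (mul_nonneg ht ht) ht]

/-- `∑_{j<n} q (4^{-j} t) ≤ 4/3` -/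
theorem q_sum {t : ℝ} (ht : 0 ≤ t) (n : ℕ) :
    ∑ j ∈ range n, q (t * (1 / 4) ^ j) ≤ 4 / 3 := by
  have key : ∀ n : ℕ, ∑ j ∈ range n, q (t * (1 / 4) ^ j) ≤
      4 / 3 * (ph (4 * t) - ph (4 * (t * (1 / 4) ^ n))) := by
    intro n
    induction n with
    | zero => simp
    | succ n ih =>
      rw [sum_range_succ]
      have h := q_le_ph (t := t * (1 / 4) ^ n) (by positivity)
      have e : 4 * (t * (1 / 4 : ℝ) ^ (n + 1)) = t * (1 / 4) ^ n := by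
        rw [pow_succ]; ring
      rw [e]
      linarith
  refine (key n).trans ?_
  have h1 := ph_le_one (t := 4 * t) (by positivity)
  have h2 := ph_nonneg (t := 4 * (t * (1 / 4) ^ n)) (by positivity)
  linarith

/-- algebraic core: error of the parallelogram for `h_s` -/
theorem ker_alg {s A B p : ℝ} (hs : 0 ≤ s) (hA : 0 ≤ A) (hB : 0 ≤ B) (hp : p ^ 2 ≤ A * B) :
    hk s (A + B + 2 * p) ≤ hk s A + hk s B + 2 * p / (1 + s * A) ^ 2 +
      B * (q (s * B) + 3 * q (s * A) + 4 / 3 * q (s * (A + B + 2 * p))) := by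
  obtain ⟨Z, hZ⟩ : ∃ Z, Z = A + B + 2 * p := ⟨_, rfl⟩
  rw [← hZ]
  have hZ0 : 0 ≤ Z := by
    rw [hZ]
    nlinarith [sq_nonneg (A - B), sq_nonneg (A + B), abs_nonneg p, sq_abs p,
      abs_le_of_sq_le_sq' (show (2 * p) ^ 2 ≤ (A + B) ^ 2 by nlinarith [sq_nonneg (A - B)])
        (by positivity)]
  have hB2 : B ≤ 2 * (A + Z) := by
    -- 2A + 2Z - B = 4A + B + 4p ≥ 0
    have h1 : (4 * p) ^ 2 ≤ (4 * A + B) ^ 2 := by nlinarith [sq_nonneg (4 * A - B)]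
    have h2 := (abs_le_of_sq_le_sq' h1 (by positivity)).1
    rw [hZ]
    linarith
  have dA : 0 < 1 + s * A := by positivity
  have dB : 0 < 1 + s * B := by positivity
  have dZ : 0 < 1 + s * Z := by positivity
  -- exact identity
  have hp2 : 2 * p = Z - A - B := by rw [hZ]; ring
  have ident : hk s Z - hk s A - hk s B - 2 * p / (1 + s * A) ^ 2 =
      B * (1 / ((1 + s * Z) * (1 + s * A)) - 1 / (1 + s * B)) -
        2 * p * s * (B + 2 * p) / ((1 + s * A) ^ 2 * (1 + s * Z)) := by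
    unfold hk
    rw [hp2]
    field_simp
    ring
  -- first bracket
  have b1 : 1 / ((1 + s * Z) * (1 + s * A)) - 1 / (1 + s * B) ≤ q (s * B) := by
    have h1 : 1 + s * B / 2 ≤ (1 + s * Z) * (1 + s * A) := by
      have : s * B ≤ s * (2 * (A + Z)) := mul_le_mul_of_nonneg_left hB2 hs
      nlinarith [mul_nonneg (mul_nonneg hs hZ0) (mul_nonneg hs hA)]
    have h2 : 1 / ((1 + s * Z) * (1 + s * A)) ≤ 1 / (1 + s * B / 2) :=
      one_div_le_one_div_of_le (by positivity) h1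
    refine (sub_le_sub_right h2 _).trans ?_
    unfold q
    have hx : 0 ≤ s * B := by positivity
    rw [div_sub_div _ _ (by positivity) (by positivity), div_le_div_iff₀ (by positivity)
      (by positivity)]
    nlinarith [mul_nonneg hx hx, mul_nonneg (mul_nonneg hx hx) hx]
  -- second term
  have b2 : -(2 * p * s * (B + 2 * p)) / ((1 + s * A) ^ 2 * (1 + s * Z)) ≤
      B * (3 * q (s * A) + 4 / 3 * q (s * Z)) := by
    have h1 : -(2 * p * s * (B + 2 * p)) ≤ (2 * s * |p|) * B := by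
      have : -p ≤ |p| := neg_le_abs p
      nlinarith [mul_nonneg hs (sq_nonneg p), mul_nonneg hs hB, mul_nonneg (mul_nonneg hs hB)
        (sub_nonneg.2 this)]
    have h2 : 2 * s * |p| ≤
        (1 + s * A) ^ 2 * (1 + s * Z) * (3 * q (s * A) + 4 / 3 * q (s * Z)) := by
      obtain ⟨x, hx⟩ : ∃ x, x = s * A := ⟨_, rfl⟩
      obtain ⟨z, hz⟩ : ∃ z, z = s * Z := ⟨_, rfl⟩
      have hx0 : 0 ≤ x := by rw [hx]; positivity
      have hz0 : 0 ≤ z := by rw [hz]; positivity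
      have hsq : (2 * s * |p|) ^ 2 ≤ 8 * x * (x + z) := by
        have e1 : (2 * s * |p|) ^ 2 = 4 * s ^ 2 * p ^ 2 := by rw [mul_pow, sq_abs]; ring
        rw [e1, hx, hz]
        have e2 : p ^ 2 ≤ A * (2 * (A + Z)) := hp.trans (mul_le_mul_of_nonneg_left hB2 hA)
        nlinarith [mul_le_mul_of_nonneg_left e2 (show (0:ℝ) ≤ 4 * s ^ 2 by positivity)]
      rw [← hx, ← hz]
      have e3 : (1 + x) ^ 2 * (1 + z) * (3 * q x + 4 / 3 * q z) =
          3 * x * (1 + z) + 4 / 3 * (z * (1 + x) ^ 2 / (1 + z)) := by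
        unfold q
        field_simp
      rw [e3]
      have hT : 0 ≤ 3 * x * (1 + z) + 4 / 3 * (z * (1 + x) ^ 2 / (1 + z)) := by positivity
      refine abs_le_of_sq_le_sq' ?_ hT |>.2
      refine hsq.trans ?_
      obtain ⟨r, hr⟩ : ∃ r, r = z * (1 + x) ^ 2 / (1 + z) := ⟨_, rfl⟩
      have hr0 : 0 ≤ r := by rw [hr]; positivity
      have hr1 : (1 + z) * r = z * (1 + x) ^ 2 := by rw [hr]; field_simp
      rw [← hr]
      have e4 : (3 * x * (1 + z) + 4 / 3 * r) ^ 2 =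
          9 * x ^ 2 * (1 + z) ^ 2 + 8 * x * ((1 + z) * r) + 16 / 9 * r ^ 2 := by ring
      rw [e4, hr1]
      nlinarith [mul_nonneg (mul_nonneg hx0 hz0) hx0, mul_nonneg (mul_nonneg hx0 hz0)
        (mul_nonneg hx0 hx0), sq_nonneg r, mul_nonneg (mul_nonneg hx0 hx0) hz0,
        mul_nonneg (mul_nonneg hx0 hx0) (mul_nonneg hz0 hz0), mul_nonneg hx0 hz0, mul_nonneg hx0 hx0]
    rw [div_le_iff₀ (by positivity)]
    calc -(2 * p * s * (B + 2 * p)) ≤ (2 * s * |p|) * B := h1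
      _ ≤ ((1 + s * A) ^ 2 * (1 + s * Z) * (3 * q (s * A) + 4 / 3 * q (s * Z))) * B :=
        mul_le_mul_of_nonneg_right h2 hB
      _ = _ := by ring
  have b3 := mul_le_mul_of_nonneg_left b1 hB
  have e5 : -(2 * p * s * (B + 2 * p)) / ((1 + s * A) ^ 2 * (1 + s * Z)) =
      -(2 * p * s * (B + 2 * p) / ((1 + s * A) ^ 2 * (1 + s * Z))) := by rw [neg_div]
  rw [e5] at b2
  nlinarith [ident, b2, b3]

/-! ### inner product spaces -/

section ips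

variable {V : Type*} [NormedAddCommGroup V] [InnerProductSpace ℝ V]

open scoped RealInnerProductSpace

theorem hk_add {s : ℝ} (hs : 0 ≤ s) (a b : V) :
    hk s (‖a + b‖ ^ 2) ≤ hk s (‖a‖ ^ 2) + hk s (‖b‖ ^ 2) + 2 * ⟪a, b⟫ / (1 + s * ‖a‖ ^ 2) ^ 2 +
      ‖b‖ ^ 2 * (q (s * ‖b‖ ^ 2) + 3 * q (s * ‖a‖ ^ 2) + 4 / 3 * q (s * ‖a + b‖ ^ 2)) := by
  have e : ‖a + b‖ ^ 2 = ‖a‖ ^ 2 + ‖b‖ ^ 2 + 2 * ⟪a, b⟫ := by
    rw [norm_add_sq_real]; ring
  have hp : ⟪a, b⟫ ^ 2 ≤ ‖a‖ ^ 2 * ‖b‖ ^ 2 := by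
    have := abs_real_inner_le_norm a b
    calc ⟪a, b⟫ ^ 2 = |⟪a, b⟫| ^ 2 := (sq_abs _).symm
      _ ≤ (‖a‖ * ‖b‖) ^ 2 := pow_le_pow_left₀ (abs_nonneg _) this 2
      _ = _ := by ring
  have h := ker_alg hs (sq_nonneg ‖a‖) (sq_nonneg ‖b‖) hp
  rw [← e] at h
  exact h

/-- `H(t) = top t - ∑_{j<n} δ_j h_{s 4^{-j}}(t)` -/
noncomputable def HH (top s : ℝ) (n : ℕ) (δ : ℕ → ℝ) (t : ℝ) : ℝ :=
  top * t - ∑ j ∈ range n, δ j * hk (s * (1 / 4) ^ j) t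

/-- coefficient of the linear term -/
noncomputable def Lam (top s : ℝ) (n : ℕ) (δ : ℕ → ℝ) (t : ℝ) : ℝ :=
  top - ∑ j ∈ range n, δ j / (1 + s * (1 / 4) ^ j * t) ^ 2

theorem Lam_le {top s : ℝ} {n : ℕ} {δ : ℕ → ℝ} (hδ : ∀ j < n, 0 ≤ δ j) (t : ℝ) :
    Lam top s n δ t ≤ top := by
  unfold Lam
  have : 0 ≤ ∑ j ∈ range n, δ j / (1 + s * (1 / 4) ^ j * t) ^ 2 :=
    sum_nonneg fun j hj => div_nonneg (hδ j (mem_range.1 hj)) (sq_nonneg _)
  linarith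

theorem le_Lam {top s : ℝ} (hs : 0 ≤ s) {n : ℕ} {δ : ℕ → ℝ} (hδ : ∀ j < n, 0 ≤ δ j) {t : ℝ}
    (ht : 0 ≤ t) : top - ∑ j ∈ range n, δ j ≤ Lam top s n δ t := by
  unfold Lam
  refine sub_le_sub_left (sum_le_sum fun j hj => ?_) _
  refine div_le_self (hδ j (mem_range.1 hj)) ?_
  have : (0 : ℝ) ≤ s * (1 / 4) ^ j * t := by positivity
  nlinarith

/-- **one-sided parallelogram inequality** (87) -/
theorem par {top s C₀ : ℝ} (hs : 0 ≤ s) {n : ℕ} {δ : ℕ → ℝ} (hδ : ∀ j < n, 0 ≤ δ j)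
    (hC : ∀ j < n, δ j ≤ C₀) (hC0 : 0 ≤ C₀) (a b : V) :
    HH top s n δ (‖a‖ ^ 2) + HH top s n δ (‖b‖ ^ 2) + 2 * Lam top s n δ (‖a‖ ^ 2) * ⟪a, b⟫ -
      64 / 9 * C₀ * ‖b‖ ^ 2 ≤ HH top s n δ (‖a + b‖ ^ 2) := by
  have e : ‖a + b‖ ^ 2 = ‖a‖ ^ 2 + ‖b‖ ^ 2 + 2 * ⟪a, b⟫ := by
    rw [norm_add_sq_real]; ring
  set A := ‖a‖ ^ 2 with hAd
  set B := ‖b‖ ^ 2 with hBd
  set Z := ‖a + b‖ ^ 2 with hZd
  have hA : 0 ≤ A := sq_nonneg _
  have hB : 0 ≤ B := sq_nonneg _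
  have hZ : 0 ≤ Z := sq_nonneg _
  have hj : ∀ j ∈ range n, δ j * hk (s * (1 / 4) ^ j) Z ≤ δ j * hk (s * (1 / 4) ^ j) A +
      δ j * hk (s * (1 / 4) ^ j) B + 2 * ⟪a, b⟫ * (δ j / (1 + s * (1 / 4) ^ j * A) ^ 2) +
      C₀ * (B * (q (s * B * (1 / 4) ^ j) + 3 * q (s * A * (1 / 4) ^ j) +
        4 / 3 * q (s * Z * (1 / 4) ^ j))) := by
    intro j hj
    have hj' := mem_range.1 hj
    have h1 := hk_add (V := V) (s := s * (1 / 4) ^ j) (by positivity) a b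
    rw [← hAd, ← hBd, ← hZd] at h1
    have e1 : s * (1 / 4) ^ j * B = s * B * (1 / 4) ^ j := by ring
    have e2 : s * (1 / 4) ^ j * A = s * A * (1 / 4) ^ j := by ring
    have e3 : s * (1 / 4) ^ j * Z = s * Z * (1 / 4) ^ j := by ring
    have h2 := mul_le_mul_of_nonneg_left h1 (hδ j hj')
    have q1 := q_nonneg (t := s * B * (1 / 4) ^ j) (by positivity)
    have q2 := q_nonneg (t := s * A * (1 / 4) ^ j) (by positivity)
    have q3 := q_nonneg (t := s * Z * (1 / 4) ^ j) (by positivity)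
    have h3 : δ j * (B * (q (s * B * (1 / 4) ^ j) + 3 * q (s * A * (1 / 4) ^ j) +
        4 / 3 * q (s * Z * (1 / 4) ^ j))) ≤ C₀ * (B * (q (s * B * (1 / 4) ^ j) +
        3 * q (s * A * (1 / 4) ^ j) + 4 / 3 * q (s * Z * (1 / 4) ^ j))) :=
      mul_le_mul_of_nonneg_right (hC j hj') (by positivity)
    refine h2.trans ?_
    rw [e1, e3]
    have e4 : q (s * (1 / 4) ^ j * A) = q (s * A * (1 / 4) ^ j) := by rw [e2]
    rw [e4]
    have e5 : δ j * (hk (s * (1 / 4) ^ j) A + hk (s * (1 / 4) ^ j) B +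
        2 * ⟪a, b⟫ / (1 + s * (1 / 4) ^ j * A) ^ 2 +
        B * (q (s * B * (1 / 4) ^ j) + 3 * q (s * A * (1 / 4) ^ j) +
          4 / 3 * q (s * Z * (1 / 4) ^ j))) = δ j * hk (s * (1 / 4) ^ j) A +
      δ j * hk (s * (1 / 4) ^ j) B + 2 * ⟪a, b⟫ * (δ j / (1 + s * (1 / 4) ^ j * A) ^ 2) +
      δ j * (B * (q (s * B * (1 / 4) ^ j) + 3 * q (s * A * (1 / 4) ^ j) +
        4 / 3 * q (s * Z * (1 / 4) ^ j))) := by ring
    rw [e5]
    linarith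
  have hsum := sum_le_sum hj
  rw [sum_add_distrib, sum_add_distrib, sum_add_distrib, ← mul_sum, ← mul_sum, ← mul_sum,
    sum_add_distrib, sum_add_distrib, ← mul_sum, ← mul_sum] at hsum
  have s1 := q_sum (t := s * B) (by positivity) n
  have s2 := q_sum (t := s * A) (by positivity) n
  have s3 := q_sum (t := s * Z) (by positivity) n
  have hbig : C₀ * (B * (∑ j ∈ range n, q (s * B * (1 / 4) ^ j) +
      3 * ∑ j ∈ range n, q (s * A * (1 / 4) ^ j) +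
      4 / 3 * ∑ j ∈ range n, q (s * Z * (1 / 4) ^ j))) ≤ 64 / 9 * C₀ * B := by
    have h4 : ∑ j ∈ range n, q (s * B * (1 / 4) ^ j) +
      3 * ∑ j ∈ range n, q (s * A * (1 / 4) ^ j) +
      4 / 3 * ∑ j ∈ range n, q (s * Z * (1 / 4) ^ j) ≤ 64 / 9 := by linarith
    have h5 := mul_le_mul_of_nonneg_left h4 (mul_nonneg hC0 hB)
    linarith
  unfold HH Lam
  rw [show top * Z = top * A + top * B + 2 * top * ⟪a, b⟫ by rw [e]; ring]
  linarith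

/-- the same against a probability row -/
theorem par_row {ι : Type*} [Fintype ι] {top s C₀ : ℝ} (hs : 0 ≤ s) {n : ℕ} {δ : ℕ → ℝ}
    (hδ : ∀ j < n, 0 ≤ δ j) (hC : ∀ j < n, δ j ≤ C₀) (hC0 : 0 ≤ C₀) (Φ : ι → V) (P : ι → ℝ)
    (hP : ∀ y, 0 ≤ P y) (hP1 : ∑ y, P y = 1) (x v : ι) :
    HH top s n δ (‖Φ v - Φ x‖ ^ 2) + ∑ y, P y * HH top s n δ (‖Φ y - Φ v‖ ^ 2) +
      2 * Lam top s n δ (‖Φ v - Φ x‖ ^ 2) * ⟪Φ v - Φ x, (∑ y, P y • Φ y) - Φ v⟫ -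
      64 / 9 * C₀ * ∑ y, P y * ‖Φ y - Φ v‖ ^ 2 ≤
      ∑ y, P y * HH top s n δ (‖Φ y - Φ x‖ ^ 2) := by
  have h : ∀ y ∈ (univ : Finset ι), P y * (HH top s n δ (‖Φ v - Φ x‖ ^ 2) +
      HH top s n δ (‖Φ y - Φ v‖ ^ 2) +
      2 * Lam top s n δ (‖Φ v - Φ x‖ ^ 2) * ⟪Φ v - Φ x, Φ y - Φ v⟫ -
      64 / 9 * C₀ * ‖Φ y - Φ v‖ ^ 2) ≤ P y * HH top s n δ (‖Φ y - Φ x‖ ^ 2) := by
    intro y _
    have h1 := par (top := top) hs hδ hC hC0 (Φ v - Φ x) (Φ y - Φ v)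
    have e : Φ v - Φ x + (Φ y - Φ v) = Φ y - Φ x := by abel
    rw [e] at h1
    exact mul_le_mul_of_nonneg_left h1 (hP y)
  have hs := sum_le_sum h
  have e1 : ⟪Φ v - Φ x, (∑ y, P y • Φ y) - Φ v⟫ = ∑ y, P y * ⟪Φ v - Φ x, Φ y - Φ v⟫ := by
    rw [inner_sub_right, inner_sum]
    have : ⟪Φ v - Φ x, Φ v⟫ = ∑ y, P y * ⟪Φ v - Φ x, Φ v⟫ := by
      rw [← sum_mul, hP1, one_mul]
    rw [this, ← sum_sub_distrib]
    refine sum_congr rfl fun y _ => ?_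
    rw [inner_smul_right, inner_sub_right]
    ring
  have e2 : HH top s n δ (‖Φ v - Φ x‖ ^ 2) = ∑ y, P y * HH top s n δ (‖Φ v - Φ x‖ ^ 2) := by
    rw [← sum_mul, hP1, one_mul]
  rw [e1, e2]
  refine le_trans (le_of_eq ?_) hs
  rw [mul_sum, mul_sum, ← sum_add_distrib, ← sum_add_distrib, ← sum_sub_distrib]
  refine sum_congr rfl fun y _ => ?_
  ring

end ips

end Vale.Agent.P365.T2.H573
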