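import Mathlib

set_option autoImplicit false
set_option linter.all false

/-!
# P365 T2, static half in 292's form (19925 (4)): outflux bounds and the sum over active rows

Abstract form.  `T` is a symmetric nonnegative matrix (`T x y = e_x e_y |G_xy|²`), `M x = Σ_y T x y`,
`kp x y = T x y / (M x M y + T x y)`, `E x = Σ_y T x y |u x - u y|²`, `MQ j x = Σ_y T x y h_j(x,y)`.
The key step (row inequality, helper486) is consumed as the hypothesis `key`.
-/

open Finset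
open scoped BigOperators

namespace P365L.T2.KeySum

/-- indicator of a proposition -/
noncomputable def I1 (p : Prop) : ℝ := by
  classical exact if p then 1 else 0

theorem I1_of {p : Prop} (h : p) : I1 p = 1 := by
  unfold I1
  rw [if_pos h]

theorem I1_not {p : Prop} (h : ¬p) : I1 p = 0 := by
  unfold I1
  rw [if_neg h]

theorem I1_nonneg (p : Prop) : 0 ≤ I1 p := by
  by_cases h : p
  · rw [I1_of h]; norm_num
  · rw [I1_not h]

theorem I1_le_one (p : Prop) : I1 p ≤ 1 := by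
  by_cases h : p
  · rw [I1_of h]
  · rw [I1_not h]; norm_num

theorem I1_mono {p q : Prop} (h : p → q) : I1 p ≤ I1 q := by
  by_cases hp : p
  · rw [I1_of hp, I1_of (h hp)]
  · rw [I1_not hp]
    exact I1_nonneg q

theorem I1_mul_le {p : Prop} {x y : ℝ} (hy : 0 ≤ y) (h : p → x ≤ y) : I1 p * x ≤ y := by
  by_cases hp : p
  · rw [I1_of hp, one_mul]; exact h hp
  · rw [I1_not hp, zero_mul]; exact hy

/-! ### dyadic sums -/

theorem geo_le (m : ℕ) : ∑ j ∈ Finset.range (m + 1), (4 : ℝ) ^ j ≤ 4 / 3 * 4 ^ m := by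
  induction m with
  | zero => norm_num
  | succ m ih =>
    rw [Finset.sum_range_succ]
    have : (0 : ℝ) < 4 ^ m := by positivity
    calc _ ≤ 4 / 3 * (4 : ℝ) ^ m + 4 ^ (m + 1) := by linarith
      _ = 4 / 3 * 4 ^ (m + 1) := by ring

/-- `Σ_{j : 4^j ≤ x} 4^j ≤ (4/3) x` -/
theorem dyad_le (Sc : Finset ℕ) {x : ℝ} (hx : 0 ≤ x) (P : ℕ → Prop)
    (hP : ∀ j ∈ Sc, P j → (4 : ℝ) ^ j ≤ x) :
    ∑ j ∈ Sc, I1 (P j) * (4 : ℝ) ^ j ≤ 4 / 3 * x := by
  classical
  have h1 : ∑ j ∈ Sc, I1 (P j) * (4 : ℝ) ^ j = ∑ j ∈ Sc with P j, (4 : ℝ) ^ j := by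
    rw [Finset.sum_filter]
    refine Finset.sum_congr rfl fun j _ => ?_
    by_cases h : P j
    · rw [I1_of h, if_pos h, one_mul]
    · rw [I1_not h, if_neg h, zero_mul]
  rw [h1]
  rcases (Sc.filter P).eq_empty_or_nonempty with h2 | h2
  · rw [h2]
    simp only [Finset.sum_empty]
    positivity
  · set m := (Sc.filter P).max' h2 with hm
    have h3 : m ∈ Sc.filter P := Finset.max'_mem _ _
    rw [Finset.mem_filter] at h3
    have h4 : (4 : ℝ) ^ m ≤ x := hP m h3.1 h3.2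
    have h5 : Sc.filter P ⊆ Finset.range (m + 1) := by
      intro j hj
      rw [Finset.mem_range]
      exact Nat.lt_succ_of_le (Finset.le_max' _ _ hj)
    calc ∑ j ∈ Sc with P j, (4 : ℝ) ^ j ≤ ∑ j ∈ Finset.range (m + 1), (4 : ℝ) ^ j :=
          Finset.sum_le_sum_of_subset_of_nonneg h5 fun _ _ _ => by positivity
      _ ≤ 4 / 3 * 4 ^ m := geo_le m
      _ ≤ 4 / 3 * x := by linarith

/-- the number of dyadic scales in a window -/
theorem card_win (S : Finset ℕ) {lo hi : ℝ} {n : ℕ} (hlo : 0 ≤ lo)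
    (h1 : ∀ j ∈ S, lo ≤ (4 : ℝ) ^ j) (h2 : ∀ j ∈ S, (4 : ℝ) ^ j ≤ hi) {r : ℝ} (hr : 0 ≤ r)
    (h3 : hi ≤ r * lo) (h4 : r < 4 ^ n) : S.card ≤ n := by
  rcases S.eq_empty_or_nonempty with h | h
  · rw [h]; simp
  · set j0 := S.min' h with hj0
    have h5 : j0 ∈ S := Finset.min'_mem _ _
    have h6 : S ⊆ Finset.Ico j0 (j0 + n) := by
      intro j hj
      rw [Finset.mem_Ico]
      refine ⟨Finset.min'_le _ _ hj, ?_⟩
      have h7 : (4 : ℝ) ^ j ≤ r * 4 ^ j0 :=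
        (h2 j hj).trans (h3.trans (mul_le_mul_of_nonneg_left (h1 j0 h5) hr))
      have h8 : (4 : ℝ) ^ j < 4 ^ (j0 + n) := by
        calc (4 : ℝ) ^ j ≤ r * 4 ^ j0 := h7
          _ < 4 ^ n * 4 ^ j0 := by
              exact mul_lt_mul_of_pos_right h4 (by positivity)
          _ = 4 ^ (j0 + n) := by rw [← pow_add, Nat.add_comm]
      exact (pow_lt_pow_iff_right₀ (by norm_num : (1 : ℝ) < 4)).1 h8
    calc S.card ≤ (Finset.Ico j0 (j0 + n)).card := Finset.card_le_card h6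
      _ = n := by simp

section

variable {ι V : Type*} [Fintype ι] [SeminormedAddCommGroup V]

/-- total flux -/
noncomputable def M (T : ι → ι → ℝ) (x : ι) : ℝ := ∑ y, T x y

/-- `κ` -/
noncomputable def kp (T : ι → ι → ℝ) (x y : ι) : ℝ := T x y / (M T x * M T y + T x y)

/-- energy of the row -/
noncomputable def E (T : ι → ι → ℝ) (u : ι → V) (x : ι) : ℝ := ∑ y, T x y * ‖u x - u y‖ ^ 2

/-- `M_x Q_x` -/
noncomputable def MQ (T : ι → ι → ℝ) (h : ℕ → ι → ι → ℝ) (j : ℕ) (x : ι) : ℝ :=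
  ∑ y, T x y * h j x y

/-- mobile flux of the ball of radius `C 2^j` -/
noncomputable def Fb (T : ι → ι → ℝ) (u : ι → V) (h : ℕ → ι → ι → ℝ) (C : ℝ) (j : ℕ) (z : ι) : ℝ :=
  ∑ w, I1 (‖u w - u z‖ ≤ C * 2 ^ j) * MQ T h j w

/-- mismatch energy: hot index off `Z`, cold index arbitrary -/
noncomputable def Mis (T : ι → ι → ℝ) (h : ℕ → ι → ι → ℝ) (Z : Set ι) (Sc : Finset ℕ)
    (s t : ℝ) : ℝ :=
  ∑ j ∈ Sc, (4 : ℝ) ^ j * ∑ z, I1 (z ∉ Z ∧ s * M T z ≤ MQ T h j z) *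
    ∑ w, I1 (MQ T h j w < t * M T w) * T z w

/-- energy of the excluded sites -/
noncomputable def BadE (T : ι → ι → ℝ) (u : ι → V) (Z : Set ι) : ℝ := ∑ w, I1 (w ∈ Z) * E T u w

/-- `λ_zy`: flux of the common strong partners -/
noncomputable def lam (T : ι → ι → ℝ) (Z : Set ι) (p0 p2 : ℝ) (z y : ι) : ℝ :=
  ∑ w, I1 (w ∉ Z ∧ p0 ≤ kp T z w ∧ p2 ≤ kp T w y) * (M T w * (kp T z w * kp T w y))

/-- strong `J` -/
noncomputable def Js (T R : ι → ι → ℝ) (Z : Set ι) (p0 : ℝ) : ℝ :=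
  ∑ z, ∑ y, I1 (z ∉ Z ∧ y ∉ Z ∧ p0 ≤ kp T z y) * (kp T z y * R z y)

/-- strong `Lam` -/
noncomputable def Ls (T R : ι → ι → ℝ) (Z : Set ι) (p0 p2 : ℝ) : ℝ :=
  ∑ z, ∑ y, I1 (z ∉ Z ∧ y ∉ Z) * (lam T Z p0 p2 z y * R z y)

/-- energy of the rows weighted with their share of closest partners -/
noncomputable def Clo (T : ι → ι → ℝ) (u : ι → V) (Z : Set ι) (τ : ℝ) : ℝ :=
  ∑ w, I1 (w ∉ Z) * (E T u w / M T w * ∑ y, I1 (1 - τ < kp T w y) * T w y)

variable {T : ι → ι → ℝ} {u : ι → V} {h : ℕ → ι → ι → ℝ}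

/-- base hypotheses -/
structure Base (T : ι → ι → ℝ) : Prop where
  symm : ∀ x y, T x y = T y x
  nonneg : ∀ x y, 0 ≤ T x y
  pos : ∀ x, 0 < M T x

theorem Base.sum_col (B : Base T) (w : ι) : ∑ z, T z w = M T w :=
  Finset.sum_congr rfl fun z _ => B.symm z w

theorem Base.kp_nonneg (B : Base T) (x y : ι) : 0 ≤ kp T x y :=
  div_nonneg (B.nonneg x y)
    (add_nonneg (mul_nonneg (B.pos x).le (B.pos y).le) (B.nonneg x y))

theorem Base.den_pos (B : Base T) (x y : ι) : 0 < M T x * M T y + T x y :=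
  add_pos_of_pos_of_nonneg (mul_pos (B.pos x) (B.pos y)) (B.nonneg x y)

theorem Base.kp_mul (B : Base T) (x y : ι) :
    kp T x y * (M T x * M T y + T x y) = T x y := by
  unfold kp
  rw [div_mul_cancel₀]
  exact (B.den_pos x y).ne'

theorem Base.kp_le_one (B : Base T) (x y : ι) : kp T x y ≤ 1 := by
  unfold kp
  rw [div_le_one (B.den_pos x y)]
  have := mul_pos (B.pos x) (B.pos y)
  linarith

theorem Base.kp_symm (B : Base T) (x y : ι) : kp T x y = kp T y x := by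
  unfold kp
  rw [B.symm x y, mul_comm (M T x)]

/-- strong pairs: `p0 M_z M_w ≤ T_zw` -/
theorem Base.strong (B : Base T) {p0 : ℝ} (hp0 : 0 ≤ p0) {z w : ι} (hk : p0 ≤ kp T z w) :
    p0 * (M T z * M T w) ≤ T z w := by
  have h1 := B.kp_mul z w
  have h2 := mul_pos (B.pos z) (B.pos w)
  have h3 := B.nonneg z w
  have h4 := B.kp_le_one z w
  nlinarith

/-- weak pairs: `T_zw ≤ 2 p M_z M_w` -/
theorem Base.weak (B : Base T) {p : ℝ} (hp2 : p ≤ 1 / 2) {z w : ι} (hk : kp T z w ≤ p) :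
    T z w ≤ 2 * p * (M T z * M T w) := by
  have h1 := B.kp_mul z w
  have h2 := mul_pos (B.pos z) (B.pos w)
  have h3 := B.nonneg z w
  have h4 := B.kp_nonneg z w
  nlinarith

/-- pairs which are not closest: `τ T ≤ κ M M` -/
theorem Base.mid (B : Base T) {τ : ℝ} {z w : ι} (hk : kp T z w ≤ 1 - τ) :
    τ * T z w ≤ kp T z w * (M T z * M T w) := by
  have h1 := B.kp_mul z w
  have h3 := B.nonneg z w
  nlinarith

/-- the mass of a family of strong partners -/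
theorem Base.mass (B : Base T) {p0 : ℝ} (hp0 : 0 < p0) (z : ι) (A : Finset ι)
    (hA : ∀ w ∈ A, p0 ≤ kp T z w) : ∑ w ∈ A, M T w ≤ 1 / p0 := by
  have hz := B.pos z
  have h1 : p0 * M T z * ∑ w ∈ A, M T w ≤ M T z := by
    rw [Finset.mul_sum]
    calc ∑ w ∈ A, p0 * M T z * M T w ≤ ∑ w ∈ A, T z w := by
          refine Finset.sum_le_sum fun w hw => ?_
          have := B.strong hp0.le (hA w hw)
          linarith
      _ ≤ ∑ w, T z w := Finset.sum_le_sum_of_subset_of_nonneg (Finset.subset_univ _)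
          fun w _ _ => B.nonneg z w
      _ = M T z := rfl
  rw [le_div_iff₀ hp0]
  nlinarith

theorem Base.E_nonneg (B : Base T) (u : ι → V) (x : ι) : 0 ≤ E T u x :=
  Finset.sum_nonneg fun y _ => mul_nonneg (B.nonneg x y) (by positivity)

/-- hypotheses on the kernels -/
structure Ker (u : ι → V) (h : ℕ → ι → ι → ℝ) (H c1 : ℝ) : Prop where
  nonneg : ∀ j x y, 0 ≤ h j x y
  le : ∀ j x y, h j x y ≤ H
  quad : ∀ j x y, h j x y ≤ c1 * ‖u x - u y‖ ^ 2 / 4 ^ j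

theorem MQ_nonneg (B : Base T) {H c1 : ℝ} (K : Ker u h H c1) (j : ℕ) (x : ι) : 0 ≤ MQ T h j x :=
  Finset.sum_nonneg fun y _ => mul_nonneg (B.nonneg x y) (K.nonneg j x y)

/-- `Q_x^l ≤ c1 V_x / l²` -/
theorem MQ_le (B : Base T) {H c1 : ℝ} (K : Ker u h H c1) (j : ℕ) (x : ι) :
    (4 : ℝ) ^ j * MQ T h j x ≤ c1 * E T u x := by
  unfold MQ E
  rw [Finset.mul_sum, Finset.mul_sum]
  refine Finset.sum_le_sum fun y _ => ?_
  have h1 := K.quad j x y
  rw [le_div_iff₀ (by positivity)] at h1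
  have h2 := mul_le_mul_of_nonneg_left h1 (B.nonneg x y)
  linarith

/-- scales at which a given site is hot -/
theorem hot_sum (B : Base T) {H c1 : ℝ} (hc1 : 0 ≤ c1) (K : Ker u h H c1) (Sc : Finset ℕ)
    {s : ℝ} (hs : 0 < s) (w : ι) :
    ∑ j ∈ Sc, I1 (s * M T w ≤ MQ T h j w) * (4 : ℝ) ^ j ≤ 4 / 3 * (c1 * E T u w / (s * M T w)) := by
  have hw := B.pos w
  have hE := B.E_nonneg u w
  refine dyad_le Sc (by positivity) _ ?_
  intro j _ hj
  rw [le_div_iff₀ (by positivity)]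
  calc (4 : ℝ) ^ j * (s * M T w) ≤ 4 ^ j * MQ T h j w :=
        mul_le_mul_of_nonneg_left hj (by positivity)
    _ ≤ c1 * E T u w := MQ_le B K j w

/-- mass of the hot sites of a ball -/
theorem hot_mass (B : Base T) {H c1 : ℝ} (K : Ker u h H c1) {C a : ℝ} (ha : 0 < a) (j : ℕ) (z : ι) :
    ∑ w, I1 (‖u w - u z‖ ≤ C * 2 ^ j ∧ a * M T w ≤ MQ T h j w) * M T w ≤ Fb T u h C j z / a := by
  rw [le_div_iff₀ ha, Finset.sum_mul]
  unfold Fb
  refine Finset.sum_le_sum fun w _ => ?_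
  by_cases h1 : ‖u w - u z‖ ≤ C * 2 ^ j
  · rw [I1_of h1, one_mul]
    by_cases h2 : a * M T w ≤ MQ T h j w
    · rw [I1_of ⟨h1, h2⟩, one_mul]
      linarith
    · rw [I1_not (fun h3 => h2 h3.2), zero_mul, zero_mul]
      exact MQ_nonneg B K j w
  · rw [I1_not (fun h3 => h1 h3.1), I1_not h1]
    simp

open Classical in
/-- the strong hot partners of `z` at scale `2^j` -/
noncomputable def A0 (T : ι → ι → ℝ) (u : ι → V) (h : ℕ → ι → ι → ℝ) (Z : Set ι) (c' C a p0 : ℝ)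
    (j : ℕ) (z : ι) : Finset ι :=
  Finset.univ.filter fun w => w ∉ Z ∧ c' * 2 ^ j ≤ ‖u w - u z‖ ∧ ‖u w - u z‖ ≤ C * 2 ^ j ∧
    a * M T w ≤ MQ T h j w ∧ p0 ≤ kp T z w

theorem mem_A0 {Z : Set ι} {c' C a p0 : ℝ} {j : ℕ} {z w : ι} :
    w ∈ A0 T u h Z c' C a p0 j z ↔ w ∉ Z ∧ c' * 2 ^ j ≤ ‖u w - u z‖ ∧ ‖u w - u z‖ ≤ C * 2 ^ j ∧
      a * M T w ≤ MQ T h j w ∧ p0 ≤ kp T z w := by
  classical
  unfold A0
  rw [Finset.mem_filter]
  simp

/-- **row, lower bound** -/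
theorem row_lower (B : Base T) {H c1 : ℝ} (hH : 0 ≤ H) (hc1 : 0 ≤ c1) (K : Ker u h H c1)
    {Z : Set ι} {c' C a p0 θ Λ g1 : ℝ} (hc' : 0 ≤ c') (hC : 0 < C) (ha : 0 < a) (hp0 : 0 ≤ p0)
    (hp0' : p0 ≤ 1 / 2) (k1 : c1 * c' ^ 2 ≤ θ / 8) (k2 : H * Λ ≤ θ / 8 * C ^ 2)
    (k3 : 2 * H * p0 * g1 ≤ θ / 4 * a) {j : ℕ} {z : ι} (hθ : θ * M T z ≤ MQ T h j z)
    (hV : E T u z ≤ Λ * 4 ^ j * M T z) (hF : Fb T u h C j z ≤ g1) :
    θ / 2 * M T z ≤ H * (∑ w, I1 (MQ T h j w < a * M T w) * T z w +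
      ∑ w, I1 (w ∈ Z ∧ a * M T w ≤ MQ T h j w) * T z w +
      ∑ w ∈ A0 T u h Z c' C a p0 j z, T z w) := by
  classical
  have hz := B.pos z
  have e0 : ∑ w ∈ A0 T u h Z c' C a p0 j z, T z w =
      ∑ w, if w ∈ A0 T u h Z c' C a p0 j z then T z w else 0 := by
    rw [Finset.sum_ite_mem, Finset.univ_inter]
  have h2j : (0 : ℝ) < 2 ^ j := by positivity
  have h4j : (2 : ℝ) ^ j * 2 ^ j = 4 ^ j := by
    rw [← mul_pow]; norm_num
  have pt : ∀ w, T z w * h j z w ≤ c1 * c' ^ 2 * T z w +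
      H / (C ^ 2 * 4 ^ j) * (T z w * ‖u z - u w‖ ^ 2) +
      H * (I1 (MQ T h j w < a * M T w) * T z w) +
      H * (I1 (w ∈ Z ∧ a * M T w ≤ MQ T h j w) * T z w) +
      2 * H * p0 * M T z * (I1 (‖u w - u z‖ ≤ C * 2 ^ j ∧ a * M T w ≤ MQ T h j w) * M T w) +
      H * (if w ∈ A0 T u h Z c' C a p0 j z then T z w else 0) := by
    intro w
    have hT := B.nonneg z w
    have hw := B.pos w
    have t1 : 0 ≤ c1 * c' ^ 2 * T z w := by positivity
    have t2 : 0 ≤ H / (C ^ 2 * 4 ^ j) * (T z w * ‖u z - u w‖ ^ 2) := by positivity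
    have t3 : 0 ≤ H * (I1 (MQ T h j w < a * M T w) * T z w) :=
      mul_nonneg hH (mul_nonneg (I1_nonneg _) hT)
    have t4 : 0 ≤ H * (I1 (w ∈ Z ∧ a * M T w ≤ MQ T h j w) * T z w) :=
      mul_nonneg hH (mul_nonneg (I1_nonneg _) hT)
    have t5 : 0 ≤ 2 * H * p0 * M T z *
        (I1 (‖u w - u z‖ ≤ C * 2 ^ j ∧ a * M T w ≤ MQ T h j w) * M T w) :=
      mul_nonneg (by positivity) (mul_nonneg (I1_nonneg _) hw.le)
    have t6 : 0 ≤ H * (if w ∈ A0 T u h Z c' C a p0 j z then T z w else 0) := by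
      split_ifs
      · positivity
      · simp
    have hle : T z w * h j z w ≤ H * T z w := by
      have := mul_le_mul_of_nonneg_left (K.le j z w) hT
      linarith
    by_cases q1 : ‖u w - u z‖ < c' * 2 ^ j
    · have h1 : T z w * h j z w ≤ c1 * c' ^ 2 * T z w := by
        have h2 := K.quad j z w
        have h3 : c1 * ‖u z - u w‖ ^ 2 / 4 ^ j ≤ c1 * c' ^ 2 := by
          rw [div_le_iff₀ (by positivity), norm_sub_rev]
          have h5 : ‖u w - u z‖ ^ 2 ≤ (c' * 2 ^ j) ^ 2 := by gcongr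
          have h6 : (c' * (2 : ℝ) ^ j) ^ 2 = c' ^ 2 * 4 ^ j := by
            rw [mul_pow, ← h4j]; ring
          rw [h6] at h5
          calc c1 * ‖u w - u z‖ ^ 2 ≤ c1 * (c' ^ 2 * 4 ^ j) := mul_le_mul_of_nonneg_left h5 hc1
            _ = c1 * c' ^ 2 * 4 ^ j := by ring
        have h4 := mul_le_mul_of_nonneg_left (h2.trans h3) hT
        linarith
      linarith
    push Not at q1
    by_cases q2 : C * 2 ^ j < ‖u w - u z‖
    · have h1 : T z w * h j z w ≤ H / (C ^ 2 * 4 ^ j) * (T z w * ‖u z - u w‖ ^ 2) := by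
        refine hle.trans ?_
        have h5 : (C * 2 ^ j) ^ 2 ≤ ‖u w - u z‖ ^ 2 := by gcongr
        have h6 : (C * (2 : ℝ) ^ j) ^ 2 = C ^ 2 * 4 ^ j := by
          rw [mul_pow, ← h4j]; ring
        rw [h6] at h5
        rw [div_mul_eq_mul_div, le_div_iff₀ (by positivity), norm_sub_rev (u z)]
        calc H * T z w * (C ^ 2 * 4 ^ j) ≤ H * T z w * ‖u w - u z‖ ^ 2 :=
              mul_le_mul_of_nonneg_left h5 (by positivity)
          _ = H * (T z w * ‖u w - u z‖ ^ 2) := by ring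
      linarith
    push Not at q2
    by_cases q3 : MQ T h j w < a * M T w
    · rw [I1_of q3] at t3 ⊢
      linarith
    push Not at q3
    by_cases q4 : w ∈ Z
    · rw [I1_of (⟨q4, q3⟩ : w ∈ Z ∧ a * M T w ≤ MQ T h j w)] at t4 ⊢
      linarith
    by_cases q5 : kp T z w < p0
    · rw [I1_of (⟨q2, q3⟩ : ‖u w - u z‖ ≤ C * 2 ^ j ∧ a * M T w ≤ MQ T h j w)] at t5 ⊢
      have h1 := B.weak hp0' q5.le
      have h2 := mul_le_mul_of_nonneg_left h1 hH
      linarith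
    push Not at q5
    have q6 : w ∈ A0 T u h Z c' C a p0 j z := mem_A0.2 ⟨q4, q1, q2, q3, q5⟩
    rw [if_pos q6] at t6 ⊢
    linarith
  have hsum := Finset.sum_le_sum fun w (_ : w ∈ Finset.univ) => pt w
  have hsum' : MQ T h j z ≤ c1 * c' ^ 2 * M T z + H / (C ^ 2 * 4 ^ j) * E T u z +
      H * (∑ w, I1 (MQ T h j w < a * M T w) * T z w) +
      H * (∑ w, I1 (w ∈ Z ∧ a * M T w ≤ MQ T h j w) * T z w) +
      2 * H * p0 * M T z *
        (∑ w, I1 (‖u w - u z‖ ≤ C * 2 ^ j ∧ a * M T w ≤ MQ T h j w) * M T w) +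
      H * ∑ w ∈ A0 T u h Z c' C a p0 j z, T z w := by
    rw [e0]
    simp only [Finset.sum_add_distrib, ← Finset.mul_sum] at hsum
    exact hsum
  have r1 : c1 * c' ^ 2 * M T z ≤ θ / 8 * M T z := mul_le_mul_of_nonneg_right k1 hz.le
  have r2 : H / (C ^ 2 * 4 ^ j) * E T u z ≤ θ / 8 * M T z := by
    rw [div_mul_eq_mul_div, div_le_iff₀ (by positivity)]
    calc H * E T u z ≤ H * (Λ * 4 ^ j * M T z) := mul_le_mul_of_nonneg_left hV hH
      _ = (H * Λ) * (4 ^ j * M T z) := by ring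
      _ ≤ (θ / 8 * C ^ 2) * (4 ^ j * M T z) := mul_le_mul_of_nonneg_right k2 (by positivity)
      _ = θ / 8 * M T z * (C ^ 2 * 4 ^ j) := by ring
  have r3 : 2 * H * p0 * M T z *
      (∑ w, I1 (‖u w - u z‖ ≤ C * 2 ^ j ∧ a * M T w ≤ MQ T h j w) * M T w) ≤ θ / 4 * M T z := by
    have h1 := hot_mass B K (C := C) ha j z
    have h2 : Fb T u h C j z / a ≤ g1 / a := by gcongr
    calc 2 * H * p0 * M T z *
          (∑ w, I1 (‖u w - u z‖ ≤ C * 2 ^ j ∧ a * M T w ≤ MQ T h j w) * M T w)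
        ≤ 2 * H * p0 * M T z * (g1 / a) :=
          mul_le_mul_of_nonneg_left (h1.trans h2) (by positivity)
      _ = (2 * H * p0 * g1) * M T z / a := by ring
      _ ≤ (θ / 4 * a) * M T z / a := by gcongr
      _ = θ / 4 * M T z := by field_simp
  linarith

theorem lam_nonneg (B : Base T) (Z : Set ι) (p0 p2 : ℝ) (z y : ι) : 0 ≤ lam T Z p0 p2 z y :=
  Finset.sum_nonneg fun w _ => mul_nonneg (I1_nonneg _)
    (mul_nonneg (B.pos w).le (mul_nonneg (B.kp_nonneg z w) (B.kp_nonneg w y)))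

open Classical in
/-- the receiving set -/
noncomputable def A1 (T : ι → ι → ℝ) (u : ι → V) (h : ℕ → ι → ι → ℝ) (Z : Set ι)
    (c' C a p0 p2 φ : ℝ) (j : ℕ) (z : ι) : Finset ι :=
  A0 T u h Z c' C a p0 j z ∪ Finset.univ.filter fun y => y ∉ Z ∧ φ ≤ lam T Z p0 p2 z y

theorem A0_sub_A1 {Z : Set ι} {c' C a p0 p2 φ : ℝ} {j : ℕ} {z : ι} :
    A0 T u h Z c' C a p0 j z ⊆ A1 T u h Z c' C a p0 p2 φ j z := by
  classical
  unfold A1
  exact Finset.subset_union_left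

theorem not_mem_A1 {Z : Set ι} {c' C a p0 p2 φ : ℝ} {j : ℕ} {z y : ι}
    (hy : y ∉ A1 T u h Z c' C a p0 p2 φ j z) (hZ : y ∉ Z) : lam T Z p0 p2 z y < φ := by
  classical
  by_contra hc
  push Not at hc
  apply hy
  unfold A1
  rw [Finset.mem_union, Finset.mem_filter]
  exact Or.inr ⟨Finset.mem_univ _, hZ, hc⟩

/-- the four exits of the outflux -/
noncomputable def XX (T : ι → ι → ℝ) (u : ι → V) (h : ℕ → ι → ι → ℝ) (Z : Set ι) (C2 b τ : ℝ)
    (j : ℕ) (z w y : ι) : ℝ :=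
  I1 (MQ T h j y < b * M T y) + I1 (C2 * 2 ^ j < ‖u y - u z‖) +
    I1 (y ∈ Z ∧ b * M T y ≤ MQ T h j y) + I1 (1 - τ < kp T w y)

/-- **outflux of one row** -/
theorem outflux [DecidableEq ι] (B : Base T) {H c1 : ℝ} (K : Ker u h H c1) {Z : Set ι}
    {c' C C2 a b p0 p2 φ τ g2 : ℝ} (hb : 0 < b) (hp0 : 0 < p0) (hp2 : 0 ≤ p2) (hp2' : p2 ≤ 1 / 2)
    (hφ : 0 ≤ φ) (hτ : 0 < τ) {j : ℕ} {z : ι} (hF : Fb T u h C2 j z ≤ g2) :
    M T z * (∑ w ∈ A0 T u h Z c' C a p0 j z, ∑ y ∈ (A1 T u h Z c' C a p0 p2 φ j z)ᶜ, T w y) ≤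
      (2 * p2 + φ / τ) * g2 / (p0 * b) * M T z +
      1 / p0 * ∑ w ∈ A0 T u h Z c' C a p0 j z, T z w / M T w *
        ∑ y, T w y * XX T u h Z C2 b τ j z w y := by
  have hz := B.pos z
  set S0 := A0 T u h Z c' C a p0 j z with hS0
  have pt : ∀ w ∈ S0, ∀ y ∈ (A1 T u h Z c' C a p0 p2 φ j z)ᶜ,
      T w y ≤ T w y * XX T u h Z C2 b τ j z w y +
        I1 (‖u y - u z‖ ≤ C2 * 2 ^ j ∧ b * M T y ≤ MQ T h j y) * (I1 (lam T Z p0 p2 z y < φ) *
          (2 * p2 * (M T w * M T y) + 1 / (τ * p0) * (M T y *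
            (I1 (w ∉ Z ∧ p0 ≤ kp T z w ∧ p2 ≤ kp T w y) *
              (M T w * (kp T z w * kp T w y)))))) := by
    intro w hw y hy
    rw [Finset.mem_compl] at hy
    have hT := B.nonneg w y
    have hMw := B.pos w
    have hMy := B.pos y
    have hk1 := B.kp_nonneg z w
    have hk2 := B.kp_nonneg w y
    have x1 := I1_nonneg (MQ T h j y < b * M T y)
    have x2 := I1_nonneg (C2 * 2 ^ j < ‖u y - u z‖)
    have x3 := I1_nonneg (y ∈ Z ∧ b * M T y ≤ MQ T h j y)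
    have x4 := I1_nonneg (1 - τ < kp T w y)
    have t1 : 0 ≤ T w y * XX T u h Z C2 b τ j z w y := by
      unfold XX
      positivity
    have i1 := I1_nonneg (w ∉ Z ∧ p0 ≤ kp T z w ∧ p2 ≤ kp T w y)
    have i2 := I1_nonneg (lam T Z p0 p2 z y < φ)
    have i3 := I1_nonneg (‖u y - u z‖ ≤ C2 * 2 ^ j ∧ b * M T y ≤ MQ T h j y)
    have t2 : 0 ≤ I1 (‖u y - u z‖ ≤ C2 * 2 ^ j ∧ b * M T y ≤ MQ T h j y) *
        (I1 (lam T Z p0 p2 z y < φ) * (2 * p2 * (M T w * M T y) + 1 / (τ * p0) * (M T y *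
            (I1 (w ∉ Z ∧ p0 ≤ kp T z w ∧ p2 ≤ kp T w y) *
              (M T w * (kp T z w * kp T w y)))))) := by
      positivity
    -- the four exits
    have ex : 1 ≤ XX T u h Z C2 b τ j z w y → T w y ≤ T w y * XX T u h Z C2 b τ j z w y := by
      intro h1
      nlinarith
    by_cases q1 : MQ T h j y < b * M T y
    · have : 1 ≤ XX T u h Z C2 b τ j z w y := by
        unfold XX
        rw [I1_of q1]
        linarith
      linarith [ex this]
    push Not at q1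
    by_cases q2 : C2 * 2 ^ j < ‖u y - u z‖
    · have : 1 ≤ XX T u h Z C2 b τ j z w y := by
        unfold XX
        rw [I1_of q2]
        linarith
      linarith [ex this]
    push Not at q2
    by_cases q3 : y ∈ Z
    · have : 1 ≤ XX T u h Z C2 b τ j z w y := by
        unfold XX
        rw [I1_of (⟨q3, q1⟩ : y ∈ Z ∧ b * M T y ≤ MQ T h j y)]
        linarith
      linarith [ex this]
    by_cases q4 : 1 - τ < kp T w y
    · have : 1 ≤ XX T u h Z C2 b τ j z w y := by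
        unfold XX
        rw [I1_of q4]
        linarith
      linarith [ex this]
    push Not at q4
    have q5 := not_mem_A1 hy q3
    rw [I1_of (⟨q2, q1⟩ : ‖u y - u z‖ ≤ C2 * 2 ^ j ∧ b * M T y ≤ MQ T h j y), I1_of q5, one_mul,
      one_mul]
    rw [hS0, mem_A0] at hw
    by_cases q6 : kp T w y ≤ p2
    · have h1 := B.weak hp2' q6
      have h2 : 0 ≤ 1 / (τ * p0) * (M T y * (I1 (w ∉ Z ∧ p0 ≤ kp T z w ∧ p2 ≤ kp T w y) *
              (M T w * (kp T z w * kp T w y)))) := by positivity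
      linarith
    · push Not at q6
      rw [I1_of (⟨hw.1, hw.2.2.2.2, q6.le⟩ : w ∉ Z ∧ p0 ≤ kp T z w ∧ p2 ≤ kp T w y), one_mul]
      have h1 := B.mid q4
      have h2 : T w y ≤ 1 / (τ * p0) * (M T y * (M T w * (kp T z w * kp T w y))) := by
        rw [one_div, inv_mul_eq_div, le_div_iff₀ (by positivity)]
        have h3 : p0 * (kp T w y * (M T w * M T y)) ≤ kp T z w * (kp T w y * (M T w * M T y)) :=
          mul_le_mul_of_nonneg_right hw.2.2.2.2 (by positivity)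
        have h4 := mul_le_mul_of_nonneg_left h1 hp0.le
        calc T w y * (τ * p0) = p0 * (τ * T w y) := by ring
          _ ≤ p0 * (kp T w y * (M T w * M T y)) := h4
          _ ≤ kp T z w * (kp T w y * (M T w * M T y)) := h3
          _ = M T y * (M T w * (kp T z w * kp T w y)) := by ring
      have h5 : 0 ≤ 2 * p2 * (M T w * M T y) := by positivity
      linarith
  -- sum over `y ∉ A1` and `w ∈ A0`
  have s1 : ∑ w ∈ S0, ∑ y ∈ (A1 T u h Z c' C a p0 p2 φ j z)ᶜ,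
      T w y ≤ ∑ w ∈ S0, ∑ y, (T w y * XX T u h Z C2 b τ j z w y +
        I1 (‖u y - u z‖ ≤ C2 * 2 ^ j ∧ b * M T y ≤ MQ T h j y) * (I1 (lam T Z p0 p2 z y < φ) *
          (2 * p2 * (M T w * M T y) + 1 / (τ * p0) * (M T y *
            (I1 (w ∉ Z ∧ p0 ≤ kp T z w ∧ p2 ≤ kp T w y) *
              (M T w * (kp T z w * kp T w y))))))) := by
    refine Finset.sum_le_sum fun w hw => ?_
    refine (Finset.sum_le_sum fun y hy => pt w hw y hy).trans ?_
    refine Finset.sum_le_sum_of_subset_of_nonneg (Finset.subset_univ _) fun y _ _ => ?_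
    have hT := B.nonneg w y
    have hMw := B.pos w
    have hMy := B.pos y
    have hk1 := B.kp_nonneg z w
    have hk2 := B.kp_nonneg w y
    have x1 := I1_nonneg (MQ T h j y < b * M T y)
    have x2 := I1_nonneg (C2 * 2 ^ j < ‖u y - u z‖)
    have x3 := I1_nonneg (y ∈ Z ∧ b * M T y ≤ MQ T h j y)
    have x4 := I1_nonneg (1 - τ < kp T w y)
    have i1 := I1_nonneg (w ∉ Z ∧ p0 ≤ kp T z w ∧ p2 ≤ kp T w y)
    have i2 := I1_nonneg (lam T Z p0 p2 z y < φ)
    have i3 := I1_nonneg (‖u y - u z‖ ≤ C2 * 2 ^ j ∧ b * M T y ≤ MQ T h j y)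
    unfold XX
    positivity
  have s2 : ∑ w ∈ S0, ∑ y, I1 (‖u y - u z‖ ≤ C2 * 2 ^ j ∧ b * M T y ≤ MQ T h j y) *
      (I1 (lam T Z p0 p2 z y < φ) * (2 * p2 * (M T w * M T y) + 1 / (τ * p0) * (M T y *
            (I1 (w ∉ Z ∧ p0 ≤ kp T z w ∧ p2 ≤ kp T w y) *
              (M T w * (kp T z w * kp T w y)))))) ≤ (2 * p2 + φ / τ) * g2 / (p0 * b) := by
    rw [Finset.sum_comm]
    have r1 : ∀ y, ∑ w ∈ S0, I1 (‖u y - u z‖ ≤ C2 * 2 ^ j ∧ b * M T y ≤ MQ T h j y) *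
        (I1 (lam T Z p0 p2 z y < φ) * (2 * p2 * (M T w * M T y) + 1 / (τ * p0) * (M T y *
            (I1 (w ∉ Z ∧ p0 ≤ kp T z w ∧ p2 ≤ kp T w y) *
              (M T w * (kp T z w * kp T w y)))))) ≤
        (2 * p2 + φ / τ) / p0 *
          (I1 (‖u y - u z‖ ≤ C2 * 2 ^ j ∧ b * M T y ≤ MQ T h j y) * M T y) := by
      intro y
      have hMy := B.pos y
      rw [← Finset.mul_sum, ← Finset.mul_sum, Finset.sum_add_distrib]
      have i3 := I1_nonneg (‖u y - u z‖ ≤ C2 * 2 ^ j ∧ b * M T y ≤ MQ T h j y)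
      have m1 : ∑ w ∈ S0, M T w ≤ 1 / p0 := B.mass hp0 z S0 fun w hw => (mem_A0.1 hw).2.2.2.2
      have m2 : ∑ w ∈ S0, 2 * p2 * (M T w * M T y) ≤ 2 * p2 * M T y / p0 := by
        calc ∑ w ∈ S0, 2 * p2 * (M T w * M T y) = 2 * p2 * M T y * ∑ w ∈ S0, M T w := by
              rw [Finset.mul_sum]
              exact Finset.sum_congr rfl fun w _ => by ring
          _ ≤ 2 * p2 * M T y * (1 / p0) := mul_le_mul_of_nonneg_left m1 (by positivity)
          _ = 2 * p2 * M T y / p0 := by ring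
      have m3 : ∑ w ∈ S0, 1 / (τ * p0) * (M T y *
            (I1 (w ∉ Z ∧ p0 ≤ kp T z w ∧ p2 ≤ kp T w y) *
              (M T w * (kp T z w * kp T w y)))) ≤ 1 / (τ * p0) * (M T y * lam T Z p0 p2 z y) := by
        rw [← Finset.mul_sum, ← Finset.mul_sum]
        refine mul_le_mul_of_nonneg_left (mul_le_mul_of_nonneg_left ?_ hMy.le) (by positivity)
        exact Finset.sum_le_sum_of_subset_of_nonneg (Finset.subset_univ _) fun w _ _ =>
          mul_nonneg (I1_nonneg _)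
            (mul_nonneg (B.pos w).le (mul_nonneg (B.kp_nonneg z w) (B.kp_nonneg w y)))
      have m4 : I1 (lam T Z p0 p2 z y < φ) * (∑ w ∈ S0, 2 * p2 * (M T w * M T y) +
          ∑ w ∈ S0, 1 / (τ * p0) * (M T y * (I1 (w ∉ Z ∧ p0 ≤ kp T z w ∧ p2 ≤ kp T w y) *
              (M T w * (kp T z w * kp T w y))))) ≤ (2 * p2 + φ / τ) / p0 * M T y := by
        refine I1_mul_le (by positivity) fun hl => ?_
        have h1 : M T y * lam T Z p0 p2 z y ≤ M T y * φ := mul_le_mul_of_nonneg_left hl.le hMy.le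
        calc _ ≤ 2 * p2 * M T y / p0 + 1 / (τ * p0) * (M T y * lam T Z p0 p2 z y) :=
              add_le_add m2 m3
          _ ≤ 2 * p2 * M T y / p0 + 1 / (τ * p0) * (M T y * φ) :=
              add_le_add le_rfl (mul_le_mul_of_nonneg_left h1 (by positivity))
          _ = (2 * p2 + φ / τ) / p0 * M T y := by field_simp
      calc _ ≤ I1 (‖u y - u z‖ ≤ C2 * 2 ^ j ∧ b * M T y ≤ MQ T h j y) *
            ((2 * p2 + φ / τ) / p0 * M T y) := mul_le_mul_of_nonneg_left m4 i3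
        _ = _ := by ring
    calc _ ≤ ∑ y, (2 * p2 + φ / τ) / p0 *
          (I1 (‖u y - u z‖ ≤ C2 * 2 ^ j ∧ b * M T y ≤ MQ T h j y) * M T y) :=
          Finset.sum_le_sum fun y _ => r1 y
      _ = (2 * p2 + φ / τ) / p0 *
          ∑ y, I1 (‖u y - u z‖ ≤ C2 * 2 ^ j ∧ b * M T y ≤ MQ T h j y) * M T y := by
          rw [← Finset.mul_sum]
      _ ≤ (2 * p2 + φ / τ) / p0 * (g2 / b) := by
          refine mul_le_mul_of_nonneg_left ?_ (by positivity)
          refine (hot_mass B K hb j z).trans ?_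
          gcongr
      _ = (2 * p2 + φ / τ) * g2 / (p0 * b) := by
          rw [div_mul_div_comm]
  have s3 : M T z * ∑ w ∈ S0, ∑ y, T w y * XX T u h Z C2 b τ j z w y ≤
      1 / p0 * ∑ w ∈ S0, T z w / M T w * ∑ y, T w y * XX T u h Z C2 b τ j z w y := by
    rw [Finset.mul_sum, Finset.mul_sum]
    refine Finset.sum_le_sum fun w hw => ?_
    have hw' := (mem_A0.1 hw).2.2.2.2
    have hMw := B.pos w
    have h1 := B.strong hp0.le hw'
    have h2 : M T z ≤ 1 / p0 * (T z w / M T w) := by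
      rw [one_div, inv_mul_eq_div, le_div_iff₀ hp0, le_div_iff₀ hMw]
      linarith
    have h3 : 0 ≤ ∑ y, T w y * XX T u h Z C2 b τ j z w y := by
      refine Finset.sum_nonneg fun y _ => mul_nonneg (B.nonneg w y) ?_
      unfold XX
      have x1 := I1_nonneg (MQ T h j y < b * M T y)
      have x2 := I1_nonneg (C2 * 2 ^ j < ‖u y - u z‖)
      have x3 := I1_nonneg (y ∈ Z ∧ b * M T y ≤ MQ T h j y)
      have x4 := I1_nonneg (1 - τ < kp T w y)
      positivity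
    calc _ ≤ 1 / p0 * (T z w / M T w) * ∑ y, T w y * XX T u h Z C2 b τ j z w y :=
          mul_le_mul_of_nonneg_right h2 h3
      _ = _ := by ring
  have s4 := mul_le_mul_of_nonneg_left s1 hz.le
  simp only [Finset.sum_add_distrib] at s4
  rw [mul_add] at s4
  have s5 := mul_le_mul_of_nonneg_left s2 hz.le
  linarith

/-- summation over the active rows -/
theorem sum_sub (B : Base T) (S : Finset ι) (A : ι → Finset ι) (P : ι → Prop)
    (hA : ∀ z ∈ S, ∀ w ∈ A z, P w) (g : ι → ℝ) (hg : ∀ w, 0 ≤ g w) :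
    ∑ z ∈ S, ∑ w ∈ A z, T z w / M T w * g w ≤ ∑ w, I1 (P w) * g w := by
  have h0 : ∀ z w, 0 ≤ I1 (P w) * (T z w / M T w * g w) := fun z w =>
    mul_nonneg (I1_nonneg _) (mul_nonneg (div_nonneg (B.nonneg z w) (B.pos w).le) (hg w))
  calc ∑ z ∈ S, ∑ w ∈ A z, T z w / M T w * g w
      ≤ ∑ z ∈ S, ∑ w, I1 (P w) * (T z w / M T w * g w) := by
        refine Finset.sum_le_sum fun z hz => ?_
        calc ∑ w ∈ A z, T z w / M T w * g w
            = ∑ w ∈ A z, I1 (P w) * (T z w / M T w * g w) := by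
              refine Finset.sum_congr rfl fun w hw => ?_
              rw [I1_of (hA z hz w hw), one_mul]
          _ ≤ _ := Finset.sum_le_sum_of_subset_of_nonneg (Finset.subset_univ _)
              fun w _ _ => h0 z w
    _ ≤ ∑ z, ∑ w, I1 (P w) * (T z w / M T w * g w) :=
        Finset.sum_le_sum_of_subset_of_nonneg (Finset.subset_univ _) fun z _ _ =>
          Finset.sum_nonneg fun w _ => h0 z w
    _ = ∑ w, I1 (P w) * g w := by
        rw [Finset.sum_comm]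
        refine Finset.sum_congr rfl fun w _ => ?_
        have hw := B.pos w
        calc ∑ z, I1 (P w) * (T z w / M T w * g w)
            = I1 (P w) * g w / M T w * ∑ z, T z w := by
              rw [Finset.mul_sum]
              exact Finset.sum_congr rfl fun z _ => by ring
          _ = I1 (P w) * g w := by
              rw [B.sum_col]
              field_simp

/-- **the exits, summed** -/
theorem exits (B : Base T) {H c1 : ℝ} (hc1 : 0 ≤ c1) (K : Ker u h H c1) {Z : Set ι}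
    {c' C C2 a b p0 τ : ℝ} (hc' : 0 < c') (hC : 0 ≤ C) (hC2 : 0 < C2) (hCC : 2 * C ≤ C2)
    (hb : 0 < b) (Sc : Finset ℕ) (Ac : ℕ → Finset ι) :
    ∑ j ∈ Sc, (4 : ℝ) ^ j * ∑ z ∈ Ac j, ∑ w ∈ A0 T u h Z c' C a p0 j z,
      T z w / M T w * ∑ y, T w y * XX T u h Z C2 b τ j z w y ≤
    Mis T h Z Sc a b + 16 / (3 * C2 ^ 2) * ∑ w, E T u w + 4 * c1 / (3 * b) * BadE T u Z +
      4 / (3 * c' ^ 2) * Clo T u Z τ := by
  have hT := B.nonneg
  -- one scale
  have one : ∀ j, ∑ z ∈ Ac j, ∑ w ∈ A0 T u h Z c' C a p0 j z,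
      T z w / M T w * ∑ y, T w y * XX T u h Z C2 b τ j z w y ≤
      (∑ w, I1 (w ∉ Z ∧ a * M T w ≤ MQ T h j w) * ∑ y, I1 (MQ T h j y < b * M T y) * T w y) +
      (∑ w, ∑ y, T w y * I1 (C2 / 2 * 2 ^ j < ‖u w - u y‖)) +
      (∑ w, ∑ y, T w y * I1 (y ∈ Z ∧ b * M T y ≤ MQ T h j y)) +
      ∑ z, ∑ w, I1 (w ∉ Z) * (T z w / M T w * ∑ y, I1 (1 - τ < kp T w y) * T w y) *
        I1 (c' * 2 ^ j ≤ ‖u w - u z‖) := by
    intro j
    have h2j : (0 : ℝ) < 2 ^ j := by positivity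
    have pt : ∀ z ∈ Ac j, ∀ w ∈ A0 T u h Z c' C a p0 j z,
        T z w / M T w * ∑ y, T w y * XX T u h Z C2 b τ j z w y ≤
        T z w / M T w * (∑ y, I1 (MQ T h j y < b * M T y) * T w y) +
        T z w / M T w * (∑ y, T w y * I1 (C2 / 2 * 2 ^ j < ‖u w - u y‖)) +
        T z w / M T w * (∑ y, T w y * I1 (y ∈ Z ∧ b * M T y ≤ MQ T h j y)) +
        T z w / M T w * (∑ y, I1 (1 - τ < kp T w y) * T w y) := by
      intro z hz w hw
      rw [mem_A0] at hw
      have hMw := B.pos w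
      rw [← mul_add, ← mul_add, ← mul_add]
      refine mul_le_mul_of_nonneg_left ?_ (div_nonneg (hT z w) hMw.le)
      rw [← Finset.sum_add_distrib, ← Finset.sum_add_distrib, ← Finset.sum_add_distrib]
      refine Finset.sum_le_sum fun y _ => ?_
      have h1 : I1 (C2 * 2 ^ j < ‖u y - u z‖) ≤ I1 (C2 / 2 * 2 ^ j < ‖u w - u y‖) := by
        refine I1_mono fun h2 => ?_
        have h3 : ‖u y - u z‖ ≤ ‖u w - u y‖ + ‖u w - u z‖ := by
          have : u y - u z = -(u w - u y) + (u w - u z) := by abel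
          rw [this]
          refine (norm_add_le _ _).trans ?_
          rw [norm_neg]
        have h4 := hw.2.2.1
        nlinarith
      have h2 := mul_le_mul_of_nonneg_left h1 (hT w y)
      unfold XX
      linarith
    calc _ ≤ ∑ z ∈ Ac j, ∑ w ∈ A0 T u h Z c' C a p0 j z,
        (T z w / M T w * (∑ y, I1 (MQ T h j y < b * M T y) * T w y) +
        T z w / M T w * (∑ y, T w y * I1 (C2 / 2 * 2 ^ j < ‖u w - u y‖)) +
        T z w / M T w * (∑ y, T w y * I1 (y ∈ Z ∧ b * M T y ≤ MQ T h j y)) +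
        T z w / M T w * (∑ y, I1 (1 - τ < kp T w y) * T w y)) :=
          Finset.sum_le_sum fun z hz => Finset.sum_le_sum fun w hw => pt z hz w hw
      _ ≤ _ := by
        simp only [Finset.sum_add_distrib]
        refine add_le_add (add_le_add (add_le_add ?_ ?_) ?_) ?_
        · refine sum_sub B _ _ (fun w => w ∉ Z ∧ a * M T w ≤ MQ T h j w) ?_ _ fun w =>
            Finset.sum_nonneg fun y _ => mul_nonneg (I1_nonneg _) (hT w y)
          intro z _ w hw
          rw [mem_A0] at hw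
          exact ⟨hw.1, hw.2.2.2.1⟩
        · refine (sum_sub B _ _ (fun _ => True) (fun _ _ _ _ => trivial) _ fun w =>
            Finset.sum_nonneg fun y _ => mul_nonneg (hT w y) (I1_nonneg _)).trans (le_of_eq ?_)
          exact Finset.sum_congr rfl fun w _ => by rw [I1_of trivial, one_mul]
        · refine (sum_sub B _ _ (fun _ => True) (fun _ _ _ _ => trivial) _ fun w =>
            Finset.sum_nonneg fun y _ => mul_nonneg (hT w y) (I1_nonneg _)).trans (le_of_eq ?_)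
          exact Finset.sum_congr rfl fun w _ => by rw [I1_of trivial, one_mul]
        · have h0 : ∀ z w, 0 ≤ I1 (w ∉ Z) * (T z w / M T w * ∑ y, I1 (1 - τ < kp T w y) * T w y) *
              I1 (c' * 2 ^ j ≤ ‖u w - u z‖) := fun z w =>
            mul_nonneg (mul_nonneg (I1_nonneg _) (mul_nonneg (div_nonneg (hT z w) (B.pos w).le)
              (Finset.sum_nonneg fun y _ => mul_nonneg (I1_nonneg _) (hT w y)))) (I1_nonneg _)
          refine (Finset.sum_le_sum fun z hz => ?_).trans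
            (Finset.sum_le_sum_of_subset_of_nonneg (Finset.subset_univ (Ac j)) fun z _ _ =>
              Finset.sum_nonneg fun w _ => h0 z w)
          refine (le_of_eq (Finset.sum_congr rfl fun w hw => ?_)).trans
            (Finset.sum_le_sum_of_subset_of_nonneg
              (Finset.subset_univ (A0 T u h Z c' C a p0 j z)) fun w _ _ => h0 z w)
          rw [mem_A0] at hw
          rw [I1_of hw.1, I1_of hw.2.1, one_mul, mul_one]
  -- the sum over the scales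
  have s0 : ∑ j ∈ Sc, (4 : ℝ) ^ j * ∑ z ∈ Ac j, ∑ w ∈ A0 T u h Z c' C a p0 j z,
      T z w / M T w * ∑ y, T w y * XX T u h Z C2 b τ j z w y ≤
      ∑ j ∈ Sc, (4 : ℝ) ^ j * (
      (∑ w, I1 (w ∉ Z ∧ a * M T w ≤ MQ T h j w) * ∑ y, I1 (MQ T h j y < b * M T y) * T w y) +
      (∑ w, ∑ y, T w y * I1 (C2 / 2 * 2 ^ j < ‖u w - u y‖)) +
      (∑ w, ∑ y, T w y * I1 (y ∈ Z ∧ b * M T y ≤ MQ T h j y)) +
      ∑ z, ∑ w, I1 (w ∉ Z) * (T z w / M T w * ∑ y, I1 (1 - τ < kp T w y) * T w y) *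
        I1 (c' * 2 ^ j ≤ ‖u w - u z‖)) :=
    Finset.sum_le_sum fun j _ => mul_le_mul_of_nonneg_left (one j) (by positivity)
  refine s0.trans ?_
  simp only [mul_add, Finset.sum_add_distrib]
  refine add_le_add (add_le_add (add_le_add le_rfl ?_) ?_) ?_
  · -- far
    calc ∑ j ∈ Sc, (4 : ℝ) ^ j * ∑ w, ∑ y, T w y * I1 (C2 / 2 * 2 ^ j < ‖u w - u y‖)
        = ∑ w, ∑ y, T w y * ∑ j ∈ Sc, I1 (C2 / 2 * 2 ^ j < ‖u w - u y‖) * (4 : ℝ) ^ j := by
          simp only [Finset.mul_sum]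
          rw [Finset.sum_comm]
          refine Finset.sum_congr rfl fun w _ => ?_
          rw [Finset.sum_comm]
          refine Finset.sum_congr rfl fun y _ => Finset.sum_congr rfl fun j _ => by ring
      _ ≤ ∑ w, ∑ y, T w y * (4 / 3 * (4 * ‖u w - u y‖ ^ 2 / C2 ^ 2)) := by
          refine Finset.sum_le_sum fun w _ => Finset.sum_le_sum fun y _ =>
            mul_le_mul_of_nonneg_left ?_ (hT w y)
          refine dyad_le Sc (by positivity) _ fun j _ hj => ?_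
          rw [le_div_iff₀ (by positivity)]
          have h2 : (C2 / 2 * 2 ^ j) ^ 2 ≤ ‖u w - u y‖ ^ 2 := by gcongr
          have h3 : (C2 / 2 * (2 : ℝ) ^ j) ^ 2 = 4 ^ j * C2 ^ 2 / 4 := by
            have h4 : (2 : ℝ) ^ j * 2 ^ j = 4 ^ j := by
              rw [← mul_pow]; norm_num
            rw [← h4]; ring
          rw [h3] at h2
          linarith
      _ = 16 / (3 * C2 ^ 2) * ∑ w, E T u w := by
          unfold E
          rw [Finset.mul_sum]
          refine Finset.sum_congr rfl fun w _ => ?_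
          rw [Finset.mul_sum]
          refine Finset.sum_congr rfl fun y _ => ?_
          ring
  · -- excluded sites
    calc ∑ j ∈ Sc, (4 : ℝ) ^ j * ∑ w, ∑ y, T w y * I1 (y ∈ Z ∧ b * M T y ≤ MQ T h j y)
        = ∑ y, M T y * ∑ j ∈ Sc, I1 (y ∈ Z ∧ b * M T y ≤ MQ T h j y) * (4 : ℝ) ^ j := by
          have e1 : ∀ j, ∑ w, ∑ y, T w y * I1 (y ∈ Z ∧ b * M T y ≤ MQ T h j y) =
              ∑ y, M T y * I1 (y ∈ Z ∧ b * M T y ≤ MQ T h j y) := by
            intro j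
            rw [Finset.sum_comm]
            refine Finset.sum_congr rfl fun y _ => ?_
            rw [← Finset.sum_mul, B.sum_col]
          simp only [e1, Finset.mul_sum]
          rw [Finset.sum_comm]
          refine Finset.sum_congr rfl fun y _ => Finset.sum_congr rfl fun j _ => by ring
      _ ≤ ∑ y, M T y * (I1 (y ∈ Z) * (4 / 3 * (c1 * E T u y / (b * M T y)))) := by
          refine Finset.sum_le_sum fun y _ => mul_le_mul_of_nonneg_left ?_ (B.pos y).le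
          by_cases hy : y ∈ Z
          · rw [I1_of hy, one_mul]
            refine le_trans (le_of_eq (Finset.sum_congr rfl fun j _ => ?_))
              (hot_sum B hc1 K Sc hb y)
            congr 1
            by_cases h2 : b * M T y ≤ MQ T h j y
            · rw [I1_of h2, I1_of ⟨hy, h2⟩]
            · rw [I1_not h2, I1_not fun h3 => h2 h3.2]
          · rw [I1_not hy, zero_mul]
            refine le_of_eq (Finset.sum_eq_zero fun j _ => ?_)
            rw [I1_not fun h3 => hy h3.1, zero_mul]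
      _ = 4 * c1 / (3 * b) * BadE T u Z := by
          unfold BadE
          rw [Finset.mul_sum]
          refine Finset.sum_congr rfl fun y _ => ?_
          have hy := B.pos y
          field_simp
  · -- closest pairs
    calc ∑ j ∈ Sc, (4 : ℝ) ^ j * ∑ z, ∑ w, I1 (w ∉ Z) *
          (T z w / M T w * ∑ y, I1 (1 - τ < kp T w y) * T w y) * I1 (c' * 2 ^ j ≤ ‖u w - u z‖)
        = ∑ z, ∑ w, I1 (w ∉ Z) * (T z w / M T w * ∑ y, I1 (1 - τ < kp T w y) * T w y) *
            ∑ j ∈ Sc, I1 (c' * 2 ^ j ≤ ‖u w - u z‖) * (4 : ℝ) ^ j := by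
          have e1 : ∀ j, (4 : ℝ) ^ j * ∑ z, ∑ w, I1 (w ∉ Z) *
              (T z w / M T w * ∑ y, I1 (1 - τ < kp T w y) * T w y) *
                I1 (c' * 2 ^ j ≤ ‖u w - u z‖) = ∑ z, ∑ w, I1 (w ∉ Z) *
              (T z w / M T w * ∑ y, I1 (1 - τ < kp T w y) * T w y) *
                (I1 (c' * 2 ^ j ≤ ‖u w - u z‖) * (4 : ℝ) ^ j) := by
            intro j
            rw [Finset.mul_sum]
            refine Finset.sum_congr rfl fun z _ => ?_
            rw [Finset.mul_sum]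
            exact Finset.sum_congr rfl fun w _ => by ring
          rw [Finset.sum_congr rfl fun j _ => e1 j, Finset.sum_comm]
          refine Finset.sum_congr rfl fun z _ => ?_
          rw [Finset.sum_comm]
          exact Finset.sum_congr rfl fun w _ => (Finset.mul_sum Sc _ _).symm
      _ ≤ ∑ z, ∑ w, I1 (w ∉ Z) * (T z w / M T w * ∑ y, I1 (1 - τ < kp T w y) * T w y) *
            (4 / 3 * (‖u w - u z‖ ^ 2 / c' ^ 2)) := by
          refine Finset.sum_le_sum fun z _ => Finset.sum_le_sum fun w _ =>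
            mul_le_mul_of_nonneg_left ?_ (mul_nonneg (I1_nonneg _)
              (mul_nonneg (div_nonneg (hT z w) (B.pos w).le)
              (Finset.sum_nonneg fun y _ => mul_nonneg (I1_nonneg _) (hT w y))))
          refine dyad_le Sc (by positivity) _ fun j _ hj => ?_
          rw [le_div_iff₀ (by positivity)]
          have h2 : (c' * 2 ^ j) ^ 2 ≤ ‖u w - u z‖ ^ 2 := by gcongr
          have h3 : (c' * (2 : ℝ) ^ j) ^ 2 = 4 ^ j * c' ^ 2 := by
            have h4 : (2 : ℝ) ^ j * 2 ^ j = 4 ^ j := by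
              rw [← mul_pow]; norm_num
            rw [← h4]; ring
          rw [h3] at h2
          exact h2
      _ = 4 / (3 * c' ^ 2) * Clo T u Z τ := by
          unfold Clo E
          rw [Finset.sum_comm, Finset.mul_sum]
          refine Finset.sum_congr rfl fun w _ => ?_
          have hw := B.pos w
          set cl := ∑ y, I1 (1 - τ < kp T w y) * T w y with hcl
          calc ∑ z, I1 (w ∉ Z) * (T z w / M T w * cl) * (4 / 3 * (‖u w - u z‖ ^ 2 / c' ^ 2))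
              = I1 (w ∉ Z) * (cl / M T w) * (4 / (3 * c' ^ 2)) *
                  ∑ z, T w z * ‖u w - u z‖ ^ 2 := by
                rw [Finset.mul_sum]
                refine Finset.sum_congr rfl fun z _ => ?_
                rw [B.symm z w]
                field_simp
            _ = _ := by ring

/-- cold partners of the active rows -/
theorem sum_cold (B : Base T) {Z : Set ι} {θ a : ℝ} (Sc : Finset ℕ) (Ac : ℕ → Finset ι)
    (hA : ∀ j ∈ Sc, ∀ z ∈ Ac j, z ∉ Z ∧ θ * M T z ≤ MQ T h j z) :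
    ∑ j ∈ Sc, (4 : ℝ) ^ j * ∑ z ∈ Ac j, ∑ w, I1 (MQ T h j w < a * M T w) * T z w ≤
      Mis T h Z Sc θ a := by
  unfold Mis
  refine Finset.sum_le_sum fun j hj => mul_le_mul_of_nonneg_left ?_ (by positivity)
  have h0 : ∀ z, 0 ≤ ∑ w, I1 (MQ T h j w < a * M T w) * T z w := fun z =>
    Finset.sum_nonneg fun w _ => mul_nonneg (I1_nonneg _) (B.nonneg z w)
  refine (le_of_eq (Finset.sum_congr rfl fun z hz => ?_)).trans
    (Finset.sum_le_sum_of_subset_of_nonneg (Finset.subset_univ (Ac j)) fun z _ _ =>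
      mul_nonneg (I1_nonneg _) (h0 z))
  rw [I1_of (hA j hj z hz), one_mul]

/-- hot excluded partners of the active rows -/
theorem sum_excl (B : Base T) {H c1 : ℝ} (hc1 : 0 ≤ c1) (K : Ker u h H c1) {Z : Set ι} {a : ℝ}
    (ha : 0 < a) (Sc : Finset ℕ) (Ac : ℕ → Finset ι) :
    ∑ j ∈ Sc, (4 : ℝ) ^ j * ∑ z ∈ Ac j, ∑ w, I1 (w ∈ Z ∧ a * M T w ≤ MQ T h j w) * T z w ≤
      4 * c1 / (3 * a) * BadE T u Z := by
  have hT := B.nonneg
  calc ∑ j ∈ Sc, (4 : ℝ) ^ j * ∑ z ∈ Ac j, ∑ w, I1 (w ∈ Z ∧ a * M T w ≤ MQ T h j w) * T z w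
      ≤ ∑ j ∈ Sc, (4 : ℝ) ^ j * ∑ w, I1 (w ∈ Z ∧ a * M T w ≤ MQ T h j w) * M T w := by
        refine Finset.sum_le_sum fun j _ => mul_le_mul_of_nonneg_left ?_ (by positivity)
        calc _ ≤ ∑ z, ∑ w, I1 (w ∈ Z ∧ a * M T w ≤ MQ T h j w) * T z w :=
              Finset.sum_le_sum_of_subset_of_nonneg (Finset.subset_univ (Ac j)) fun z _ _ =>
                Finset.sum_nonneg fun w _ => mul_nonneg (I1_nonneg _) (hT z w)
          _ = _ := by
            rw [Finset.sum_comm]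
            refine Finset.sum_congr rfl fun w _ => ?_
            rw [← Finset.mul_sum, B.sum_col]
    _ = ∑ w, M T w * ∑ j ∈ Sc, I1 (w ∈ Z ∧ a * M T w ≤ MQ T h j w) * (4 : ℝ) ^ j := by
        simp only [Finset.mul_sum]
        rw [Finset.sum_comm]
        exact Finset.sum_congr rfl fun w _ => Finset.sum_congr rfl fun j _ => by ring
    _ ≤ ∑ w, M T w * (I1 (w ∈ Z) * (4 / 3 * (c1 * E T u w / (a * M T w)))) := by
        refine Finset.sum_le_sum fun y _ => mul_le_mul_of_nonneg_left ?_ (B.pos y).le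
        by_cases hy : y ∈ Z
        · rw [I1_of hy, one_mul]
          refine le_trans (le_of_eq (Finset.sum_congr rfl fun j _ => ?_))
            (hot_sum B hc1 K Sc ha y)
          congr 1
          by_cases h2 : a * M T y ≤ MQ T h j y
          · rw [I1_of h2, I1_of ⟨hy, h2⟩]
          · rw [I1_not h2, I1_not fun h3 => h2 h3.2]
        · rw [I1_not hy, zero_mul]
          refine le_of_eq (Finset.sum_eq_zero fun j _ => ?_)
          rw [I1_not fun h3 => hy h3.1, zero_mul]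
    _ = 4 * c1 / (3 * a) * BadE T u Z := by
        unfold BadE
        rw [Finset.mul_sum]
        refine Finset.sum_congr rfl fun y _ => ?_
        have hy := B.pos y
        field_simp

/-- the strong landing terms of the active rows; each row is active at most `n` times -/
theorem sum_land (B : Base T) {R : ι → ι → ℝ} (hR : ∀ x y, 0 ≤ R x y) {Z : Set ι}
    {c' C a p0 p2 φ : ℝ} (hp0 : 0 < p0) (hφ : 0 < φ) (Sc : Finset ℕ) (Ac : ℕ → Finset ι) {n : ℕ}
    (hZ : ∀ j ∈ Sc, ∀ z ∈ Ac j, z ∉ Z)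
    (hn : ∀ z, ∀ S ⊆ Sc, (∀ j ∈ S, z ∈ Ac j) → S.card ≤ n) :
    ∑ j ∈ Sc, ∑ z ∈ Ac j, ∑ y ∈ A1 T u h Z c' C a p0 p2 φ j z, R z y ≤
      n * (Js T R Z p0 / p0 + Ls T R Z p0 p2 / φ) := by
  classical
  set r : ι → ℝ := fun z => ∑ y, (I1 (y ∉ Z ∧ p0 ≤ kp T z y) * (kp T z y * R z y) / p0 +
    I1 (y ∉ Z) * (lam T Z p0 p2 z y * R z y) / φ) with hr
  have t1 : ∀ z y, 0 ≤ I1 (y ∉ Z ∧ p0 ≤ kp T z y) * (kp T z y * R z y) / p0 := fun z y =>
    div_nonneg (mul_nonneg (I1_nonneg _) (mul_nonneg (B.kp_nonneg z y) (hR z y))) hp0.le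
  have t2 : ∀ z y, 0 ≤ I1 (y ∉ Z) * (lam T Z p0 p2 z y * R z y) / φ := fun z y =>
    div_nonneg (mul_nonneg (I1_nonneg _) (mul_nonneg (lam_nonneg B Z p0 p2 z y) (hR z y))) hφ.le
  have hr0 : ∀ z, 0 ≤ r z := fun z => Finset.sum_nonneg fun y _ => add_nonneg (t1 z y) (t2 z y)
  have row : ∀ j z, ∑ y ∈ A1 T u h Z c' C a p0 p2 φ j z, R z y ≤ r z := by
    intro j z
    refine (Finset.sum_le_sum fun y hy => ?_).trans
      (Finset.sum_le_sum_of_subset_of_nonneg (Finset.subset_univ _) fun y _ _ =>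
        add_nonneg (t1 z y) (t2 z y))
    unfold A1 at hy
    rw [Finset.mem_union, Finset.mem_filter, mem_A0] at hy
    have hRy := hR z y
    rcases hy with hy | hy
    · have h1 : R z y ≤ I1 (y ∉ Z ∧ p0 ≤ kp T z y) * (kp T z y * R z y) / p0 := by
        rw [I1_of ⟨hy.1, hy.2.2.2.2⟩, one_mul, le_div_iff₀ hp0]
        have := mul_le_mul_of_nonneg_right hy.2.2.2.2 hRy
        linarith
      linarith [t2 z y]
    · have h1 : R z y ≤ I1 (y ∉ Z) * (lam T Z p0 p2 z y * R z y) / φ := by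
        rw [I1_of hy.2.1, one_mul, le_div_iff₀ hφ]
        have := mul_le_mul_of_nonneg_right hy.2.2 hRy
        linarith
      linarith [t1 z y]
  have h1 : ∑ j ∈ Sc, ∑ z ∈ Ac j, ∑ y ∈ A1 T u h Z c' C a p0 p2 φ j z, R z y ≤
      ∑ j ∈ Sc, ∑ z ∈ Ac j, r z :=
    Finset.sum_le_sum fun j _ => Finset.sum_le_sum fun z _ => row j z
  have h2 : ∑ j ∈ Sc, ∑ z ∈ Ac j, r z ≤ ∑ z, (n : ℝ) * (I1 (z ∉ Z) * r z) := by
    have e1 : ∀ j, ∑ z ∈ Ac j, r z = ∑ z, if z ∈ Ac j then r z else 0 := fun j => by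
      rw [Finset.sum_ite_mem, Finset.univ_inter]
    rw [Finset.sum_congr rfl fun j _ => e1 j, Finset.sum_comm]
    refine Finset.sum_le_sum fun z _ => ?_
    rw [← Finset.sum_filter, Finset.sum_const, nsmul_eq_mul]
    have h3 : (Finset.filter (fun j => z ∈ Ac j) Sc).card ≤ n :=
      hn z _ (Finset.filter_subset _ _) fun j hj => (Finset.mem_filter.1 hj).2
    by_cases hz : z ∈ Z
    · have h4 : Finset.filter (fun j => z ∈ Ac j) Sc = ∅ := by
        rw [Finset.filter_eq_empty_iff]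
        intro j hj hzj
        exact hZ j hj z hzj hz
      rw [h4, Finset.card_empty, Nat.cast_zero, zero_mul, I1_not (fun h5 => h5 hz)]
      simp
    · rw [I1_of hz, one_mul]
      exact mul_le_mul_of_nonneg_right (by exact_mod_cast h3) (hr0 z)
  refine h1.trans (h2.trans (le_of_eq ?_))
  rw [← Finset.mul_sum]
  congr 1
  unfold Js Ls
  rw [Finset.sum_div, Finset.sum_div, ← Finset.sum_add_distrib]
  refine Finset.sum_congr rfl fun z _ => ?_
  rw [hr, Finset.sum_div, Finset.sum_div, ← Finset.sum_add_distrib, Finset.mul_sum]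
  refine Finset.sum_congr rfl fun y _ => ?_
  by_cases hz : z ∈ Z
  · rw [I1_not (fun h5 => h5 hz), I1_not (fun h5 : z ∉ Z ∧ y ∉ Z ∧ p0 ≤ kp T z y => h5.1 hz),
      I1_not (fun h5 : z ∉ Z ∧ y ∉ Z => h5.1 hz)]
    simp
  · have e1 : I1 (z ∉ Z ∧ y ∉ Z ∧ p0 ≤ kp T z y) = I1 (y ∉ Z ∧ p0 ≤ kp T z y) := by
      congr 1
      exact propext ⟨fun h5 => h5.2, fun h5 => ⟨hz, h5⟩⟩
    have e2 : I1 (z ∉ Z ∧ y ∉ Z) = I1 (y ∉ Z) := by
      congr 1
      exact propext ⟨fun h5 => h5.2, fun h5 => ⟨hz, h5⟩⟩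
    rw [I1_of hz, one_mul, e1, e2]

/-- **static half, summed over the active rows** (292, 19925 (4)) -/
theorem static_sum [DecidableEq ι] (B : Base T) {H c1 : ℝ} (hH : 0 ≤ H) (hc1 : 0 ≤ c1)
    (K : Ker u h H c1) {R : ι → ι → ℝ} (hR : ∀ x y, 0 ≤ R x y)
    (key : ∀ z, ∀ S0 S1 : Finset ι, S0 ⊆ S1 → ∑ w ∈ S0, T z w * ‖u w - u z‖ ^ 2 ≤
      8 * ∑ y ∈ S1, R z y + 8 * (∑ w ∈ S0, ∑ y ∈ S1ᶜ, T w y) * E T u z)
    {Z : Set ι} {c' C C2 a b p0 p2 φ τ θ Λ g1 g2 : ℝ} {n : ℕ} (hc' : 0 < c') (hC : 0 < C)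
    (hCC : 2 * C ≤ C2) (ha : 0 < a) (hb : 0 < b) (hp0 : 0 < p0) (hp0' : p0 ≤ 1 / 2)
    (hp2 : 0 ≤ p2) (hp2' : p2 ≤ 1 / 2) (hφ : 0 < φ) (hτ : 0 < τ) (hθ : 0 < θ) (hΛ : 0 < Λ)
    (k1 : c1 * c' ^ 2 ≤ θ / 8) (k2 : H * Λ ≤ θ / 8 * C ^ 2) (k3 : 2 * H * p0 * g1 ≤ θ / 4 * a)
    (k4 : c1 * Λ / θ < 4 ^ n) (Sc : Finset ℕ) (Ac : ℕ → Finset ι)
    (hA : ∀ j ∈ Sc, ∀ z ∈ Ac j, z ∉ Z ∧ θ * M T z ≤ MQ T h j z ∧ E T u z ≤ Λ * 4 ^ j * M T z ∧
      Fb T u h C j z ≤ g1 ∧ Fb T u h C2 j z ≤ g2) :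
    c' ^ 2 * θ / 2 * ∑ j ∈ Sc, (4 : ℝ) ^ j * ∑ z ∈ Ac j, M T z ≤
      H * (c' ^ 2 * (Mis T h Z Sc θ a + 4 * c1 / (3 * a) * BadE T u Z) +
        8 * (n * (Js T R Z p0 / p0 + Ls T R Z p0 p2 / φ)) +
        8 * Λ * ((2 * p2 + φ / τ) * g2 / (p0 * b) * (∑ j ∈ Sc, (4 : ℝ) ^ j * ∑ z ∈ Ac j, M T z) +
          1 / p0 * (Mis T h Z Sc a b + 16 / (3 * C2 ^ 2) * (∑ w, E T u w) +
            4 * c1 / (3 * b) * BadE T u Z + 4 / (3 * c' ^ 2) * Clo T u Z τ))) := by
  have hC2 : 0 < C2 := by linarith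
  have hT := B.nonneg
  -- one active row
  have row : ∀ j ∈ Sc, ∀ z ∈ Ac j, c' ^ 2 * θ / 2 * (4 ^ j * M T z) ≤
      H * (c' ^ 2 * (4 ^ j * ∑ w, I1 (MQ T h j w < a * M T w) * T z w) +
        c' ^ 2 * (4 ^ j * ∑ w, I1 (w ∈ Z ∧ a * M T w ≤ MQ T h j w) * T z w) +
        8 * ∑ y ∈ A1 T u h Z c' C a p0 p2 φ j z, R z y +
        8 * Λ * ((2 * p2 + φ / τ) * g2 / (p0 * b) * (4 ^ j * M T z) +
          1 / p0 * (4 ^ j * ∑ w ∈ A0 T u h Z c' C a p0 j z, T z w / M T w *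
            ∑ y, T w y * XX T u h Z C2 b τ j z w y))) := by
    intro j hj z hz
    obtain ⟨-, a2, a3, a4, a5⟩ := hA j hj z hz
    have h4j : (0 : ℝ) < 4 ^ j := by positivity
    have l1 := row_lower B hH hc1 K (Z := Z) (c' := c') hc'.le hC ha hp0.le hp0' k1 k2 k3 a2 a3 a4
    have l2 : c' ^ 2 * 4 ^ j * ∑ w ∈ A0 T u h Z c' C a p0 j z, T z w ≤
        ∑ w ∈ A0 T u h Z c' C a p0 j z, T z w * ‖u w - u z‖ ^ 2 := by
      rw [Finset.mul_sum]
      refine Finset.sum_le_sum fun w hw => ?_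
      rw [mem_A0] at hw
      have h2 : (c' * 2 ^ j) ^ 2 ≤ ‖u w - u z‖ ^ 2 := by
        have := hw.2.1
        gcongr
      have h3 : (c' * (2 : ℝ) ^ j) ^ 2 = c' ^ 2 * 4 ^ j := by
        have h4 : (2 : ℝ) ^ j * 2 ^ j = 4 ^ j := by
          rw [← mul_pow]; norm_num
        rw [← h4]; ring
      rw [h3] at h2
      have := mul_le_mul_of_nonneg_left h2 (hT z w)
      linarith
    have l3 := key z _ _ (A0_sub_A1 (T := T) (u := u) (h := h) (Z := Z) (c' := c') (C := C)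
      (a := a) (p0 := p0) (p2 := p2) (φ := φ) (j := j) (z := z))
    set O := ∑ w ∈ A0 T u h Z c' C a p0 j z, ∑ y ∈ (A1 T u h Z c' C a p0 p2 φ j z)ᶜ, T w y with hO
    have hO0 : 0 ≤ O := Finset.sum_nonneg fun w _ => Finset.sum_nonneg fun y _ => hT w y
    have l4 := outflux B K (Z := Z) (c' := c') (C := C) (a := a) hb hp0 hp2 hp2' hφ.le hτ a5
    rw [← hO] at l4
    have l5 : O * E T u z ≤ Λ * (4 ^ j * (M T z * O)) := by
      have := mul_le_mul_of_nonneg_left a3 hO0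
      linarith
    have l6 : Λ * (4 ^ j * (M T z * O)) ≤ Λ * (4 ^ j * ((2 * p2 + φ / τ) * g2 / (p0 * b) * M T z +
        1 / p0 * ∑ w ∈ A0 T u h Z c' C a p0 j z, T z w / M T w *
          ∑ y, T w y * XX T u h Z C2 b τ j z w y)) :=
      mul_le_mul_of_nonneg_left (mul_le_mul_of_nonneg_left l4 h4j.le) hΛ.le
    have l7 := mul_le_mul_of_nonneg_left l1 (show 0 ≤ c' ^ 2 * 4 ^ j by positivity)
    have l8 : H * (c' ^ 2 * 4 ^ j * ∑ w ∈ A0 T u h Z c' C a p0 j z, T z w) ≤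
        H * (8 * ∑ y ∈ A1 T u h Z c' C a p0 p2 φ j z, R z y +
          8 * (Λ * (4 ^ j * ((2 * p2 + φ / τ) * g2 / (p0 * b) * M T z +
        1 / p0 * ∑ w ∈ A0 T u h Z c' C a p0 j z, T z w / M T w *
          ∑ y, T w y * XX T u h Z C2 b τ j z w y)))) := by
      refine mul_le_mul_of_nonneg_left ?_ hH
      linarith
    linarith
  have hsum := Finset.sum_le_sum fun j (hj : j ∈ Sc) => Finset.sum_le_sum fun z (hz : z ∈ Ac j) =>
    row j hj z hz
  simp only [← Finset.mul_sum, Finset.sum_add_distrib] at hsum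
  have c1' := sum_cold (h := h) B (a := a) Sc Ac fun j hj z hz => ⟨(hA j hj z hz).1, (hA j hj z hz).2.1⟩
  have c2' := sum_excl (u := u) (h := h) B hc1 K (Z := Z) ha Sc Ac
  have hn : ∀ z, ∀ S ⊆ Sc, (∀ j ∈ S, z ∈ Ac j) → S.card ≤ n := by
    intro z S hS hSz
    have hz := B.pos z
    have hE := B.E_nonneg u z
    refine card_win S (lo := E T u z / (Λ * M T z)) (hi := c1 * E T u z / (θ * M T z))
      (r := c1 * Λ / θ) (by positivity) ?_ ?_ (by positivity) ?_ k4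
    · intro j hj
      have h1 := (hA j (hS hj) z (hSz j hj)).2.2.1
      rw [div_le_iff₀ (by positivity)]
      linarith
    · intro j hj
      have h1 := (hA j (hS hj) z (hSz j hj)).2.1
      rw [le_div_iff₀ (by positivity)]
      calc (4 : ℝ) ^ j * (θ * M T z) ≤ 4 ^ j * MQ T h j z :=
            mul_le_mul_of_nonneg_left h1 (by positivity)
        _ ≤ c1 * E T u z := MQ_le B K j z
    · refine le_of_eq ?_
      field_simp
  have c3' := sum_land (T := T) (u := u) (h := h) B hR (c' := c') (C := C) (a := a) (p2 := p2) hp0 hφ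
    Sc Ac (n := n) (fun j hj z hz => (hA j hj z hz).1) hn
  have c4' := exits B hc1 K (Z := Z) (a := a) (p0 := p0) (τ := τ) hc' hC.le hC2 hCC hb Sc Ac
  refine hsum.trans (mul_le_mul_of_nonneg_left ?_ hH)
  have d1 := mul_le_mul_of_nonneg_left c1' (show 0 ≤ c' ^ 2 by positivity)
  have d2 := mul_le_mul_of_nonneg_left c2' (show 0 ≤ c' ^ 2 by positivity)
  have d4 := mul_le_mul_of_nonneg_left c4' (show 0 ≤ 8 * Λ * (1 / p0) by positivity)
  linarith

end

end P365L.T2.KeySum
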