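import Vale.Agent.P365.T2.H486.Key
import Vale.Agent.P365.T2.KeySum568

set_option autoImplicit false
set_option linter.all false

/-!
# P365 T2: the static half for resolvents (instance of `KeySum.static_sum`)
-/

namespace P365L.T2.KeyInst

open P365L P365T2.H486 P365L.T2.KeySum
open scoped BigOperators

variable {ι κ : Type*} [Fintype ι] [DecidableEq ι] [Fintype κ]
variable {A : Matrix ι ι ℝ} {W : ι → ℂ}

/-- the position of a site -/
noncomputable def pos (F : κ → ι → ℝ) (x : ι) : EuclideanSpace ℝ κ := WithLp.toLp 2 fun k => F k x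

theorem norm_pos_sub (F : κ → ι → ℝ) (w x : ι) : ‖pos F w - pos F x‖ ^ 2 = Nsq F w x := by
  rw [EuclideanSpace.real_norm_sq_eq]
  unfold Nsq pos
  exact Finset.sum_congr rfl fun k _ => by simp

theorem M_eq (hA : A.IsSymm) (hW : ∀ x, (W x).im < 0) (x : ι) : M (Qf A W) x = pif A W x :=
  Qf_sum hA hW x

theorem base (hA : A.IsSymm) (hW : ∀ x, (W x).im < 0) : Base (Qf A W) where
  symm := fun x y => Qf_symm hA x y
  nonneg := fun x y => Qf_nonneg hW x y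
  pos := fun x => by
    rw [M_eq hA hW]
    exact pif_pos hA hW x

/-- `κ` of the resolvent -/
theorem kp_eq (hA : A.IsSymm) (hW : ∀ x, (W x).im < 0) (z w : ι) :
    KeySum.kp (Qf A W) z w = KK A W z w / (mm A W z * mm A W w + KK A W z w) := by
  unfold KeySum.kp
  rw [M_eq hA hW, M_eq hA hW]
  unfold pif Qf
  have h1 : -(W z).im ≠ 0 := by linarith [hW z] |> fun h : (0 : ℝ) < -(W z).im => h.ne'
  have h2 : -(W w).im ≠ 0 := by linarith [hW w] |> fun h : (0 : ℝ) < -(W w).im => h.ne'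
  rw [show (-(W z).im) * (-(W w).im) * KK A W z w =
      ((-(W z).im) * (-(W w).im)) * KK A W z w from rfl,
    show (-(W z).im) * mm A W z * ((-(W w).im) * mm A W w) +
      ((-(W z).im) * (-(W w).im)) * KK A W z w =
      ((-(W z).im) * (-(W w).im)) * (mm A W z * mm A W w + KK A W z w) from by ring,
    mul_div_mul_left _ _ (mul_ne_zero h1 h2)]

theorem kp_eq_kap (hA : A.IsSymm) (hW : ∀ x, (W x).im < 0) (z w : ι) :
    KeySum.kp (Qf A W) z w = P365L.kap A W z w := kp_eq hA hW z w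

/-- squared landing amplitudes -/
noncomputable def RR (A : Matrix ι ι ℝ) (W : ι → ℂ) (F : κ → ι → ℝ) (z y : ι) : ℝ :=
  ∑ k, (-(W y).im) * (-(W z).im) * ‖Tm A W (F k) y z‖ ^ 2

theorem RR_nonneg (hW : ∀ x, (W x).im < 0) (F : κ → ι → ℝ) (z y : ι) : 0 ≤ RR A W F z y :=
  Finset.sum_nonneg fun k _ => mul_nonneg (mul_nonneg (by linarith [hW y]) (by linarith [hW z]))
    (by positivity)

theorem key_res (hA : A.IsSymm) (hW : ∀ x, (W x).im < 0) (F : κ → ι → ℝ) (z : ι)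
    (S0 S1 : Finset ι) (h01 : S0 ⊆ S1) :
    ∑ w ∈ S0, Qf A W z w * ‖pos F w - pos F z‖ ^ 2 ≤ 8 * ∑ y ∈ S1, RR A W F z y +
      8 * (∑ w ∈ S0, ∑ y ∈ S1ᶜ, Qf A W w y) * E (Qf A W) (pos F) z := by
  have h1 := key_fam hA hW F z h01
  have e1 : ∑ w ∈ S0, Qf A W z w * ‖pos F w - pos F z‖ ^ 2 =
      ∑ w ∈ S0, Qf A W w z * Nsq F w z :=
    Finset.sum_congr rfl fun w _ => by rw [norm_pos_sub, Qf_symm hA z w]
  have e2 : ∑ y ∈ S1, RR A W F z y =
      ∑ k, ∑ y ∈ S1, (-(W y).im) * (-(W z).im) * ‖Tm A W (F k) y z‖ ^ 2 := by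
    unfold RR
    rw [Finset.sum_comm]
  have e3 : E (Qf A W) (pos F) z = ∑ y, Qf A W y z * Nsq F y z := by
    unfold E
    refine Finset.sum_congr rfl fun y _ => ?_
    rw [norm_sub_rev, norm_pos_sub, Qf_symm hA z y]
  rw [e1, e2, e3]
  exact h1

/-- **the static half of T2 (292, 19925 (4)) for resolvents**, pathwise, summed over all active
rows and scales -/
theorem static_res (hA : A.IsSymm) (hW : ∀ x, (W x).im < 0) (F : κ → ι → ℝ)
    {h : ℕ → ι → ι → ℝ} {H c1 : ℝ} (hH : 0 ≤ H) (hc1 : 0 ≤ c1) (K : Ker (pos F) h H c1)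
    {Z : Set ι} {c' C C2 a b p0 p2 φ τ θ Λ g1 g2 : ℝ} {n : ℕ} (hc' : 0 < c') (hC : 0 < C)
    (hCC : 2 * C ≤ C2) (ha : 0 < a) (hb : 0 < b) (hp0 : 0 < p0) (hp0' : p0 ≤ 1 / 2)
    (hp2 : 0 ≤ p2) (hp2' : p2 ≤ 1 / 2) (hφ : 0 < φ) (hτ : 0 < τ) (hθ : 0 < θ) (hΛ : 0 < Λ)
    (k1 : c1 * c' ^ 2 ≤ θ / 8) (k2 : H * Λ ≤ θ / 8 * C ^ 2) (k3 : 2 * H * p0 * g1 ≤ θ / 4 * a)
    (k4 : c1 * Λ / θ < 4 ^ n) (Sc : Finset ℕ) (Ac : ℕ → Finset ι)
    (hAc : ∀ j ∈ Sc, ∀ z ∈ Ac j, z ∉ Z ∧ θ * pif A W z ≤ MQ (Qf A W) h j z ∧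
      E (Qf A W) (pos F) z ≤ Λ * 4 ^ j * pif A W z ∧ Fb (Qf A W) (pos F) h C j z ≤ g1 ∧
      Fb (Qf A W) (pos F) h C2 j z ≤ g2) :
    c' ^ 2 * θ / 2 * ∑ j ∈ Sc, (4 : ℝ) ^ j * ∑ z ∈ Ac j, pif A W z ≤
      H * (c' ^ 2 * (Mis (Qf A W) h Z Sc θ a + 4 * c1 / (3 * a) * BadE (Qf A W) (pos F) Z) +
        8 * (n * (Js (Qf A W) (RR A W F) Z p0 / p0 + Ls (Qf A W) (RR A W F) Z p0 p2 / φ)) +
        8 * Λ * ((2 * p2 + φ / τ) * g2 / (p0 * b) *
            (∑ j ∈ Sc, (4 : ℝ) ^ j * ∑ z ∈ Ac j, pif A W z) +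
          1 / p0 * (Mis (Qf A W) h Z Sc a b +
            16 / (3 * C2 ^ 2) * (∑ w, E (Qf A W) (pos F) w) +
            4 * c1 / (3 * b) * BadE (Qf A W) (pos F) Z +
            4 / (3 * c' ^ 2) * Clo (Qf A W) (pos F) Z τ))) := by
  have h1 := static_sum (base hA hW) hH hc1 K (RR_nonneg hW F)
    (fun z S0 S1 h01 => key_res hA hW F z S0 S1 h01) (Z := Z) hc' hC hCC ha hb hp0 hp0' hp2 hp2'
    hφ hτ hθ hΛ k1 k2 k3 k4 Sc Ac (by
      intro j hj z hz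
      rw [M_eq hA hW]
      exact hAc j hj z hz)
  simp only [M_eq hA hW] at h1
  exact h1

/-- the bounded kernel `h_j(x,y) = 2 |u|² / (4^j + |u|²)` -/
noncomputable def hk (F : κ → ι → ℝ) (j : ℕ) (x y : ι) : ℝ :=
  2 * ‖pos F x - pos F y‖ ^ 2 / (4 ^ j + ‖pos F x - pos F y‖ ^ 2)

theorem hk_ker (F : κ → ι → ℝ) : Ker (pos F) (hk F) 2 2 where
  nonneg := fun j x y => by
    unfold hk
    positivity
  le := fun j x y => by
    unfold hk
    have h4 : (0 : ℝ) < 4 ^ j := by positivity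
    rw [div_le_iff₀ (by positivity)]
    nlinarith
  quad := fun j x y => by
    unfold hk
    have h4 : (0 : ℝ) < 4 ^ j := by positivity
    have h0 : 0 ≤ ‖pos F x - pos F y‖ ^ 2 := by positivity
    exact div_le_div_of_nonneg_left (by positivity) h4 (by linarith)

end P365L.T2.KeyInst
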