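import Mathlib

/-!
# P365 T2, row X-LS: kernels `h_r`, the spread kernel `psi`, and the growth of `L`

`hr r q = r^2 q / (r^2 + q)` (`q = |x-y|^2`), `psi J q = ∑_{j ≤ J} (h_{2^J} - h_{2^j})`.
Everything is pointwise in `q ≥ 0` or a finite sum with nonnegative weights.
-/

set_option linter.all false

namespace Vale.Agent.P365.T2.LS836

open Finset

/-- the kernel of scale `r`, as a function of `q = |x-y|^2` -/
noncomputable def hr (r q : ℝ) : ℝ := r ^ 2 * q / (r ^ 2 + q)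

section kernel

variable {r r' q q' : ℝ}

theorem hr_zero (r : ℝ) : hr r 0 = 0 := by simp [hr]

theorem hr_nonneg (hq : 0 ≤ q) : 0 ≤ hr r q := by unfold hr; positivity

theorem hr_le_q (hr0 : 0 < r) (hq : 0 ≤ q) : hr r q ≤ q := by
  unfold hr
  rw [div_le_iff₀ (by positivity)]
  nlinarith [mul_nonneg hq hq]

theorem hr_le_sq (hr0 : 0 < r) (hq : 0 ≤ q) : hr r q ≤ r ^ 2 := by
  unfold hr
  rw [div_le_iff₀ (by positivity)]
  nlinarith [mul_nonneg (sq_nonneg r) (sq_nonneg r)]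

/-- exact difference of two scales -/
theorem hr_sub (hr0 : 0 < r) (hr1 : 0 < r') (hq : 0 ≤ q) :
    hr r' q - hr r q = (r' ^ 2 - r ^ 2) * q ^ 2 / ((r' ^ 2 + q) * (r ^ 2 + q)) := by
  unfold hr
  have h1 : r ^ 2 + q ≠ 0 := by positivity
  have h2 : r' ^ 2 + q ≠ 0 := by positivity
  field_simp
  ring

theorem hr_mono_r (hr0 : 0 < r) (hrr : r ≤ r') (hq : 0 ≤ q) : hr r q ≤ hr r' q := by
  have h1 := hr_sub (r' := r') hr0 (hr0.trans_le hrr) hq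
  have h2 : 0 ≤ r' ^ 2 - r ^ 2 := by nlinarith
  have h3 : 0 ≤ (r' ^ 2 - r ^ 2) * q ^ 2 / ((r' ^ 2 + q) * (r ^ 2 + q)) := by positivity
  linarith

theorem hr_mono_q (hr0 : 0 < r) (hq : 0 ≤ q) (hqq : q ≤ q') : hr r q ≤ hr r q' := by
  unfold hr
  have hq' : 0 ≤ q' := hq.trans hqq
  rw [div_le_div_iff₀ (by positivity) (by positivity)]
  nlinarith [mul_nonneg (mul_nonneg (sq_nonneg r) (sq_nonneg r)) (sub_nonneg.2 hqq)]

/-- `q - h_r = q^2 / (r^2 + q)` -/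
theorem q_sub_hr (hr0 : 0 < r) (hq : 0 ≤ q) : q - hr r q = q ^ 2 / (r ^ 2 + q) := by
  unfold hr
  have h1 : r ^ 2 + q ≠ 0 := by positivity
  field_simp
  ring

theorem q_sub_hr_le (hr0 : 0 < r) (hq : 0 ≤ q) : q - hr r q ≤ q ^ 2 / r ^ 2 := by
  rw [q_sub_hr hr0 hq]
  gcongr
  linarith

theorem hr_double_le (hr0 : 0 < r) (hq : 0 ≤ q) : hr (2 * r) q ≤ 4 * hr r q := by
  unfold hr
  rw [← mul_div_assoc, div_le_div_iff₀ (by positivity) (by positivity)]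
  nlinarith [mul_nonneg (mul_nonneg (sq_nonneg r) (sq_nonneg r)) hq,
    mul_nonneg (sq_nonneg r) (mul_nonneg hq hq)]

/-- the shell `w = h_{2r} - h_r`: nonnegative -/
theorem shell_nonneg (hr0 : 0 < r) (hq : 0 ≤ q) : 0 ≤ hr (2 * r) q - hr r q := by
  linarith [hr_mono_r hr0 (by linarith : r ≤ 2 * r) hq]

theorem shell_le_sq (hr0 : 0 < r) (hq : 0 ≤ q) : hr (2 * r) q - hr r q ≤ 3 * r ^ 2 := by
  rw [hr_sub hr0 (by positivity) hq, div_le_iff₀ (by positivity)]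
  nlinarith [mul_nonneg (sq_nonneg r) (mul_nonneg (sq_nonneg r) hq),
    mul_nonneg (sq_nonneg r) (sq_nonneg r),
    mul_nonneg (sq_nonneg r) (mul_nonneg (sq_nonneg r) (sq_nonneg r))]

theorem shell_le_four (hr0 : 0 < r) (hq : 0 ≤ q) :
    hr (2 * r) q - hr r q ≤ 3 / 4 * (q ^ 2 / r ^ 2) := by
  rw [hr_sub hr0 (by positivity) hq, ← mul_div_assoc, div_le_div_iff₀ (by positivity) (by positivity)]
  nlinarith [mul_nonneg (sq_nonneg r) (mul_nonneg hq (mul_nonneg hq hq)),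
    mul_nonneg (mul_nonneg hq hq) (mul_nonneg hq hq)]

/-- `h_{λ r}` in terms of `H573.hk`: `hr r q = q / (1 + q / r^2)` -/
theorem hr_eq_hk (hr0 : 0 < r) (hq : 0 ≤ q) : hr r q = q / (1 + 1 / r ^ 2 * q) := by
  unfold hr
  have h1 : r ^ 2 + q ≠ 0 := by positivity
  have h2 : 1 + 1 / r ^ 2 * q ≠ 0 := by positivity
  field_simp

end kernel

/-- the spread kernel -/
noncomputable def psi (J : ℕ) (q : ℝ) : ℝ :=
  ∑ j ∈ range (J + 1), (hr (2 ^ J) q - hr (2 ^ j) q)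

section psi

variable {q : ℝ}

theorem psi_zero (J : ℕ) : psi J 0 = 0 := by simp [psi, hr_zero]

theorem term_nonneg (hq : 0 ≤ q) {j J : ℕ} (h : j ≤ J) : 0 ≤ hr (2 ^ J) q - hr (2 ^ j) q := by
  have : (2 : ℝ) ^ j ≤ 2 ^ J := pow_le_pow_right₀ (by norm_num) h
  linarith [hr_mono_r (by positivity : (0 : ℝ) < 2 ^ j) this hq]

theorem psi_nonneg (J : ℕ) (hq : 0 ≤ q) : 0 ≤ psi J q :=
  sum_nonneg fun j hj => term_nonneg hq (Nat.lt_succ_iff.1 (mem_range.1 hj))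

/-- `psi ≤ J h_{2^J}` -/
theorem psi_le_mul (J : ℕ) (hq : 0 ≤ q) : psi J q ≤ J * hr (2 ^ J) q := by
  unfold psi
  rw [sum_range_succ, sub_self, add_zero]
  calc ∑ j ∈ range J, (hr (2 ^ J) q - hr (2 ^ j) q) ≤ ∑ _j ∈ range J, hr (2 ^ J) q :=
        sum_le_sum fun j _ => by linarith [hr_nonneg (r := 2 ^ j) hq]
    _ = J * hr (2 ^ J) q := by rw [sum_const, card_range, nsmul_eq_mul]

theorem psi_le_mul_q (J : ℕ) (hq : 0 ≤ q) : psi J q ≤ J * q :=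
  (psi_le_mul J hq).trans (mul_le_mul_of_nonneg_left (hr_le_q (by positivity) hq) (by positivity))

theorem sum_quarter (n : ℕ) : ∑ j ∈ range n, (1 / 4 : ℝ) ^ j ≤ 4 / 3 := by
  have h := geom_sum_eq (show (1 / 4 : ℝ) ≠ 1 by norm_num) n
  rw [h]
  have : (0 : ℝ) ≤ (1 / 4) ^ n := by positivity
  rw [div_le_iff_of_neg (by norm_num)]
  linarith

/-- fourth moment bound: `psi ≤ (4/3) q^2` -/
theorem psi_le_four (J : ℕ) (hq : 0 ≤ q) : psi J q ≤ 4 / 3 * q ^ 2 := by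
  unfold psi
  calc ∑ j ∈ range (J + 1), (hr (2 ^ J) q - hr (2 ^ j) q)
      ≤ ∑ j ∈ range (J + 1), q ^ 2 * (1 / 4 : ℝ) ^ j := by
        refine sum_le_sum fun j _ => ?_
        have h1 := hr_le_q (r := 2 ^ J) (by positivity) hq
        have h2 := q_sub_hr_le (r := 2 ^ j) (by positivity) hq
        have h3 : q ^ 2 / ((2 : ℝ) ^ j) ^ 2 = q ^ 2 * (1 / 4 : ℝ) ^ j := by
          rw [← pow_mul, mul_comm j 2, pow_mul, div_eq_mul_inv, one_div, inv_pow]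
          norm_num
        linarith
    _ = q ^ 2 * ∑ j ∈ range (J + 1), (1 / 4 : ℝ) ^ j := by rw [mul_sum]
    _ ≤ q ^ 2 * (4 / 3) := by gcongr; exact sum_quarter _
    _ = _ := by ring

/-- telescoping: `psi = ∑_{i < J} (i+1) (h_{2^(i+1)} - h_{2^i})` -/
theorem psi_telescope (J : ℕ) (q : ℝ) :
    psi J q = ∑ i ∈ range J, ((i : ℝ) + 1) * (hr (2 ^ (i + 1)) q - hr (2 ^ i) q) := by
  induction J with
  | zero => simp [psi]
  | succ J ih =>
    rw [sum_range_succ, ← ih]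
    unfold psi
    rw [sum_range_succ, sub_self, add_zero]
    have h1 : ∑ j ∈ range (J + 1), (hr (2 ^ (J + 1)) q - hr (2 ^ j) q) =
        ∑ j ∈ range (J + 1), ((hr (2 ^ J) q - hr (2 ^ j) q) +
          (hr (2 ^ (J + 1)) q - hr (2 ^ J) q)) := sum_congr rfl fun j _ => by ring
    rw [h1, sum_add_distrib, sum_const, card_range, nsmul_eq_mul]
    push_cast
    ring

/-- monotone in `J` -/
theorem psi_mono_J (hq : 0 ≤ q) {J J' : ℕ} (h : J ≤ J') : psi J q ≤ psi J' q := by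
  rw [psi_telescope, psi_telescope]
  refine sum_le_sum_of_subset_of_nonneg (range_mono h) fun i _ _ => ?_
  have := term_nonneg hq (Nat.le_succ i)
  exact mul_nonneg (by positivity) this

theorem sum_four_le (n : ℕ) : ∑ j ∈ range (n + 1), (4 : ℝ) ^ j ≤ 4 / 3 * 4 ^ n := by
  have h := geom_sum_eq (show (4 : ℝ) ≠ 1 by norm_num) (n + 1)
  rw [h, div_le_iff₀ (by norm_num)]
  have : (0 : ℝ) < 4 ^ n := by positivity
  rw [pow_succ]
  linarith

/-- lower bound: small scales carry at most `r^2` each -/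
theorem psi_ge (hq : 0 ≤ q) {j₀ J : ℕ} (h : j₀ ≤ J) :
    (j₀ + 1) * hr (2 ^ J) q - 4 / 3 * 4 ^ j₀ ≤ psi J q := by
  unfold psi
  have h1 : ∑ j ∈ range (j₀ + 1), (hr (2 ^ J) q - hr (2 ^ j) q) ≤
      ∑ j ∈ range (J + 1), (hr (2 ^ J) q - hr (2 ^ j) q) :=
    sum_le_sum_of_subset_of_nonneg (range_mono (by omega))
      fun j hj _ => term_nonneg hq (Nat.lt_succ_iff.1 (mem_range.1 hj))
  have h2 : ∑ j ∈ range (j₀ + 1), (hr (2 ^ J) q - (4 : ℝ) ^ j) ≤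
      ∑ j ∈ range (j₀ + 1), (hr (2 ^ J) q - hr (2 ^ j) q) := by
    refine sum_le_sum fun j _ => ?_
    have h3 := hr_le_sq (r := 2 ^ j) (by positivity) hq
    have h4 : ((2 : ℝ) ^ j) ^ 2 = 4 ^ j := by
      rw [← pow_mul, mul_comm, pow_mul]
      norm_num
    rw [h4] at h3
    linarith
  rw [sum_sub_distrib, sum_const, card_range, nsmul_eq_mul] at h2
  push_cast at h2
  linarith [sum_four_le j₀]

/-- logarithmic upper bound, for every `n` with `q ≤ 4^n` -/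
theorem psi_le_n (J : ℕ) (hq : 0 ≤ q) {n : ℕ} (hn : q ≤ 4 ^ n) : psi J q ≤ q * (n + 4 / 3) := by
  have hterm : ∀ j, hr (2 ^ J) q - hr (2 ^ j) q ≤ min q (q ^ 2 * (1 / 4 : ℝ) ^ j) := by
    intro j
    have h1 := hr_le_q (r := 2 ^ J) (by positivity) hq
    have h2 := q_sub_hr_le (r := 2 ^ j) (by positivity) hq
    have h3 : q ^ 2 / ((2 : ℝ) ^ j) ^ 2 = q ^ 2 * (1 / 4 : ℝ) ^ j := by
      rw [← pow_mul, mul_comm j 2, pow_mul, div_eq_mul_inv, one_div, inv_pow]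
      norm_num
    refine le_min ?_ (by linarith)
    linarith [hr_nonneg (r := 2 ^ j) hq]
  unfold psi
  have h1 : ∑ j ∈ range (J + 1), (hr (2 ^ J) q - hr (2 ^ j) q) ≤
      ∑ j ∈ range (n + (J + 1)), min q (q ^ 2 * (1 / 4 : ℝ) ^ j) :=
    (sum_le_sum fun j _ => hterm j).trans (sum_le_sum_of_subset_of_nonneg (range_mono (by omega))
      fun j _ _ => le_min hq (by positivity))
  have h1' := h1.trans_eq (sum_range_add (fun j => min q (q ^ 2 * (1 / 4 : ℝ) ^ j)) n (J + 1))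
  have h2 : ∑ j ∈ range n, min q (q ^ 2 * (1 / 4 : ℝ) ^ j) ≤ n * q := by
    calc _ ≤ ∑ _j ∈ range n, q := sum_le_sum fun j _ => min_le_left _ _
      _ = n * q := by rw [sum_const, card_range, nsmul_eq_mul]
  have h3 : ∑ j ∈ range (J + 1), min q (q ^ 2 * (1 / 4 : ℝ) ^ (n + j)) ≤ 4 / 3 * q := by
    calc _ ≤ ∑ j ∈ range (J + 1), (q ^ 2 * (1 / 4 : ℝ) ^ n) * (1 / 4 : ℝ) ^ j := by
          refine sum_le_sum fun j _ => (min_le_right _ _).trans (le_of_eq ?_)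
          rw [pow_add]; ring
      _ = (q ^ 2 * (1 / 4 : ℝ) ^ n) * ∑ j ∈ range (J + 1), (1 / 4 : ℝ) ^ j := by rw [mul_sum]
      _ ≤ (q ^ 2 * (1 / 4 : ℝ) ^ n) * (4 / 3) := by gcongr; exact sum_quarter _
      _ ≤ q * (4 / 3) := by
          gcongr
          have h4 : q * (1 / 4 : ℝ) ^ n ≤ 1 := by
            calc q * (1 / 4 : ℝ) ^ n ≤ 4 ^ n * (1 / 4 : ℝ) ^ n := by gcongr
              _ = 1 := by rw [← mul_pow]; norm_num
          nlinarith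
      _ = _ := by ring
  refine h1'.trans ((add_le_add h2 h3).trans (le_of_eq (by ring)))

/-- `psi ≤ q (7/3 + log (1+q) / log 4)` -/
theorem psi_le_log (J : ℕ) (hq : 0 ≤ q) :
    psi J q ≤ q * (7 / 3 + Real.log (1 + q) / Real.log 4) := by
  have h4 : 0 < Real.log 4 := Real.log_pos (by norm_num)
  set n := ⌈Real.log (1 + q) / Real.log 4⌉₊ with hn
  have h1 : Real.log (1 + q) / Real.log 4 ≤ n := Nat.le_ceil _
  have h0 : 0 ≤ Real.log (1 + q) / Real.log 4 :=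
    div_nonneg (Real.log_nonneg (by linarith)) h4.le
  have h2 : (n : ℝ) < Real.log (1 + q) / Real.log 4 + 1 := Nat.ceil_lt_add_one h0
  have h3 : q ≤ 4 ^ n := by
    rw [div_le_iff₀ h4] at h1
    have h5 : Real.log (1 + q) ≤ Real.log ((4 : ℝ) ^ n) := by
      rw [Real.log_pow]
      exact h1
    have h6 := (Real.log_le_log_iff (by linarith) (by positivity)).1 h5
    linarith
  refine (psi_le_n J hq h3).trans (mul_le_mul_of_nonneg_left ?_ hq)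
  linarith

end psi

/-! ### totals with nonnegative weights -/

section totals

variable {ι : Type*} [Fintype ι] {T : ι → ι → ℝ} {q : ι → ι → ℝ}

/-- `∑ T h_r` -/
noncomputable def DD (T q : ι → ι → ℝ) (r : ℝ) : ℝ := ∑ x, ∑ y, T x y * hr r (q x y)

/-- `∑ T psi_J` -/
noncomputable def LL (T q : ι → ι → ℝ) (J : ℕ) : ℝ := ∑ x, ∑ y, T x y * psi J (q x y)

theorem LL_eq (J : ℕ) : LL T q J = ∑ j ∈ range (J + 1), (DD T q (2 ^ J) - DD T q (2 ^ j)) := by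
  unfold LL DD psi
  simp_rw [← sum_sub_distrib, ← mul_sub, mul_sum]
  rw [sum_comm]
  rw [show (∑ y, ∑ x, ∑ i ∈ range (J + 1), T x y * (hr (2 ^ J) (q x y) - hr (2 ^ i) (q x y))) =
    ∑ y, ∑ i ∈ range (J + 1), ∑ x, T x y * (hr (2 ^ J) (q x y) - hr (2 ^ i) (q x y)) from
      sum_congr rfl fun y _ => sum_comm, sum_comm]
  refine sum_congr rfl fun i _ => sum_comm

theorem LL_nonneg (hT : ∀ x y, 0 ≤ T x y) (hq : ∀ x y, 0 ≤ q x y) (J : ℕ) : 0 ≤ LL T q J :=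
  sum_nonneg fun x _ => sum_nonneg fun y _ => mul_nonneg (hT x y) (psi_nonneg J (hq x y))

theorem LL_le (hT : ∀ x y, 0 ≤ T x y) (hq : ∀ x y, 0 ≤ q x y) (J : ℕ) :
    LL T q J ≤ J * DD T q (2 ^ J) := by
  unfold LL DD
  simp_rw [mul_sum]
  refine sum_le_sum fun x _ => sum_le_sum fun y _ => ?_
  calc T x y * psi J (q x y) ≤ T x y * (J * hr (2 ^ J) (q x y)) :=
        mul_le_mul_of_nonneg_left (psi_le_mul J (hq x y)) (hT x y)
    _ = _ := by ring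

theorem LL_le_four (hT : ∀ x y, 0 ≤ T x y) (hq : ∀ x y, 0 ≤ q x y) (J : ℕ) :
    LL T q J ≤ 4 / 3 * ∑ x, ∑ y, T x y * q x y ^ 2 := by
  unfold LL
  simp_rw [mul_sum]
  refine sum_le_sum fun x _ => sum_le_sum fun y _ => ?_
  calc T x y * psi J (q x y) ≤ T x y * (4 / 3 * q x y ^ 2) :=
        mul_le_mul_of_nonneg_left (psi_le_four J (hq x y)) (hT x y)
    _ = _ := by ring

theorem LL_ge (hT : ∀ x y, 0 ≤ T x y) (hq : ∀ x y, 0 ≤ q x y) {j₀ J : ℕ} (h : j₀ ≤ J) :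
    (j₀ + 1) * DD T q (2 ^ J) - 4 / 3 * 4 ^ j₀ * ∑ x, ∑ y, T x y ≤ LL T q J := by
  unfold LL DD
  simp_rw [mul_sum, ← sum_sub_distrib]
  refine sum_le_sum fun x _ => sum_le_sum fun y _ => ?_
  calc (j₀ + 1) * (T x y * hr (2 ^ J) (q x y)) - 4 / 3 * 4 ^ j₀ * T x y =
        T x y * ((j₀ + 1) * hr (2 ^ J) (q x y) - 4 / 3 * 4 ^ j₀) := by ring
    _ ≤ _ := mul_le_mul_of_nonneg_left (psi_ge (hq x y) h) (hT x y)

end totals

/-! ### the growth of `L` over the good part -/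

/-- lower bound at the end: `L ≥ (j₀+1) D - (4/3) 4^{j₀} Π`, with `Π ≤ C e^{-R}`, `j₀ = ⌊R / log 4⌋` -/
theorem end_bound {L D Pi C R : ℝ} {J : ℕ} (hD : 0 ≤ D) (hC : 0 ≤ C) (hR : 0 ≤ R)
    (hJ : R / Real.log 4 ≤ J) (hPi : Pi ≤ C * Real.exp (-R))
    (h : ∀ j₀ ≤ J, (j₀ + 1) * D - 4 / 3 * 4 ^ j₀ * Pi ≤ L) :
    R / Real.log 4 * D - 4 / 3 * C ≤ L := by
  have h4 : 0 < Real.log 4 := Real.log_pos (by norm_num)
  set j₀ := ⌊R / Real.log 4⌋₊ with hj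
  have hR4 : 0 ≤ R / Real.log 4 := by positivity
  have h1 : (j₀ : ℝ) ≤ R / Real.log 4 := Nat.floor_le hR4
  have h2 : R / Real.log 4 < j₀ + 1 := Nat.lt_floor_add_one _
  have h3 : j₀ ≤ J := by exact_mod_cast h1.trans hJ
  have h5 : (4 : ℝ) ^ j₀ ≤ Real.exp R := by
    rw [le_div_iff₀ h4] at h1
    rw [← Real.log_le_iff_le_exp (by positivity), Real.log_pow]
    exact h1
  have h6 := h j₀ h3
  have h7 : (4 : ℝ) ^ j₀ * Pi ≤ C := by
    calc (4 : ℝ) ^ j₀ * Pi ≤ 4 ^ j₀ * (C * Real.exp (-R)) := by gcongr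
      _ ≤ Real.exp R * (C * Real.exp (-R)) := by gcongr
      _ = C * (Real.exp R * Real.exp (-R)) := by ring
      _ = C := by rw [← Real.exp_add]; simp
  have h8 : R / Real.log 4 * D ≤ (j₀ + 1) * D := by gcongr
  have h9 : 4 / 3 * 4 ^ j₀ * Pi = 4 / 3 * (4 ^ j₀ * Pi) := by ring
  rw [h9] at h6
  linarith

/-- **growth**: `L(S) - L(0) ≥ c S` with `c = d₀ / (2 K log 4)`, if `D(S) ≥ d₀`, `S ≤ K R`,
`Π(S) ≤ C e^{-R}` and `L(0) + (4/3) C ≤ d₀ R / (2 log 4)` -/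
theorem growth {L0 LS D Pi C R S K d₀ : ℝ} {J : ℕ} (hd : 0 ≤ d₀) (hD : d₀ ≤ D) (hC : 0 ≤ C)
    (hR : 0 ≤ R) (hK : 0 < K) (hS : S ≤ K * R)
    (hJ : R / Real.log 4 ≤ J) (hPi : Pi ≤ C * Real.exp (-R))
    (h : ∀ j₀ ≤ J, (j₀ + 1) * D - 4 / 3 * 4 ^ j₀ * Pi ≤ LS)
    (h0 : L0 + 4 / 3 * C ≤ d₀ * R / (2 * Real.log 4)) :
    d₀ / (2 * K * Real.log 4) * S ≤ LS - L0 := by
  have h4 : 0 < Real.log 4 := Real.log_pos (by norm_num)
  have h1 := end_bound (hd.trans hD) hC hR hJ hPi h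
  have h2 : R / Real.log 4 * d₀ ≤ R / Real.log 4 * D := by gcongr
  have h3 : d₀ / (2 * K * Real.log 4) * S ≤ d₀ * R / (2 * Real.log 4) := by
    calc d₀ / (2 * K * Real.log 4) * S ≤ d₀ / (2 * K * Real.log 4) * (K * R) := by gcongr
      _ = d₀ * R / (2 * Real.log 4) := by field_simp
  have h5 : R / Real.log 4 * d₀ = d₀ * R / (2 * Real.log 4) + d₀ * R / (2 * Real.log 4) := by
    field_simp
    ring
  linarith

end Vale.Agent.P365.T2.LS836
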