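import Vale.Agent.P365.J376.V3
import Vale.Agent.P365.T2.LBd836

/-!
# P365 T2, row X-LS: the averaged totals of a kernel

`AvK k` = average (labels and potentials) of `∑ T_xy k_xy`, `T_xy = e_x e_y K_xy`: linear and
monotone in the kernel `k`; the spread functional `L = AvK psi` between the `D_r = AvK h_r`.
-/

set_option linter.all false

namespace Vale.Agent.P365.T2.LS836

open P365L P365O P365T1 P365L.TL Vale.Agent.P365.J376 Matrix Complex MeasureTheory Filter Topology Set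
open scoped ComplexConjugate

section avk

variable {ι : Type*} [Fintype ι] [DecidableEq ι] (A : Matrix ι ι ℝ)
  {Λ : Type*} [Fintype Λ] (p : Λ → ℝ) (ν : Λ → Measure ℝ) (E : ℝ)

/-- `T_xy = e_x e_y K_xy` -/
noncomputable def TT (W : ι → ℂ) (x y : ι) : ℝ := (-(W x).im) * (-(W y).im) * KK A W x y

/-- the average of `∑ T_xy k_xy` -/
noncomputable def AvK (e : (ι → Λ) → ι → ℝ) (k : ι → ι → ℝ) : ℝ :=
  AvG p ν E e fun _ W => ∑ x, ∑ y, TT A W x y * k x y

variable {A p ν E}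

theorem TT_nonneg {W : ι → ℂ} (hW : ∀ x, (W x).im < 0) (x y : ι) : 0 ≤ TT A W x y :=
  mul_nonneg (mul_nonneg (by linarith [hW x]) (by linarith [hW y])) (KK_nonneg x y)

theorem TT_le_one (hA : A.IsSymm) {W : ι → ℂ} (hW : ∀ x, (W x).im < 0) (x y : ι) :
    TT A W x y ≤ 1 := e_mul_KK_mul_e_le hA hW x y

theorem TT_symm (hA : A.IsSymm) (W : ι → ℂ) (x y : ι) : TT A W x y = TT A W y x := by
  unfold TT
  rw [KK_symm hA x y]
  ring

theorem sum_TT (hA : A.IsSymm) {W : ι → ℂ} (hW : ∀ x, (W x).im < 0) (x : ι) :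
    ∑ y, TT A W x y = (-(W x).im) * mm A W x := by
  rw [mm_eq hA hW, Finset.mul_sum]
  refine Finset.sum_congr rfl fun y _ => ?_
  unfold TT
  ring

theorem measurable_TT_WV (E : ℝ) (e : ι → ℝ) (x y : ι) :
    Measurable fun v : ι → ℝ => TT A (WV E e v) x y := by
  unfold TT
  have h0 : ∀ (v : ι → ℝ) (a : ι), (WV E e v a).im = -(e a) := fun v a => by
    rw [WV_eq_Wp, J376.Wp_im]
  simp only [h0]
  exact (measurable_KK_Wp (a := fun (v : ι → ℝ) x => v x - E) (h := fun _ => e)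
    (fun x => measurable_coord_sub E x) (fun x => measurable_const) x y).const_mul _

theorem integrable_TT (hA : A.IsSymm) (m : Measure (ι → ℝ)) [IsFiniteMeasure m] (E : ℝ)
    {e : ι → ℝ} (he : ∀ x, 0 < e x) (x y : ι) :
    Integrable (fun v => TT A (WV E e v) x y) m := by
  refine Integrable.mono' (integrable_const (1 : ℝ))
    (measurable_TT_WV E e x y).aestronglyMeasurable (Eventually.of_forall fun v => ?_)
  rw [Real.norm_eq_abs, abs_of_nonneg (TT_nonneg (WV_neg he v) x y)]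
  exact TT_le_one hA (WV_neg he v) x y

theorem integrable_sum_TT (hA : A.IsSymm) (m : Measure (ι → ℝ)) [IsFiniteMeasure m] (E : ℝ)
    {e : ι → ℝ} (he : ∀ x, 0 < e x) (k : ι → ι → ℝ) :
    Integrable (fun v => ∑ x, ∑ y, TT A (WV E e v) x y * k x y) m :=
  integrable_finset_sum _ fun x _ => integrable_finset_sum _ fun y _ =>
    (integrable_TT hA m E he x y).mul_const _

variable [∀ k, IsProbabilityMeasure (ν k)]

theorem AvK_mono (hA : A.IsSymm) (hp : ∀ k, 0 ≤ p k) {e : (ι → Λ) → ι → ℝ}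
    (he : ∀ l x, 0 < e l x) {k k' : ι → ι → ℝ} (h : ∀ x y, k x y ≤ k' x y) :
    AvK A p ν E e k ≤ AvK A p ν E e k' :=
  AvG_mono hp (fun l => integrable_sum_TT hA _ E (he l) k)
    (fun l => integrable_sum_TT hA _ E (he l) k') fun l v =>
      Finset.sum_le_sum fun x _ => Finset.sum_le_sum fun y _ =>
        mul_le_mul_of_nonneg_left (h x y) (TT_nonneg (WV_neg (he l) v) x y)

omit [∀ k, IsProbabilityMeasure (ν k)] in
theorem AvK_zero (e : (ι → Λ) → ι → ℝ) : AvK A p ν E e (fun _ _ => 0) = 0 := by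
  unfold AvK AvG Ex
  simp

theorem AvK_nonneg (hA : A.IsSymm) (hp : ∀ k, 0 ≤ p k) {e : (ι → Λ) → ι → ℝ}
    (he : ∀ l x, 0 < e l x) {k : ι → ι → ℝ} (h : ∀ x y, 0 ≤ k x y) :
    0 ≤ AvK A p ν E e k := by
  rw [← AvK_zero (A := A) (p := p) (ν := ν) (E := E) e]
  exact AvK_mono hA hp he h

theorem AvK_add (hA : A.IsSymm) {e : (ι → Λ) → ι → ℝ} (he : ∀ l x, 0 < e l x)
    (k k' : ι → ι → ℝ) :
    AvK A p ν E e (fun x y => k x y + k' x y) = AvK A p ν E e k + AvK A p ν E e k' := by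
  unfold AvK AvG Ex
  rw [← Finset.sum_add_distrib]
  refine Finset.sum_congr rfl fun l _ => ?_
  rw [← mul_add, ← integral_add (integrable_sum_TT hA _ E (he l) k)
    (integrable_sum_TT hA _ E (he l) k')]
  simp only [mul_add, Finset.sum_add_distrib]

omit [∀ k, IsProbabilityMeasure (ν k)] in
theorem AvK_smul (e : (ι → Λ) → ι → ℝ) (c : ℝ) (k : ι → ι → ℝ) :
    AvK A p ν E e (fun x y => c * k x y) = c * AvK A p ν E e k := by
  unfold AvK AvG Ex
  rw [Finset.mul_sum]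
  refine Finset.sum_congr rfl fun l _ => ?_
  rw [mul_left_comm]
  congr 1
  rw [← integral_const_mul]
  congr 1
  funext v
  simp only [Finset.mul_sum]
  refine Finset.sum_congr rfl fun x _ => Finset.sum_congr rfl fun y _ => ?_
  ring

theorem AvK_sub (hA : A.IsSymm) {e : (ι → Λ) → ι → ℝ} (he : ∀ l x, 0 < e l x)
    (k k' : ι → ι → ℝ) :
    AvK A p ν E e (fun x y => k x y - k' x y) = AvK A p ν E e k - AvK A p ν E e k' := by
  have h1 := AvK_add (p := p) (ν := ν) (E := E) hA he k (fun x y => (-1) * k' x y)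
  rw [AvK_smul] at h1
  have h2 : (fun x y => k x y - k' x y) = fun x y => k x y + (-1) * k' x y := by
    funext x y; ring
  rw [h2, h1]
  ring

theorem AvK_sum (hA : A.IsSymm) {e : (ι → Λ) → ι → ℝ} (he : ∀ l x, 0 < e l x)
    {σ : Type*} (s : Finset σ) (k : σ → ι → ι → ℝ) :
    AvK A p ν E e (fun x y => ∑ i ∈ s, k i x y) = ∑ i ∈ s, AvK A p ν E e (k i) := by
  classical
  induction s using Finset.induction_on with
  | empty => simpa using AvK_zero (A := A) (p := p) (ν := ν) (E := E) e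
  | insert a s ha ih =>
    rw [Finset.sum_insert ha, ← ih, ← AvK_add hA he]
    congr 1
    funext x y
    rw [Finset.sum_insert ha]

omit [∀ k, IsProbabilityMeasure (ν k)] in
/-- a kernel given by a finite family is an energy -/
theorem AvK_eq_PhiG {κ : Type*} [Fintype κ] (e : (ι → Λ) → ι → ℝ) {k : ι → ι → ℝ}
    {f : κ → ι → ℝ} (h : ∀ x y, k x y = ∑ i, (f i x - f i y) ^ 2) :
    AvK A p ν E e k = PhiG A p ν E f e := by
  unfold AvK PhiG AvG Ex
  refine Finset.sum_congr rfl fun l _ => ?_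
  congr 2
  funext v
  show ∑ x, ∑ y, TT A (WV E (e l) v) x y * k x y = ∑ i, En A (WV E (e l) v) (f i)
  unfold En
  have h2 : ∑ i, ∑ x, ∑ y, (-(WV E (e l) v x).im) * (-(WV E (e l) v y).im) *
      KK A (WV E (e l) v) x y * (f i x - f i y) ^ 2 =
      ∑ x, ∑ y, ∑ i, (-(WV E (e l) v x).im) * (-(WV E (e l) v y).im) *
        KK A (WV E (e l) v) x y * (f i x - f i y) ^ 2 := by
    rw [Finset.sum_comm]
    exact Finset.sum_congr rfl fun x _ => Finset.sum_comm
  rw [h2]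
  refine Finset.sum_congr rfl fun x _ => Finset.sum_congr rfl fun y _ => ?_
  rw [h x y, Finset.mul_sum]
  rfl

/-- the mass: `AvK 1 = Av ∑ e_x m_x` -/
theorem AvK_one (hA : A.IsSymm) {e : (ι → Λ) → ι → ℝ} (he : ∀ l x, 0 < e l x) :
    AvK A p ν E e (fun _ _ => 1) = AvG p ν E e fun _ W => ∑ x, (-(W x).im) * mm A W x := by
  unfold AvK AvG Ex
  refine Finset.sum_congr rfl fun l _ => ?_
  congr 2
  funext v
  simp only [mul_one]
  exact Finset.sum_congr rfl fun x _ => sum_TT hA (WV_neg (he l) v) x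

end avk

/-! ### the spread functional -/

section spread

variable {ι : Type*} [Fintype ι] [DecidableEq ι] {A : Matrix ι ι ℝ}
  {Λ : Type*} [Fintype Λ] {p : Λ → ℝ} {ν : Λ → Measure ℝ} {E : ℝ}

variable (A p ν E) in
/-- `D_r = Av ∑ T_xy h_r(q_xy)` -/
noncomputable def DA (e : (ι → Λ) → ι → ℝ) (q : ι → ι → ℝ) (r : ℝ) : ℝ :=
  AvK A p ν E e fun x y => hr r (q x y)

variable (A p ν E) in
/-- `L = Av ∑ T_xy psi(q_xy)` -/
noncomputable def LA (e : (ι → Λ) → ι → ℝ) (q : ι → ι → ℝ) (J : ℕ) : ℝ :=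
  AvK A p ν E e fun x y => psi J (q x y)

variable [∀ k, IsProbabilityMeasure (ν k)] (hA : A.IsSymm) (hp : ∀ k, 0 ≤ p k)
  {e : (ι → Λ) → ι → ℝ} (he : ∀ l x, 0 < e l x) {q : ι → ι → ℝ} (hq : ∀ x y, 0 ≤ q x y)

include hA he in
/-- `L = ∑_{j ≤ J} (D_{2^J} - D_{2^j})` -/
theorem LA_eq (J : ℕ) : LA A p ν E e q J =
    ∑ j ∈ Finset.range (J + 1), (DA A p ν E e q (2 ^ J) - DA A p ν E e q (2 ^ j)) := by
  unfold LA DA psi
  rw [AvK_sum hA he]
  exact Finset.sum_congr rfl fun j _ => AvK_sub hA he _ _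

include hA he in
/-- `L = ∑_{i < J} (i+1) (D_{2^(i+1)} - D_{2^i})` -/
theorem LA_telescope (J : ℕ) : LA A p ν E e q J =
    ∑ i ∈ Finset.range J, ((i : ℝ) + 1) *
      (DA A p ν E e q (2 ^ (i + 1)) - DA A p ν E e q (2 ^ i)) := by
  unfold LA DA
  have h : (fun x y => psi J (q x y)) = fun x y => ∑ i ∈ Finset.range J, ((i : ℝ) + 1) *
      (hr (2 ^ (i + 1)) (q x y) - hr (2 ^ i) (q x y)) := by
    funext x y
    exact psi_telescope J _
  rw [h, AvK_sum hA he]
  refine Finset.sum_congr rfl fun i _ => ?_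
  rw [AvK_smul, AvK_sub hA he]

include hA hp he hq

theorem DA_nonneg (r : ℝ) : 0 ≤ DA A p ν E e q r :=
  AvK_nonneg hA hp he fun x y => hr_nonneg (hq x y)

theorem DA_mono {r r' : ℝ} (hr0 : 0 < r) (h : r ≤ r') : DA A p ν E e q r ≤ DA A p ν E e q r' :=
  AvK_mono hA hp he fun x y => hr_mono_r hr0 h (hq x y)

theorem DA_le {r : ℝ} (hr0 : 0 < r) : DA A p ν E e q r ≤ AvK A p ν E e q :=
  AvK_mono hA hp he fun x y => hr_le_q hr0 (hq x y)

theorem DA_le_mass {r : ℝ} (hr0 : 0 < r) :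
    DA A p ν E e q r ≤ r ^ 2 * AvK A p ν E e (fun _ _ => 1) := by
  rw [← AvK_smul]
  exact AvK_mono hA hp he fun x y => (hr_le_sq hr0 (hq x y)).trans (le_of_eq (mul_one _).symm)

theorem LA_nonneg (J : ℕ) : 0 ≤ LA A p ν E e q J :=
  AvK_nonneg hA hp he fun x y => psi_nonneg J (hq x y)

theorem LA_le (J : ℕ) : LA A p ν E e q J ≤ J * DA A p ν E e q (2 ^ J) := by
  unfold DA
  rw [← AvK_smul]
  exact AvK_mono hA hp he fun x y => psi_le_mul J (hq x y)

theorem LA_le_four (J : ℕ) :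
    LA A p ν E e q J ≤ 4 / 3 * AvK A p ν E e (fun x y => q x y ^ 2) := by
  rw [← AvK_smul]
  exact AvK_mono hA hp he fun x y => psi_le_four J (hq x y)

theorem LA_ge {j₀ J : ℕ} (h : j₀ ≤ J) :
    (j₀ + 1) * DA A p ν E e q (2 ^ J) - 4 / 3 * 4 ^ j₀ * AvK A p ν E e (fun _ _ => 1) ≤
      LA A p ν E e q J := by
  unfold DA LA
  rw [← AvK_smul, ← AvK_smul, ← AvK_sub hA he]
  exact AvK_mono hA hp he fun x y => by
    have := psi_ge (hq x y) h
    linarith

/-- **end of the good part**: `L ≥ (R / log 4) D_{2^J} - (4/3) C` if the mass is `≤ C e^{-R}` -/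
theorem LA_end {C R : ℝ} {J : ℕ} (hC : 0 ≤ C) (hR : 0 ≤ R) (hJ : R / Real.log 4 ≤ J)
    (hPi : AvK A p ν E e (fun _ _ => 1) ≤ C * Real.exp (-R)) :
    R / Real.log 4 * DA A p ν E e q (2 ^ J) - 4 / 3 * C ≤ LA A p ν E e q J :=
  end_bound (DA_nonneg hA hp he hq _) hC hR hJ hPi fun j₀ hj => LA_ge hA hp he hq hj

/-- **growth of `L`** between two profiles `e₀` (start) and `e` (end): `c = d₀ / (2 K log 4)` -/
theorem LA_growth {C R S K d₀ L0 : ℝ} {J : ℕ} (hd : 0 ≤ d₀)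
    (hD : d₀ ≤ DA A p ν E e q (2 ^ J)) (hC : 0 ≤ C) (hR : 0 ≤ R) (hK : 0 < K) (hS : S ≤ K * R)
    (hJ : R / Real.log 4 ≤ J) (hPi : AvK A p ν E e (fun _ _ => 1) ≤ C * Real.exp (-R))
    (h0 : L0 + 4 / 3 * C ≤ d₀ * R / (2 * Real.log 4)) :
    d₀ / (2 * K * Real.log 4) * S ≤ LA A p ν E e q J - L0 :=
  growth hd hD hC hR hK hS hJ hPi (fun j₀ hj => LA_ge hA hp he hq hj) h0

end spread

end Vale.Agent.P365.T2.LS836
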