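import Mathlib.Analysis.InnerProductSpace.Basic
import Mathlib.MeasureTheory.Integral.IntervalIntegral.Basic
import Mathlib.MeasureTheory.Integral.IntervalIntegral.FundThmCalculus
import Mathlib.Tactic

set_option autoImplicit false

/-!
P365-T2, section X, pair functional: the layer-cake identity and the quantile step
(abstract finite form; helper629, note 19391 (4), (6)).
-/

namespace P365T2.Lay

open Finset MeasureTheory intervalIntegral

variable {ι : Type*} {E : Type*} [NormedAddCommGroup E] [InnerProductSpace ℝ E]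

/-! ### moments -/

/-- mass of a set -/
def m0 (P : ι → ℝ) (A : Finset ι) : ℝ := ∑ i ∈ A, P i

/-- first moment -/
def m1 (P : ι → ℝ) (X : ι → E) (A : Finset ι) : E := ∑ i ∈ A, P i • X i

/-- second moment -/
def m2 (P : ι → ℝ) (X : ι → E) (A : Finset ι) : ℝ := ∑ i ∈ A, P i * ‖X i‖ ^ 2

theorem norm_m1_sq (P : ι → ℝ) (X : ι → E) (A : Finset ι) :
    ‖m1 P X A‖ ^ 2 = ∑ i ∈ A, ∑ j ∈ A, P i * P j * inner ℝ (X i) (X j) := by
  unfold m1
  rw [← real_inner_self_eq_norm_sq, sum_inner]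
  refine Finset.sum_congr rfl fun i _ => ?_
  rw [inner_sum]
  refine Finset.sum_congr rfl fun j _ => ?_
  rw [real_inner_smul_left, real_inner_smul_right]
  ring

/-- `∑∑ p p |X - X'|² = 2 m0 m2 - 2 |m1|²` -/
theorem sum_dist_sq (P : ι → ℝ) (X : ι → E) (A : Finset ι) :
    ∑ i ∈ A, ∑ j ∈ A, P i * P j * ‖X i - X j‖ ^ 2 =
      2 * (m0 P A * m2 P X A) - 2 * ‖m1 P X A‖ ^ 2 := by
  rw [norm_m1_sq]
  have h1 : ∀ i ∈ A, ∀ j ∈ A, P i * P j * ‖X i - X j‖ ^ 2 =
      (P i * ‖X i‖ ^ 2) * P j + P i * (P j * ‖X j‖ ^ 2) -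
        2 * (P i * P j * inner ℝ (X i) (X j)) := by
    intro i _ j _
    rw [norm_sub_sq_real]
    ring
  rw [Finset.sum_congr rfl fun i hi => Finset.sum_congr rfl fun j hj => h1 i hi j hj]
  simp only [Finset.sum_sub_distrib, Finset.sum_add_distrib]
  simp only [← Finset.mul_sum, ← Finset.sum_mul]
  unfold m0 m2
  ring

/-- Cauchy-Schwarz -/
theorem norm_m1_le (P : ι → ℝ) (X : ι → E) (A : Finset ι) (hP : ∀ i, 0 ≤ P i) :
    ‖m1 P X A‖ ^ 2 ≤ m0 P A * m2 P X A := by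
  have h1 := sum_dist_sq P X A
  have h2 : 0 ≤ ∑ i ∈ A, ∑ j ∈ A, P i * P j * ‖X i - X j‖ ^ 2 :=
    Finset.sum_nonneg fun i _ => Finset.sum_nonneg fun j _ =>
      mul_nonneg (mul_nonneg (hP i) (hP j)) (sq_nonneg _)
  linarith

theorem m0_nonneg (P : ι → ℝ) (A : Finset ι) (hP : ∀ i, 0 ≤ P i) : 0 ≤ m0 P A :=
  Finset.sum_nonneg fun i _ => hP i

theorem m2_nonneg (P : ι → ℝ) (X : ι → E) (A : Finset ι) (hP : ∀ i, 0 ≤ P i) : 0 ≤ m2 P X A :=
  Finset.sum_nonneg fun i _ => mul_nonneg (hP i) (sq_nonneg _)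

theorem m0_mono {P : ι → ℝ} (hP : ∀ i, 0 ≤ P i) {A B : Finset ι} (h : A ⊆ B) :
    m0 P A ≤ m0 P B := Finset.sum_le_sum_of_subset_of_nonneg h fun i _ _ => hP i

theorem m2_mono {P : ι → ℝ} (X : ι → E) (hP : ∀ i, 0 ≤ P i) {A B : Finset ι} (h : A ⊆ B) :
    m2 P X A ≤ m2 P X B :=
  Finset.sum_le_sum_of_subset_of_nonneg h fun i _ _ => mul_nonneg (hP i) (sq_nonneg _)

/-! ### the layers -/

section layers

variable [Fintype ι] [DecidableEq ι]

/-- `{g ≤ t}` -/
noncomputable def lay (g : ι → ℝ) (t : ℝ) : Finset ι := univ.filter (fun i => g i ≤ t)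

/-- the indicator of `{c ≤ t}` as a function of `t` -/
noncomputable def stp (c t : ℝ) : ℝ := if c ≤ t then 1 else 0

theorem stp_mono (c : ℝ) : Monotone (stp c) := by
  intro s t hst
  unfold stp
  split_ifs with h1 h2
  · exact le_rfl
  · exact absurd (h1.trans hst) h2
  · norm_num
  · exact le_rfl

theorem stp_mul (c d t : ℝ) : stp c t * stp d t = stp (max c d) t := by
  unfold stp
  by_cases h1 : c ≤ t <;> by_cases h2 : d ≤ t <;> simp [h1, h2]

theorem stp_int (c a b : ℝ) : IntervalIntegrable (stp c) volume a b :=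
  (stp_mono c).intervalIntegrable

theorem integral_stp {c T : ℝ} (h0 : 0 ≤ c) (hT : c ≤ T) :
    ∫ t in (0 : ℝ)..T, (1 - stp c t) = c := by
  have h1 : ∫ t in (0 : ℝ)..T, (1 - stp c t) =
      (∫ t in (0 : ℝ)..c, (1 - stp c t)) + ∫ t in c..T, (1 - stp c t) :=
    (integral_add_adjacent_intervals ((intervalIntegrable_const).sub (stp_int c _ _))
      ((intervalIntegrable_const).sub (stp_int c _ _))).symm
  rw [h1]
  have h2 : ∫ t in (0 : ℝ)..c, (1 - stp c t) = ∫ _t in (0 : ℝ)..c, (1 : ℝ) := by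
    apply integral_congr_Ioo_of_le h0
    intro t ht
    show 1 - stp c t = 1
    unfold stp
    rw [if_neg (not_le.2 ht.2), sub_zero]
  have h3 : ∫ t in c..T, (1 - stp c t) = ∫ _t in c..T, (0 : ℝ) := by
    apply integral_congr
    intro t ht
    rw [Set.uIcc_of_le hT] at ht
    show 1 - stp c t = 0
    unfold stp
    rw [if_pos ht.1, sub_self]
  rw [h2, h3]
  simp

theorem sum_lay (g : ι → ℝ) (t : ℝ) (F : ι → ℝ) :
    ∑ i ∈ lay g t, F i = ∑ i, F i * stp (g i) t := by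
  unfold lay
  rw [Finset.sum_filter]
  refine Finset.sum_congr rfl fun i _ => ?_
  unfold stp
  split_ifs <;> simp

theorem m0_compl (P : ι → ℝ) (A : Finset ι) : m0 P Aᶜ = m0 P univ - m0 P A := by
  unfold m0
  have := Finset.sum_add_sum_compl A P
  linarith

theorem m2_compl (P : ι → ℝ) (X : ι → E) (A : Finset ι) :
    m2 P X Aᶜ = m2 P X univ - m2 P X A := by
  unfold m2
  have := Finset.sum_add_sum_compl A (fun i => P i * ‖X i‖ ^ 2)
  linarith

/-- pointwise form of the layer-cake identity -/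
theorem lay_point (P : ι → ℝ) (X : ι → E) (g : ι → ℝ) (hP1 : ∑ i, P i = 1) (t : ℝ) :
    ∑ i, ∑ j, P i * P j * ‖X i - X j‖ ^ 2 * (1 - stp (max (g i) (g j)) t) -
      2 * ∑ i, P i * ‖X i‖ ^ 2 * (1 - stp (g i) t) =
    2 * (m0 P (lay g t)ᶜ * m2 P X (lay g t) + ‖m1 P X (lay g t)‖ ^ 2 - ‖m1 P X univ‖ ^ 2) := by
  have h1 : ∑ i, ∑ j, P i * P j * ‖X i - X j‖ ^ 2 * (1 - stp (max (g i) (g j)) t) =
      ∑ i, ∑ j, P i * P j * ‖X i - X j‖ ^ 2 -
        ∑ i ∈ lay g t, ∑ j ∈ lay g t, P i * P j * ‖X i - X j‖ ^ 2 := by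
    rw [sum_lay, ← Finset.sum_sub_distrib]
    refine Finset.sum_congr rfl fun i _ => ?_
    rw [sum_lay, Finset.sum_mul, ← Finset.sum_sub_distrib]
    refine Finset.sum_congr rfl fun j _ => ?_
    rw [← stp_mul]
    ring
  have h2 : ∑ i, P i * ‖X i‖ ^ 2 * (1 - stp (g i) t) = m2 P X univ - m2 P X (lay g t) := by
    unfold m2
    rw [sum_lay, ← Finset.sum_sub_distrib]
    refine Finset.sum_congr rfl fun i _ => ?_
    ring
  rw [h1, h2, sum_dist_sq, sum_dist_sq, m0_compl]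
  have h3 : m0 P univ = 1 := hP1
  rw [h3]
  ring

/-- the layer-cake identity -/
theorem lay_identity (P : ι → ℝ) (X : ι → E) (g : ι → ℝ) (T : ℝ) (hP1 : ∑ i, P i = 1)
    (hg : ∀ i, 0 ≤ g i ∧ g i ≤ T) :
    ∑ i, ∑ j, P i * P j * ‖X i - X j‖ ^ 2 * max (g i) (g j) - 2 * ∑ i, P i * ‖X i‖ ^ 2 * g i =
      ∫ t in (0 : ℝ)..T, 2 * (m0 P (lay g t)ᶜ * m2 P X (lay g t) + ‖m1 P X (lay g t)‖ ^ 2 -
        ‖m1 P X univ‖ ^ 2) := by
  have hint : ∀ c a : ℝ, IntervalIntegrable (fun t => a * (1 - stp c t)) volume 0 T :=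
    fun c a => ((intervalIntegrable_const).sub (stp_int c _ _)).const_mul a
  have hsum : ∀ F : ι → ℝ → ℝ, (∀ i, IntervalIntegrable (F i) volume 0 T) →
      IntervalIntegrable (fun t => ∑ i, F i t) volume 0 T := by
    intro F hF
    have h := IntervalIntegrable.sum univ (f := F) (μ := volume) (a := 0) (b := T)
      (fun i _ => hF i)
    have e1 : (fun t => ∑ i, F i t) = ∑ i, F i := by
      funext t
      rw [Finset.sum_apply]
    rw [e1]
    exact h
  have hA : ∀ i, IntervalIntegrable (fun t => ∑ j, P i * P j * ‖X i - X j‖ ^ 2 *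
      (1 - stp (max (g i) (g j)) t)) volume 0 T := fun i => hsum _ fun j => hint _ _
  have hB : IntervalIntegrable (fun t => ∑ i, P i * ‖X i‖ ^ 2 * (1 - stp (g i) t)) volume 0 T :=
    hsum _ fun i => hint _ _
  simp only [← lay_point P X g hP1]
  rw [intervalIntegral.integral_sub (hsum _ hA) (hB.const_mul 2),
    intervalIntegral.integral_finsetSum (fun i _ => hA i), intervalIntegral.integral_const_mul,
    intervalIntegral.integral_finsetSum (fun i _ => hint _ _)]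
  congr 1
  · refine Finset.sum_congr rfl fun i _ => ?_
    rw [intervalIntegral.integral_finsetSum (fun j _ => hint _ _)]
    refine Finset.sum_congr rfl fun j _ => ?_
    rw [intervalIntegral.integral_const_mul,
      integral_stp ((hg i).1.trans (le_max_left _ _)) (max_le (hg i).2 (hg j).2)]
  · congr 1
    refine Finset.sum_congr rfl fun i _ => ?_
    rw [intervalIntegral.integral_const_mul, integral_stp (hg i).1 (hg i).2]

/-- one layer of the quantile step -/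
theorem quant_point (P : ι → ℝ) (X : ι → E) (hP : ∀ i, 0 ≤ P i) (A B : Finset ι)
    {δ η : ℝ} (hB : m0 P Bᶜ ≤ η) (hq : δ ≤ m0 P (Aᶜ ∩ B))
    (hgood : 6 * (η * m2 P X Bᶜ) ≤ δ * m2 P X B) :
    δ / 2 * m2 P X B ≤ m0 P Aᶜ * m2 P X A +
      (m0 P (Aᶜ ∩ B) * m2 P X (Aᶜ ∩ B) - ‖m1 P X (Aᶜ ∩ B)‖ ^ 2) +
      3 * ‖m1 P X A‖ ^ 2 + 3 * ‖m1 P X univ‖ ^ 2 := by
  -- splitting of the first moment
  have hA : m1 P X univ = m1 P X A + m1 P X (Aᶜ ∩ B) + m1 P X (Aᶜ ∩ Bᶜ) := by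
    unfold m1
    have e1 := Finset.sum_add_sum_compl A (fun i => P i • X i)
    have e2 : ∑ i ∈ Aᶜ, P i • X i = ∑ i ∈ Aᶜ ∩ B, P i • X i + ∑ i ∈ Aᶜ ∩ Bᶜ, P i • X i := by
      rw [← Finset.sum_inter_add_sum_sdiff Aᶜ B (fun i => P i • X i)]
      congr 1
      apply Finset.sum_congr _ fun _ _ => rfl
      ext i
      simp
    rw [← e1, e2, add_assoc]
  have h1 : ‖m1 P X (Aᶜ ∩ Bᶜ)‖ ^ 2 ≤ δ / 6 * m2 P X B := by
    have h2 := norm_m1_le P X (Aᶜ ∩ Bᶜ) hP
    have h3 : m0 P (Aᶜ ∩ Bᶜ) ≤ η := (m0_mono hP Finset.inter_subset_right).trans hB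
    have h4 : m2 P X (Aᶜ ∩ Bᶜ) ≤ m2 P X Bᶜ := m2_mono X hP Finset.inter_subset_right
    have h5 := m2_nonneg P X (Aᶜ ∩ Bᶜ) hP
    have h6 := m2_nonneg P X Bᶜ hP
    have h7 := m0_nonneg P (Aᶜ ∩ Bᶜ) hP
    have h8 : m0 P (Aᶜ ∩ Bᶜ) * m2 P X (Aᶜ ∩ Bᶜ) ≤ η * m2 P X Bᶜ :=
      mul_le_mul h3 h4 h5 (h7.trans h3)
    linarith
  have h2 : ‖m1 P X (Aᶜ ∩ B)‖ ^ 2 ≤ 3 * ‖m1 P X univ‖ ^ 2 + 3 * ‖m1 P X A‖ ^ 2 +
      3 * ‖m1 P X (Aᶜ ∩ Bᶜ)‖ ^ 2 := by
    have h3 : m1 P X (Aᶜ ∩ B) = m1 P X univ - m1 P X A - m1 P X (Aᶜ ∩ Bᶜ) := by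
      rw [hA]; abel
    have h4 : ‖m1 P X (Aᶜ ∩ B)‖ ≤ ‖m1 P X univ‖ + ‖m1 P X A‖ + ‖m1 P X (Aᶜ ∩ Bᶜ)‖ := by
      rw [h3]
      exact (norm_sub_le _ _).trans (add_le_add_left (norm_sub_le _ _) _)
    have h5 := norm_nonneg (m1 P X (Aᶜ ∩ B))
    have h6 := norm_nonneg (m1 P X univ)
    have h7 := norm_nonneg (m1 P X A)
    have h8 := norm_nonneg (m1 P X (Aᶜ ∩ Bᶜ))
    calc ‖m1 P X (Aᶜ ∩ B)‖ ^ 2 ≤ (‖m1 P X univ‖ + ‖m1 P X A‖ + ‖m1 P X (Aᶜ ∩ Bᶜ)‖) ^ 2 :=
          pow_le_pow_left₀ h5 h4 2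
      _ ≤ _ := by
          nlinarith [sq_nonneg (‖m1 P X univ‖ - ‖m1 P X A‖),
            sq_nonneg (‖m1 P X univ‖ - ‖m1 P X (Aᶜ ∩ Bᶜ)‖),
            sq_nonneg (‖m1 P X A‖ - ‖m1 P X (Aᶜ ∩ Bᶜ)‖)]
  -- second moment of `B`
  have h3 : m2 P X B ≤ m2 P X A + m2 P X (Aᶜ ∩ B) := by
    unfold m2
    rw [← Finset.sum_inter_add_sum_sdiff B A (fun i => P i * ‖X i‖ ^ 2)]
    apply add_le_add
    · exact Finset.sum_le_sum_of_subset_of_nonneg Finset.inter_subset_right
        fun i _ _ => mul_nonneg (hP i) (sq_nonneg _)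
    · apply le_of_eq
      apply Finset.sum_congr _ fun _ _ => rfl
      ext i
      simp [and_comm]
  have h4 : m0 P (Aᶜ ∩ B) * m2 P X B ≤ m0 P Aᶜ * m2 P X A +
      m0 P (Aᶜ ∩ B) * m2 P X (Aᶜ ∩ B) := by
    have h5 := m0_nonneg P (Aᶜ ∩ B) hP
    have h6 : m0 P (Aᶜ ∩ B) ≤ m0 P Aᶜ := m0_mono hP Finset.inter_subset_left
    have h7 := m2_nonneg P X A hP
    calc m0 P (Aᶜ ∩ B) * m2 P X B ≤ m0 P (Aᶜ ∩ B) * (m2 P X A + m2 P X (Aᶜ ∩ B)) :=
          mul_le_mul_of_nonneg_left h3 h5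
      _ = m0 P (Aᶜ ∩ B) * m2 P X A + m0 P (Aᶜ ∩ B) * m2 P X (Aᶜ ∩ B) := by ring
      _ ≤ _ := add_le_add_left (mul_le_mul_of_nonneg_right h6 h7) _
  have h5 : δ * m2 P X B ≤ m0 P (Aᶜ ∩ B) * m2 P X B :=
    mul_le_mul_of_nonneg_right hq (m2_nonneg P X B hP)
  linarith

/-- first layer integral density -/
noncomputable def i1 (P : ι → ℝ) (X : ι → E) (g : ι → ℝ) (t : ℝ) : ℝ :=
  m0 P (lay g t)ᶜ * m2 P X (lay g t)

/-- second layer integral density -/
noncomputable def i2 (P : ι → ℝ) (X : ι → E) (g : ι → ℝ) (t : ℝ) : ℝ := ‖m1 P X (lay g t)‖ ^ 2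

/-- third layer integral density -/
noncomputable def i3 (P : ι → ℝ) (X : ι → E) (g : ι → ℝ) (B : Finset ι) (t : ℝ) : ℝ :=
  m0 P ((lay g t)ᶜ ∩ B) * m2 P X ((lay g t)ᶜ ∩ B) - ‖m1 P X ((lay g t)ᶜ ∩ B)‖ ^ 2

theorem i1_nonneg {P : ι → ℝ} (X : ι → E) (hP : ∀ i, 0 ≤ P i) (g : ι → ℝ) (t : ℝ) :
    0 ≤ i1 P X g t := mul_nonneg (m0_nonneg P _ hP) (m2_nonneg P X _ hP)

theorem i2_nonneg (P : ι → ℝ) (X : ι → E) (g : ι → ℝ) (t : ℝ) : 0 ≤ i2 P X g t := sq_nonneg _

theorem i3_nonneg {P : ι → ℝ} (X : ι → E) (hP : ∀ i, 0 ≤ P i) (g : ι → ℝ) (B : Finset ι)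
    (t : ℝ) : 0 ≤ i3 P X g B t := by
  have := norm_m1_le P X ((lay g t)ᶜ ∩ B) hP
  unfold i3
  linarith

/-- step functions of `t`: finite sums over the layer -/
theorem m0_lay_int (P : ι → ℝ) (g : ι → ℝ) (a b : ℝ) :
    IntervalIntegrable (fun t => m0 P (lay g t)) volume a b := by
  have e1 : (fun t => m0 P (lay g t)) = ∑ i, fun t => P i * stp (g i) t := by
    funext t
    rw [Finset.sum_apply]
    exact sum_lay g t P
  rw [e1]
  exact IntervalIntegrable.sum _ fun i _ => (stp_int _ _ _).const_mul _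

theorem lay_pair_int (F : ι → ι → ℝ) (g : ι → ℝ) (a b : ℝ) :
    IntervalIntegrable (fun t => ∑ i ∈ lay g t, ∑ j ∈ lay g t, F i j) volume a b := by
  have e1 : (fun t => ∑ i ∈ lay g t, ∑ j ∈ lay g t, F i j) =
      ∑ i, ∑ j, fun t => F i j * stp (max (g i) (g j)) t := by
    funext t
    rw [Finset.sum_apply, sum_lay]
    refine Finset.sum_congr rfl fun i _ => ?_
    rw [Finset.sum_apply, sum_lay, Finset.sum_mul]
    refine Finset.sum_congr rfl fun j _ => ?_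
    rw [← stp_mul]
    ring
  rw [e1]
  exact IntervalIntegrable.sum _ fun i _ => IntervalIntegrable.sum _ fun j _ =>
    (stp_int _ _ _).const_mul _

theorem lay_one_int (F : ι → ℝ) (g : ι → ℝ) (a b : ℝ) :
    IntervalIntegrable (fun t => ∑ i ∈ lay g t, F i) volume a b := by
  have e1 : (fun t => ∑ i ∈ lay g t, F i) = ∑ i, fun t => F i * stp (g i) t := by
    funext t
    rw [Finset.sum_apply]
    exact sum_lay g t F
  rw [e1]
  exact IntervalIntegrable.sum _ fun i _ => (stp_int _ _ _).const_mul _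

theorem i2_int (P : ι → ℝ) (X : ι → E) (g : ι → ℝ) (a b : ℝ) :
    IntervalIntegrable (i2 P X g) volume a b := by
  have e1 : i2 P X g = fun t => ∑ i ∈ lay g t, ∑ j ∈ lay g t, P i * P j * inner ℝ (X i) (X j) := by
    funext t
    exact norm_m1_sq P X _
  rw [e1]
  exact lay_pair_int _ g a b

theorem i1_int (P : ι → ℝ) (X : ι → E) (g : ι → ℝ) (a b : ℝ) :
    IntervalIntegrable (i1 P X g) volume a b := by
  have e1 : i1 P X g = fun t => m0 P univ * (∑ i ∈ lay g t, P i * ‖X i‖ ^ 2) -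
      ∑ i ∈ lay g t, ∑ j ∈ lay g t, P i * (P j * ‖X j‖ ^ 2) := by
    funext t
    unfold i1
    rw [m0_compl, ← Finset.sum_mul_sum]
    unfold m0 m2
    ring
  rw [e1]
  exact ((lay_one_int _ g a b).const_mul _).sub (lay_pair_int _ g a b)

theorem i3_int (P : ι → ℝ) (X : ι → E) (g : ι → ℝ) (B : Finset ι) (a b : ℝ) :
    IntervalIntegrable (i3 P X g B) volume a b := by
  have hk : ∀ t, 2 * i3 P X g B t = ∑ i, ∑ j, (if i ∈ B then 1 else 0) *
      (if j ∈ B then 1 else 0) * (P i * P j * ‖X i - X j‖ ^ 2) *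
        ((1 - stp (g i) t) * (1 - stp (g j) t)) := by
    intro t
    unfold i3
    have h1 := sum_dist_sq P X ((lay g t)ᶜ ∩ B)
    have h2 : ∀ F : ι → ℝ, ∑ i ∈ (lay g t)ᶜ ∩ B, F i =
        ∑ i, (if i ∈ B then 1 else 0) * F i * (1 - stp (g i) t) := by
      intro F
      rw [← Finset.sum_filter_add_sum_filter_not univ (fun i => i ∈ (lay g t)ᶜ ∩ B)]
      have h3 : ∑ i ∈ univ.filter (fun i => ¬ i ∈ (lay g t)ᶜ ∩ B),
          (if i ∈ B then (1 : ℝ) else 0) * F i * (1 - stp (g i) t) = 0 := by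
        apply Finset.sum_eq_zero
        intro i hi
        rw [Finset.mem_filter, Finset.mem_inter, Finset.mem_compl] at hi
        by_cases hiB : i ∈ B
        · have : i ∈ lay g t := by
            by_contra h
            exact hi.2 ⟨h, hiB⟩
          unfold lay at this
          rw [Finset.mem_filter] at this
          unfold stp
          rw [if_pos this.2]
          ring
        · rw [if_neg hiB]
          ring
      rw [h3, add_zero]
      have h4 : univ.filter (fun i => i ∈ (lay g t)ᶜ ∩ B) = (lay g t)ᶜ ∩ B := by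
        ext i
        simp
      rw [h4]
      refine Finset.sum_congr rfl fun i hi => ?_
      rw [Finset.mem_inter, Finset.mem_compl] at hi
      have h5 : ¬ g i ≤ t := by
        intro h
        apply hi.1
        unfold lay
        rw [Finset.mem_filter]
        exact ⟨Finset.mem_univ _, h⟩
      unfold stp
      rw [if_pos hi.2, if_neg h5]
      ring
    have h6 : 2 * (m0 P ((lay g t)ᶜ ∩ B) * m2 P X ((lay g t)ᶜ ∩ B) -
        ‖m1 P X ((lay g t)ᶜ ∩ B)‖ ^ 2) =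
        ∑ i ∈ (lay g t)ᶜ ∩ B, ∑ j ∈ (lay g t)ᶜ ∩ B, P i * P j * ‖X i - X j‖ ^ 2 := by
      rw [h1]; ring
    rw [h6, h2]
    refine Finset.sum_congr rfl fun i _ => ?_
    rw [h2, Finset.mul_sum, Finset.sum_mul]
    refine Finset.sum_congr rfl fun j _ => ?_
    ring
  have e1 : i3 P X g B = fun t => (1 / 2) * (∑ i, ∑ j, fun t => (if i ∈ B then (1 : ℝ) else 0) *
      (if j ∈ B then 1 else 0) * (P i * P j * ‖X i - X j‖ ^ 2) *
        ((1 - stp (g i) t) * (1 - stp (g j) t))) t := by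
    funext t
    have h := hk t
    rw [Finset.sum_apply]
    simp only [Finset.sum_apply]
    rw [← h]
    ring
  rw [e1]
  apply IntervalIntegrable.const_mul
  refine IntervalIntegrable.sum _ fun i _ => IntervalIntegrable.sum _ fun j _ => ?_
  have e2 : (fun t => (if i ∈ B then (1 : ℝ) else 0) * (if j ∈ B then 1 else 0) *
      (P i * P j * ‖X i - X j‖ ^ 2) * ((1 - stp (g i) t) * (1 - stp (g j) t))) =
      fun t => (if i ∈ B then (1 : ℝ) else 0) * (if j ∈ B then 1 else 0) *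
      (P i * P j * ‖X i - X j‖ ^ 2) * (1 - stp (g i) t - stp (g j) t + stp (max (g i) (g j)) t) := by
    funext t
    rw [← stp_mul]
    ring
  rw [e2]
  exact ((((intervalIntegrable_const).sub (stp_int _ _ _)).sub (stp_int _ _ _)).add
    (stp_int _ _ _)).const_mul _

/-- the quantile step, integrated over `[0, τ]` -/
theorem quant (P : ι → ℝ) (X : ι → E) (g : ι → ℝ) (hP : ∀ i, 0 ≤ P i) (B : Finset ι)
    {δ η τ : ℝ} (hτ : 0 ≤ τ) (hB : m0 P Bᶜ ≤ η)
    (hq : ∀ t ∈ Set.Ioo 0 τ, δ ≤ m0 P ((lay g t)ᶜ ∩ B))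
    (hgood : 6 * (η * m2 P X Bᶜ) ≤ δ * m2 P X B) :
    δ / 2 * τ * m2 P X B ≤
      (∫ t in (0 : ℝ)..τ, i1 P X g t) + (∫ t in (0 : ℝ)..τ, i3 P X g B t) +
        3 * (∫ t in (0 : ℝ)..τ, i2 P X g t) + 3 * τ * ‖m1 P X univ‖ ^ 2 := by
  have h1 : ∫ _t in (0 : ℝ)..τ, δ / 2 * m2 P X B ≤
      ∫ t in (0 : ℝ)..τ, (i1 P X g t + i3 P X g B t + 3 * i2 P X g t +
        3 * ‖m1 P X univ‖ ^ 2) := by
    apply integral_mono_on_of_le_Ioo hτ intervalIntegrable_const
    · exact (((i1_int P X g 0 τ).add (i3_int P X g B 0 τ)).add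
        ((i2_int P X g 0 τ).const_mul 3)).add intervalIntegrable_const
    · intro t ht
      exact quant_point P X hP (lay g t) B hB (hq t ht) hgood
  rw [intervalIntegral.integral_add (((i1_int P X g 0 τ).add (i3_int P X g B 0 τ)).add
      ((i2_int P X g 0 τ).const_mul 3)) intervalIntegrable_const,
    intervalIntegral.integral_add ((i1_int P X g 0 τ).add (i3_int P X g B 0 τ))
      ((i2_int P X g 0 τ).const_mul 3),
    intervalIntegral.integral_add (i1_int P X g 0 τ) (i3_int P X g B 0 τ)] at h1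
  simp only [intervalIntegral.integral_const_mul, intervalIntegral.integral_const, smul_eq_mul,
    sub_zero] at h1
  linarith

end layers

/-! ### the max bound (truncated form of helper320, note 19770 (4')) -/

/-- `g^T_yz - l^T_xyz ≤ log 2 + kp_xz / (kp_yz max(1, kp_xy))`; here `q = e^{-T}`, `a = kp_xy`,
`b = kp_yz`, `c = kp_xz` -/
theorem max_bound {a b c q : ℝ} (ha : 0 ≤ a) (hb : 0 < b) (hc : 0 ≤ c) (hq : 0 < q)
    (hq1 : q ≤ 1) :
    Real.log ((1 + b) / (q + b)) -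
      Real.log (1 + 1 / (q + c / (max 1 a * max 1 b) + a / (1 + a) * (b / (1 + b)))) ≤
      Real.log 2 + c / (b * max 1 a) := by
  have hA : 0 < max 1 a := lt_of_lt_of_le one_pos (le_max_left _ _)
  have hB : 0 < max 1 b := lt_of_lt_of_le one_pos (le_max_left _ _)
  have hB1 : 1 ≤ max 1 b := le_max_left _ _
  have hB2 : b ≤ max 1 b := le_max_right _ _
  set r : ℝ := c / (max 1 a * max 1 b) with hr
  have hr0 : 0 ≤ r := by positivity
  set f : ℝ := a / (1 + a) * (b / (1 + b)) with hf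
  have hf0 : 0 ≤ f := by positivity
  have hfb : f ≤ b / (1 + b) := by
    have h1 : a / (1 + a) ≤ 1 := by rw [div_le_one (by linarith)]; linarith
    have h2 : 0 ≤ b / (1 + b) := by positivity
    rw [hf]
    nlinarith
  set s : ℝ := q + r + f with hs
  have hs0 : 0 < s := by linarith
  have hqb : 0 < q + b := by linarith
  set u : ℝ := c / (b * max 1 a) with hu
  have hu0 : 0 ≤ u := by positivity
  have h1 : -Real.log s ≤ Real.log (1 + 1 / s) := by
    rw [← Real.log_inv, ← one_div]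
    apply Real.log_le_log (by positivity)
    linarith
  have h2 : Real.log ((1 + b) / (q + b)) + Real.log s = Real.log (s * (1 + b) / (q + b)) := by
    rw [← Real.log_mul (by positivity) (by positivity)]
    congr 1
    ring
  have h3 : s * (1 + b) / (q + b) ≤ 2 + 2 * u := by
    rw [div_le_iff₀ hqb]
    have e1 : q * (1 + b) ≤ q + b := by nlinarith
    have e2 : f * (1 + b) ≤ q + b := by
      have h4 : f * (1 + b) ≤ b / (1 + b) * (1 + b) :=
        mul_le_mul_of_nonneg_right hfb (by linarith)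
      have h5 : b / (1 + b) * (1 + b) = b := by field_simp
      linarith
    have e3 : r * (1 + b) ≤ 2 * u * (q + b) := by
      have h4 : r * (1 + b) ≤ 2 * u * b := by
        have h5 : r = u * b / max 1 b := by
          rw [hr, hu]
          field_simp
        rw [h5, div_mul_eq_mul_div, div_le_iff₀ hB]
        have h6 : 0 ≤ u * b := by positivity
        nlinarith
      have h7 : 0 ≤ 2 * u * q := by positivity
      nlinarith
    calc s * (1 + b) = q * (1 + b) + r * (1 + b) + f * (1 + b) := by rw [hs]; ring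
      _ ≤ (q + b) + 2 * u * (q + b) + (q + b) := by linarith
      _ = (2 + 2 * u) * (q + b) := by ring
  have h4 : Real.log (s * (1 + b) / (q + b)) ≤ Real.log (2 + 2 * u) :=
    Real.log_le_log (by positivity) h3
  have h5 : Real.log (2 + 2 * u) = Real.log 2 + Real.log (1 + u) := by
    rw [← Real.log_mul (by norm_num) (by positivity)]
    congr 1
    ring
  have h6 : Real.log (1 + u) ≤ u := by
    have := Real.log_le_sub_one_of_pos (show 0 < 1 + u by linarith)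
    linarith
  linarith

end P365T2.Lay
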