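import Mathlib

/-!
# P365-T2, X-LAYER (helper500): deterministic part of note 19391 (4) + (6).

`P` a probability weight on a finite type, `u : ι → H` vectors in a real inner product space,
`g : ι → ℝ` with values in `[0, T]`.  Layer cake in `t` of
`E |u_x - u_z|^2 max(g_x, g_z) - 2 E |u_x|^2 g_x`, and the quantile conclusion.
-/

set_option linter.all false

namespace Vale.Agent.P365.T2.H500

open Finset MeasureTheory intervalIntegral
open scoped BigOperators

variable {ι : Type*} {H : Type*} [NormedAddCommGroup H] [InnerProductSpace ℝ H]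

/-- mass -/
noncomputable def M0 (P : ι → ℝ) (S : Finset ι) : ℝ := ∑ x ∈ S, P x
/-- first moment -/
noncomputable def M1 (P : ι → ℝ) (u : ι → H) (S : Finset ι) : H := ∑ x ∈ S, P x • u x
/-- second moment -/
noncomputable def M2 (P : ι → ℝ) (u : ι → H) (S : Finset ι) : ℝ := ∑ x ∈ S, P x * ‖u x‖ ^ 2

theorem M0_nonneg {P : ι → ℝ} (hP : ∀ x, 0 ≤ P x) (S : Finset ι) : 0 ≤ M0 P S :=
  Finset.sum_nonneg fun x _ => hP x

theorem M2_nonneg {P : ι → ℝ} (hP : ∀ x, 0 ≤ P x) (u : ι → H) (S : Finset ι) :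
    0 ≤ M2 P u S :=
  Finset.sum_nonneg fun x _ => mul_nonneg (hP x) (sq_nonneg _)

/-- `sum_{x in S, z in S'} P_x P_z |u_x - u_z|^2` -/
theorem pair_sum (P : ι → ℝ) (u : ι → H) (S S' : Finset ι) :
    ∑ x ∈ S, ∑ z ∈ S', P x * P z * ‖u x - u z‖ ^ 2 =
      M0 P S' * M2 P u S + M0 P S * M2 P u S' - 2 * inner ℝ (M1 P u S) (M1 P u S') := by
  have h1 : ∀ x z, P x * P z * ‖u x - u z‖ ^ 2 =
      P z * (P x * ‖u x‖ ^ 2) + P x * (P z * ‖u z‖ ^ 2)
        - 2 * inner ℝ (P x • u x) (P z • u z) := by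
    intro x z
    rw [norm_sub_sq_real, inner_smul_left, inner_smul_right]
    simp only [RCLike.conj_to_real]
    ring
  simp only [h1, Finset.sum_sub_distrib, Finset.sum_add_distrib]
  have h2 : ∑ x ∈ S, ∑ z ∈ S', P z * (P x * ‖u x‖ ^ 2) = M0 P S' * M2 P u S := by
    rw [M0, M2, Finset.mul_sum]
    refine Finset.sum_congr rfl fun x _ => ?_
    rw [Finset.sum_mul]
  have h3 : ∑ x ∈ S, ∑ z ∈ S', P x * (P z * ‖u z‖ ^ 2) = M0 P S * M2 P u S' := by
    rw [M0, M2, Finset.sum_mul]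
    refine Finset.sum_congr rfl fun x _ => ?_
    rw [Finset.mul_sum]
  have h4 : ∑ x ∈ S, ∑ z ∈ S', 2 * inner ℝ (P x • u x) (P z • u z) =
      2 * inner ℝ (M1 P u S) (M1 P u S') := by
    rw [M1, M1, sum_inner, Finset.mul_sum]
    refine Finset.sum_congr rfl fun x _ => ?_
    rw [inner_sum, Finset.mul_sum]
  rw [h2, h3, h4]

theorem pair_sum_self (P : ι → ℝ) (u : ι → H) (S : Finset ι) :
    ∑ x ∈ S, ∑ z ∈ S, P x * P z * ‖u x - u z‖ ^ 2 =
      2 * (M0 P S * M2 P u S - ‖M1 P u S‖ ^ 2) := by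
  rw [pair_sum, real_inner_self_eq_norm_sq]
  ring

/-- Cauchy-Schwarz -/
theorem M1_sq_le {P : ι → ℝ} (hP : ∀ x, 0 ≤ P x) (u : ι → H) (S : Finset ι) :
    ‖M1 P u S‖ ^ 2 ≤ M0 P S * M2 P u S := by
  have h := pair_sum_self P u S
  have h2 : 0 ≤ ∑ x ∈ S, ∑ z ∈ S, P x * P z * ‖u x - u z‖ ^ 2 :=
    Finset.sum_nonneg fun x _ => Finset.sum_nonneg fun z _ =>
      mul_nonneg (mul_nonneg (hP x) (hP z)) (sq_nonneg _)
  linarith

/-- indicator of `t < g` -/
noncomputable def Ind (t g : ℝ) : ℝ := if t < g then 1 else 0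

theorem Ind_nonneg (t g : ℝ) : 0 ≤ Ind t g := by
  unfold Ind; split_ifs <;> norm_num

theorem Ind_min (t g g' : ℝ) : Ind t (min g g') = Ind t g * Ind t g' := by
  unfold Ind
  by_cases h : t < g <;> by_cases h' : t < g' <;> simp [h, h', lt_min_iff]

theorem Ind_max (t g g' : ℝ) : Ind t (max g g') = 1 - (1 - Ind t g) * (1 - Ind t g') := by
  unfold Ind
  by_cases h : t < g <;> by_cases h' : t < g' <;> simp [h, h', lt_max_iff]

theorem Ind_intervalIntegrable (g a b : ℝ) : IntervalIntegrable (fun t => Ind t g) volume a b := by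
  have h : Antitone (fun t => Ind t g) := by
    intro s t hst
    show Ind t g ≤ Ind s g
    unfold Ind
    by_cases h1 : t < g
    · rw [if_pos h1, if_pos (lt_of_le_of_lt hst h1)]
    · rw [if_neg h1]
      split_ifs <;> norm_num
  exact h.intervalIntegrable

theorem ii_sum {κ : Type*} (s : Finset κ) {f : κ → ℝ → ℝ} {a b : ℝ}
    (h : ∀ i ∈ s, IntervalIntegrable (fun t => f i t) volume a b) :
    IntervalIntegrable (fun t => ∑ i ∈ s, f i t) volume a b := by
  have h1 := IntervalIntegrable.sum s h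
  have e : (∑ i ∈ s, fun t => f i t) = fun t => ∑ i ∈ s, f i t := by
    funext t
    rw [Finset.sum_apply]
  rw [e] at h1
  exact h1

theorem integral_Ind {g K : ℝ} (hg : 0 ≤ g) (hK : 0 ≤ K) :
    ∫ t in (0:ℝ)..K, Ind t g = min g K := by
  have h1 : IntervalIntegrable (fun t => Ind t g) volume 0 (min g K) := Ind_intervalIntegrable _ _ _
  have h2 : IntervalIntegrable (fun t => Ind t g) volume (min g K) K := Ind_intervalIntegrable _ _ _
  rw [← intervalIntegral.integral_add_adjacent_intervals h1 h2]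
  have h0 : 0 ≤ min g K := le_min hg hK
  have e1 : ∫ t in (0:ℝ)..(min g K), Ind t g = ∫ t in (0:ℝ)..(min g K), (1:ℝ) := by
    rw [intervalIntegral.integral_of_le h0, intervalIntegral.integral_of_le h0,
      integral_Ioc_eq_integral_Ioo, integral_Ioc_eq_integral_Ioo]
    refine setIntegral_congr_fun measurableSet_Ioo fun t ht => ?_
    have : t < g := lt_of_lt_of_le ht.2 (min_le_left _ _)
    simp only [Ind, if_pos this]
  have e2 : ∫ t in (min g K)..K, Ind t g = 0 := by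
    rcases le_total g K with h | h
    · rw [min_eq_left h]
      rw [intervalIntegral.integral_of_le h]
      rw [setIntegral_congr_fun (g := fun _ => (0:ℝ)) measurableSet_Ioc
        (fun t ht => by simp only [Ind, if_neg (not_lt.2 ht.1.le)])]
      simp
    · rw [min_eq_right h]; simp
  rw [e1, e2]
  simp

variable [Fintype ι] [DecidableEq ι]

/-- sub-level set `{g <= t}` -/
noncomputable def Aset (g : ι → ℝ) (t : ℝ) : Finset ι := univ.filter fun x => ¬ t < g x
/-- super-level set `{t < g}` -/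
noncomputable def Acs (g : ι → ℝ) (t : ℝ) : Finset ι := univ.filter fun x => t < g x

/-- pointwise bracket at level `t` -/
noncomputable def br (P : ι → ℝ) (u : ι → H) (g : ι → ℝ) (t : ℝ) : ℝ :=
  (∑ x, ∑ z, P x * P z * ‖u x - u z‖ ^ 2 * Ind t (max (g x) (g z)))
    - 2 * ∑ x, P x * ‖u x‖ ^ 2 * Ind t (g x)

omit [DecidableEq ι] in
theorem M2_split (P : ι → ℝ) (u : ι → H) (g : ι → ℝ) (t : ℝ) :
    M2 P u univ = M2 P u (Acs g t) + M2 P u (Aset g t) := by
  unfold M2 Acs Aset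
  exact (Finset.sum_filter_add_sum_filter_not univ (fun x => t < g x) _).symm

omit [DecidableEq ι] in
theorem M0_split (P : ι → ℝ) (g : ι → ℝ) (t : ℝ) :
    M0 P univ = M0 P (Acs g t) + M0 P (Aset g t) := by
  unfold M0 Acs Aset
  exact (Finset.sum_filter_add_sum_filter_not univ (fun x => t < g x) _).symm

omit [DecidableEq ι] in
theorem M1_split (P : ι → ℝ) (u : ι → H) (g : ι → ℝ) (t : ℝ) :
    M1 P u univ = M1 P u (Acs g t) + M1 P u (Aset g t) := by
  unfold M1 Acs Aset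
  exact (Finset.sum_filter_add_sum_filter_not univ (fun x => t < g x) _).symm

omit [DecidableEq ι] in
/-- exact layer identity -/
theorem br_eq {P : ι → ℝ} (hP1 : ∑ x, P x = 1) (u : ι → H) (g : ι → ℝ) (t : ℝ) :
    br P u g t =
      2 * (M0 P (Acs g t) * M2 P u (Aset g t) + ‖M1 P u (Aset g t)‖ ^ 2
        - ‖M1 P u univ‖ ^ 2) := by
  have h1 : ∑ x, ∑ z, P x * P z * ‖u x - u z‖ ^ 2 * Ind t (max (g x) (g z)) =
      (∑ x, ∑ z, P x * P z * ‖u x - u z‖ ^ 2) -
        ∑ x ∈ Aset g t, ∑ z ∈ Aset g t, P x * P z * ‖u x - u z‖ ^ 2 := by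
    unfold Aset
    rw [Finset.sum_filter, ← Finset.sum_sub_distrib]
    refine Finset.sum_congr rfl fun x _ => ?_
    by_cases hx : t < g x
    · rw [if_neg (not_not.2 hx), sub_zero]
      refine Finset.sum_congr rfl fun z _ => ?_
      rw [Ind_max]
      simp [Ind, hx]
    · rw [if_pos hx, Finset.sum_filter, ← Finset.sum_sub_distrib]
      refine Finset.sum_congr rfl fun z _ => ?_
      rw [Ind_max]
      by_cases hz : t < g z
      · simp [Ind, hx, hz]
      · simp [Ind, hx, hz]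
  have h2 : ∑ x, P x * ‖u x‖ ^ 2 * Ind t (g x) = M2 P u (Acs g t) := by
    unfold M2 Acs
    rw [Finset.sum_filter]
    refine Finset.sum_congr rfl fun x _ => ?_
    by_cases hx : t < g x <;> simp [Ind, hx]
  rw [br, h1, h2, pair_sum_self, pair_sum_self]
  have e0 : M0 P univ = 1 := hP1
  have e2 := M2_split P u g t
  have e3 := M0_split P g t
  rw [e0] at e3
  rw [e0, e2]
  have e4 : M0 P (Acs g t) = 1 - M0 P (Aset g t) := by linarith
  rw [e4]
  ring

omit [DecidableEq ι] in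
/-- gain at level `t`: `[m0 m2 - |m1|^2](S) = (1/2) E_{x,z in B} |u_x-u_z|^2 1{t<min(g_x,g_z)}` -/
theorem gain_eq (P : ι → ℝ) (u : ι → H) (g : ι → ℝ) (B : Finset ι) (t : ℝ) :
    ∑ x ∈ B, ∑ z ∈ B, P x * P z * ‖u x - u z‖ ^ 2 * Ind t (min (g x) (g z)) =
      2 * (M0 P (B.filter fun x => t < g x) * M2 P u (B.filter fun x => t < g x)
        - ‖M1 P u (B.filter fun x => t < g x)‖ ^ 2) := by
  rw [← pair_sum_self, Finset.sum_filter]
  refine Finset.sum_congr rfl fun x _ => ?_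
  by_cases hx : t < g x
  · rw [if_pos hx, Finset.sum_filter]
    refine Finset.sum_congr rfl fun z _ => ?_
    rw [Ind_min]
    by_cases hz : t < g z <;> simp [Ind, hx, hz]
  · rw [if_neg hx]
    refine Finset.sum_eq_zero fun z _ => ?_
    rw [Ind_min]
    simp [Ind, hx]

/-- pointwise in `t`: the quantile inequality -/
theorem quant_pt {P : ι → ℝ} (hP : ∀ x, 0 ≤ P x) (u : ι → H) (g : ι → ℝ) (B : Finset ι)
    {δ η : ℝ} (t : ℝ) (hη : M0 P Bᶜ ≤ η)
    (hfar : 3 * (η * M2 P u Bᶜ) ≤ δ / 2 * M2 P u B)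
    (hδ : δ ≤ M0 P (B.filter fun x => t < g x)) :
    δ / 2 * M2 P u B ≤
      M0 P (Acs g t) * M2 P u (Aset g t) + 3 * ‖M1 P u (Aset g t)‖ ^ 2
        + (M0 P (B.filter fun x => t < g x) * M2 P u (B.filter fun x => t < g x)
          - ‖M1 P u (B.filter fun x => t < g x)‖ ^ 2)
        + 3 * ‖M1 P u univ‖ ^ 2 := by
  set U : Finset ι := B.filter fun x => t < g x with hU
  set U' : Finset ι := B.filter fun x => ¬ t < g x with hU'
  set Q : Finset ι := Bᶜ.filter fun x => t < g x with hQ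
  have hB2 : M2 P u B = M2 P u U + M2 P u U' := by
    unfold M2
    exact (Finset.sum_filter_add_sum_filter_not B (fun x => t < g x) _).symm
  have hAcs : Acs g t = U ∪ Q := by
    ext x
    simp only [Acs, hU, hQ, mem_filter, mem_univ, true_and, mem_union, mem_compl]
    tauto
  have hdis : Disjoint U Q := by
    rw [Finset.disjoint_left]
    intro x hx hx'
    rw [hU, mem_filter] at hx
    rw [hQ, mem_filter, mem_compl] at hx'
    exact hx'.1 hx.1
  have hm1 : M1 P u (Acs g t) = M1 P u U + M1 P u Q := by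
    rw [hAcs]; unfold M1; exact Finset.sum_union hdis
  have hm0 : M0 P (Acs g t) = M0 P U + M0 P Q := by
    rw [hAcs]; unfold M0; exact Finset.sum_union hdis
  have hu1 : M1 P u univ = M1 P u (Acs g t) + M1 P u (Aset g t) := M1_split P u g t
  -- |m1(U)|^2 <= 3(...)
  have e1 : M1 P u U = M1 P u univ - M1 P u (Aset g t) - M1 P u Q := by
    rw [hu1, hm1]; abel
  have e2 : ‖M1 P u U‖ ^ 2 ≤ 3 * (‖M1 P u univ‖ ^ 2 + ‖M1 P u (Aset g t)‖ ^ 2
      + ‖M1 P u Q‖ ^ 2) := by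
    have h1 : ‖M1 P u U‖ ≤ ‖M1 P u univ‖ + ‖M1 P u (Aset g t)‖ + ‖M1 P u Q‖ := by
      rw [e1]
      exact (norm_sub_le _ _).trans (add_le_add_left (norm_sub_le _ _) _)
    have h0 : 0 ≤ ‖M1 P u U‖ := norm_nonneg _
    nlinarith [sq_nonneg (‖M1 P u univ‖ - ‖M1 P u (Aset g t)‖),
      sq_nonneg (‖M1 P u univ‖ - ‖M1 P u Q‖), sq_nonneg (‖M1 P u (Aset g t)‖ - ‖M1 P u Q‖),
      norm_nonneg (M1 P u univ), norm_nonneg (M1 P u (Aset g t)), norm_nonneg (M1 P u Q)]
  have hQsub : Q ⊆ Bᶜ := Finset.filter_subset _ _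
  have e3 : ‖M1 P u Q‖ ^ 2 ≤ η * M2 P u Bᶜ := by
    have h1 := M1_sq_le hP u Q
    have h2 : M0 P Q ≤ η :=
      (Finset.sum_le_sum_of_subset_of_nonneg hQsub fun x _ _ => hP x).trans hη
    have h3 : M2 P u Q ≤ M2 P u Bᶜ :=
      Finset.sum_le_sum_of_subset_of_nonneg hQsub fun x _ _ =>
        mul_nonneg (hP x) (sq_nonneg _)
    exact h1.trans (mul_le_mul h2 h3 (M2_nonneg hP u Q) ((M0_nonneg hP Q).trans h2))
  -- m2(U') <= m2(A)
  have e4 : M2 P u U' ≤ M2 P u (Aset g t) := by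
    refine Finset.sum_le_sum_of_subset_of_nonneg ?_ fun x _ _ => mul_nonneg (hP x) (sq_nonneg _)
    intro x hx
    rw [hU', mem_filter] at hx
    rw [Aset, mem_filter]
    exact ⟨mem_univ _, hx.2⟩
  have hδU : δ * M2 P u B ≤ M0 P U * M2 P u B :=
    mul_le_mul_of_nonneg_right hδ (M2_nonneg hP u B)
  have e5 : M0 P U * M2 P u U' ≤ M0 P (Acs g t) * M2 P u (Aset g t) := by
    refine mul_le_mul ?_ e4 (M2_nonneg hP u U') (M0_nonneg hP _)
    rw [hm0]
    linarith [M0_nonneg hP Q]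
  rw [hB2, mul_add] at hδU
  rw [hB2] at hfar ⊢
  nlinarith [e2, e3, e5, hδU, hfar]

/-! ### integrated form -/

omit [DecidableEq ι] in
theorem br_integral {P : ι → ℝ} (u : ι → H) {g : ι → ℝ} (hg : ∀ x, 0 ≤ g x) {K : ℝ}
    (hK : 0 ≤ K) :
    ∫ t in (0:ℝ)..K, br P u g t =
      (∑ x, ∑ z, P x * P z * ‖u x - u z‖ ^ 2 * min (max (g x) (g z)) K)
        - 2 * ∑ x, P x * ‖u x‖ ^ 2 * min (g x) K := by
  unfold br
  rw [intervalIntegral.integral_sub]
  · congr 1
    · rw [intervalIntegral.integral_finset_sum]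
      · refine Finset.sum_congr rfl fun x _ => ?_
        rw [intervalIntegral.integral_finset_sum]
        · refine Finset.sum_congr rfl fun z _ => ?_
          rw [intervalIntegral.integral_const_mul,
            integral_Ind (le_max_of_le_left (hg x)) hK]
        · intro z _
          exact (Ind_intervalIntegrable _ _ _).const_mul _
      · intro x _
        exact ii_sum _ fun z _ => (Ind_intervalIntegrable _ _ _).const_mul _
    · rw [intervalIntegral.integral_const_mul, intervalIntegral.integral_finset_sum]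
      · congr 1
        refine Finset.sum_congr rfl fun x _ => ?_
        rw [intervalIntegral.integral_const_mul, integral_Ind (hg x) hK]
      · intro x _
        exact (Ind_intervalIntegrable _ _ _).const_mul _
  · exact ii_sum _ fun x _ => ii_sum _ fun z _ =>
      (Ind_intervalIntegrable _ _ _).const_mul _
  · exact (ii_sum _ fun x _ => (Ind_intervalIntegrable _ _ _).const_mul _).const_mul _

omit [DecidableEq ι] in
theorem br_intervalIntegrable (P : ι → ℝ) (u : ι → H) (g : ι → ℝ) (a b : ℝ) :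
    IntervalIntegrable (fun t => br P u g t) volume a b := by
  unfold br
  exact (ii_sum _ fun x _ => ii_sum _ fun z _ =>
      (Ind_intervalIntegrable _ _ _).const_mul _).sub
    ((ii_sum _ fun x _ => (Ind_intervalIntegrable _ _ _).const_mul _).const_mul _)

omit [DecidableEq ι] in
theorem br_lower {P : ι → ℝ} (hP : ∀ x, 0 ≤ P x) (hP1 : ∑ x, P x = 1) (u : ι → H)
    (g : ι → ℝ) (t : ℝ) : -2 * ‖M1 P u univ‖ ^ 2 ≤ br P u g t := by
  rw [br_eq hP1]
  have h1 : 0 ≤ M0 P (Acs g t) * M2 P u (Aset g t) :=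
    mul_nonneg (M0_nonneg hP _) (M2_nonneg hP u _)
  nlinarith [sq_nonneg (‖M1 P u (Aset g t)‖)]

/-- `E |u_x-u_z|^2 max(g_x,g_z) - 2 E |u_x|^2 g_x` -/
noncomputable def Br (P : ι → ℝ) (u : ι → H) (g : ι → ℝ) : ℝ :=
  (∑ x, ∑ z, P x * P z * ‖u x - u z‖ ^ 2 * max (g x) (g z)) - 2 * ∑ x, P x * ‖u x‖ ^ 2 * g x

/-- `E_{x,z in B} |u_x-u_z|^2 min(g_x,g_z,K)` -/
noncomputable def Gn (P : ι → ℝ) (u : ι → H) (g : ι → ℝ) (B : Finset ι) (K : ℝ) : ℝ :=
  ∑ x ∈ B, ∑ z ∈ B, P x * P z * ‖u x - u z‖ ^ 2 * min (min (g x) (g z)) K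

omit [DecidableEq ι] in
theorem Br_eq_integral {P : ι → ℝ} (u : ι → H) {g : ι → ℝ} {T : ℝ} (hT : 0 ≤ T)
    (hg : ∀ x, 0 ≤ g x) (hgT : ∀ x, g x ≤ T) :
    Br P u g = ∫ t in (0:ℝ)..T, br P u g t := by
  rw [br_integral u hg hT, Br]
  congr 1
  · refine Finset.sum_congr rfl fun x _ => Finset.sum_congr rfl fun z _ => ?_
    rw [min_eq_left (max_le (hgT x) (hgT z))]
  · congr 1
    refine Finset.sum_congr rfl fun x _ => ?_
    rw [min_eq_left (hgT x)]

omit [DecidableEq ι] in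
/-- exact layer-cake identity (note 19391 (4)) -/
theorem Br_layer {P : ι → ℝ} (hP1 : ∑ x, P x = 1) (u : ι → H) {g : ι → ℝ} {T : ℝ}
    (hT : 0 ≤ T) (hg : ∀ x, 0 ≤ g x) (hgT : ∀ x, g x ≤ T) :
    Br P u g = ∫ t in (0:ℝ)..T, 2 * (M0 P (Acs g t) * M2 P u (Aset g t)
      + ‖M1 P u (Aset g t)‖ ^ 2 - ‖M1 P u univ‖ ^ 2) := by
  rw [Br_eq_integral u hT hg hgT]
  exact intervalIntegral.integral_congr fun t _ => br_eq hP1 u g t

omit [DecidableEq ι] in
/-- the bracket is nonnegative up to the mean: `Br >= -2 T |mu|^2` -/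
theorem Br_lower {P : ι → ℝ} (hP : ∀ x, 0 ≤ P x) (hP1 : ∑ x, P x = 1) (u : ι → H)
    {g : ι → ℝ} {T : ℝ} (hT : 0 ≤ T) (hg : ∀ x, 0 ≤ g x) (hgT : ∀ x, g x ≤ T) :
    -2 * T * ‖M1 P u univ‖ ^ 2 ≤ Br P u g := by
  rw [Br_eq_integral u hT hg hgT]
  have h1 : ∫ t in (0:ℝ)..T, (-2 * ‖M1 P u univ‖ ^ 2) ≤ ∫ t in (0:ℝ)..T, br P u g t :=
    intervalIntegral.integral_mono_on hT (by simp) (br_intervalIntegrable _ _ _ _ _)
      fun t _ => br_lower hP hP1 u g t
  rw [intervalIntegral.integral_const] at h1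
  simp only [smul_eq_mul, sub_zero] at h1
  linarith

omit [DecidableEq ι] in
theorem gn_intervalIntegrable (P : ι → ℝ) (u : ι → H) (g : ι → ℝ) (B : Finset ι) (a b : ℝ) :
    IntervalIntegrable (fun t => ∑ x ∈ B, ∑ z ∈ B,
      P x * P z * ‖u x - u z‖ ^ 2 * Ind t (min (g x) (g z))) volume a b :=
  ii_sum _ fun x _ => ii_sum _ fun z _ => (Ind_intervalIntegrable _ _ _).const_mul _

omit [DecidableEq ι] in
theorem Gn_eq_integral (P : ι → ℝ) (u : ι → H) {g : ι → ℝ} (hg : ∀ x, 0 ≤ g x)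
    (B : Finset ι) {K : ℝ} (hK : 0 ≤ K) :
    Gn P u g B K = ∫ t in (0:ℝ)..K, ∑ x ∈ B, ∑ z ∈ B,
      P x * P z * ‖u x - u z‖ ^ 2 * Ind t (min (g x) (g z)) := by
  rw [intervalIntegral.integral_finset_sum]
  · unfold Gn
    refine Finset.sum_congr rfl fun x _ => ?_
    rw [intervalIntegral.integral_finset_sum]
    · refine Finset.sum_congr rfl fun z _ => ?_
      rw [intervalIntegral.integral_const_mul, integral_Ind (le_min (hg x) (hg z)) hK]
    · intro z _
      exact (Ind_intervalIntegrable _ _ _).const_mul _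
  · intro x _
    exact ii_sum _ fun z _ => (Ind_intervalIntegrable _ _ _).const_mul _

/-- **quantile conclusion (note 19391 (6))**: if `P(B^c) <= η`, the far part is small
(`3 η m2(B^c) <= (δ/2) m2(B)`) and `P(x in B, g_x >= K) >= δ`, then
`(δ/2) K m2(B) <= (3/2) Br + (1/2) Gn_K + 6 T |mu|^2`. -/
theorem layer_main {P : ι → ℝ} (hP : ∀ x, 0 ≤ P x) (hP1 : ∑ x, P x = 1) (u : ι → H)
    {g : ι → ℝ} {T K δ η : ℝ} (hg : ∀ x, 0 ≤ g x) (hgT : ∀ x, g x ≤ T) (hK : 0 ≤ K)
    (hKT : K ≤ T) (B : Finset ι) (hη : M0 P Bᶜ ≤ η)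
    (hfar : 3 * (η * M2 P u Bᶜ) ≤ δ / 2 * M2 P u B)
    (hδ : δ ≤ M0 P (B.filter fun x => K ≤ g x)) :
    δ / 2 * K * M2 P u B ≤ 3 / 2 * Br P u g + 1 / 2 * Gn P u g B K
      + 6 * T * ‖M1 P u univ‖ ^ 2 := by
  have hT : 0 ≤ T := hK.trans hKT
  set μ2 : ℝ := ‖M1 P u univ‖ ^ 2 with hμ2
  have hμ0 : 0 ≤ μ2 := sq_nonneg _
  -- pointwise on (0, K)
  have hpt : ∀ t ∈ Set.Ioo (0:ℝ) K, δ / 2 * M2 P u B ≤
      3 / 2 * br P u g t + 1 / 2 * (∑ x ∈ B, ∑ z ∈ B,
        P x * P z * ‖u x - u z‖ ^ 2 * Ind t (min (g x) (g z))) + 6 * μ2 := by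
    intro t ht
    have hδt : δ ≤ M0 P (B.filter fun x => t < g x) := by
      refine hδ.trans (Finset.sum_le_sum_of_subset_of_nonneg ?_ fun x _ _ => hP x)
      intro x hx
      rw [mem_filter] at hx ⊢
      exact ⟨hx.1, lt_of_lt_of_le ht.2 hx.2⟩
    have h1 := quant_pt hP u g B t hη hfar hδt
    rw [gain_eq, br_eq hP1]
    have h2 : 0 ≤ M0 P (Acs g t) * M2 P u (Aset g t) :=
      mul_nonneg (M0_nonneg hP _) (M2_nonneg hP u _)
    rw [← hμ2] at h1 ⊢
    nlinarith [h1, h2]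
  have hI : ∫ t in (0:ℝ)..K, (δ / 2 * M2 P u B) ≤ ∫ t in (0:ℝ)..K,
      (3 / 2 * br P u g t + 1 / 2 * (∑ x ∈ B, ∑ z ∈ B,
        P x * P z * ‖u x - u z‖ ^ 2 * Ind t (min (g x) (g z))) + 6 * μ2) := by
    refine intervalIntegral.integral_mono_on_of_le_Ioo hK (by simp) ?_ hpt
    exact (((br_intervalIntegrable _ _ _ _ _).const_mul _).add
      ((gn_intervalIntegrable _ _ _ _ _ _).const_mul _)).add (by simp)
  rw [intervalIntegral.integral_add (((br_intervalIntegrable _ _ _ _ _).const_mul _).add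
      ((gn_intervalIntegrable _ _ _ _ _ _).const_mul _)) (by simp),
    intervalIntegral.integral_add ((br_intervalIntegrable _ _ _ _ _).const_mul _)
      ((gn_intervalIntegrable _ _ _ _ _ _).const_mul _)] at hI
  simp only [intervalIntegral.integral_const_mul] at hI
  rw [← Gn_eq_integral P u hg B hK] at hI
  simp only [intervalIntegral.integral_const, smul_eq_mul, sub_zero] at hI
  -- from K to T
  have hadd : (∫ t in (0:ℝ)..K, br P u g t) + (∫ t in K..T, br P u g t) = Br P u g := by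
    rw [Br_eq_integral u hT hg hgT]
    exact intervalIntegral.integral_add_adjacent_intervals (br_intervalIntegrable _ _ _ _ _)
      (br_intervalIntegrable _ _ _ _ _)
  have hKT2 : ∫ t in K..T, (-2 * μ2) ≤ ∫ t in K..T, br P u g t :=
    intervalIntegral.integral_mono_on hKT (by simp) (br_intervalIntegrable _ _ _ _ _)
      fun t _ => br_lower hP hP1 u g t
  rw [intervalIntegral.integral_const] at hKT2
  simp only [smul_eq_mul] at hKT2
  have h3 : K * μ2 ≤ T * μ2 := mul_le_mul_of_nonneg_right hKT hμ0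
  nlinarith [hI, hadd, hKT2, h3, mul_nonneg hT hμ0]

end Vale.Agent.P365.T2.H500
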