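import Mathlib.MeasureTheory.Integral.IntervalIntegral.Basic
import Mathlib.Analysis.InnerProductSpace.Basic
import Mathlib.Tactic

/-!
# P365-T2, section X: the layer-cake / quantile inequality (629 (6)), one deterministic lemma.
-/

set_option linter.all false

namespace P365T2.Layer

open Finset MeasureTheory
open scoped RealInnerProductSpace

variable {ι : Type*} [Fintype ι] [DecidableEq ι]
variable {F : Type*} [NormedAddCommGroup F] [InnerProductSpace ℝ F]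

/-- mass -/
def m0 (p : ι → ℝ) (S : Finset ι) : ℝ := ∑ x ∈ S, p x

/-- first moment -/
noncomputable def m1 (p : ι → ℝ) (u : ι → F) (S : Finset ι) : F := ∑ x ∈ S, p x • u x

/-- second moment -/
noncomputable def m2 (p : ι → ℝ) (u : ι → F) (S : Finset ι) : ℝ := ∑ x ∈ S, p x * ‖u x‖ ^ 2

variable {p : ι → ℝ} {u : ι → F} {g : ι → ℝ}

theorem m0_nonneg (hp : ∀ x, 0 ≤ p x) (S : Finset ι) : 0 ≤ m0 p S :=
  Finset.sum_nonneg fun x _ => hp x

theorem m2_nonneg (hp : ∀ x, 0 ≤ p x) (S : Finset ι) : 0 ≤ m2 p u S :=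
  Finset.sum_nonneg fun x _ => mul_nonneg (hp x) (sq_nonneg _)

theorem m0_mono (hp : ∀ x, 0 ≤ p x) {S S' : Finset ι} (h : S ⊆ S') : m0 p S ≤ m0 p S' :=
  Finset.sum_le_sum_of_subset_of_nonneg h fun x _ _ => hp x

theorem m2_mono (hp : ∀ x, 0 ≤ p x) {S S' : Finset ι} (h : S ⊆ S') : m2 p u S ≤ m2 p u S' :=
  Finset.sum_le_sum_of_subset_of_nonneg h fun x _ _ => mul_nonneg (hp x) (sq_nonneg _)

theorem pair_sum (p : ι → ℝ) (u : ι → F) (S S' : Finset ι) :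
    ∑ x ∈ S, ∑ z ∈ S', p x * p z * ‖u x - u z‖ ^ 2 =
      m0 p S' * m2 p u S + m0 p S * m2 p u S' - 2 * ⟪m1 p u S, m1 p u S'⟫ := by
  have h1 : ∀ x ∈ S, ∀ z ∈ S', p x * p z * ‖u x - u z‖ ^ 2 =
      p z * (p x * ‖u x‖ ^ 2) + p x * (p z * ‖u z‖ ^ 2) - 2 * ⟪p x • u x, p z • u z⟫ := by
    intro x _ z _
    rw [norm_sub_sq_real, real_inner_smul_left, real_inner_smul_right]
    ring
  rw [Finset.sum_congr rfl fun x hx => Finset.sum_congr rfl fun z hz => h1 x hx z hz]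
  simp only [Finset.sum_sub_distrib, Finset.sum_add_distrib]
  have e1 : ∑ x ∈ S, ∑ z ∈ S', p z * (p x * ‖u x‖ ^ 2) = m0 p S' * m2 p u S := by
    rw [m0, m2, Finset.sum_mul_sum, Finset.sum_comm]
  have e2 : ∑ x ∈ S, ∑ z ∈ S', p x * (p z * ‖u z‖ ^ 2) = m0 p S * m2 p u S' := by
    rw [m0, m2, Finset.sum_mul_sum]
  have e3 : ∑ x ∈ S, ∑ z ∈ S', 2 * ⟪p x • u x, p z • u z⟫ = 2 * ⟪m1 p u S, m1 p u S'⟫ := by
    rw [m1, m1, sum_inner, Finset.mul_sum]
    refine Finset.sum_congr rfl fun x _ => ?_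
    rw [inner_sum, Finset.mul_sum]
  rw [e1, e2, e3]

theorem cs (hp : ∀ x, 0 ≤ p x) (S : Finset ι) : ‖m1 p u S‖ ^ 2 ≤ m0 p S * m2 p u S := by
  have h := pair_sum p u S S
  have h0 : 0 ≤ ∑ x ∈ S, ∑ z ∈ S, p x * p z * ‖u x - u z‖ ^ 2 :=
    Finset.sum_nonneg fun x _ => Finset.sum_nonneg fun z _ =>
      mul_nonneg (mul_nonneg (hp x) (hp z)) (sq_nonneg _)
  rw [real_inner_self_eq_norm_sq] at h
  nlinarith

theorem m0_add (p : ι → ℝ) {S S' : Finset ι} (h : Disjoint S S') :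
    m0 p (S ∪ S') = m0 p S + m0 p S' := Finset.sum_union h

theorem m1_add (p : ι → ℝ) (u : ι → F) {S S' : Finset ι} (h : Disjoint S S') :
    m1 p u (S ∪ S') = m1 p u S + m1 p u S' := Finset.sum_union h

theorem m2_add (p : ι → ℝ) (u : ι → F) {S S' : Finset ι} (h : Disjoint S S') :
    m2 p u (S ∪ S') = m2 p u S + m2 p u S' := Finset.sum_union h

/-- one layer, first functional -/
noncomputable def L1 (p : ι → ℝ) (u : ι → F) (A : Finset ι) : ℝ :=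
  m0 p Aᶜ * m2 p u A + ‖m1 p u A‖ ^ 2 - ‖m1 p u univ‖ ^ 2

theorem L1_ge (hp : ∀ x, 0 ≤ p x) (A : Finset ι) : -‖m1 p u univ‖ ^ 2 ≤ L1 p u A := by
  have h1 := m0_nonneg hp Aᶜ
  have h2 := m2_nonneg (u := u) hp A
  unfold L1
  nlinarith [mul_nonneg h1 h2, sq_nonneg ‖m1 p u A‖]

/-- one layer: the key inequality -/
theorem layer (hp : ∀ x, 0 ≤ p x) {A B : Finset ι} {dl eta s : ℝ}
    (h1 : m0 p Bᶜ ≤ eta) (h2 : dl ≤ m0 p (Aᶜ ∩ B)) (h3 : eta * m2 p u Bᶜ ≤ dl / 6 * m2 p u B)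
    {X3 : ℝ} (h4 : m0 p (Aᶜ ∩ B) * m2 p u (Aᶜ ∩ B) - ‖m1 p u (Aᶜ ∩ B)‖ ^ 2 ≤
      X3 / 2 + dl / 12 * m2 p u B) :
    dl * m2 p u B ≤ 36 / 5 * L1 p u A + 6 / 5 * X3 + 72 / 5 * ‖m1 p u univ‖ ^ 2 := by
  have hB : m2 p u B = m2 p u (A ∩ B) + m2 p u (Aᶜ ∩ B) := by
    rw [← m2_add p u (by
      rw [Finset.disjoint_left]
      intro x hx hx'
      simp at hx hx'
      exact hx'.1 hx.1)]
    congr 1
    ext x
    simp
    tauto
  have hB0 := m2_nonneg (u := u) hp B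
  have hAB : m2 p u (A ∩ B) ≤ m2 p u A := m2_mono hp Finset.inter_subset_left
  have hAB0 := m2_nonneg (u := u) hp (A ∩ B)
  have hAcB : m0 p (Aᶜ ∩ B) ≤ m0 p Aᶜ := m0_mono hp Finset.inter_subset_left
  have hAcB0 := m0_nonneg hp (Aᶜ ∩ B)
  have hk1 : dl * m2 p u B ≤ m0 p (Aᶜ ∩ B) * m2 p u B := mul_le_mul_of_nonneg_right h2 hB0
  have hk2 : m0 p (Aᶜ ∩ B) * m2 p u (A ∩ B) ≤ m0 p Aᶜ * m2 p u A :=
    mul_le_mul hAcB hAB hAB0 (m0_nonneg hp _)
  -- first moment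
  have hm : m1 p u (Aᶜ ∩ B) = m1 p u univ - m1 p u A - m1 p u (Aᶜ ∩ Bᶜ) := by
    have e1 : m1 p u univ = m1 p u A + m1 p u Aᶜ := by
      rw [← m1_add p u disjoint_compl_right, Finset.union_compl]
    have e2 : m1 p u Aᶜ = m1 p u (Aᶜ ∩ B) + m1 p u (Aᶜ ∩ Bᶜ) := by
      rw [← m1_add p u (by
        rw [Finset.disjoint_left]
        intro x hx hx'
        simp at hx hx'
        exact hx'.2 hx.2)]
      congr 1
      ext x
      simp
      tauto
    rw [e1, e2]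
    abel
  have hk3 : ‖m1 p u (Aᶜ ∩ B)‖ ^ 2 ≤
      3 * (‖m1 p u univ‖ ^ 2 + ‖m1 p u A‖ ^ 2 + ‖m1 p u (Aᶜ ∩ Bᶜ)‖ ^ 2) := by
    rw [hm]
    have t1 : ‖m1 p u univ - m1 p u A - m1 p u (Aᶜ ∩ Bᶜ)‖ ≤
        ‖m1 p u univ‖ + ‖m1 p u A‖ + ‖m1 p u (Aᶜ ∩ Bᶜ)‖ :=
      (norm_sub_le _ _).trans (add_le_add_left (norm_sub_le _ _) _)
    have t2 := norm_nonneg (m1 p u univ - m1 p u A - m1 p u (Aᶜ ∩ Bᶜ))
    have t3 := norm_nonneg (m1 p u univ)
    have t4 := norm_nonneg (m1 p u A)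
    have t5 := norm_nonneg (m1 p u (Aᶜ ∩ Bᶜ))
    nlinarith [sq_nonneg (‖m1 p u univ‖ - ‖m1 p u A‖),
      sq_nonneg (‖m1 p u univ‖ - ‖m1 p u (Aᶜ ∩ Bᶜ)‖),
      sq_nonneg (‖m1 p u A‖ - ‖m1 p u (Aᶜ ∩ Bᶜ)‖), pow_le_pow_left₀ t2 t1 2]
  have hk4 : ‖m1 p u (Aᶜ ∩ Bᶜ)‖ ^ 2 ≤ dl / 6 * m2 p u B := by
    refine (cs hp _).trans (le_trans ?_ h3)
    exact mul_le_mul ((m0_mono hp Finset.inter_subset_right).trans h1)
      (m2_mono hp Finset.inter_subset_right) (m2_nonneg hp _)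
      ((m0_nonneg hp _).trans h1)
  have hk5 : m0 p (Aᶜ ∩ B) * m2 p u B =
      m0 p (Aᶜ ∩ B) * m2 p u (A ∩ B) + m0 p (Aᶜ ∩ B) * m2 p u (Aᶜ ∩ B) := by
    rw [hB]
    ring
  have hk6 : 0 ≤ m0 p Aᶜ * m2 p u A := mul_nonneg (m0_nonneg hp _) (m2_nonneg hp _)
  unfold L1
  nlinarith

/-! ### the layer cake -/

/-- indicator of `t < a` -/
noncomputable def ph (a t : ℝ) : ℝ := if t < a then 1 else 0

theorem ph_nonneg (a t : ℝ) : 0 ≤ ph a t := by
  unfold ph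
  split_ifs <;> norm_num

theorem ph_integrable (a T : ℝ) : IntervalIntegrable (ph a) volume 0 T := by
  have : ph a = Set.indicator (Set.Iio a) fun _ => (1 : ℝ) := by
    funext t
    simp [ph, Set.indicator]
  rw [this]
  have h : IntervalIntegrable (fun _ => (1 : ℝ)) volume 0 T := intervalIntegrable_const
  exact ⟨h.1.indicator measurableSet_Iio, h.2.indicator measurableSet_Iio⟩

theorem ph_int {a T : ℝ} (h0 : 0 ≤ a) (hT : a ≤ T) : ∫ t in (0 : ℝ)..T, ph a t = a := by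
  rw [← intervalIntegral.integral_add_adjacent_intervals (ph_integrable a a)
    ((ph_integrable a a).symm.trans (ph_integrable a T))]
  have e1 : ∫ t in (0 : ℝ)..a, ph a t = ∫ t in (0 : ℝ)..a, (1 : ℝ) := by
    refine intervalIntegral.integral_congr_ae ?_
    have : ∀ᵐ t ∂(volume : Measure ℝ), t ≠ a := by
      simp [ae_iff]
    filter_upwards [this] with t ht h
    rw [Set.uIoc_of_le h0] at h
    simp [ph, lt_of_le_of_ne h.2 ht]
  have e2 : ∫ t in a..T, ph a t = ∫ t in a..T, (0 : ℝ) := by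
    refine intervalIntegral.integral_congr fun t ht => ?_
    rw [Set.uIcc_of_le hT] at ht
    simp [ph, not_lt.2 ht.1]
  rw [e1, e2]
  simp

theorem ii_sum {κ : Type*} (S : Finset κ) (c a : κ → ℝ) (T : ℝ) :
    IntervalIntegrable (fun t => ∑ k ∈ S, c k * ph (a k) t) volume 0 T := by
  have h := IntervalIntegrable.sum S (f := fun k t => c k * ph (a k) t) (μ := volume) (a := 0)
    (b := T) fun k _ => (ph_integrable (a k) T).const_mul (c k)
  have e : (∑ i ∈ S, fun t => c i * ph (a i) t) = fun t => ∑ k ∈ S, c k * ph (a k) t := by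
    funext t
    simp
  rwa [e] at h

theorem int_sum {κ : Type*} {S : Finset κ} {c a : κ → ℝ} {T : ℝ}
    (ha : ∀ k ∈ S, 0 ≤ a k ∧ a k ≤ T) :
    ∫ t in (0 : ℝ)..T, ∑ k ∈ S, c k * ph (a k) t = ∑ k ∈ S, c k * a k := by
  rw [intervalIntegral.integral_finset_sum fun k _ => (ph_integrable (a k) T).const_mul (c k)]
  refine Finset.sum_congr rfl fun k hk => ?_
  rw [intervalIntegral.integral_const_mul, ph_int (ha k hk).1 (ha k hk).2]

/-- four-fold combination -/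
theorem comb {κ1 κ2 κ3 : Type*} {S1 : Finset κ1} {S2 : Finset κ2} {S3 : Finset κ3}
    {c1 a1 : κ1 → ℝ} {c2 a2 : κ2 → ℝ} {c3 a3 : κ3 → ℝ} {c4 a4 c0 T : ℝ} (hT : 0 ≤ T)
    (h1 : ∀ k ∈ S1, 0 ≤ a1 k ∧ a1 k ≤ T) (h2 : ∀ k ∈ S2, 0 ≤ a2 k ∧ a2 k ≤ T)
    (h3 : ∀ k ∈ S3, 0 ≤ a3 k ∧ a3 k ≤ T) (h4 : 0 ≤ a4 ∧ a4 ≤ T)
    (h : ∀ t, 0 ≤ ∑ k ∈ S1, c1 k * ph (a1 k) t + ∑ k ∈ S2, c2 k * ph (a2 k) t +
      ∑ k ∈ S3, c3 k * ph (a3 k) t + c4 * ph a4 t + c0) :
    0 ≤ ∑ k ∈ S1, c1 k * a1 k + ∑ k ∈ S2, c2 k * a2 k + ∑ k ∈ S3, c3 k * a3 k +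
      c4 * a4 + T * c0 := by
  have I1 := ii_sum S1 c1 a1 T
  have I2 := ii_sum S2 c2 a2 T
  have I3 := ii_sum S3 c3 a3 T
  have I4 := (ph_integrable a4 T).const_mul c4
  have I5 : IntervalIntegrable (fun _ : ℝ => c0) volume 0 T := intervalIntegrable_const
  have h0 := intervalIntegral.integral_nonneg (μ := volume) hT fun t _ => h t
  have e1 := intervalIntegral.integral_add I1 I2
  have e2 := intervalIntegral.integral_add (I1.add I2) I3
  have e3 := intervalIntegral.integral_add ((I1.add I2).add I3) I4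
  have e4 := intervalIntegral.integral_add (((I1.add I2).add I3).add I4) I5
  rw [int_sum h1, int_sum h2] at e1
  rw [e1, int_sum h3] at e2
  rw [e2, intervalIntegral.integral_const_mul, ph_int h4.1 h4.2] at e3
  rw [e3, intervalIntegral.integral_const] at e4
  rw [e4] at h0
  simpa using h0

/-! ### the theorem -/

/-- first functional: `E |u_x - u_z|² max(g_x, g_z) - 2 E |u_x|² g_x` -/
noncomputable def Psi1 (p : ι → ℝ) (u : ι → F) (g : ι → ℝ) : ℝ :=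
  ∑ x, ∑ z, p x * p z * ‖u x - u z‖ ^ 2 * max (g x) (g z) - 2 * ∑ x, p x * ‖u x‖ ^ 2 * g x

/-- extra gain: far pairs inside `B` -/
noncomputable def Psi3 (p : ι → ℝ) (u : ι → F) (g : ι → ℝ) (B : Finset ι) (s : ℝ) : ℝ :=
  ∑ x ∈ B, ∑ z ∈ B,
    if s ≤ ‖u x - u z‖ then p x * p z * ‖u x - u z‖ ^ 2 * min (g x) (g z) else 0

theorem sum_if (c : ι → ι → ℝ) (A : Finset ι) :
    ∑ x, ∑ z, (if x ∈ A ∧ z ∈ A then c x z else 0) = ∑ x ∈ A, ∑ z ∈ A, c x z := by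
  rw [← Finset.sum_filter_add_sum_filter_not univ (fun x => x ∈ A)]
  have e1 : univ.filter (fun x => x ∈ A) = A := by
    ext x
    simp
  have e2 : ∑ x ∈ univ.filter (fun x => ¬ x ∈ A), ∑ z,
      (if x ∈ A ∧ z ∈ A then c x z else 0) = 0 :=
    Finset.sum_eq_zero fun x hx => Finset.sum_eq_zero fun z _ => by
      simp at hx
      simp [hx]
  rw [e2, add_zero, e1]
  refine Finset.sum_congr rfl fun x hx => ?_
  rw [← Finset.sum_filter_add_sum_filter_not univ (fun x => x ∈ A), e1]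
  have e3 : ∑ z ∈ univ.filter (fun x => ¬ x ∈ A),
      (if x ∈ A ∧ z ∈ A then c x z else 0) = 0 :=
    Finset.sum_eq_zero fun z hz => by
      simp at hz
      simp [hz]
  rw [e3, add_zero]
  exact Finset.sum_congr rfl fun z hz => by simp [hx, hz]

/-- the layer `t` of the first functional -/
theorem layer1 (hp1 : ∑ x, p x = 1) (t : ℝ) :
    ∑ x, ∑ z, p x * p z * ‖u x - u z‖ ^ 2 * ph (max (g x) (g z)) t -
      2 * ∑ x, p x * ‖u x‖ ^ 2 * ph (g x) t = 2 * L1 p u (univ.filter fun x => g x ≤ t) := by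
  obtain ⟨A, hA⟩ : ∃ A, A = univ.filter fun x => g x ≤ t := ⟨_, rfl⟩
  rw [← hA]
  have hmem : ∀ x, x ∈ A ↔ g x ≤ t := by
    intro x
    rw [hA]
    simp
  have e1 : ∑ x, ∑ z, p x * p z * ‖u x - u z‖ ^ 2 * ph (max (g x) (g z)) t =
      ∑ x, ∑ z, p x * p z * ‖u x - u z‖ ^ 2 -
        ∑ x ∈ A, ∑ z ∈ A, p x * p z * ‖u x - u z‖ ^ 2 := by
    rw [← sum_if (fun x z => p x * p z * ‖u x - u z‖ ^ 2) A, ← Finset.sum_sub_distrib]
    refine Finset.sum_congr rfl fun x _ => ?_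
    rw [← Finset.sum_sub_distrib]
    refine Finset.sum_congr rfl fun z _ => ?_
    rw [ph]
    by_cases h : g x ≤ t ∧ g z ≤ t
    · rw [if_pos (show x ∈ A ∧ z ∈ A from ⟨(hmem x).2 h.1, (hmem z).2 h.2⟩),
        if_neg (not_lt.2 (max_le h.1 h.2))]
      ring
    · rw [if_neg (show ¬ (x ∈ A ∧ z ∈ A) from fun h' => h ⟨(hmem x).1 h'.1, (hmem z).1 h'.2⟩),
        if_pos]
      · ring
      · rw [lt_max_iff]
        by_contra h'
        push Not at h'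
        exact h h'
  have e2 : ∑ x, p x * ‖u x‖ ^ 2 * ph (g x) t = m2 p u Aᶜ := by
    rw [m2, ← Finset.sum_add_sum_compl A fun x => p x * ‖u x‖ ^ 2 * ph (g x) t]
    rw [Finset.sum_eq_zero, zero_add]
    · refine Finset.sum_congr rfl fun x hx => ?_
      rw [Finset.mem_compl, hmem, not_le] at hx
      rw [ph, if_pos hx, mul_one]
    · intro x hx
      rw [hmem] at hx
      rw [ph, if_neg (not_lt.2 hx), mul_zero]
  have e3 := pair_sum p u univ univ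
  have e4 := pair_sum p u A A
  rw [real_inner_self_eq_norm_sq] at e3 e4
  have e5 : m0 p univ = 1 := hp1
  have e6 : m0 p univ = m0 p A + m0 p Aᶜ := by
    rw [← m0_add p disjoint_compl_right, Finset.union_compl]
  have e7 : m2 p u univ = m2 p u A + m2 p u Aᶜ := by
    rw [← m2_add p u disjoint_compl_right, Finset.union_compl]
  rw [e1, e2, e3, e4, L1, e7]
  have e8 : m0 p Aᶜ = 1 - m0 p A := by linarith
  rw [e5, e8]
  ring

/-- the layer `t` of the second functional -/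
theorem layer3 (hp : ∀ x, 0 ≤ p x) (hp1 : ∑ x, p x = 1) {B : Finset ι} {s : ℝ} (hs : 0 ≤ s)
    (t : ℝ) :
    m0 p ((univ.filter fun x => g x ≤ t)ᶜ ∩ B) * m2 p u ((univ.filter fun x => g x ≤ t)ᶜ ∩ B) -
      ‖m1 p u ((univ.filter fun x => g x ≤ t)ᶜ ∩ B)‖ ^ 2 ≤
      (∑ x ∈ B, ∑ z ∈ B,
        (if s ≤ ‖u x - u z‖ then p x * p z * ‖u x - u z‖ ^ 2 else 0) *
          ph (min (g x) (g z)) t) / 2 + s ^ 2 / 2 := by
  obtain ⟨A, hA⟩ : ∃ A, A = univ.filter fun x => g x ≤ t := ⟨_, rfl⟩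
  rw [← hA]
  have hmem : ∀ x, x ∈ A ↔ g x ≤ t := by
    intro x
    rw [hA]
    simp
  obtain ⟨S, hS⟩ : ∃ S, S = Aᶜ ∩ B := ⟨_, rfl⟩
  rw [← hS]
  have e4 := pair_sum p u S S
  rw [real_inner_self_eq_norm_sq] at e4
  have hSB : S ⊆ B := by
    rw [hS]
    exact Finset.inter_subset_right
  have hSg : ∀ x ∈ S, t < g x := by
    intro x hx
    rw [hS, Finset.mem_inter, Finset.mem_compl, hmem, not_le] at hx
    exact hx.1
  have k1 : ∑ x ∈ S, ∑ z ∈ S, p x * p z * ‖u x - u z‖ ^ 2 ≤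
      ∑ x ∈ S, ∑ z ∈ S, ((if s ≤ ‖u x - u z‖ then p x * p z * ‖u x - u z‖ ^ 2 else 0) *
          ph (min (g x) (g z)) t + p x * p z * s ^ 2) := by
    refine Finset.sum_le_sum fun x hx => Finset.sum_le_sum fun z hz => ?_
    rw [ph, if_pos (lt_min (hSg x hx) (hSg z hz)), mul_one]
    have hpp : 0 ≤ p x * p z := mul_nonneg (hp x) (hp z)
    split_ifs with h
    · have := mul_nonneg hpp (sq_nonneg s)
      linarith
    · rw [zero_add]
      push Not at h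
      exact mul_le_mul_of_nonneg_left (pow_le_pow_left₀ (norm_nonneg _) h.le 2) hpp
  have k2 : ∑ x ∈ S, ∑ z ∈ S, ((if s ≤ ‖u x - u z‖ then p x * p z * ‖u x - u z‖ ^ 2 else 0) *
          ph (min (g x) (g z)) t + p x * p z * s ^ 2) =
      ∑ x ∈ S, ∑ z ∈ S, (if s ≤ ‖u x - u z‖ then p x * p z * ‖u x - u z‖ ^ 2 else 0) *
          ph (min (g x) (g z)) t + m0 p S * m0 p S * s ^ 2 := by
    rw [m0, Finset.sum_mul_sum, Finset.sum_mul, ← Finset.sum_add_distrib]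
    refine Finset.sum_congr rfl fun x _ => ?_
    rw [Finset.sum_mul, ← Finset.sum_add_distrib]
  have hnn : ∀ x z, 0 ≤ (if s ≤ ‖u x - u z‖ then p x * p z * ‖u x - u z‖ ^ 2 else 0) *
      ph (min (g x) (g z)) t := by
    intro x z
    refine mul_nonneg ?_ (ph_nonneg _ _)
    split_ifs
    · exact mul_nonneg (mul_nonneg (hp x) (hp z)) (sq_nonneg _)
    · exact le_rfl
  have k3 : ∑ x ∈ S, ∑ z ∈ S, (if s ≤ ‖u x - u z‖ then p x * p z * ‖u x - u z‖ ^ 2 else 0) *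
          ph (min (g x) (g z)) t ≤
      ∑ x ∈ B, ∑ z ∈ B, (if s ≤ ‖u x - u z‖ then p x * p z * ‖u x - u z‖ ^ 2 else 0) *
          ph (min (g x) (g z)) t :=
    (Finset.sum_le_sum fun x _ => Finset.sum_le_sum_of_subset_of_nonneg hSB
      fun z _ _ => hnn x z).trans
      (Finset.sum_le_sum_of_subset_of_nonneg hSB fun x _ _ => Finset.sum_nonneg fun z _ => hnn x z)
  have k4 : m0 p S ≤ 1 := by
    rw [← hp1]
    exact m0_mono hp (Finset.subset_univ _)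
  have k5 : m0 p S * m0 p S * s ^ 2 ≤ s ^ 2 := by
    have h0 := m0_nonneg hp S
    have : m0 p S * m0 p S ≤ 1 := mul_le_one₀ k4 h0 k4
    nlinarith [sq_nonneg s]
  linarith

/-- **THE LAYER-CAKE / QUANTILE INEQUALITY** (629 (6)). `p` = hopping law of a site, `u` =
displacement, `g` = logarithmic weakness of the channel, `B` = ball of the mobile scale. -/
theorem quantile (hp : ∀ x, 0 ≤ p x) (hp1 : ∑ x, p x = 1) {T : ℝ}
    (hg : ∀ x, 0 ≤ g x ∧ g x ≤ T) {B : Finset ι} {tq dl eta s : ℝ} (hT : 0 ≤ T)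
    (htq : 0 ≤ tq ∧ tq ≤ T) (hs : 0 ≤ s)
    (h1 : ∑ x ∈ Bᶜ, p x ≤ eta) (h2 : dl ≤ ∑ x ∈ B with tq ≤ g x, p x)
    (h3 : eta * ∑ x ∈ Bᶜ, p x * ‖u x‖ ^ 2 ≤ dl / 6 * ∑ x ∈ B, p x * ‖u x‖ ^ 2)
    (h4 : s ^ 2 ≤ dl / 6 * ∑ x ∈ B, p x * ‖u x‖ ^ 2) :
    dl * tq * ∑ x ∈ B, p x * ‖u x‖ ^ 2 ≤
      6 * (Psi1 p u g + Psi3 p u g B s) + 20 * T * ‖∑ x, p x • u x‖ ^ 2 := by
  have key := comb (S1 := (univ : Finset ι) ×ˢ (univ : Finset ι)) (S2 := (univ : Finset ι))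
    (S3 := B ×ˢ B)
    (c1 := fun k => 6 * (p k.1 * p k.2 * ‖u k.1 - u k.2‖ ^ 2)) (a1 := fun k => max (g k.1) (g k.2))
    (c2 := fun x => -12 * (p x * ‖u x‖ ^ 2)) (a2 := g)
    (c3 := fun k => 6 * (if s ≤ ‖u k.1 - u k.2‖ then p k.1 * p k.2 * ‖u k.1 - u k.2‖ ^ 2 else 0))
    (a3 := fun k => min (g k.1) (g k.2)) (c4 := -(dl * m2 p u B)) (a4 := tq)
    (c0 := 20 * ‖m1 p u univ‖ ^ 2) hT
    (fun k _ => ⟨le_max_of_le_left (hg _).1, max_le (hg _).2 (hg _).2⟩) (fun x _ => hg x)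
    (fun k _ => ⟨le_min (hg _).1 (hg _).1, min_le_of_left_le (hg _).2⟩) htq
    (fun t => by
      rw [Finset.sum_product, Finset.sum_product]
      have e1 := layer1 (u := u) (g := g) hp1 t
      have e3 := layer3 (u := u) (g := g) hp hp1 (B := B) hs t
      obtain ⟨X1, hX1⟩ : ∃ X, X = ∑ x, ∑ z, p x * p z * ‖u x - u z‖ ^ 2 *
        ph (max (g x) (g z)) t := ⟨_, rfl⟩
      obtain ⟨X2, hX2⟩ : ∃ X, X = ∑ x, p x * ‖u x‖ ^ 2 * ph (g x) t := ⟨_, rfl⟩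
      obtain ⟨X3, hX3⟩ : ∃ X, X = ∑ x ∈ B, ∑ z ∈ B,
        (if s ≤ ‖u x - u z‖ then p x * p z * ‖u x - u z‖ ^ 2 else 0) *
          ph (min (g x) (g z)) t := ⟨_, rfl⟩
      have f1 : ∑ x, ∑ z, 6 * (p x * p z * ‖u x - u z‖ ^ 2) * ph (max (g x) (g z)) t = 6 * X1 := by
        rw [hX1, Finset.mul_sum]
        refine Finset.sum_congr rfl fun x _ => ?_
        rw [Finset.mul_sum]
        exact Finset.sum_congr rfl fun z _ => by ring
      have f2 : ∑ x, -12 * (p x * ‖u x‖ ^ 2) * ph (g x) t = -12 * X2 := by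
        rw [hX2, Finset.mul_sum]
        exact Finset.sum_congr rfl fun z _ => by ring
      have f3 : ∑ x ∈ B, ∑ z ∈ B,
          6 * (if s ≤ ‖u x - u z‖ then p x * p z * ‖u x - u z‖ ^ 2 else 0) *
          ph (min (g x) (g z)) t = 6 * X3 := by
        rw [hX3, Finset.mul_sum]
        refine Finset.sum_congr rfl fun x _ => ?_
        rw [Finset.mul_sum]
        exact Finset.sum_congr rfl fun z _ => by ring
      rw [← hX1, ← hX2] at e1
      rw [← hX3] at e3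
      have hX3n : 0 ≤ X3 := by
        rw [hX3]
        refine Finset.sum_nonneg fun x _ => Finset.sum_nonneg fun z _ =>
          mul_nonneg ?_ (ph_nonneg _ _)
        split_ifs
        · exact mul_nonneg (mul_nonneg (hp x) (hp z)) (sq_nonneg _)
        · exact le_rfl
      have hL := L1_ge (u := u) hp (univ.filter fun x => g x ≤ t)
      simp only
      rw [f1, f2, f3]
      by_cases ht : t < tq
      · rw [ph, if_pos ht]
        have hl := layer (u := u) hp (A := univ.filter fun x => g x ≤ t) (B := B) (dl := dl)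
          (eta := eta) (s := s) h1 (h2.trans (by
            refine Finset.sum_le_sum_of_subset_of_nonneg ?_ fun x _ _ => hp x
            intro x hx
            rw [Finset.mem_filter] at hx
            rw [Finset.mem_inter, Finset.mem_compl, Finset.mem_filter]
            exact ⟨fun h => by linarith [h.2, hx.2], hx.1⟩)) h3 (X3 := X3) (by
            have h4' : s ^ 2 ≤ dl / 6 * m2 p u B := h4
            linarith)
        have := sq_nonneg ‖m1 p u univ‖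
        linarith
      · rw [ph, if_neg ht]
        linarith [sq_nonneg ‖m1 p u univ‖])
  rw [Finset.sum_product, Finset.sum_product] at key
  have g1 : ∑ x, ∑ z, 6 * (p x * p z * ‖u x - u z‖ ^ 2) * max (g x) (g z) =
      6 * ∑ x, ∑ z, p x * p z * ‖u x - u z‖ ^ 2 * max (g x) (g z) := by
    rw [Finset.mul_sum]
    refine Finset.sum_congr rfl fun x _ => ?_
    rw [Finset.mul_sum]
    exact Finset.sum_congr rfl fun z _ => by ring
  have g2 : ∑ x, -12 * (p x * ‖u x‖ ^ 2) * g x = -12 * ∑ x, p x * ‖u x‖ ^ 2 * g x := by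
    rw [Finset.mul_sum]
    exact Finset.sum_congr rfl fun z _ => by ring
  have g3 : ∑ x ∈ B, ∑ z ∈ B,
      6 * (if s ≤ ‖u x - u z‖ then p x * p z * ‖u x - u z‖ ^ 2 else 0) * min (g x) (g z) =
      6 * Psi3 p u g B s := by
    rw [Psi3, Finset.mul_sum]
    refine Finset.sum_congr rfl fun x _ => ?_
    rw [Finset.mul_sum]
    refine Finset.sum_congr rfl fun z _ => ?_
    split_ifs <;> ring
  simp only at key
  rw [g1, g2, g3] at key
  have g4 : m2 p u B = ∑ x ∈ B, p x * ‖u x‖ ^ 2 := rfl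
  have g5 : m1 p u univ = ∑ x, p x • u x := rfl
  rw [← g4, ← g5, Psi1]
  nlinarith

/-- the first functional alone is almost nonnegative -/
theorem Psi1_ge (hp : ∀ x, 0 ≤ p x) (hp1 : ∑ x, p x = 1) {T : ℝ} (hT : 0 ≤ T)
    (hg : ∀ x, 0 ≤ g x ∧ g x ≤ T) :
    -(2 * T * ‖∑ x, p x • u x‖ ^ 2) ≤ Psi1 p u g := by
  have key := comb (S1 := (univ : Finset ι) ×ˢ (univ : Finset ι)) (S2 := (univ : Finset ι))
    (S3 := (∅ : Finset ι))
    (c1 := fun k => p k.1 * p k.2 * ‖u k.1 - u k.2‖ ^ 2) (a1 := fun k => max (g k.1) (g k.2))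
    (c2 := fun x => -2 * (p x * ‖u x‖ ^ 2)) (a2 := g)
    (c3 := fun _ => 0) (a3 := fun _ => 0) (c4 := 0) (a4 := 0)
    (c0 := 2 * ‖m1 p u univ‖ ^ 2) hT
    (fun k _ => ⟨le_max_of_le_left (hg _).1, max_le (hg _).2 (hg _).2⟩) (fun x _ => hg x)
    (fun k hk => absurd hk (Finset.notMem_empty _)) ⟨le_rfl, hT⟩
    (fun t => by
      rw [Finset.sum_product]
      have e1 := layer1 (u := u) (g := g) hp1 t
      have hL := L1_ge (u := u) hp (univ.filter fun x => g x ≤ t)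
      have f2 : ∑ x, -2 * (p x * ‖u x‖ ^ 2) * ph (g x) t =
          -2 * ∑ x, p x * ‖u x‖ ^ 2 * ph (g x) t := by
        rw [Finset.mul_sum]
        exact Finset.sum_congr rfl fun z _ => by ring
      simp only [Finset.sum_empty]
      rw [f2]
      linarith)
  rw [Finset.sum_product] at key
  have g2 : ∑ x, -2 * (p x * ‖u x‖ ^ 2) * g x = -2 * ∑ x, p x * ‖u x‖ ^ 2 * g x := by
    rw [Finset.mul_sum]
    exact Finset.sum_congr rfl fun z _ => by ring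
  simp only [Finset.sum_empty] at key
  rw [g2] at key
  have g5 : m1 p u univ = ∑ x, p x • u x := rfl
  rw [← g5, Psi1]
  linarith

theorem Psi3_nonneg (hp : ∀ x, 0 ≤ p x) (hg : ∀ x, 0 ≤ g x) (B : Finset ι) (s : ℝ) :
    0 ≤ Psi3 p u g B s := by
  refine Finset.sum_nonneg fun x _ => Finset.sum_nonneg fun z _ => ?_
  split_ifs
  · exact mul_nonneg (mul_nonneg (mul_nonneg (hp x) (hp z)) (sq_nonneg _))
      (le_min (hg x) (hg z))
  · exact le_rfl

end P365T2.Layer
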