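import Vale.Agent.P365.T2.SeqGB795

/-!
# P365-T2: the choice of the last level `I` for a given scale `m = 2 ^ k`
-/

set_option linter.all false

namespace P365T2.SeqG

open Filter

variable {β : ℕ} [hβ : Fact (2 ≤ β)]

omit hβ in
theorem rr_two_pow (β j i : ℕ) : rr β (2 ^ j) i = 2 ^ (j * β ^ i) := by
  rw [rr, ← pow_mul]

omit hβ in
theorem mS_two_pow (β j i : ℕ) : mS β (2 ^ j) i = 2 ^ (3 + j * β ^ i) := by
  rw [mS, rr_two_pow, pow_add]
  norm_num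

theorem mS_lt_succ {rs : ℕ} (h : 2 ≤ rs) (i : ℕ) : mS β rs i < mS β rs (i + 1) := by
  have h2 : 2 ≤ rr β rs i := h.trans (le_rr (by omega) i)
  have h3 : rr β rs i < rr β rs (i + 1) := by
    rw [rr_succ]
    calc rr β rs i = rr β rs i ^ 1 := (pow_one _).symm
      _ < rr β rs i ^ β := Nat.pow_lt_pow_right (by omega) (by have := hβ.out; omega)
  unfold mS
  omega

theorem le_mS {rs : ℕ} (h : 2 ≤ rs) (i : ℕ) : i < mS β rs i := by
  have := lt_rr (β := β) h i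
  unfold mS
  omega

/-- the last level at scale `m` -/
theorem exists_last {rs : ℕ} (h : 2 ≤ rs) {m : ℕ} {i₀ : ℕ} (hm : mS β rs i₀ ≤ m) :
    ∃ I, i₀ ≤ I ∧ mS β rs I ≤ m ∧ m < mS β rs (I + 1) := by
  classical
  have hex : ∃ n, m < mS β rs n := ⟨m, le_mS h m⟩
  have hmono : ∀ {i j : ℕ}, i ≤ j → mS β rs i ≤ mS β rs j := by
    intro i j hij
    have := rr_mono (β := β) (show 1 ≤ rs by omega) hij
    unfold mS
    omega
  have h1 := Nat.find_spec hex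
  have h2 : ∀ n, n < Nat.find hex → mS β rs n ≤ m := fun n hn => not_lt.1 (Nat.find_min hex hn)
  have h3 : i₀ < Nat.find hex := by
    by_contra hcon
    have := hmono (not_lt.1 hcon)
    omega
  refine ⟨Nat.find hex - 1, by omega, h2 _ (by omega), ?_⟩
  rwa [Nat.sub_add_cancel (by omega)]

omit hβ in
theorem mS_dvd_two_pow {j I k : ℕ} (h : mS β (2 ^ j) I ≤ 2 ^ k) : mS β (2 ^ j) I ∣ 2 ^ k := by
  rw [mS_two_pow] at h ⊢
  exact pow_dvd_pow 2 ((Nat.pow_le_pow_iff_right (by norm_num)).1 h)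

omit hβ in
/-- the background is superexponentially small in the scale -/
theorem bS_le_of_lt {rs I m : ℕ} (hm : m < mS β rs (I + 1)) :
    bS β rs I ≤ (1 / 2) ^ (2 * (m / 8) ^ 5) := by
  unfold bS nS
  refine pow_le_pow_of_le_one (by norm_num) (by norm_num) ?_
  have h1 : m / 8 ≤ rr β rs (I + 1) := by
    unfold mS at hm
    omega
  gcongr

theorem ev_bS (C : ℕ) : ∃ k₀ : ℕ, 6 ≤ k₀ ∧ ∀ k, k₀ ≤ k →
    C * k ≤ 2 * (2 ^ k / 8) ^ 5 := by
  refine ⟨max 6 (C + 6), le_max_left _ _, fun k hk => ?_⟩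
  have hk6 : 6 ≤ k := (le_max_left _ _).trans hk
  have hkC : C + 6 ≤ k := (le_max_right _ _).trans hk
  have h1 : 2 ^ k / 8 = 2 ^ (k - 3) := by
    obtain ⟨d, rfl⟩ : ∃ d, k = d + 3 := ⟨k - 3, by omega⟩
    rw [Nat.add_sub_cancel, pow_add]
    norm_num
  rw [h1]
  have h2 : k ≤ 2 ^ (k - 3) * 4 := by
    obtain ⟨d, rfl⟩ : ∃ d, k = d + 3 := ⟨k - 3, by omega⟩
    rw [Nat.add_sub_cancel]
    have : d < 2 ^ d := Nat.lt_two_pow_self
    omega
  have h3 : (8 : ℕ) ≤ 2 ^ (k - 3) := by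
    calc (8 : ℕ) = 2 ^ 3 := by norm_num
      _ ≤ 2 ^ (k - 3) := Nat.pow_le_pow_right (by norm_num) (by omega)
  have h4 : C ≤ k := by omega
  calc C * k ≤ (2 ^ (k - 3) * 4) * (2 ^ (k - 3) * 4) :=
        Nat.mul_le_mul (h4.trans h2) h2
    _ = (2 ^ (k - 3)) ^ 2 * 16 := by ring
    _ ≤ (2 ^ (k - 3)) ^ 2 * (2 ^ (k - 3)) ^ 3 := by
        refine Nat.mul_le_mul_left _ ?_
        calc 16 ≤ 8 ^ 3 := by norm_num
          _ ≤ _ := Nat.pow_le_pow_left h3 3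
    _ ≤ 2 * (2 ^ (k - 3)) ^ 5 := by
        rw [← pow_add]
        exact Nat.le_mul_of_pos_left _ (by norm_num)

/-- **choice of the level**: for `m = 2 ^ k` large the last level `I` whose blocks divide `m`
is late, and its background is below any power of `m` -/
theorem exists_level {j : ℕ} (hj : 1 ≤ j) (C i₀ : ℕ) :
    ∃ k₀ : ℕ, 6 ≤ k₀ ∧ ∀ k, k₀ ≤ k → ∃ I, i₀ ≤ I ∧ mS β (2 ^ j) I ∣ 2 ^ k ∧
      2 ^ k < mS β (2 ^ j) (I + 1) ∧ bS β (2 ^ j) I ≤ 1 / ((2 : ℝ) ^ k) ^ C ∧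
      bS β (2 ^ j) I ≤ (1 / 2) ^ (2 * (2 ^ k / 8) ^ 5) := by
  have h2 : 2 ≤ 2 ^ j := by
    calc 2 = 2 ^ 1 := rfl
      _ ≤ 2 ^ j := Nat.pow_le_pow_right (by norm_num) hj
  obtain ⟨k₁, hk6, hk₁⟩ := ev_bS C
  refine ⟨max k₁ (3 + j * β ^ i₀), hk6.trans (le_max_left _ _), fun k hk => ?_⟩
  have hm : mS β (2 ^ j) i₀ ≤ 2 ^ k := by
    rw [mS_two_pow]
    exact Nat.pow_le_pow_right (by norm_num) ((le_max_right _ _).trans hk)
  obtain ⟨I, hI, h3, h4⟩ := exists_last (β := β) h2 hm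
  refine ⟨I, hI, mS_dvd_two_pow h3, h4, (bS_le_of_lt h4).trans ?_, bS_le_of_lt h4⟩
  rw [← pow_mul, ← one_div_pow]
  refine pow_le_pow_of_le_one (by norm_num) (by norm_num) ?_
  rw [mul_comm]
  exact hk₁ k ((le_max_left _ _).trans hk)

end P365T2.SeqG
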