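import Mathlib

/-!
Mobility lemma for the kernel `psi = sum_{j < J} (h_{2^J} - h_{2^j})`,
`h_r (x, y) = r^2 |x - y|^2 / (r^2 + |x - y|^2)` (row X-M2').  Abstract finite version.
-/

namespace P365T2.M2p

open Finset

variable {ι κ : Type*} [Fintype ι] [Fintype κ]

/-- the squared distance attached to a finite family of functions -/
def sq (F : κ → ι → ℝ) (x y : ι) : ℝ := ∑ k, (F k x - F k y) ^ 2

/-- the truncated square `r^2 t / (r^2 + t)` -/
noncomputable def ker (r t : ℝ) : ℝ := r ^ 2 * t / (r ^ 2 + t)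

/-- the bilinear form which appears in the local generator -/
def Mf (P : ι → ℝ) (z : ι) (c : ι → ι → ℝ) : ℝ :=
  ∑ a, ∑ b, P a * P b * c a b - 2 * ∑ a, P a * c a z

/-- `sum_{j < J} (h_{2^J} - h_{2^j})` -/
noncomputable def psi (J : ℕ) (F : κ → ι → ℝ) (x y : ι) : ℝ :=
  ∑ j ∈ range J, (ker (2 ^ J) (sq F x y) - ker (2 ^ j) (sq F x y))

/-- a kernel which is the squared distance of a finite family -/
def Cnd (c : ι → ι → ℝ) : Prop :=
  ∃ (m : ℕ) (f : Fin m → ι → ℝ), ∀ x y, c x y = ∑ k, (f k x - f k y) ^ 2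

omit [Fintype ι] in
lemma sq_nonneg' (F : κ → ι → ℝ) (x y : ι) : 0 ≤ sq F x y :=
  Finset.sum_nonneg fun _ _ => sq_nonneg _

lemma ker_nonneg {r t : ℝ} (ht : 0 ≤ t) : 0 ≤ ker r t := by
  unfold ker; positivity

lemma ker_le_t {r t : ℝ} (hr : 0 < r) (ht : 0 ≤ t) : ker r t ≤ t := by
  unfold ker
  rw [div_le_iff₀ (by positivity)]
  nlinarith [mul_nonneg ht ht]

lemma ker_le_r {r t : ℝ} (hr : 0 < r) (ht : 0 ≤ t) : ker r t ≤ r ^ 2 := by
  unfold ker
  rw [div_le_iff₀ (by positivity)]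
  nlinarith [sq_nonneg (r ^ 2)]

/-- exact value of the form on a squared distance -/
lemma Mf_family {m : Type*} [Fintype m] (P : ι → ℝ) (hP1 : ∑ a, P a = 1) (z : ι)
    (f : m → ι → ℝ) :
    Mf P z (fun x y => ∑ k, (f k x - f k y) ^ 2) =
      -2 * ∑ k, (∑ a, P a * (f k a - f k z)) ^ 2 := by
  unfold Mf
  have h1 : ∀ k, ∑ a, ∑ b, P a * P b * (f k a - f k b) ^ 2 =
      2 * ∑ a, P a * (f k a - f k z) ^ 2 - 2 * (∑ a, P a * (f k a - f k z)) ^ 2 := by
    intro k
    have e : ∀ a b, P a * P b * (f k a - f k b) ^ 2 =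
        (P a * (f k a - f k z) ^ 2) * P b + P a * (P b * (f k b - f k z) ^ 2)
          - 2 * ((P a * (f k a - f k z)) * (P b * (f k b - f k z))) := by
      intro a b; ring
    simp_rw [e, Finset.sum_sub_distrib, Finset.sum_add_distrib, ← Finset.mul_sum,
      ← Finset.sum_mul, hP1]
    ring
  have h2 : ∑ a, ∑ b, P a * P b * ∑ k, (f k a - f k b) ^ 2 =
      ∑ k, ∑ a, ∑ b, P a * P b * (f k a - f k b) ^ 2 := by
    simp_rw [Finset.mul_sum]
    rw [Finset.sum_comm' (s := univ) (t := fun _ => univ) (t' := univ) (s' := fun _ => univ)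
      (by simp)]
    rw [Finset.sum_comm]
    have : ∀ a : ι, ∑ b, ∑ k, P a * P b * (f k a - f k b) ^ 2 =
        ∑ k, ∑ b, P a * P b * (f k a - f k b) ^ 2 := fun a => Finset.sum_comm
    simp_rw [this]
    rw [Finset.sum_comm]
  have h3 : ∑ a, P a * ∑ k, (f k a - f k z) ^ 2 = ∑ k, ∑ a, P a * (f k a - f k z) ^ 2 := by
    simp_rw [Finset.mul_sum]
    rw [Finset.sum_comm]
  rw [h2, h3]
  simp_rw [h1]
  rw [Finset.sum_sub_distrib, ← Finset.mul_sum, ← Finset.mul_sum]
  ring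

lemma minkowski {m : Type*} [Fintype m] (P : ι → ℝ) (hP0 : ∀ a, 0 ≤ P a) (g : m → ι → ℝ) :
    ∑ k, (∑ a, P a * g k a) ^ 2 ≤ (∑ a, P a * Real.sqrt (∑ k, g k a ^ 2)) ^ 2 := by
  have h1 : ∑ k, (∑ a, P a * g k a) ^ 2 = ∑ a, ∑ b, P a * P b * ∑ k, g k a * g k b := by
    have e : ∀ k, (∑ a, P a * g k a) ^ 2 = ∑ a, ∑ b, P a * P b * (g k a * g k b) := by
      intro k
      rw [pow_two, Finset.sum_mul_sum]
      refine Finset.sum_congr rfl fun a _ => Finset.sum_congr rfl fun b _ => by ring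
    simp_rw [e, Finset.mul_sum]
    rw [Finset.sum_comm]
    refine Finset.sum_congr rfl fun a _ => ?_
    rw [Finset.sum_comm]
  have h2 : (∑ a, P a * Real.sqrt (∑ k, g k a ^ 2)) ^ 2 =
      ∑ a, ∑ b, P a * P b * (Real.sqrt (∑ k, g k a ^ 2) * Real.sqrt (∑ k, g k b ^ 2)) := by
    rw [pow_two, Finset.sum_mul_sum]
    refine Finset.sum_congr rfl fun a _ => Finset.sum_congr rfl fun b _ => by ring
  rw [h1, h2]
  refine Finset.sum_le_sum fun a _ => Finset.sum_le_sum fun b _ => ?_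
  exact mul_le_mul_of_nonneg_left (Real.sum_mul_le_sqrt_mul_sqrt _ _ _)
    (mul_nonneg (hP0 a) (hP0 b))

lemma Mf_cnd_nonpos {P : ι → ℝ} (hP1 : ∑ a, P a = 1) (z : ι)
    {c : ι → ι → ℝ} (hc : Cnd c) : Mf P z c ≤ 0 := by
  obtain ⟨m, f, hf⟩ := hc
  have : c = fun x y => ∑ k, (f k x - f k y) ^ 2 := by funext x y; exact hf x y
  rw [this, Mf_family P hP1]
  have : 0 ≤ ∑ k, (∑ a, P a * (f k a - f k z)) ^ 2 := Finset.sum_nonneg fun _ _ => sq_nonneg _
  linarith

lemma Mf_cnd_ge {P : ι → ℝ} (hP0 : ∀ a, 0 ≤ P a) (hP1 : ∑ a, P a = 1) (z : ι)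
    {c : ι → ι → ℝ} (hc : Cnd c) :
    -2 * (∑ a, P a * Real.sqrt (c a z)) ^ 2 ≤ Mf P z c := by
  obtain ⟨m, f, hf⟩ := hc
  have e : c = fun x y => ∑ k, (f k x - f k y) ^ 2 := by funext x y; exact hf x y
  have := minkowski P hP0 (fun k a => f k a - f k z)
  have e2 : ∀ a, c a z = ∑ k, (f k a - f k z) ^ 2 := fun a => hf a z
  simp_rw [e2]
  rw [e, Mf_family P hP1]
  linarith

/-- the increment of `h_R - h_r` -/
lemma w_incr {r R t s : ℝ} (hr : 0 < r) (hR : r ≤ R) (ht : 0 ≤ t) (hts : t ≤ s) :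
    (ker R s - ker r s) - (ker R t - ker r t) ≤ (s - t) * ((Real.sqrt s + Real.sqrt t) / r) ∧
    ker R t - ker r t ≤ ker R s - ker r s := by
  have hR0 : 0 < R := lt_of_lt_of_le hr hR
  have hs : 0 ≤ s := ht.trans hts
  have key : ∀ q : ℝ, 0 < q → ker q s - ker q t = (s - t) * (q ^ 2 / (q ^ 2 + t) * (q ^ 2 / (q ^ 2 + s))) := by
    intro q hq
    unfold ker
    have h1 : q ^ 2 + t ≠ 0 := by positivity
    have h2 : q ^ 2 + s ≠ 0 := by positivity
    field_simp
    ring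
  have hfr : ∀ q x : ℝ, 0 < q → 0 ≤ x → q ^ 2 / (q ^ 2 + x) ≤ 1 := by
    intro q x hq hx
    rw [div_le_one (by positivity)]; linarith
  have hfr0 : ∀ q x : ℝ, 0 < q → 0 ≤ x → 0 ≤ q ^ 2 / (q ^ 2 + x) := by
    intro q x hq hx; positivity
  have hmono : ∀ x : ℝ, 0 ≤ x → r ^ 2 / (r ^ 2 + x) ≤ R ^ 2 / (R ^ 2 + x) := by
    intro x hx
    rw [div_le_div_iff₀ (by positivity) (by positivity)]
    have : r ^ 2 ≤ R ^ 2 := by gcongr
    nlinarith [mul_le_mul_of_nonneg_right this hx]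
  have kR := key R hR0
  have kr := key r hr
  have hst : 0 ≤ s - t := by linarith
  constructor
  · have e : (ker R s - ker r s) - (ker R t - ker r t)
        = (ker R s - ker R t) - (ker r s - ker r t) := by ring
    rw [e, kR, kr, ← mul_sub]
    refine mul_le_mul_of_nonneg_left ?_ hst
    set x := r ^ 2 / (r ^ 2 + t) with hx
    set y := r ^ 2 / (r ^ 2 + s) with hy
    have hx1 : x ≤ 1 := hfr r t hr ht
    have hy1 : y ≤ 1 := hfr r s hr hs
    have hx0 : 0 ≤ x := hfr0 r t hr ht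
    have hy0 : 0 ≤ y := hfr0 r s hr hs
    have hle : R ^ 2 / (R ^ 2 + t) * (R ^ 2 / (R ^ 2 + s)) ≤ 1 :=
      mul_le_one₀ (hfr R t hR0 ht) (hfr0 R s hR0 hs) (hfr R s hR0 hs)
    -- 1 - x = t / (r^2 + t) <= sqrt t / r
    have hb : ∀ q : ℝ, 0 ≤ q → 1 - r ^ 2 / (r ^ 2 + q) ≤ Real.sqrt q / r := by
      intro q hq
      have h1 : 1 - r ^ 2 / (r ^ 2 + q) = q / (r ^ 2 + q) := by
        have : r ^ 2 + q ≠ 0 := by positivity
        field_simp
        ring
      rw [h1, div_le_div_iff₀ (by positivity) hr]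
      have hqs : q = Real.sqrt q ^ 2 := (Real.sq_sqrt hq).symm
      have hs0 := Real.sqrt_nonneg q
      nlinarith [mul_nonneg hs0 (sq_nonneg (r - Real.sqrt q)), mul_nonneg hs0 (mul_nonneg hr.le hs0),
        mul_nonneg hs0 (sq_nonneg r)]
    have hbt := hb t ht
    have hbs := hb s hs
    have : 1 - x * y ≤ (1 - x) + (1 - y) := by nlinarith [mul_nonneg (sub_nonneg.2 hx1) (sub_nonneg.2 hy1)]
    calc _ ≤ 1 - x * y := by linarith
      _ ≤ (1 - x) + (1 - y) := this
      _ ≤ Real.sqrt t / r + Real.sqrt s / r := by linarith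
      _ = _ := by ring
  · have : ker r s - ker r t ≤ ker R s - ker R t := by
      rw [kR, kr]
      refine mul_le_mul_of_nonneg_left ?_ hst
      exact mul_le_mul (hmono t ht) (hmono s hs) (hfr0 r s hr hs) (hfr0 R t hR0 ht)
    linarith

lemma w_nonneg {r R t : ℝ} (hr : 0 < r) (hR : r ≤ R) (ht : 0 ≤ t) : 0 ≤ ker R t - ker r t := by
  have := (w_incr hr hR le_rfl ht).2
  simpa [ker] using this

/-- three point estimate -/
lemma w_three {r R A B t : ℝ} (hr : 0 < r) (hR : r ≤ R) (hA : 0 ≤ A) (hB : 0 ≤ B) (ht : 0 ≤ t)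
    (htAB : t ≤ (A + B) ^ 2) :
    (ker R t - ker r t) - (ker R (A ^ 2) - ker r (A ^ 2)) - (ker R (B ^ 2) - ker r (B ^ 2)) ≤
      9 * (A * B * (A + B)) / r := by
  wlog hAB : B ≤ A generalizing A B
  · have := this hB hA (by rwa [add_comm]) (le_of_lt (not_le.1 hAB))
    have e : 9 * (B * A * (B + A)) / r = 9 * (A * B * (A + B)) / r := by ring
    rw [e] at this
    linarith
  have h1 := (w_incr hr hR ht htAB).2
  have h2 := (w_incr hr hR (sq_nonneg A) (show A ^ 2 ≤ (A + B) ^ 2 by gcongr; linarith)).1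
  have h3 := w_nonneg hr hR (sq_nonneg B)
  rw [Real.sqrt_sq (by positivity), Real.sqrt_sq hA] at h2
  have h4 : ((A + B) ^ 2 - A ^ 2) * ((A + B + A) / r) ≤ 9 * (A * B * (A + B)) / r := by
    rw [← mul_div_assoc]
    refine div_le_div_of_nonneg_right ?_ hr.le
    have : B * (2 * A + B) * (2 * A + B) ≤ 9 * (A * B * (A + B)) := by
      have hB2 : B * B ≤ A * B := mul_le_mul_of_nonneg_right hAB hB
      have hB3 : B * B * B ≤ A * B * B := mul_le_mul_of_nonneg_right hB2 hB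
      nlinarith [mul_nonneg (mul_nonneg hA hA) hB, mul_nonneg (mul_nonneg hA hB) hB]
    calc _ = B * (2 * A + B) * (2 * A + B) := by ring
      _ ≤ _ := this
  linarith

lemma sqrt_sq_tri (F : κ → ι → ℝ) (x y z : ι) :
    sq F x y ≤ (Real.sqrt (sq F x z) + Real.sqrt (sq F y z)) ^ 2 := by
  have h : sq F x y = sq F x z + sq F y z - 2 * ∑ k, (F k x - F k z) * (F k y - F k z) := by
    unfold sq
    rw [Finset.mul_sum, ← Finset.sum_add_distrib, ← Finset.sum_sub_distrib]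
    exact Finset.sum_congr rfl fun k _ => by ring
  have h2 : -∑ k, (F k x - F k z) * (F k y - F k z) ≤
      Real.sqrt (sq F x z) * Real.sqrt (sq F y z) := by
    have := Real.sum_mul_le_sqrt_mul_sqrt univ (fun k => -(F k x - F k z)) (fun k => F k y - F k z)
    simp only [neg_mul, Finset.sum_neg_distrib, neg_sq] at this
    exact this
  rw [add_sq, Real.sq_sqrt (sq_nonneg' F x z), Real.sq_sqrt (sq_nonneg' F y z), h]
  linarith

section sums

lemma sum_low (l : ℝ) (J : ℕ) (u : ℕ → ℝ)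
    (hu : ∀ j, (2 : ℝ) ^ j ≤ l → u j ≤ 2 * (2 ^ j) ^ 2) (hu' : ∀ j, ¬ ((2 : ℝ) ^ j ≤ l) → u j ≤ 0) :
    ∑ j ∈ range J, u j ≤ 2 / 3 * (2 ^ J) ^ 2 ∧ ∑ j ∈ range J, u j ≤ 8 / 3 * l ^ 2 := by
  induction J with
  | zero => constructor <;> simp <;> positivity
  | succ J ih =>
    rw [Finset.sum_range_succ]
    have hp : (0 : ℝ) < 2 ^ J := by positivity
    by_cases h : (2 : ℝ) ^ J ≤ l
    · have := hu J h
      have h2 : ((2 : ℝ) ^ J) ^ 2 ≤ l ^ 2 := by gcongr
      constructor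
      · rw [pow_succ (2 : ℝ) J]; nlinarith [ih.1]
      · nlinarith [ih.1]
    · have := hu' J h
      constructor
      · rw [pow_succ (2 : ℝ) J]; nlinarith [ih.1, sq_nonneg ((2 : ℝ) ^ J)]
      · linarith [ih.2]

lemma sum_high {s K : ℝ} (hs : 0 < s) (hK : 0 ≤ K) (J : ℕ) (u : ℕ → ℝ)
    (hu : ∀ j, s < (2 : ℝ) ^ j → u j ≤ K * s / 2 ^ j) (hu' : ∀ j, ¬ (s < (2 : ℝ) ^ j) → u j ≤ 0) :
    ∑ j ∈ range J, u j ≤ 2 * K * max 0 (1 - s / 2 ^ J) := by
  induction J with
  | zero => simp only [Finset.range_zero, Finset.sum_empty]; positivity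
  | succ J ih =>
    rw [Finset.sum_range_succ]
    have hp : (0 : ℝ) < 2 ^ J := by positivity
    have hp' : s / 2 ^ (J + 1) = s / 2 ^ J / 2 := by rw [pow_succ]; field_simp
    by_cases h : s < (2 : ℝ) ^ J
    · have h1 := hu J h
      have h2 : s / 2 ^ J < 1 := by rw [div_lt_one hp]; exact h
      rw [max_eq_right (by linarith)] at ih
      have h3 : 1 - s / 2 ^ (J + 1) ≤ max 0 (1 - s / 2 ^ (J + 1)) := le_max_right _ _
      have h4 : 2 * K * (1 - s / 2 ^ (J + 1)) ≤ 2 * K * max 0 (1 - s / 2 ^ (J + 1)) :=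
        mul_le_mul_of_nonneg_left h3 (by positivity)
      have h5 : K * s / 2 ^ J = K * (s / 2 ^ J) := by ring
      rw [h5] at h1
      refine le_trans ?_ h4
      rw [hp']
      nlinarith
    · have h1 := hu' J h
      have h2 : 1 ≤ s / 2 ^ J := by rw [le_div_iff₀ hp]; linarith [not_lt.1 h]
      rw [max_eq_left (by linarith)] at ih
      have : 0 ≤ 2 * K * max 0 (1 - s / 2 ^ (J + 1)) := by positivity
      linarith

lemma sum_mid {l s K : ℝ} (hl : 0 < l) (hls : l ≤ s) (hK : 0 ≤ K) (J : ℕ) (u : ℕ → ℝ)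
    (hu : ∀ j, l < (2 : ℝ) ^ j → (2 : ℝ) ^ j ≤ s → u j ≤ K)
    (hu' : ∀ j, ¬ (l < (2 : ℝ) ^ j ∧ (2 : ℝ) ^ j ≤ s) → u j ≤ 0) :
    (∑ j ∈ range J, u j) * Real.log 2 ≤
      K * max 0 (min (J * Real.log 2 - Real.log l) (Real.log s - Real.log l + Real.log 2)) := by
  have hs : 0 < s := lt_of_lt_of_le hl hls
  have hlog2 : 0 < Real.log 2 := Real.log_pos (by norm_num)
  induction J with
  | zero => simp only [Finset.range_zero, Finset.sum_empty, zero_mul]; positivity
  | succ J ih =>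
    rw [Finset.sum_range_succ, add_mul]
    have hp : (0 : ℝ) < 2 ^ J := by positivity
    push_cast
    by_cases h : l < (2 : ℝ) ^ J ∧ (2 : ℝ) ^ J ≤ s
    · have h1 := hu J h.1 h.2
      have h2 : Real.log l < J * Real.log 2 := by
        rw [← Real.log_pow]; exact Real.log_lt_log hl h.1
      have h3 : J * Real.log 2 ≤ Real.log s := by
        rw [← Real.log_pow]; exact Real.log_le_log hp h.2
      have e1 : max 0 (min (J * Real.log 2 - Real.log l) (Real.log s - Real.log l + Real.log 2))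
          = J * Real.log 2 - Real.log l := by
        rw [min_eq_left (by linarith), max_eq_right (by linarith)]
      have e2 : max 0 (min ((J + 1 : ℝ) * Real.log 2 - Real.log l)
          (Real.log s - Real.log l + Real.log 2)) = (J + 1) * Real.log 2 - Real.log l := by
        rw [min_eq_left (by linarith), max_eq_right (by linarith)]
      rw [e1] at ih
      rw [e2]
      nlinarith
    · have h1 := hu' J h
      have h4 : max 0 (min ((J : ℝ) * Real.log 2 - Real.log l)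
          (Real.log s - Real.log l + Real.log 2)) ≤
          max 0 (min ((J + 1 : ℝ) * Real.log 2 - Real.log l)
          (Real.log s - Real.log l + Real.log 2)) := by
        refine max_le_max le_rfl (min_le_min (by linarith) le_rfl)
      have h5 := mul_le_mul_of_nonneg_left h4 hK
      nlinarith

/-- summation over the scales -/
lemma sum_scales {l s K : ℝ} (hl : 0 < l) (hls : l ≤ s) (hK : 0 ≤ K) (J : ℕ) (x : ℕ → ℝ)
    (h1 : ∀ j ∈ range J, x j ≤ 2 * l ^ 2) (h2 : ∀ j ∈ range J, x j ≤ 2 * (2 ^ j) ^ 2)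
    (h3 : ∀ j ∈ range J, x j ≤ K * l ^ 2 * s / 2 ^ j) :
    ∑ j ∈ range J, x j ≤ l ^ 2 * (8 / 3 + 2 + 2 * K + 3 * Real.log (s / l)) := by
  have hs : 0 < s := lt_of_lt_of_le hl hls
  have hlog2 : 0 < Real.log 2 := Real.log_pos (by norm_num)
  set u : ℕ → ℝ := fun j => if (2 : ℝ) ^ j ≤ l then 2 * (2 ^ j) ^ 2 else 0 with hu
  set v : ℕ → ℝ := fun j => if l < (2 : ℝ) ^ j ∧ (2 : ℝ) ^ j ≤ s then 2 * l ^ 2 else 0 with hv
  set w : ℕ → ℝ := fun j => if s < (2 : ℝ) ^ j then K * l ^ 2 * s / 2 ^ j else 0 with hw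
  have hx : ∀ j ∈ range J, x j ≤ u j + v j + w j := by
    intro j hj
    by_cases ha : (2 : ℝ) ^ j ≤ l
    · have hb : ¬ (l < (2 : ℝ) ^ j ∧ (2 : ℝ) ^ j ≤ s) := fun h => absurd h.1 (not_lt.2 ha)
      have hc : ¬ (s < (2 : ℝ) ^ j) := not_lt.2 (ha.trans hls)
      simp only [hu, hv, hw, if_pos ha, if_neg hb, if_neg hc, add_zero]
      exact h2 j hj
    · by_cases hb : (2 : ℝ) ^ j ≤ s
      · have hc : ¬ (s < (2 : ℝ) ^ j) := not_lt.2 hb
        simp only [hu, hv, hw, if_neg ha, if_pos (And.intro (not_le.1 ha) hb), if_neg hc, add_zero,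
          zero_add]
        exact h1 j hj
      · have hd : ¬ (l < (2 : ℝ) ^ j ∧ (2 : ℝ) ^ j ≤ s) := fun h => hb h.2
        simp only [hu, hv, hw, if_neg ha, if_neg hd, if_pos (not_le.1 hb), zero_add]
        exact h3 j hj
  have hsu := (sum_low l J u (fun j h => by simp [hu, h]) (fun j h => by simp [hu, h])).2
  have hsw := sum_high hs (mul_nonneg hK (sq_nonneg l)) J w
    (fun j h => by simp only [hw, if_pos h]; exact le_rfl)
    (fun j h => by simp only [hw, if_neg h]; exact le_rfl)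
  have hsv := sum_mid hl hls (by positivity : (0 : ℝ) ≤ 2 * l ^ 2) J v
    (fun j h h' => by simp only [hv, if_pos (And.intro h h')]; exact le_rfl)
    (fun j h => by simp only [hv, if_neg h]; exact le_rfl)
  have hL : 0 ≤ Real.log s - Real.log l := by
    have := Real.log_le_log hl hls; linarith
  have hm : max 0 (min (J * Real.log 2 - Real.log l) (Real.log s - Real.log l + Real.log 2)) ≤
      Real.log s - Real.log l + Real.log 2 :=
    max_le (by linarith) (min_le_right _ _)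
  have hsv2 : (∑ j ∈ range J, v j) * Real.log 2 ≤
      2 * l ^ 2 * (Real.log s - Real.log l + Real.log 2) :=
    hsv.trans (mul_le_mul_of_nonneg_left hm (by positivity))
  have hl2 : 0.6931471803 < Real.log 2 := Real.log_two_gt_d9
  have hsv3 : ∑ j ∈ range J, v j ≤ l ^ 2 * (2 + 3 * (Real.log s - Real.log l)) := by
    have h : 2 * l ^ 2 * (Real.log s - Real.log l + Real.log 2) ≤
        (l ^ 2 * (2 + 3 * (Real.log s - Real.log l))) * Real.log 2 := by
      have h0 : 0 ≤ l ^ 2 * (Real.log s - Real.log l) := mul_nonneg (sq_nonneg l) hL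
      nlinarith
    exact le_of_mul_le_mul_right (hsv2.trans h) hlog2
  have hmax : max 0 (1 - s / 2 ^ J) ≤ 1 := max_le zero_le_one (by
    have : 0 ≤ s / 2 ^ J := by positivity
    linarith)
  have hsw2 : ∑ j ∈ range J, w j ≤ 2 * (K * l ^ 2) :=
    hsw.trans (by
      have := mul_le_mul_of_nonneg_left hmax (by positivity : (0 : ℝ) ≤ 2 * (K * l ^ 2))
      linarith)
  have hlog : Real.log (s / l) = Real.log s - Real.log l := Real.log_div hs.ne' hl.ne'
  calc ∑ j ∈ range J, x j ≤ ∑ j ∈ range J, (u j + v j + w j) := Finset.sum_le_sum hx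
    _ = ∑ j ∈ range J, u j + ∑ j ∈ range J, v j + ∑ j ∈ range J, w j := by
        rw [Finset.sum_add_distrib, Finset.sum_add_distrib]
    _ ≤ 8 / 3 * l ^ 2 + l ^ 2 * (2 + 3 * (Real.log s - Real.log l)) + 2 * (K * l ^ 2) := by
        linarith
    _ = _ := by rw [hlog]; ring

end sums

lemma Mf_sub (P : ι → ℝ) (z : ι) (c d : ι → ι → ℝ) :
    Mf P z (fun x y => c x y - d x y) = Mf P z c - Mf P z d := by
  unfold Mf
  simp_rw [mul_sub, Finset.sum_sub_distrib]
  ring

lemma Mf_sum {α : Type*} (s : Finset α) (P : ι → ℝ) (z : ι) (c : α → ι → ι → ℝ) :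
    Mf P z (fun x y => ∑ j ∈ s, c j x y) = ∑ j ∈ s, Mf P z (c j) := by
  classical
  induction s using Finset.induction_on with
  | empty => simp [Mf]
  | insert a s ha ih =>
    rw [Finset.sum_insert ha, ← ih]
    unfold Mf
    simp_rw [Finset.sum_insert ha, mul_add, Finset.sum_add_distrib]
    ring

/-- first moment of the distance -/
noncomputable def ell (P : ι → ℝ) (F : κ → ι → ℝ) (z : ι) : ℝ := ∑ a, P a * Real.sqrt (sq F a z)

/-- second moment of the distance -/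
def vv (P : ι → ℝ) (F : κ → ι → ℝ) (z : ι) : ℝ := ∑ a, P a * sq F a z

lemma ell_nonneg {P : ι → ℝ} (hP0 : ∀ a, 0 ≤ P a) (F : κ → ι → ℝ) (z : ι) : 0 ≤ ell P F z :=
  Finset.sum_nonneg fun a _ => mul_nonneg (hP0 a) (Real.sqrt_nonneg _)

lemma ell_sq_le {P : ι → ℝ} (hP0 : ∀ a, 0 ≤ P a) (hP1 : ∑ a, P a = 1) (F : κ → ι → ℝ) (z : ι) :
    ell P F z ^ 2 ≤ vv P F z := by
  unfold ell vv
  have h := Finset.sum_mul_sq_le_sq_mul_sq univ (fun a => Real.sqrt (P a))
    (fun a => Real.sqrt (P a) * Real.sqrt (sq F a z))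
  have e1 : ∀ a, Real.sqrt (P a) * (Real.sqrt (P a) * Real.sqrt (sq F a z)) =
      P a * Real.sqrt (sq F a z) := by
    intro a; rw [← mul_assoc, Real.mul_self_sqrt (hP0 a)]
  have e2 : ∀ a, Real.sqrt (P a) ^ 2 = P a := fun a => Real.sq_sqrt (hP0 a)
  have e3 : ∀ a, (Real.sqrt (P a) * Real.sqrt (sq F a z)) ^ 2 = P a * sq F a z := by
    intro a; rw [mul_pow, Real.sq_sqrt (hP0 a), Real.sq_sqrt (sq_nonneg' F a z)]
  simp_rw [e1, e2, e3, hP1, one_mul] at h
  exact h

/-- one scale: bounds for `M(h_R - h_r)` -/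
lemma Mf_one {P : ι → ℝ} (hP0 : ∀ a, 0 ≤ P a) (hP1 : ∑ a, P a = 1) (F : κ → ι → ℝ) (z : ι)
    {r R : ℝ} (hr : 0 < r) (hR : r ≤ R) (hcr : Cnd (fun x y => ker r (sq F x y)))
    (hcR : Cnd (fun x y => ker R (sq F x y))) :
    Mf P z (fun x y => ker R (sq F x y) - ker r (sq F x y)) ≤ 2 * ell P F z ^ 2 ∧
    Mf P z (fun x y => ker R (sq F x y) - ker r (sq F x y)) ≤ 2 * r ^ 2 ∧
    Mf P z (fun x y => ker R (sq F x y) - ker r (sq F x y)) ≤
      18 * (ell P F z * vv P F z) / r := by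
  have hA := Mf_cnd_nonpos hP1 z hcR
  have hB := Mf_cnd_ge hP0 hP1 z hcr
  have hmu0 : 0 ≤ ∑ a, P a * Real.sqrt (ker r (sq F a z)) :=
    Finset.sum_nonneg fun a _ => mul_nonneg (hP0 a) (Real.sqrt_nonneg _)
  have hmu1 : ∑ a, P a * Real.sqrt (ker r (sq F a z)) ≤ ell P F z :=
    Finset.sum_le_sum fun a _ => mul_le_mul_of_nonneg_left
      (Real.sqrt_le_sqrt (ker_le_t hr (sq_nonneg' F a z))) (hP0 a)
  have hmu2 : ∑ a, P a * Real.sqrt (ker r (sq F a z)) ≤ r := by
    calc _ ≤ ∑ a, P a * r := Finset.sum_le_sum fun a _ => mul_le_mul_of_nonneg_left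
            (Real.sqrt_le_iff.2 ⟨hr.le, ker_le_r hr (sq_nonneg' F a z)⟩) (hP0 a)
      _ = r := by rw [← Finset.sum_mul, hP1, one_mul]
  have hs := Mf_sub P z (fun x y => ker R (sq F x y)) (fun x y => ker r (sq F x y))
  refine ⟨?_, ?_, ?_⟩
  · rw [hs]
    have : (∑ a, P a * Real.sqrt (ker r (sq F a z))) ^ 2 ≤ ell P F z ^ 2 := by gcongr
    linarith
  · rw [hs]
    have : (∑ a, P a * Real.sqrt (ker r (sq F a z))) ^ 2 ≤ r ^ 2 := by gcongr
    linarith
  · unfold Mf
    have e : ∀ c : ι → ι → ℝ, ∑ a, ∑ b, P a * P b * c a b - 2 * ∑ a, P a * c a z =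
        ∑ a, ∑ b, P a * P b * (c a b - c a z - c b z) := by
      intro c
      have h1 : ∀ a, ∑ b, P a * P b * (c a b - c a z - c b z) =
          ∑ b, P a * P b * c a b - P a * c a z - P a * ∑ b, P b * c b z := by
        intro a
        have : ∀ b, P a * P b * (c a b - c a z - c b z) =
            P a * P b * c a b - P b * (P a * c a z) - P a * (P b * c b z) := by intro b; ring
        simp_rw [this, Finset.sum_sub_distrib, ← Finset.sum_mul, ← Finset.mul_sum, hP1, one_mul]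
      simp_rw [h1, Finset.sum_sub_distrib, ← Finset.sum_mul, hP1]
      ring
    rw [e]
    have hterm : ∀ a b, P a * P b * ((ker R (sq F a b) - ker r (sq F a b)) -
        (ker R (sq F a z) - ker r (sq F a z)) - (ker R (sq F b z) - ker r (sq F b z))) ≤
        P a * P b * (9 * (Real.sqrt (sq F a z) * Real.sqrt (sq F b z) *
          (Real.sqrt (sq F a z) + Real.sqrt (sq F b z))) / r) := by
      intro a b
      refine mul_le_mul_of_nonneg_left ?_ (mul_nonneg (hP0 a) (hP0 b))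
      have := w_three hr hR (Real.sqrt_nonneg (sq F a z)) (Real.sqrt_nonneg (sq F b z))
        (sq_nonneg' F a b) (sqrt_sq_tri F a b z)
      rwa [Real.sq_sqrt (sq_nonneg' F a z), Real.sq_sqrt (sq_nonneg' F b z)] at this
    refine (Finset.sum_le_sum fun a _ => Finset.sum_le_sum fun b _ => hterm a b).trans
      (le_of_eq ?_)
    have e3 : ∀ a b, P a * P b * (9 * (Real.sqrt (sq F a z) * Real.sqrt (sq F b z) *
          (Real.sqrt (sq F a z) + Real.sqrt (sq F b z))) / r) =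
        9 / r * ((P a * sq F a z) * (P b * Real.sqrt (sq F b z)) +
          (P a * Real.sqrt (sq F a z)) * (P b * sq F b z)) := by
      intro a b
      have h1 := Real.mul_self_sqrt (sq_nonneg' F a z)
      have h2 := Real.mul_self_sqrt (sq_nonneg' F b z)
      have : ∀ x y : ℝ, P a * P b * (9 * (x * y * (x + y)) / r) =
          9 / r * ((P a * (x * x)) * (P b * y) + (P a * x) * (P b * (y * y))) := by
        intro x y; ring
      rw [this, h1, h2]
    simp_rw [e3, ← Finset.mul_sum, Finset.sum_add_distrib, ← Finset.mul_sum, ← Finset.sum_mul]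
    unfold ell vv
    ring

/-- **Mobility lemma** for `psi = sum_{j < J} (h_{2^J} - h_{2^j})`. -/
theorem mob_psi {P : ι → ℝ} (hP0 : ∀ a, 0 ≤ P a) (hP1 : ∑ a, P a = 1) (F : κ → ι → ℝ) (J : ℕ)
    (hc : ∀ j ≤ J, Cnd (fun x y => ker (2 ^ j) (sq F x y))) (z : ι) :
    ∑ a, ∑ b, P a * P b * psi J F a b - 2 * ∑ a, P a * psi J F a z ≤
      41 * (ell P F z ^ 2 * (1 + Real.log (vv P F z / ell P F z ^ 2))) := by
  have h0 : ∑ a, ∑ b, P a * P b * psi J F a b - 2 * ∑ a, P a * psi J F a z =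
      ∑ j ∈ range J, Mf P z (fun x y => ker (2 ^ J) (sq F x y) - ker (2 ^ j) (sq F x y)) := by
    rw [← Mf_sum]; rfl
  rw [h0]
  have hone : ∀ j ∈ range J, _ := fun j hj =>
    Mf_one hP0 hP1 F z (r := 2 ^ j) (R := 2 ^ J) (by positivity)
      (pow_le_pow_right₀ (by norm_num) (Finset.mem_range.1 hj).le)
      (hc j (Finset.mem_range.1 hj).le) (hc J le_rfl)
  have hl0 := ell_nonneg hP0 F z
  have hlv := ell_sq_le hP0 hP1 F z
  rcases hl0.eq_or_lt with hl | hl
  · rw [← hl]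
    have : ∑ j ∈ range J, Mf P z (fun x y => ker (2 ^ J) (sq F x y) - ker (2 ^ j) (sq F x y)) ≤
        ∑ j ∈ range J, 0 := Finset.sum_le_sum fun j hj => by
      have := (hone j hj).1
      rw [← hl] at this
      simpa using this
    simpa using this
  · set l := ell P F z with hldef
    set V := vv P F z with hVdef
    have hV : 0 < V := lt_of_lt_of_le (by positivity) hlv
    have hls : l ≤ V / l := by rw [le_div_iff₀ hl]; nlinarith
    have := sum_scales hl hls (K := 18) (by norm_num) J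
      (fun j => Mf P z (fun x y => ker (2 ^ J) (sq F x y) - ker (2 ^ j) (sq F x y)))
      (fun j hj => (hone j hj).1) (fun j hj => (hone j hj).2.1)
      (fun j hj => by
        have h := (hone j hj).2.2
        have e : 18 * l ^ 2 * (V / l) / 2 ^ j = 18 * (l * V) / 2 ^ j := by
          field_simp
        rw [e]; exact h)
    refine this.trans ?_
    have e : V / l / l = V / l ^ 2 := by rw [div_div, pow_two]
    rw [e]
    have hlog : 0 ≤ Real.log (V / l ^ 2) := Real.log_nonneg (by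
      rw [le_div_iff₀ (by positivity)]; linarith)
    have hl2 : 0 < l ^ 2 := by positivity
    nlinarith [mul_nonneg hl2.le hlog]

end P365T2.M2p
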