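import Mathlib

/-!
# P365-T2, chapter MOB: the deterministic mobility lemma (M2)

`p` a probability on a finite set, `a i` vectors of an inner product space with `a i = 0` or
`ρ ≤ ‖a i‖` on the support.  With `psi ρ u = ‖u‖² log (‖u‖²/ρ²)`, `V = ∑ p ‖a‖²`, `l = ∑ p ‖a‖`:
`∑ i j, p i p j (psi (a i - a j) - psi (a i) - psi (a j)) ≤ l² (17 + 4 log (V / l²))`.
-/

set_option linter.all false

namespace P365T2.Mob282

open Finset Real

variable {F : Type*} [NormedAddCommGroup F] [InnerProductSpace ℝ F]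

/-- the kernel `‖u‖² log (‖u‖²/ρ²)` -/
noncomputable def psi (ρ : ℝ) (u : F) : ℝ := ‖u‖ ^ 2 * Real.log (‖u‖ ^ 2 / ρ ^ 2)

theorem psi_zero (ρ : ℝ) : psi ρ (0 : F) = 0 := by simp [psi]

/-- `x |log x| ≤ 8 t` for `(1-t)² ≤ x ≤ (1+t)²`, `0 ≤ t ≤ 1` -/
theorem xlogx_le {t x : ℝ} (ht0 : 0 ≤ t) (ht1 : t ≤ 1) (h1 : (1 - t) ^ 2 ≤ x)
    (h2 : x ≤ (1 + t) ^ 2) : x * Real.log x ≤ 8 * t := by
  have hx0 : 0 ≤ x := le_trans (sq_nonneg _) h1
  rcases eq_or_lt_of_le hx0 with h | hx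
  · rw [← h]; simp; linarith
  have hlog : Real.log x ≤ 2 * t := by
    calc Real.log x ≤ Real.log ((1 + t) ^ 2) := Real.log_le_log hx h2
      _ = 2 * Real.log (1 + t) := by rw [Real.log_pow]; norm_num
      _ ≤ 2 * t := by
          have := Real.log_le_sub_one_of_pos (show 0 < 1 + t by linarith)
          linarith
  have hx4 : x ≤ 4 := by nlinarith
  by_cases hs : 0 ≤ Real.log x
  · nlinarith
  · have hs' := not_le.1 hs
    nlinarith

/-- `-(x log x) ≤ 2 t` for `(1-t)² ≤ x`, `x ≥ 0` -/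
theorem neg_sq_log_le {t : ℝ} (ht0 : 0 ≤ t) (ht1 : t ≤ 1) :
    -(t ^ 2 * Real.log (t ^ 2)) ≤ t := by
  rcases eq_or_lt_of_le ht0 with h | h
  · rw [← h]; simp
  have h1 : Real.log (t ^ 2) = 2 * Real.log t := by rw [Real.log_pow]; norm_num
  rw [h1]
  -- log (1/t) ≤ 1/t * (1/e) ; use log x ≤ x/2 : log(1/t) ≤ 1/(2t)
  have h2 : Real.log (1 / (2 * t)) ≤ 1 / (2 * t) - 1 :=
    Real.log_le_sub_one_of_pos (by positivity)
  have h3 : Real.log (1 / (2 * t)) = - Real.log 2 - Real.log t := by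
    rw [one_div, Real.log_inv, Real.log_mul (by norm_num) h.ne']
    ring
  have h4 : Real.log 2 < 1 := by
    have := Real.log_two_lt_d9
    linarith
  have h5 : - Real.log t ≤ 1 / (2 * t) := by linarith
  have h6 : t ^ 2 * (-Real.log t) ≤ t ^ 2 * (1 / (2 * t)) :=
    mul_le_mul_of_nonneg_left h5 (by positivity)
  have h7 : t ^ 2 * (1 / (2 * t)) = t / 2 := by
    field_simp
  nlinarith

/-- the pointwise bound, `‖b‖ ≤ ‖a‖` -/
theorem point_aux {c : ℝ} (hc : 0 < c) (a b : F) (hab : ‖b‖ ≤ ‖a‖) (ha : 0 < ‖a‖) :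
    ‖a - b‖ ^ 2 * Real.log (‖a - b‖ ^ 2 / c) - ‖a‖ ^ 2 * Real.log (‖a‖ ^ 2 / c)
      - ‖b‖ ^ 2 * Real.log (‖b‖ ^ 2 / c) ≤
      -(2 * inner ℝ a b * Real.log (‖a‖ ^ 2 / c)) + 9 * (‖a‖ * ‖b‖) := by
  set L := Real.log (‖a‖ ^ 2 / c) with hL
  have hM : 0 < ‖a‖ ^ 2 := by positivity
  have key : ∀ y : ℝ, 0 ≤ y → y * Real.log (y / c) = y * L + ‖a‖ ^ 2 * ((y / ‖a‖ ^ 2) *
      Real.log (y / ‖a‖ ^ 2)) := by
    intro y hy
    rcases eq_or_lt_of_le hy with h | h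
    · rw [← h]; simp
    have : Real.log (y / c) = L + Real.log (y / ‖a‖ ^ 2) := by
      rw [hL, ← Real.log_mul (by positivity) (by positivity)]
      congr 1
      field_simp
    rw [this]
    field_simp
  have h1 := key (‖a - b‖ ^ 2) (sq_nonneg _)
  have h2 := key (‖b‖ ^ 2) (sq_nonneg _)
  have hpol : ‖a - b‖ ^ 2 = ‖a‖ ^ 2 - 2 * inner ℝ a b + ‖b‖ ^ 2 := norm_sub_sq_real a b
  set t := ‖b‖ / ‖a‖ with ht
  have ht0 : 0 ≤ t := by positivity
  have ht1 : t ≤ 1 := by rw [ht, div_le_one ha]; exact hab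
  have hbt : ‖b‖ = t * ‖a‖ := by rw [ht]; field_simp
  have hx1 : (1 - t) ^ 2 ≤ ‖a - b‖ ^ 2 / ‖a‖ ^ 2 := by
    rw [le_div_iff₀ hM]
    have h3 : ‖a‖ - ‖b‖ ≤ ‖a - b‖ := norm_sub_norm_le a b
    have h4 : 0 ≤ ‖a‖ - ‖b‖ := by linarith
    calc (1 - t) ^ 2 * ‖a‖ ^ 2 = (‖a‖ - ‖b‖) ^ 2 := by rw [hbt]; ring
      _ ≤ ‖a - b‖ ^ 2 := pow_le_pow_left₀ h4 h3 2
  have hx2 : ‖a - b‖ ^ 2 / ‖a‖ ^ 2 ≤ (1 + t) ^ 2 := by
    rw [div_le_iff₀ hM]
    have h3 : ‖a - b‖ ≤ ‖a‖ + ‖b‖ := norm_sub_le a b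
    calc ‖a - b‖ ^ 2 ≤ (‖a‖ + ‖b‖) ^ 2 := pow_le_pow_left₀ (norm_nonneg _) h3 2
      _ = (1 + t) ^ 2 * ‖a‖ ^ 2 := by rw [hbt]; ring
  have h5 := xlogx_le ht0 ht1 hx1 hx2
  have h6 := neg_sq_log_le ht0 ht1
  have h7 : ‖b‖ ^ 2 / ‖a‖ ^ 2 = t ^ 2 := by rw [ht, div_pow]
  rw [h1, h2, h7]
  have h8 : ‖a‖ ^ 2 * (‖a - b‖ ^ 2 / ‖a‖ ^ 2 * Real.log (‖a - b‖ ^ 2 / ‖a‖ ^ 2)) ≤
      ‖a‖ ^ 2 * (8 * t) := mul_le_mul_of_nonneg_left h5 hM.le
  have h9 : ‖a‖ ^ 2 * -(t ^ 2 * Real.log (t ^ 2)) ≤ ‖a‖ ^ 2 * t :=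
    mul_le_mul_of_nonneg_left h6 hM.le
  have h10 : ‖a‖ ^ 2 * t = ‖a‖ * ‖b‖ := by rw [hbt]; ring
  have h11 : ‖a - b‖ ^ 2 * L - ‖a‖ ^ 2 * L - ‖b‖ ^ 2 * L = -(2 * inner ℝ a b * L) := by
    rw [hpol]; ring
  nlinarith

/-- the pointwise bound -/
theorem point {c : ℝ} (hc : 0 < c) (a b : F) (h0 : a ≠ 0 ∨ b ≠ 0) :
    ‖a - b‖ ^ 2 * Real.log (‖a - b‖ ^ 2 / c) - ‖a‖ ^ 2 * Real.log (‖a‖ ^ 2 / c)
      - ‖b‖ ^ 2 * Real.log (‖b‖ ^ 2 / c) ≤
      -(2 * inner ℝ a b * Real.log ((max ‖a‖ ‖b‖) ^ 2 / c)) + 9 * (‖a‖ * ‖b‖) := by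
  rcases le_total ‖b‖ ‖a‖ with h | h
  · rw [max_eq_left h]
    refine point_aux hc a b h ?_
    rcases h0 with h0 | h0
    · exact norm_pos_iff.2 h0
    · exact lt_of_lt_of_le (norm_pos_iff.2 h0) h
  · rw [max_eq_right h]
    have h' := point_aux hc b a h (by
      rcases h0 with h0 | h0
      · exact lt_of_lt_of_le (norm_pos_iff.2 h0) h
      · exact norm_pos_iff.2 h0)
    rw [norm_sub_rev a b, real_inner_comm]
    nlinarith


/-- `m n |log (M²/r²)|`, `M = max m n` -/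
theorem log_aux {m n r l : ℝ} (hm : 0 ≤ m) (hn : 0 ≤ n) (hM : 0 < max m n) (hl : 0 < l)
    (hlr : l ≤ r) :
    m * n * |Real.log ((max m n) ^ 2 / r ^ 2)| ≤
      2 * Real.log (r / l) * (m * n) + l ^ 2 + m * n * (2 * m + 2 * n) / r := by
  have hr : 0 < r := lt_of_lt_of_le hl hlr
  set M := max m n with hMd
  have hmM : m ≤ M := le_max_left _ _
  have hnM : n ≤ M := le_max_right _ _
  have hMs : M ≤ m + n := by
    rcases max_choice m n with h | h <;> rw [hMd, h] <;> linarith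
  have hmn : 0 ≤ m * n := mul_nonneg hm hn
  have hlrl : 0 ≤ Real.log (r / l) := Real.log_nonneg (by rw [le_div_iff₀ hl]; linarith)
  have e1 : Real.log (M ^ 2 / r ^ 2) = 2 * Real.log (M / r) := by
    rw [← div_pow, Real.log_pow]; norm_num
  rw [e1]
  have h3 : 0 ≤ m * n * (2 * m + 2 * n) / r := by positivity
  rcases le_total 0 (Real.log (M / r)) with h | h
  · rw [abs_of_nonneg (by linarith)]
    have h1 : Real.log (M / r) ≤ M / r := by
      have := Real.log_le_sub_one_of_pos (show 0 < M / r by positivity)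
      linarith
    have h2 : m * n * (2 * Real.log (M / r)) ≤ m * n * (2 * (M / r)) :=
      mul_le_mul_of_nonneg_left (by linarith) hmn
    have h4 : m * n * (2 * (M / r)) ≤ m * n * (2 * m + 2 * n) / r := by
      have : m * n * (2 * (M / r)) = m * n * (2 * M) / r := by ring
      rw [this]
      apply div_le_div_of_nonneg_right _ hr.le
      apply mul_le_mul_of_nonneg_left _ hmn
      linarith
    have h5 : 0 ≤ 2 * Real.log (r / l) * (m * n) := by positivity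
    have h6 : 0 ≤ l ^ 2 := sq_nonneg l
    linarith
  · rw [abs_of_nonpos (by linarith)]
    have e2 : -(2 * Real.log (M / r)) = 2 * Real.log (r / l) + 2 * Real.log (l / M) := by
      rw [Real.log_div hM.ne' hr.ne', Real.log_div hr.ne' hl.ne', Real.log_div hl.ne' hM.ne']
      ring
    rw [e2]
    have h7 : m * n * (2 * Real.log (l / M)) ≤ l ^ 2 := by
      rcases le_total (Real.log (l / M)) 0 with h8 | h8
      · have : m * n * (2 * Real.log (l / M)) ≤ 0 :=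
          mul_nonpos_of_nonneg_of_nonpos hmn (by linarith)
        have h6 : 0 ≤ l ^ 2 := sq_nonneg l
        linarith
      · have h9 : 2 * Real.log (l / M) ≤ (l / M) ^ 2 := by
          have := Real.log_le_sub_one_of_pos (show 0 < l / M by positivity)
          nlinarith [sq_nonneg (l / M - 1)]
        have h10 : m * n ≤ M ^ 2 := by nlinarith
        calc m * n * (2 * Real.log (l / M)) ≤ M ^ 2 * (l / M) ^ 2 :=
              mul_le_mul h10 h9 (by linarith) (by positivity)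
          _ = l ^ 2 := by field_simp
    nlinarith

section det

variable {κ : Type*} [Fintype κ] {p : κ → ℝ} {a : κ → F}

/-- second moment -/
noncomputable def Vm (p : κ → ℝ) (a : κ → F) : ℝ := ∑ i, p i * ‖a i‖ ^ 2

/-- first absolute moment -/
noncomputable def lm (p : κ → ℝ) (a : κ → F) : ℝ := ∑ i, p i * ‖a i‖

/-- mean -/
noncomputable def mum (p : κ → ℝ) (a : κ → F) : F := ∑ i, p i • a i

theorem Vm_nonneg (hp : ∀ i, 0 ≤ p i) : 0 ≤ Vm p a :=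
  Finset.sum_nonneg fun i _ => mul_nonneg (hp i) (sq_nonneg _)

theorem lm_nonneg (hp : ∀ i, 0 ≤ p i) : 0 ≤ lm p a :=
  Finset.sum_nonneg fun i _ => mul_nonneg (hp i) (norm_nonneg _)

theorem lm_sq_le (hp : ∀ i, 0 ≤ p i) (hs : ∑ i, p i ≤ 1) : lm p a ^ 2 ≤ Vm p a := by
  have h := Finset.sum_mul_sq_le_sq_mul_sq Finset.univ (fun i => Real.sqrt (p i))
    (fun i => Real.sqrt (p i) * ‖a i‖)
  have e1 : ∑ i, Real.sqrt (p i) * (Real.sqrt (p i) * ‖a i‖) = lm p a := by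
    apply Finset.sum_congr rfl
    intro i _
    rw [← mul_assoc, Real.mul_self_sqrt (hp i)]
  have e2 : ∑ i, Real.sqrt (p i) ^ 2 = ∑ i, p i := by
    apply Finset.sum_congr rfl
    intro i _
    rw [Real.sq_sqrt (hp i)]
  have e3 : ∑ i, (Real.sqrt (p i) * ‖a i‖) ^ 2 = Vm p a := by
    apply Finset.sum_congr rfl
    intro i _
    rw [mul_pow, Real.sq_sqrt (hp i)]
  rw [e1, e2, e3] at h
  calc lm p a ^ 2 ≤ (∑ i, p i) * Vm p a := h
    _ ≤ 1 * Vm p a := mul_le_mul_of_nonneg_right hs (Vm_nonneg hp)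
    _ = Vm p a := one_mul _

theorem mum_le (hp : ∀ i, 0 ≤ p i) : ‖mum p a‖ ≤ lm p a := by
  refine (norm_sum_le _ _).trans (Finset.sum_le_sum fun i _ => ?_)
  rw [norm_smul, Real.norm_of_nonneg (hp i)]

/-- `∑ i j, p i p j (‖a i - a j‖² - ‖a i‖² - ‖a j‖²) = -2 ‖μ‖²` -/
theorem sum_sq (p : κ → ℝ) (a : κ → F) :
    ∑ i, ∑ j, p i * p j * (‖a i - a j‖ ^ 2 - ‖a i‖ ^ 2 - ‖a j‖ ^ 2) = -2 * ‖mum p a‖ ^ 2 := by
  have h1 : ‖mum p a‖ ^ 2 = ∑ i, ∑ j, p i * p j * inner ℝ (a i) (a j) := by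
    rw [← real_inner_self_eq_norm_sq, mum, sum_inner]
    apply Finset.sum_congr rfl
    intro i _
    rw [inner_sum]
    apply Finset.sum_congr rfl
    intro j _
    rw [real_inner_smul_left, real_inner_smul_right]
    ring
  rw [h1, Finset.mul_sum]
  apply Finset.sum_congr rfl
  intro i _
  rw [Finset.mul_sum]
  apply Finset.sum_congr rfl
  intro j _
  rw [norm_sub_sq_real]
  ring

/-- **(M2)** the deterministic mobility lemma.  `V = Vm p a`, `l = lm p a`. -/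
theorem mob {ρ : ℝ} (hρ : 0 < ρ) (hp : ∀ i, 0 ≤ p i) (hs : ∑ i, p i = 1)
    (ha : ∀ i, p i = 0 ∨ a i = 0 ∨ ρ ≤ ‖a i‖) (hl : 0 < lm p a) :
    ∑ i, ∑ j, p i * p j * (psi ρ (a i - a j) - psi ρ (a i) - psi ρ (a j)) ≤
      lm p a ^ 2 * (19 + 4 * Real.log (Vm p a / lm p a ^ 2)) := by
  set l := lm p a with hld
  set V := Vm p a with hVd
  have hV : l ^ 2 ≤ V := lm_sq_le hp hs.le
  have hV0 : 0 < V := lt_of_lt_of_le (by positivity) hV
  set r := V / l with hrd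
  have hr : 0 < r := by positivity
  have hlr : l ≤ r := by
    rw [hrd, le_div_iff₀ hl]; nlinarith
  have hρr : ρ ≤ r := by
    rw [hrd, le_div_iff₀ hl, hld, hVd, lm, Vm, Finset.mul_sum]
    apply Finset.sum_le_sum
    intro i _
    rcases ha i with h | h | h
    · rw [h]; simp
    · rw [h]; simp
    · have : ρ * ‖a i‖ ≤ ‖a i‖ ^ 2 := by
        rw [sq]; exact mul_le_mul_of_nonneg_right h (norm_nonneg _)
      calc ρ * (p i * ‖a i‖) = p i * (ρ * ‖a i‖) := by ring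
        _ ≤ p i * ‖a i‖ ^ 2 := mul_le_mul_of_nonneg_left this (hp i)
  have hr2 : 0 < r ^ 2 := by positivity
  -- change of the constant in the logarithm
  have hpsi : ∀ u : F, psi ρ u = ‖u‖ ^ 2 * Real.log (‖u‖ ^ 2 / r ^ 2) +
      Real.log (r ^ 2 / ρ ^ 2) * ‖u‖ ^ 2 := by
    intro u
    rcases eq_or_lt_of_le (sq_nonneg ‖u‖) with h | h
    · rw [psi, ← h]; simp
    · rw [psi]
      have : Real.log (‖u‖ ^ 2 / ρ ^ 2) = Real.log (‖u‖ ^ 2 / r ^ 2) + Real.log (r ^ 2 / ρ ^ 2) := by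
        rw [← Real.log_mul (by positivity) (by positivity)]
        congr 1
        field_simp
      rw [this]; ring
  have hlogc : 0 ≤ Real.log (r ^ 2 / ρ ^ 2) := by
    apply Real.log_nonneg
    rw [le_div_iff₀ (by positivity), one_mul]
    exact pow_le_pow_left₀ hρ.le hρr 2
  -- the pointwise bound
  have hpt : ∀ i j, p i * p j * (psi ρ (a i - a j) - psi ρ (a i) - psi ρ (a j)) ≤
      p i * p j * (2 * (2 * Real.log (r / l) * (‖a i‖ * ‖a j‖) + l ^ 2 +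
        ‖a i‖ * ‖a j‖ * (2 * ‖a i‖ + 2 * ‖a j‖) / r) + 9 * (‖a i‖ * ‖a j‖)) +
      Real.log (r ^ 2 / ρ ^ 2) *
        (p i * p j * (‖a i - a j‖ ^ 2 - ‖a i‖ ^ 2 - ‖a j‖ ^ 2)) := by
    intro i j
    have hpp : 0 ≤ p i * p j := mul_nonneg (hp i) (hp j)
    have hlog : 0 ≤ Real.log (r / l) := Real.log_nonneg (by rw [le_div_iff₀ hl]; linarith)
    have e1 : psi ρ (a i - a j) - psi ρ (a i) - psi ρ (a j) =
        (‖a i - a j‖ ^ 2 * Real.log (‖a i - a j‖ ^ 2 / r ^ 2)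
          - ‖a i‖ ^ 2 * Real.log (‖a i‖ ^ 2 / r ^ 2)
          - ‖a j‖ ^ 2 * Real.log (‖a j‖ ^ 2 / r ^ 2)) +
        Real.log (r ^ 2 / ρ ^ 2) * (‖a i - a j‖ ^ 2 - ‖a i‖ ^ 2 - ‖a j‖ ^ 2) := by
      rw [hpsi, hpsi, hpsi]; ring
    rw [e1]
    have hmain : ‖a i - a j‖ ^ 2 * Real.log (‖a i - a j‖ ^ 2 / r ^ 2)
          - ‖a i‖ ^ 2 * Real.log (‖a i‖ ^ 2 / r ^ 2)
          - ‖a j‖ ^ 2 * Real.log (‖a j‖ ^ 2 / r ^ 2) ≤
        2 * (2 * Real.log (r / l) * (‖a i‖ * ‖a j‖) + l ^ 2 +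
        ‖a i‖ * ‖a j‖ * (2 * ‖a i‖ + 2 * ‖a j‖) / r) + 9 * (‖a i‖ * ‖a j‖) := by
      by_cases h0 : a i ≠ 0 ∨ a j ≠ 0
      · have h1 := point hr2 (a i) (a j) h0
        have hM : 0 < max ‖a i‖ ‖a j‖ := by
          rcases h0 with h | h
          · exact lt_of_lt_of_le (norm_pos_iff.2 h) (le_max_left _ _)
          · exact lt_of_lt_of_le (norm_pos_iff.2 h) (le_max_right _ _)
        have h2 := log_aux (norm_nonneg (a i)) (norm_nonneg (a j)) hM hl hlr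
        have h3 : -(2 * inner ℝ (a i) (a j) *
            Real.log ((max ‖a i‖ ‖a j‖) ^ 2 / r ^ 2)) ≤
            2 * (‖a i‖ * ‖a j‖ * |Real.log ((max ‖a i‖ ‖a j‖) ^ 2 / r ^ 2)|) := by
          have h4 : |inner ℝ (a i) (a j)| ≤ ‖a i‖ * ‖a j‖ := abs_real_inner_le_norm _ _
          have h5 : -(inner ℝ (a i) (a j) * Real.log ((max ‖a i‖ ‖a j‖) ^ 2 / r ^ 2)) ≤
              |inner ℝ (a i) (a j)| * |Real.log ((max ‖a i‖ ‖a j‖) ^ 2 / r ^ 2)| := by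
            rw [← abs_mul]; exact neg_le_abs _
          have h6 : |inner ℝ (a i) (a j)| * |Real.log ((max ‖a i‖ ‖a j‖) ^ 2 / r ^ 2)| ≤
              ‖a i‖ * ‖a j‖ * |Real.log ((max ‖a i‖ ‖a j‖) ^ 2 / r ^ 2)| :=
            mul_le_mul_of_nonneg_right h4 (abs_nonneg _)
          linarith
        linarith
      · have h7 : a i = 0 := by by_contra h; exact h0 (Or.inl h)
        have h8 : a j = 0 := by by_contra h; exact h0 (Or.inr h)
        rw [h7, h8]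
        simp
        positivity
    have := mul_le_mul_of_nonneg_left hmain hpp
    linarith
  -- summation
  have hsum := Finset.sum_le_sum (s := Finset.univ) fun i _ =>
    Finset.sum_le_sum (s := Finset.univ) fun j _ => hpt i j
  refine hsum.trans ?_
  have hmu : ∑ i, ∑ j, Real.log (r ^ 2 / ρ ^ 2) *
      (p i * p j * (‖a i - a j‖ ^ 2 - ‖a i‖ ^ 2 - ‖a j‖ ^ 2)) ≤ 0 := by
    have : ∑ i, ∑ j, Real.log (r ^ 2 / ρ ^ 2) *
      (p i * p j * (‖a i - a j‖ ^ 2 - ‖a i‖ ^ 2 - ‖a j‖ ^ 2)) = Real.log (r ^ 2 / ρ ^ 2) *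
      (-2 * ‖mum p a‖ ^ 2) := by
      rw [← sum_sq, Finset.mul_sum]
      apply Finset.sum_congr rfl
      intro i _
      rw [Finset.mul_sum]
    rw [this]
    nlinarith [sq_nonneg ‖mum p a‖]
  have hB : ∑ i, ∑ j, p i * p j * (2 * (2 * Real.log (r / l) * (‖a i‖ * ‖a j‖) + l ^ 2 +
        ‖a i‖ * ‖a j‖ * (2 * ‖a i‖ + 2 * ‖a j‖) / r) + 9 * (‖a i‖ * ‖a j‖)) =
      2 * (2 * Real.log (r / l) * l ^ 2 + l ^ 2 + 4 * V * l / r) + 9 * l ^ 2 := by
    have e : ∀ i, ∑ j, p i * p j * (2 * (2 * Real.log (r / l) * (‖a i‖ * ‖a j‖) + l ^ 2 +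
        ‖a i‖ * ‖a j‖ * (2 * ‖a i‖ + 2 * ‖a j‖) / r) + 9 * (‖a i‖ * ‖a j‖)) =
        (4 * Real.log (r / l) + 9) * (p i * ‖a i‖) * l + 2 * l ^ 2 * p i +
        (4 / r) * (p i * ‖a i‖ ^ 2) * l + (4 / r) * (p i * ‖a i‖) * V := by
      intro i
      have e1 : ∀ j, p i * p j * (2 * (2 * Real.log (r / l) * (‖a i‖ * ‖a j‖) + l ^ 2 +
        ‖a i‖ * ‖a j‖ * (2 * ‖a i‖ + 2 * ‖a j‖) / r) + 9 * (‖a i‖ * ‖a j‖)) =
        (4 * Real.log (r / l) + 9) * (p i * ‖a i‖) * (p j * ‖a j‖) + 2 * l ^ 2 * p i * p j +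
        (4 / r) * (p i * ‖a i‖ ^ 2) * (p j * ‖a j‖) +
        (4 / r) * (p i * ‖a i‖) * (p j * ‖a j‖ ^ 2) := by
        intro j; field_simp; ring
      rw [Finset.sum_congr rfl fun j _ => e1 j]
      rw [Finset.sum_add_distrib, Finset.sum_add_distrib, Finset.sum_add_distrib,
        ← Finset.mul_sum, ← Finset.mul_sum, ← Finset.mul_sum, ← Finset.mul_sum, hs, mul_one]
      rfl
    rw [Finset.sum_congr rfl fun i _ => e i]
    have e2 : ∀ i, (4 * Real.log (r / l) + 9) * (p i * ‖a i‖) * l + 2 * l ^ 2 * p i +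
        (4 / r) * (p i * ‖a i‖ ^ 2) * l + (4 / r) * (p i * ‖a i‖) * V =
        ((4 * Real.log (r / l) + 9) * l + (4 / r) * V) * (p i * ‖a i‖) + 2 * l ^ 2 * p i +
        ((4 / r) * l) * (p i * ‖a i‖ ^ 2) := by intro i; ring
    rw [Finset.sum_congr rfl fun i _ => e2 i]
    rw [Finset.sum_add_distrib, Finset.sum_add_distrib, ← Finset.mul_sum, ← Finset.mul_sum,
      ← Finset.mul_sum, hs]
    change ((4 * Real.log (r / l) + 9) * l + (4 / r) * V) * l + 2 * l ^ 2 * 1 + (4 / r) * l * V = _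
    field_simp
    ring
  have hVr : 4 * V * l / r = 4 * l ^ 2 := by
    rw [hrd]; field_simp
  have hrl : r / l = V / l ^ 2 := by rw [hrd]; field_simp
  have hfin : ∑ i, ∑ j, (p i * p j * (2 * (2 * Real.log (r / l) * (‖a i‖ * ‖a j‖) + l ^ 2 +
        ‖a i‖ * ‖a j‖ * (2 * ‖a i‖ + 2 * ‖a j‖) / r) + 9 * (‖a i‖ * ‖a j‖)) +
      Real.log (r ^ 2 / ρ ^ 2) *
        (p i * p j * (‖a i - a j‖ ^ 2 - ‖a i‖ ^ 2 - ‖a j‖ ^ 2))) =
      (2 * (2 * Real.log (r / l) * l ^ 2 + l ^ 2 + 4 * V * l / r) + 9 * l ^ 2) +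
      ∑ i, ∑ j, Real.log (r ^ 2 / ρ ^ 2) *
      (p i * p j * (‖a i - a j‖ ^ 2 - ‖a i‖ ^ 2 - ‖a j‖ ^ 2)) := by
    rw [← hB, ← Finset.sum_add_distrib]
    apply Finset.sum_congr rfl
    intro i _
    rw [← Finset.sum_add_distrib]
  rw [hfin, hVr, hrl]
  nlinarith

/-- Paley–Zygmund for the first absolute moment -/
theorem paley {P : κ → Prop} [DecidablePred P] (hp : ∀ i, 0 ≤ p i) (hs : ∑ i, p i ≤ 1)
    (hP : ∀ i, ¬ P i → ‖a i‖ ≤ lm p a / 2) :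
    lm p a ^ 2 ≤ 4 * Vm p a * ∑ i with P i, p i := by
  set l := lm p a with hld
  have h1 : l / 2 ≤ ∑ i with P i, p i * ‖a i‖ := by
    have h2 : l = (∑ i with P i, p i * ‖a i‖) + ∑ i with ¬ P i, p i * ‖a i‖ := by
      rw [hld, lm]; exact (Finset.sum_filter_add_sum_filter_not _ _ _).symm
    have hl0 : 0 ≤ l := lm_nonneg hp
    have h3 : ∑ i with ¬ P i, p i * ‖a i‖ ≤ l / 2 := by
      calc ∑ i with ¬ P i, p i * ‖a i‖ ≤ ∑ i with ¬ P i, p i * (l / 2) := by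
            apply Finset.sum_le_sum
            intro i hi
            exact mul_le_mul_of_nonneg_left (hP i (Finset.mem_filter.1 hi).2) (hp i)
        _ = (∑ i with ¬ P i, p i) * (l / 2) := by rw [Finset.sum_mul]
        _ ≤ 1 * (l / 2) := by
            apply mul_le_mul_of_nonneg_right _ (by linarith)
            refine le_trans ?_ hs
            exact Finset.sum_le_sum_of_subset_of_nonneg (Finset.filter_subset _ _)
              fun i _ _ => hp i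
        _ = l / 2 := one_mul _
    linarith
  have h4 := Finset.sum_mul_sq_le_sq_mul_sq (Finset.univ.filter P) (fun i => Real.sqrt (p i))
    (fun i => Real.sqrt (p i) * ‖a i‖)
  have e1 : ∑ i with P i, Real.sqrt (p i) * (Real.sqrt (p i) * ‖a i‖) =
      ∑ i with P i, p i * ‖a i‖ := by
    apply Finset.sum_congr rfl
    intro i _
    rw [← mul_assoc, Real.mul_self_sqrt (hp i)]
  have e2 : ∑ i with P i, Real.sqrt (p i) ^ 2 = ∑ i with P i, p i := by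
    apply Finset.sum_congr rfl
    intro i _
    rw [Real.sq_sqrt (hp i)]
  have e3 : ∑ i with P i, (Real.sqrt (p i) * ‖a i‖) ^ 2 = ∑ i with P i, p i * ‖a i‖ ^ 2 := by
    apply Finset.sum_congr rfl
    intro i _
    rw [mul_pow, Real.sq_sqrt (hp i)]
  rw [e1, e2, e3] at h4
  have h5 : ∑ i with P i, p i * ‖a i‖ ^ 2 ≤ Vm p a :=
    Finset.sum_le_sum_of_subset_of_nonneg (Finset.filter_subset _ _)
      fun i _ _ => mul_nonneg (hp i) (sq_nonneg _)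
  have h6 : 0 ≤ ∑ i with P i, p i := Finset.sum_nonneg fun i _ => hp i
  have h7 : (l / 2) ^ 2 ≤ (∑ i with P i, p i * ‖a i‖) ^ 2 :=
    pow_le_pow_left₀ (by have := lm_nonneg (a := a) hp; rw [hld]; linarith) h1 2
  nlinarith

end det

end P365T2.Mob282
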