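import Vale.Agent.P365.T2.Cnd629
import Vale.Agent.P365.T2.H938.Dyad

/-!
# P365-T2, row X-MOB2: the mobility lemma for the bounded kernels

`hR r t = r² t / (r² + t)` (`t` = squared distance), `psiR J = ∑_{j ≤ J} (hR (2^J) - hR (2^j))`.
For a probability vector `P` on a finite set, positions `q` in a real inner product space and a
centre `z`, with `V = E |q a - q z|²`, `l = E |q a - q z|`,

`E psiR (|q a - q b|²) - 2 E psiR (|q a - q z|²) ≤ 292 l² (1 + log (V / l²))`.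
-/

set_option linter.all false

namespace P365T2.Mob94

open Finset Real
open scoped RealInnerProductSpace

/-- the bounded kernel as a function of the squared distance -/
noncomputable def hR (r t : ℝ) : ℝ := r ^ 2 * t / (r ^ 2 + t)

/-- `∑_{j ≤ J} (h_{2^J} - h_{2^j})` -/
noncomputable def psiR (J : ℕ) (t : ℝ) : ℝ := ∑ j ∈ range (J + 1), (hR (2 ^ J) t - hR (2 ^ j) t)

theorem hR_zero (r : ℝ) : hR r 0 = 0 := by simp [hR]

theorem hR_nonneg {r t : ℝ} (ht : 0 ≤ t) : 0 ≤ hR r t := by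
  unfold hR; positivity

theorem hR_eq {r t : ℝ} (hr : 0 < r) (ht : 0 ≤ t) : hR r t = t - t ^ 2 / (r ^ 2 + t) := by
  unfold hR
  have h : 0 < r ^ 2 + t := by positivity
  field_simp
  ring

/-- square root of the kernel as a function of the distance -/
noncomputable def fR (r s : ℝ) : ℝ := r * s / √(r ^ 2 + s ^ 2)

theorem fR_nonneg {r s : ℝ} (hr : 0 < r) (hs : 0 ≤ s) : 0 ≤ fR r s := by
  unfold fR; positivity

theorem fR_sq {r s : ℝ} (hr : 0 < r) : fR r s ^ 2 = hR r (s ^ 2) := by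
  unfold fR hR
  have h : 0 ≤ r ^ 2 + s ^ 2 := by positivity
  rw [div_pow, Real.sq_sqrt h, mul_pow]

theorem fR_le_self {r s : ℝ} (hr : 0 < r) (hs : 0 ≤ s) : fR r s ≤ s := by
  unfold fR
  have h : 0 < √(r ^ 2 + s ^ 2) := Real.sqrt_pos.2 (by positivity)
  rw [div_le_iff₀ h, mul_comm]
  refine mul_le_mul_of_nonneg_left ?_ hs
  exact Real.le_sqrt_of_sq_le (by nlinarith [sq_nonneg s])

theorem fR_le_r {r s : ℝ} (hr : 0 < r) (hs : 0 ≤ s) : fR r s ≤ r := by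
  unfold fR
  have h : 0 < √(r ^ 2 + s ^ 2) := Real.sqrt_pos.2 (by positivity)
  rw [div_le_iff₀ h]
  refine mul_le_mul_of_nonneg_left ?_ hr.le
  exact Real.le_sqrt_of_sq_le (by nlinarith [sq_nonneg r])

theorem fR_mono {r s t : ℝ} (hr : 0 < r) (hs : 0 ≤ s) (hst : s ≤ t) : fR r s ≤ fR r t := by
  have ht : 0 ≤ t := hs.trans hst
  refine le_of_sq_le_sq ?_ (fR_nonneg hr ht)
  rw [fR_sq hr, fR_sq hr]
  unfold hR
  have h1 : 0 < r ^ 2 + s ^ 2 := by positivity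
  have h2 : 0 < r ^ 2 + t ^ 2 := by positivity
  rw [div_le_div_iff₀ h1 h2]
  have h3 : s ^ 2 ≤ t ^ 2 := by nlinarith
  have h4 : 0 ≤ r ^ 2 * r ^ 2 := by positivity
  nlinarith [mul_le_mul_of_nonneg_left h3 h4]

theorem fR_add {r s t : ℝ} (hr : 0 < r) (hs : 0 ≤ s) (ht : 0 ≤ t) :
    fR r (s + t) ≤ fR r s + fR r t := by
  unfold fR
  have h1 : 0 < √(r ^ 2 + s ^ 2) := Real.sqrt_pos.2 (by positivity)
  have h2 : 0 < √(r ^ 2 + t ^ 2) := Real.sqrt_pos.2 (by positivity)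
  have h3 : √(r ^ 2 + s ^ 2) ≤ √(r ^ 2 + (s + t) ^ 2) := Real.sqrt_le_sqrt (by nlinarith [mul_nonneg hs ht])
  have h4 : √(r ^ 2 + t ^ 2) ≤ √(r ^ 2 + (s + t) ^ 2) := Real.sqrt_le_sqrt (by nlinarith [mul_nonneg hs ht])
  rw [mul_add, add_div]
  refine add_le_add ?_ ?_
  · exact div_le_div_of_nonneg_left (by positivity) h1 h3
  · exact div_le_div_of_nonneg_left (by positivity) h2 h4

variable {V : Type*} [NormedAddCommGroup V] [InnerProductSpace ℝ V]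

/-- `(h (a) + h (b) - h (a - b)) / 2` -/
noncomputable def rho (r : ℝ) (a b : V) : ℝ :=
  (hR r (‖a‖ ^ 2) + hR r (‖b‖ ^ 2) - hR r (‖a - b‖ ^ 2)) / 2

theorem rho_le_mul {r : ℝ} (hr : 0 < r) (a b : V) : rho r a b ≤ fR r ‖a‖ * fR r ‖b‖ := by
  have h1 : fR r ‖a‖ ≤ fR r ‖a - b‖ + fR r ‖b‖ := by
    refine (fR_mono hr (norm_nonneg a) ?_).trans (fR_add hr (norm_nonneg _) (norm_nonneg _))
    have := norm_sub_norm_le a b
    linarith
  have h2 : fR r ‖b‖ ≤ fR r ‖a - b‖ + fR r ‖a‖ := by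
    refine (fR_mono hr (norm_nonneg b) ?_).trans (fR_add hr (norm_nonneg _) (norm_nonneg _))
    have := norm_sub_norm_le b a
    rw [norm_sub_rev] at this
    linarith
  have h3 : (fR r ‖a‖ - fR r ‖b‖) ^ 2 ≤ fR r ‖a - b‖ ^ 2 := by
    rw [sq_le_sq, abs_of_nonneg (fR_nonneg hr (norm_nonneg (a - b)))]
    rw [abs_le]
    constructor <;> linarith
  unfold rho
  rw [← fR_sq hr, ← fR_sq hr, ← fR_sq hr]
  nlinarith

theorem rho_le_norm {r : ℝ} (hr : 0 < r) (a b : V) : rho r a b ≤ ‖a‖ * ‖b‖ :=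
  (rho_le_mul hr a b).trans (mul_le_mul (fR_le_self hr (norm_nonneg a))
    (fR_le_self hr (norm_nonneg b)) (fR_nonneg hr (norm_nonneg b)) (norm_nonneg a))

theorem rho_le_sq {r : ℝ} (hr : 0 < r) (a b : V) : rho r a b ≤ r ^ 2 := by
  rw [sq]
  exact (rho_le_mul hr a b).trans (mul_le_mul (fR_le_r hr (norm_nonneg a))
    (fR_le_r hr (norm_nonneg b)) (fR_nonneg hr (norm_nonneg b)) hr.le)

/-- the remainder `t² / (r² + t)` of the kernel -/
theorem rem_lip {r t u A : ℝ} (hr : 0 < r) (hA : 0 ≤ A) (ht : 0 ≤ t) (hu : 0 ≤ u)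
    (htA : t ≤ 4 * A ^ 2) (huA : u ≤ 4 * A ^ 2) :
    |t ^ 2 / (r ^ 2 + t) - u ^ 2 / (r ^ 2 + u)| ≤ |t - u| * (3 * A / r) := by
  have h1 : 0 < r ^ 2 + t := by positivity
  have h2 : 0 < r ^ 2 + u := by positivity
  set c : ℝ := (r ^ 2 * (t + u) + t * u) / ((r ^ 2 + t) * (r ^ 2 + u)) with hc
  have h3 : t ^ 2 / (r ^ 2 + t) - u ^ 2 / (r ^ 2 + u) = (t - u) * c := by
    rw [hc]
    field_simp
    ring
  have hc0 : 0 ≤ c := by rw [hc]; positivity
  have hc1 : c ≤ 1 := by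
    rw [hc, div_le_one (by positivity)]
    nlinarith [sq_nonneg (r ^ 2)]
  have hc2 : c ≤ (t + u) / r ^ 2 := by
    rw [hc, div_le_div_iff₀ (by positivity) (by positivity)]
    have h4 : 0 ≤ t * u := mul_nonneg ht hu
    have h5 : 0 ≤ t + u := by positivity
    have hr2 : 0 < r ^ 2 := by positivity
    have : (t + u) * ((r ^ 2 + t) * (r ^ 2 + u)) - (r ^ 2 * (t + u) + t * u) * r ^ 2 =
        r ^ 2 * ((t + u) ^ 2 - t * u) + (t + u) * (t * u) := by ring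
    have h6 : 0 ≤ (t + u) ^ 2 - t * u := by nlinarith [sq_nonneg t, sq_nonneg u]
    have h7 : 0 ≤ r ^ 2 * ((t + u) ^ 2 - t * u) + (t + u) * (t * u) := by positivity
    linarith
  rw [h3, abs_mul, abs_of_nonneg hc0]
  refine mul_le_mul_of_nonneg_left ?_ (abs_nonneg _)
  refine le_of_sq_le_sq ?_ (by positivity)
  calc c ^ 2 ≤ c := by nlinarith
    _ ≤ (t + u) / r ^ 2 := hc2
    _ ≤ (3 * A / r) ^ 2 := by
        rw [div_pow]
        refine div_le_div_of_nonneg_right ?_ (by positivity)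
        nlinarith [sq_nonneg A]

theorem rho_sub_inner_aux {r : ℝ} (hr : 0 < r) {a b : V} (hab : ‖b‖ ≤ ‖a‖) :
    |rho r a b - ⟪a, b⟫| ≤ 6 * (‖a‖ * ‖b‖) * ‖a‖ / r := by
  have hγ : ‖a - b‖ ^ 2 = ‖a‖ ^ 2 - 2 * ⟪a, b⟫ + ‖b‖ ^ 2 := norm_sub_sq_real a b
  have hs : |⟪a, b⟫| ≤ ‖a‖ * ‖b‖ := abs_real_inner_le_norm a b
  have ha := norm_nonneg a
  have hb := norm_nonneg b
  have h1 : ‖a - b‖ ^ 2 ≤ 4 * ‖a‖ ^ 2 := by
    have h2 := norm_sub_le a b
    have h3 := norm_nonneg (a - b)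
    nlinarith
  have e1 := rem_lip hr ha (sq_nonneg ‖a - b‖) (sq_nonneg ‖a‖) h1 (by nlinarith)
  have e2 := rem_lip (u := 0) hr ha (sq_nonneg ‖b‖) le_rfl (by nlinarith) (by positivity)
  have hr1 : rho r a b - ⟪a, b⟫ =
      ((‖a - b‖ ^ 2) ^ 2 / (r ^ 2 + ‖a - b‖ ^ 2) - (‖a‖ ^ 2) ^ 2 / (r ^ 2 + ‖a‖ ^ 2)) / 2 -
        ((‖b‖ ^ 2) ^ 2 / (r ^ 2 + ‖b‖ ^ 2)) / 2 := by
    unfold rho
    rw [hR_eq hr (sq_nonneg _), hR_eq hr (sq_nonneg _), hR_eq hr (sq_nonneg _)]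
    linarith
  have h4 : |‖a - b‖ ^ 2 - ‖a‖ ^ 2| ≤ 3 * (‖a‖ * ‖b‖) := by
    rw [hγ]
    rw [abs_le] at hs ⊢
    constructor <;> nlinarith
  have h5 : ‖b‖ ^ 2 ≤ ‖a‖ * ‖b‖ := by nlinarith
  have h0 : (0 : ℝ) ^ 2 / (r ^ 2 + 0) = 0 := by simp
  rw [h0, sub_zero, sub_zero, abs_of_nonneg (sq_nonneg ‖b‖)] at e2
  have hk : 0 ≤ 3 * ‖a‖ / r := by positivity
  have e1' := e1.trans (mul_le_mul_of_nonneg_right h4 hk)
  have e2' := e2.trans (mul_le_mul_of_nonneg_right h5 hk)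
  have hprod : 0 ≤ ‖a‖ * ‖b‖ * ‖a‖ / r := by positivity
  have i1 : 3 * (‖a‖ * ‖b‖) * (3 * ‖a‖ / r) = 9 * (‖a‖ * ‖b‖ * ‖a‖ / r) := by ring
  have i2 : ‖a‖ * ‖b‖ * (3 * ‖a‖ / r) = 3 * (‖a‖ * ‖b‖ * ‖a‖ / r) := by ring
  have i3 : 6 * (‖a‖ * ‖b‖) * ‖a‖ / r = 6 * (‖a‖ * ‖b‖ * ‖a‖ / r) := by ring
  rw [i1] at e1'
  rw [i2] at e2'
  rw [hr1, i3]
  rw [abs_le] at e1' e2' ⊢
  constructor <;> linarith [e1'.1, e1'.2, e2'.1, e2'.2]

theorem rho_sub_inner {r : ℝ} (hr : 0 < r) (a b : V) :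
    |rho r a b - ⟪a, b⟫| ≤ 6 * (‖a‖ * ‖b‖) * (‖a‖ + ‖b‖) / r := by
  rcases le_total ‖b‖ ‖a‖ with h | h
  · refine (rho_sub_inner_aux hr h).trans ?_
    refine div_le_div_of_nonneg_right ?_ hr.le
    exact mul_le_mul_of_nonneg_left (by linarith [norm_nonneg b]) (by positivity)
  · have h1 := rho_sub_inner_aux hr h
    have h2 : rho r b a = rho r a b := by
      unfold rho
      rw [norm_sub_rev]
      ring
    rw [h2, real_inner_comm] at h1
    refine h1.trans ?_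
    refine div_le_div_of_nonneg_right ?_ hr.le
    rw [mul_comm ‖b‖ ‖a‖]
    exact mul_le_mul_of_nonneg_left (by linarith [norm_nonneg a]) (by positivity)

/-! ### means -/

variable {ι : Type*} [Fintype ι]

/-- `m_r = E (h (a - z) + h (b - z) - h (a - b)) / 2` -/
noncomputable def mR (r : ℝ) (P : ι → ℝ) (u : ι → V) : ℝ :=
  ∑ x, ∑ y, P x * P y * rho r (u x) (u y)

/-- first moment -/
noncomputable def m1 (P : ι → ℝ) (u : ι → V) : ℝ := ∑ x, P x * ‖u x‖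

/-- second moment -/
noncomputable def m2 (P : ι → ℝ) (u : ι → V) : ℝ := ∑ x, P x * ‖u x‖ ^ 2

variable {P : ι → ℝ}

theorem m1_nonneg (hP : ∀ x, 0 ≤ P x) (u : ι → V) : 0 ≤ m1 P u :=
  sum_nonneg fun x _ => mul_nonneg (hP x) (norm_nonneg _)

theorem m2_nonneg (hP : ∀ x, 0 ≤ P x) (u : ι → V) : 0 ≤ m2 P u :=
  sum_nonneg fun x _ => mul_nonneg (hP x) (sq_nonneg _)

theorem m1_sq_le (hP : ∀ x, 0 ≤ P x) (hs : ∑ x, P x = 1) (u : ι → V) : m1 P u ^ 2 ≤ m2 P u := by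
  have h := Finset.sum_nonneg (s := univ) (f := fun x => P x * (‖u x‖ - m1 P u) ^ 2)
    fun x _ => mul_nonneg (hP x) (sq_nonneg _)
  have e : ∑ x, P x * (‖u x‖ - m1 P u) ^ 2 = m2 P u - 2 * m1 P u * m1 P u + m1 P u ^ 2 := by
    have h1 : ∀ x, P x * (‖u x‖ - m1 P u) ^ 2 =
        P x * ‖u x‖ ^ 2 - 2 * m1 P u * (P x * ‖u x‖) + m1 P u ^ 2 * P x := fun x => by ring
    simp only [h1, sum_add_distrib, sum_sub_distrib, ← mul_sum, hs, mul_one]
    rfl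
  rw [e] at h
  nlinarith

theorem mR_le_m1_sq (hP : ∀ x, 0 ≤ P x) {r : ℝ} (hr : 0 < r) (u : ι → V) :
    mR r P u ≤ m1 P u ^ 2 := by
  have h : m1 P u ^ 2 = ∑ x, ∑ y, P x * P y * (‖u x‖ * ‖u y‖) := by
    rw [sq, m1, sum_mul_sum]
    exact sum_congr rfl fun x _ => sum_congr rfl fun y _ => by ring
  rw [h]
  exact sum_le_sum fun x _ => sum_le_sum fun y _ =>
    mul_le_mul_of_nonneg_left (rho_le_norm hr _ _) (mul_nonneg (hP x) (hP y))

theorem mR_le_sq (hP : ∀ x, 0 ≤ P x) (hs : ∑ x, P x = 1) {r : ℝ} (hr : 0 < r) (u : ι → V) :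
    mR r P u ≤ r ^ 2 := by
  have h : r ^ 2 = ∑ x, ∑ y, P x * P y * r ^ 2 := by
    simp only [← sum_mul, ← mul_sum, hs, mul_one, one_mul]
  rw [h]
  exact sum_le_sum fun x _ => sum_le_sum fun y _ =>
    mul_le_mul_of_nonneg_left (rho_le_sq hr _ _) (mul_nonneg (hP x) (hP y))

theorem mR_sub_inner (hP : ∀ x, 0 ≤ P x) {r : ℝ} (hr : 0 < r) (u : ι → V) :
    |mR r P u - ∑ x, ∑ y, P x * P y * ⟪u x, u y⟫| ≤ 12 * (m2 P u * m1 P u) / r := by
  have h1 : mR r P u - ∑ x, ∑ y, P x * P y * ⟪u x, u y⟫ =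
      ∑ x, ∑ y, P x * P y * (rho r (u x) (u y) - ⟪u x, u y⟫) := by
    rw [mR, ← sum_sub_distrib]
    refine sum_congr rfl fun x _ => ?_
    rw [← sum_sub_distrib]
    exact sum_congr rfl fun y _ => by ring
  rw [h1]
  calc |∑ x, ∑ y, P x * P y * (rho r (u x) (u y) - ⟪u x, u y⟫)|
      ≤ ∑ x, ∑ y, P x * P y * (6 * (‖u x‖ * ‖u y‖) * (‖u x‖ + ‖u y‖) / r) := by
        refine (abs_sum_le_sum_abs _ _).trans (sum_le_sum fun x _ => ?_)
        refine (abs_sum_le_sum_abs _ _).trans (sum_le_sum fun y _ => ?_)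
        rw [abs_mul, abs_of_nonneg (mul_nonneg (hP x) (hP y))]
        exact mul_le_mul_of_nonneg_left (rho_sub_inner hr _ _) (mul_nonneg (hP x) (hP y))
    _ = ∑ x, ∑ y, ((6 / r) * ((P x * ‖u x‖ ^ 2) * (P y * ‖u y‖)) +
          (6 / r) * ((P x * ‖u x‖) * (P y * ‖u y‖ ^ 2))) :=
        sum_congr rfl fun x _ => sum_congr rfl fun y _ => by ring
    _ = 12 * (m2 P u * m1 P u) / r := by
        simp only [sum_add_distrib, ← mul_sum, ← sum_mul]
        rw [m2, m1]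
        ring

theorem mR_nonneg (hP : ∀ x, 0 ≤ P x) (hs : ∑ x, P x = 1) {r : ℝ} (hr : 0 < r)
    (q : ι → V) (z : ι) : 0 ≤ mR r P (fun x => q x - q z) := by
  obtain ⟨m, f, hf, -, -⟩ := Cnd.exists_fam q hr
  have hh : ∀ x y, hR r (‖q x - q y‖ ^ 2) = ∑ j, (f j x - f j y) ^ 2 := fun x y => (hf x y).symm
  have h1 : ∀ x y, rho r (q x - q z) (q y - q z) =
      ∑ j, (f j x - f j z) * (f j y - f j z) := by
    intro x y
    unfold rho
    rw [sub_sub_sub_cancel_right, hh, hh, hh, ← sum_add_distrib, ← sum_sub_distrib, sum_div]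
    exact sum_congr rfl fun j _ => by ring
  have h2 : mR r P (fun x => q x - q z) = ∑ j, (∑ x, P x * (f j x - f j z)) ^ 2 := by
    unfold mR
    simp only [h1, mul_sum]
    have h3 : ∀ j, (∑ x, P x * (f j x - f j z)) ^ 2 =
        ∑ x, ∑ y, P x * P y * ((f j x - f j z) * (f j y - f j z)) := by
      intro j
      rw [sq, sum_mul_sum]
      exact sum_congr rfl fun x _ => sum_congr rfl fun y _ => by ring
    simp only [h3]
    have h4 : ∀ x, ∑ y, ∑ j, P x * P y * ((f j x - f j z) * (f j y - f j z)) =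
        ∑ j, ∑ y, P x * P y * ((f j x - f j z) * (f j y - f j z)) := fun x => sum_comm
    rw [sum_congr rfl fun x _ => h4 x]
    exact sum_comm
  rw [h2]
  exact sum_nonneg fun j _ => sq_nonneg _

theorem mR_sub_le (hP : ∀ x, 0 ≤ P x) {r R : ℝ} (hr : 0 < r) (hrR : r ≤ R) (u : ι → V) :
    mR r P u - mR R P u ≤ 24 * (m2 P u * m1 P u) / r := by
  have h1 := abs_le.1 (mR_sub_inner hP hr u)
  have h2 := abs_le.1 (mR_sub_inner hP (hr.trans_le hrR) u)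
  have h3 : 12 * (m2 P u * m1 P u) / R ≤ 12 * (m2 P u * m1 P u) / r :=
    div_le_div_of_nonneg_left (mul_nonneg (by norm_num)
      (mul_nonneg (m2_nonneg hP u) (m1_nonneg hP u))) hr hrR
  have h4 : 24 * (m2 P u * m1 P u) / r = 12 * (m2 P u * m1 P u) / r +
      12 * (m2 P u * m1 P u) / r := by ring
  rw [h4]
  linarith [h1.2, h2.1]

/-- **the dyadic sum** -/
theorem sum_mR_le (hP : ∀ x, 0 ≤ P x) (hs : ∑ x, P x = 1) (q : ι → V) (z : ι) (J : ℕ) :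
    ∑ j ∈ range (J + 1), (mR (2 ^ j) P (fun x => q x - q z) - mR (2 ^ J) P (fun x => q x - q z)) ≤
      146 * (m1 P (fun x => q x - q z) ^ 2 * (1 + Real.log (m2 P (fun x => q x - q z) /
        m1 P (fun x => q x - q z) ^ 2))) := by
  set u : ι → V := fun x => q x - q z with hu
  have hM0 := m1_nonneg hP u
  have hMV := m1_sq_le hP hs u
  have hp : ∀ j : ℕ, (0 : ℝ) < 2 ^ j := fun j => by positivity
  have hRn : 0 ≤ mR (2 ^ J) P u := mR_nonneg hP hs (hp J) q z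
  rcases hM0.eq_or_lt with hM | hM
  · rw [← hM]
    simp only [ne_eq, OfNat.ofNat_ne_zero, not_false_eq_true, zero_pow, zero_mul, mul_zero]
    refine sum_nonpos fun j _ => ?_
    have := mR_le_m1_sq hP (hp j) u
    rw [← hM] at this
    linarith
  have hV : 0 < m2 P u := (pow_pos hM 2).trans_le hMV
  rw [← sum_range_reflect]
  have key := Mob.sum_mob (R := 2 ^ J) (M := m1 P u) (V := m2 P u) (x0 := m1 P u) (hp J) hM hMV
    hM0 (range (J + 1)) (fun j => mR (2 ^ (J + 1 - 1 - j)) P u - mR (2 ^ J) P u) 1 24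
    zero_le_one (by norm_num) ?_ ?_ ?_
  · refine key.trans ?_
    have hl2 : (1 : ℝ) / 2 ≤ Real.log 2 := by
      have := Real.log_two_gt_d9
      linarith
    have hL : 0 ≤ Real.log (m2 P u / m1 P u ^ 2) := Real.log_nonneg (by
      rwa [one_le_div (by positivity)])
    have hL2 : Real.log (m2 P u / m1 P u ^ 2) / Real.log 2 ≤
        2 * Real.log (m2 P u / m1 P u ^ 2) := by
      rw [div_le_iff₀ (by linarith)]
      nlinarith
    have hsq : 0 ≤ m1 P u ^ 2 := sq_nonneg _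
    have h5 := mul_le_mul_of_nonneg_left hL2 hsq
    have e1 : m1 P u * m1 P u = m1 P u ^ 2 := by ring
    nlinarith [mul_nonneg hsq hL]
  · intro j hj
    have hj' : j ≤ J := by have := mem_range.1 hj; omega
    have e : (2 : ℝ) ^ J / 2 ^ j = 2 ^ (J + 1 - 1 - j) := by
      rw [Nat.add_sub_cancel, div_eq_iff (by positivity), ← pow_add]
      congr 1
      omega
    rw [e, one_mul]
    have := mR_le_sq hP hs (hp (J + 1 - 1 - j)) u
    linarith
  · intro j hj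
    have := mR_le_m1_sq hP (hp (J + 1 - 1 - j)) u
    nlinarith [sq_nonneg (m1 P u)]
  · intro j hj
    have hj' : j ≤ J := by have := mem_range.1 hj; omega
    have e : (2 : ℝ) ^ J / 2 ^ j = 2 ^ (J + 1 - 1 - j) := by
      rw [Nat.add_sub_cancel, div_eq_iff (by positivity), ← pow_add]
      congr 1
      omega
    have e' : (2 : ℝ) ^ j / 2 ^ J = 1 / 2 ^ (J + 1 - 1 - j) := by
      rw [← e]
      field_simp
    have h6 : (2 : ℝ) ^ (J + 1 - 1 - j) ≤ 2 ^ J := pow_le_pow_right₀ one_le_two (by omega)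
    have h7 := mR_sub_le hP (hp (J + 1 - 1 - j)) h6 u
    rw [e']
    have h8 : 0 ≤ (m2 P u * (1 / 2 ^ (J + 1 - 1 - j))) ^ 2 := sq_nonneg _
    have h9 : 24 * (m2 P u * m1 P u) / 2 ^ (J + 1 - 1 - j) =
        24 * (m1 P u * (m2 P u * (1 / 2 ^ (J + 1 - 1 - j)))) := by ring
    rw [h9] at h7
    linarith

/-- the kernel identity: `E h (a - b) - 2 E h (a) = - 2 m_r` -/
theorem hR_mean (hs : ∑ x, P x = 1) (q : ι → V) (z : ι) (r : ℝ) :
    ∑ x, ∑ y, P x * P y * hR r (‖q x - q y‖ ^ 2) - 2 * ∑ x, P x * hR r (‖q x - q z‖ ^ 2) =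
      -2 * mR r P (fun x => q x - q z) := by
  have h1 : mR r P (fun x => q x - q z) =
      ∑ x, ∑ y, ((P x * hR r (‖q x - q z‖ ^ 2)) * P y / 2 +
        P x * (P y * hR r (‖q y - q z‖ ^ 2)) / 2 -
        P x * P y * hR r (‖q x - q y‖ ^ 2) / 2) := by
    unfold mR rho
    refine sum_congr rfl fun x _ => sum_congr rfl fun y _ => ?_
    rw [sub_sub_sub_cancel_right]
    ring
  rw [h1]
  simp only [sum_sub_distrib, sum_add_distrib, ← sum_div, ← mul_sum, ← sum_mul, hs, mul_one,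
    one_mul]
  ring

/-- **the mobility lemma for the bounded kernels** -/
theorem mob94 (hP : ∀ x, 0 ≤ P x) (hs : ∑ x, P x = 1) (q : ι → V) (z : ι) (J : ℕ) :
    ∑ x, ∑ y, P x * P y * psiR J (‖q x - q y‖ ^ 2) - 2 * ∑ x, P x * psiR J (‖q x - q z‖ ^ 2) ≤
      292 * ((∑ x, P x * ‖q x - q z‖) ^ 2 * (1 + Real.log ((∑ x, P x * ‖q x - q z‖ ^ 2) /
        (∑ x, P x * ‖q x - q z‖) ^ 2))) := by
  have h1 := sum_mR_le hP hs q z J
  have h2 : ∑ x, ∑ y, P x * P y * psiR J (‖q x - q y‖ ^ 2) -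
      2 * ∑ x, P x * psiR J (‖q x - q z‖ ^ 2) =
      2 * ∑ j ∈ range (J + 1),
        (mR (2 ^ j) P (fun x => q x - q z) - mR (2 ^ J) P (fun x => q x - q z)) := by
    have e1 : ∑ x, ∑ y, P x * P y * psiR J (‖q x - q y‖ ^ 2) =
        ∑ j ∈ range (J + 1), (∑ x, ∑ y, P x * P y * hR (2 ^ J) (‖q x - q y‖ ^ 2) -
          ∑ x, ∑ y, P x * P y * hR (2 ^ j) (‖q x - q y‖ ^ 2)) := by
      simp only [psiR, mul_sum, ← sum_sub_distrib, ← mul_sub]
      rw [sum_congr rfl fun x _ => sum_comm]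
      exact sum_comm
    have e2 : ∑ x, P x * psiR J (‖q x - q z‖ ^ 2) =
        ∑ j ∈ range (J + 1), (∑ x, P x * hR (2 ^ J) (‖q x - q z‖ ^ 2) -
          ∑ x, P x * hR (2 ^ j) (‖q x - q z‖ ^ 2)) := by
      simp only [psiR, mul_sum, ← sum_sub_distrib, ← mul_sub]
      exact sum_comm
    rw [e1, e2, mul_sum, mul_sum, ← sum_sub_distrib]
    refine sum_congr rfl fun j _ => ?_
    have i1 := hR_mean hs q z (2 ^ J)
    have i2 := hR_mean hs q z (2 ^ j)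
    linarith
  rw [h2]
  have h3 : (292 : ℝ) = 2 * 146 := by norm_num
  rw [h3, mul_assoc]
  exact mul_le_mul_of_nonneg_left h1 (by norm_num)

/-! ### the function `φ (p) = p (1 + log (1/p))`, `V φ (M² / V) = M² (1 + log (V / M²))` -/

theorem phi_le {M W : ℝ} (hM : 0 ≤ M) (hMW : M ^ 2 ≤ W) :
    M ^ 2 * (1 + Real.log (W / M ^ 2)) ≤ W := by
  rcases hM.eq_or_lt with h | h
  · rw [← h] at hMW ⊢
    simpa using hMW
  have h1 : Real.log (W / M ^ 2) ≤ W / M ^ 2 - 1 :=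
    Real.log_le_sub_one_of_pos (div_pos ((pow_pos h 2).trans_le hMW) (pow_pos h 2))
  calc M ^ 2 * (1 + Real.log (W / M ^ 2)) ≤ M ^ 2 * (W / M ^ 2) :=
        mul_le_mul_of_nonneg_left (by linarith) (sq_nonneg _)
    _ = W := by field_simp

theorem phi_small {M W th : ℝ} (hM : 0 ≤ M) (hth : 0 < th) (hth1 : th ≤ 1) (hW : 0 ≤ W)
    (hMW : M ^ 2 ≤ th * W) :
    M ^ 2 * (1 + Real.log (W / M ^ 2)) ≤ th * (1 + Real.log (1 / th)) * W := by
  have hl : 0 ≤ Real.log (1 / th) := Real.log_nonneg (by rwa [one_le_div hth])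
  rcases hM.eq_or_lt with h | h
  · rw [← h]
    simp only [ne_eq, OfNat.ofNat_ne_zero, not_false_eq_true, zero_pow, zero_mul]
    positivity
  have hM2 : 0 < M ^ 2 := pow_pos h 2
  have hW0 : 0 < W := by
    by_contra hc
    have : W = 0 := le_antisymm (not_lt.1 hc) hW
    rw [this, mul_zero] at hMW
    linarith
  have h1 : Real.log (W / M ^ 2) = Real.log (1 / th) + Real.log (th * W / M ^ 2) := by
    rw [← Real.log_mul (by positivity) (by positivity)]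
    congr 1
    field_simp
  have h2 : Real.log (th * W / M ^ 2) ≤ th * W / M ^ 2 - 1 :=
    Real.log_le_sub_one_of_pos (by positivity)
  have h3 : M ^ 2 * Real.log (th * W / M ^ 2) ≤ th * W - M ^ 2 := by
    calc M ^ 2 * Real.log (th * W / M ^ 2) ≤ M ^ 2 * (th * W / M ^ 2 - 1) :=
          mul_le_mul_of_nonneg_left h2 hM2.le
      _ = th * W - M ^ 2 := by field_simp
  have h4 : M ^ 2 * Real.log (1 / th) ≤ th * W * Real.log (1 / th) :=
    mul_le_mul_of_nonneg_right hMW hl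
  rw [h1]
  nlinarith

/-- consumer form: immobile rows (`l² ≤ th V`) contribute at most `292 φ(th) V` -/
theorem mob94_split (hP : ∀ x, 0 ≤ P x) (hs : ∑ x, P x = 1) (q : ι → V) (z : ι) (J : ℕ)
    {th : ℝ} (hth : 0 < th) (hth1 : th ≤ 1) :
    ∑ x, ∑ y, P x * P y * psiR J (‖q x - q y‖ ^ 2) - 2 * ∑ x, P x * psiR J (‖q x - q z‖ ^ 2) ≤
      292 * ((if th * (∑ x, P x * ‖q x - q z‖ ^ 2) < (∑ x, P x * ‖q x - q z‖) ^ 2 then
        (∑ x, P x * ‖q x - q z‖ ^ 2) else 0) +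
        th * (1 + Real.log (1 / th)) * ∑ x, P x * ‖q x - q z‖ ^ 2) := by
  have h1 := mob94 hP hs q z J
  have hM : 0 ≤ ∑ x, P x * ‖q x - q z‖ := m1_nonneg hP fun x => q x - q z
  have hV : 0 ≤ ∑ x, P x * ‖q x - q z‖ ^ 2 := m2_nonneg hP fun x => q x - q z
  have hMV : (∑ x, P x * ‖q x - q z‖) ^ 2 ≤ ∑ x, P x * ‖q x - q z‖ ^ 2 :=
    m1_sq_le hP hs fun x => q x - q z
  have hl : 0 ≤ Real.log (1 / th) := Real.log_nonneg (by rwa [one_le_div hth])
  refine h1.trans (mul_le_mul_of_nonneg_left ?_ (by norm_num))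
  split_ifs with hc
  · have h2 := phi_le hM hMV
    have h3 : 0 ≤ th * (1 + Real.log (1 / th)) * ∑ x, P x * ‖q x - q z‖ ^ 2 := by positivity
    linarith
  · rw [zero_add]
    exact phi_small hM hth hth1 hV (not_lt.1 hc)

end P365T2.Mob94
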