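import Vale.Agent.P365.T1a.Mix
import Vale.Agent.P365.Bdl.B1

set_option linter.all false

/-!
# P365 / T2 / Noise37: the smooth law plus Cauchy noise.

`rhoN lam l k v = ∫ rhoS lam l (v - k t) dnu(t)` is the density of `v + k t`, `v ~ nuS lam l`,
`t` standard Cauchy (`noisy_eq`).

* `rhoS_second_ge`: `rhoS (v+h) + rhoS (v-h) - 2 rhoS v ≥ -(16/l²) h² rhoS v`.
* `rhoN_ge`: `(1 - 6k/l) rhoS ≤ rhoN`.
* `abs_rhoN_sub_le`: `|rhoN - rhoS| ≤ KN k / (1 + v²)`.
* `noisy_decomp`: `noisy = (1 - 6k/l) nuS + (6k/l) xiN`, `xiN` a probability law with density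
  `0 ≤ xiD ≤ KX / (1 + v²)`.
-/

namespace P365T2.N37

open MeasureTheory ProbabilityTheory P365T1 P365T1.Bump P365L
open scoped ENNReal Real

/-! ### the biweight profile -/

/-- `(1 - x²)₊²` -/
noncomputable def bw (x : ℝ) : ℝ := (max (1 - x ^ 2) 0) ^ 2

theorem bw_nonneg (x : ℝ) : 0 ≤ bw x := sq_nonneg _

theorem bw_neg (x : ℝ) : bw (-x) = bw x := by simp [bw]

theorem bw_in {x : ℝ} (h : x ^ 2 ≤ 1) : bw x = (1 - x ^ 2) ^ 2 := by
  rw [bw, max_eq_left (by linarith)]

theorem bw_out {x : ℝ} (h : 1 ≤ x ^ 2) : bw x = 0 := by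
  rw [bw, max_eq_right (by linarith)]; norm_num

theorem bw_le_one (x : ℝ) : bw x ≤ 1 := by
  unfold bw
  have h1 : max (1 - x ^ 2) 0 ≤ 1 := max_le (by linarith [sq_nonneg x]) zero_le_one
  exact pow_le_one₀ (le_max_right _ _) h1

theorem bw_le_poly (x : ℝ) : bw x ≤ (1 - x ^ 2) ^ 2 := by
  by_cases h : x ^ 2 ≤ 1
  · exact (bw_in h).le
  · rw [bw_out (by linarith)]
    positivity

theorem bw_far_pos {u s : ℝ} (hu0 : 0 ≤ u) (hu : u ^ 2 < 1) (hs : s ^ 2 < 1 / 8)
    (h : 1 < (u + s) ^ 2) : 2 * bw u ≤ bw (u - s) := by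
  have hu1 : u < 1 := by nlinarith
  have hs1 : s < 3 / 8 := by nlinarith
  have hs2 : -(3 / 8) < s := by nlinarith
  have hs0 : 1 < u + s := by
    by_contra hc
    push Not at hc
    nlinarith
  obtain ⟨a, rfl⟩ : ∃ a, u = 1 - a := ⟨1 - u, by ring⟩
  have ha0 : 0 < a := by linarith
  have has : a < s := by linarith
  rw [bw_in hu.le, bw_in (by nlinarith)]
  have h1 : 0 ≤ (s - a) * (2 - 3 * a - s) := mul_nonneg (by linarith) (by linarith)
  have h2 : 4 * a * (1 - a) ≤ (a + s) * (2 - a - s) := by nlinarith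
  have h3 : (4 * a * (1 - a)) ^ 2 ≤ ((a + s) * (2 - a - s)) ^ 2 :=
    pow_le_pow_left₀ (mul_nonneg (by linarith) (by linarith)) h2 2
  have h4 : 0 ≤ a ^ 2 * (4 - 12 * a + 7 * a ^ 2) :=
    mul_nonneg (sq_nonneg a) (by nlinarith)
  nlinarith

theorem bw_far {u s : ℝ} (hu : u ^ 2 < 1) (hs : s ^ 2 < 1 / 8)
    (h : 1 < (u + s) ^ 2) : 2 * bw u ≤ bw (u - s) := by
  rcases le_total 0 u with h0 | h0
  · exact bw_far_pos h0 hu hs h
  · have := bw_far_pos (u := -u) (s := -s) (by linarith) (by simpa using hu) (by simpa using hs)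
      (by nlinarith)
    rw [bw_neg, show -u - -s = -(u - s) by ring, bw_neg] at this
    exact this

theorem bw_second_ge (u s : ℝ) : -(16 * s ^ 2 * bw u) ≤ bw (u + s) + bw (u - s) - 2 * bw u := by
  have p0 := bw_nonneg u
  have p1 := bw_nonneg (u + s)
  have p2 := bw_nonneg (u - s)
  by_cases hu : 1 ≤ u ^ 2
  · rw [bw_out hu]
    linarith
  push Not at hu
  by_cases hs : 1 / 8 ≤ s ^ 2
  · nlinarith
  push Not at hs
  have h0 : 0 ≤ s ^ 2 * bw u := by positivity
  by_cases h1 : 1 < (u + s) ^ 2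
  · have := bw_far hu hs h1
    linarith
  by_cases h2 : 1 < (u - s) ^ 2
  · have := bw_far (u := u) (s := -s) hu (by simpa using hs) (by simpa [sub_eq_add_neg] using h2)
    rw [sub_neg_eq_add] at this
    linarith
  push Not at h1 h2
  rw [bw_in h1, bw_in h2, bw_in hu.le]
  have h3 : 0 ≤ s ^ 2 * (-4 + 12 * u ^ 2 + 2 * s ^ 2 + 16 * (1 - u ^ 2) ^ 2) :=
    mul_nonneg (sq_nonneg s) (by nlinarith [sq_nonneg (u ^ 2 - 5 / 8), sq_nonneg s])
  nlinarith

theorem bw_out_le {u s : ℝ} (hu : 1 < u ^ 2) (hs : s ^ 2 ≤ 1) (h : (u + s) ^ 2 ≤ 1) :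
    bw (u + s) ≤ 10 * s ^ 2 := by
  rw [bw_in h]
  have h1 : 1 - (u + s) ^ 2 ≤ -(s * (2 * u + s)) := by nlinarith
  have h2 : (1 - (u + s) ^ 2) ^ 2 ≤ (-(s * (2 * u + s))) ^ 2 :=
    pow_le_pow_left₀ (by linarith) h1 2
  have h3 : (2 * u + s) ^ 2 ≤ 10 := by
    have e : 2 * u + s = 2 * (u + s) - s := by ring
    rw [e]
    nlinarith [sq_nonneg (u + s + s), sq_nonneg (2 * (u + s) + s), sq_nonneg (u + s + 2 * s)]
  calc (1 - (u + s) ^ 2) ^ 2 ≤ (-(s * (2 * u + s))) ^ 2 := h2
    _ = s ^ 2 * (2 * u + s) ^ 2 := by ring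
    _ ≤ s ^ 2 * 10 := mul_le_mul_of_nonneg_left h3 (sq_nonneg s)
    _ = 10 * s ^ 2 := by ring

theorem bw_second_le (u s : ℝ) : bw (u + s) + bw (u - s) - 2 * bw u ≤ 10 * s ^ 2 := by
  have p0 := bw_nonneg u
  have q1 := bw_le_one (u + s)
  have q2 := bw_le_one (u - s)
  by_cases hs : 1 ≤ s ^ 2
  · linarith
  push Not at hs
  by_cases hu : u ^ 2 ≤ 1
  · rw [bw_in hu]
    have h1 := bw_le_poly (u + s)
    have h2 := bw_le_poly (u - s)
    have h3 : 0 ≤ s ^ 2 * (1 - u ^ 2) := mul_nonneg (sq_nonneg s) (by linarith)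
    have h4 : 0 ≤ s ^ 2 * (1 - s ^ 2) := mul_nonneg (sq_nonneg s) (by linarith)
    nlinarith
  push Not at hu
  rw [bw_out hu.le]
  by_cases h1 : (u + s) ^ 2 ≤ 1
  · have h2 : 1 ≤ (u - s) ^ 2 := by
      by_contra hc
      push Not at hc
      nlinarith [sq_nonneg s]
    rw [bw_out h2]
    have := bw_out_le hu hs.le h1
    linarith
  · push Not at h1
    rw [bw_out h1.le]
    by_cases h2 : (u - s) ^ 2 ≤ 1
    · have := bw_out_le (u := u) (s := -s) hu (by simpa using hs.le)
        (by simpa [sub_eq_add_neg] using h2)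
      rw [← sub_eq_add_neg] at this
      linarith
    · push Not at h2
      rw [bw_out h2.le]
      nlinarith [sq_nonneg s]

/-! ### bumps -/

theorem rhoB_bw (c l v : ℝ) : rhoB c l v = 15 / (16 * l) * bw ((v - c) / l) := rfl

theorem rhoB_second_ge {l : ℝ} (hl : 0 < l) (c v h : ℝ) :
    -(16 / l ^ 2 * h ^ 2 * rhoB c l v) ≤
      rhoB c l (v + h) + rhoB c l (v - h) - 2 * rhoB c l v := by
  have h1 := bw_second_ge ((v - c) / l) (h / l)
  have e1 : (v - c) / l + h / l = (v + h - c) / l := by ring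
  have e2 : (v - c) / l - h / l = (v - h - c) / l := by ring
  rw [e1, e2] at h1
  have h2 : (0 : ℝ) < 15 / (16 * l) := by positivity
  have h3 := mul_le_mul_of_nonneg_left h1 h2.le
  rw [rhoB_bw, rhoB_bw, rhoB_bw]
  have e3 : 16 / l ^ 2 * h ^ 2 * (15 / (16 * l) * bw ((v - c) / l)) =
      15 / (16 * l) * (16 * (h / l) ^ 2 * bw ((v - c) / l)) := by ring
  rw [e3]
  linarith

theorem rhoB_second_le {l : ℝ} (hl : 0 < l) (c v h : ℝ) :
    rhoB c l (v + h) + rhoB c l (v - h) - 2 * rhoB c l v ≤ 15 / l ^ 3 * h ^ 2 := by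
  have h1 := bw_second_le ((v - c) / l) (h / l)
  have e1 : (v - c) / l + h / l = (v + h - c) / l := by ring
  have e2 : (v - c) / l - h / l = (v - h - c) / l := by ring
  rw [e1, e2] at h1
  have h2 : (0 : ℝ) < 15 / (16 * l) := by positivity
  have h3 := mul_le_mul_of_nonneg_left h1 h2.le
  rw [rhoB_bw, rhoB_bw, rhoB_bw]
  have e3 : 15 / (16 * l) * (10 * (h / l) ^ 2) ≤ 15 / l ^ 3 * h ^ 2 := by
    have : 15 / (16 * l) * (10 * (h / l) ^ 2) = 10 / 16 * (15 / l ^ 3 * h ^ 2) := by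
      field_simp
    rw [this]
    have h4 : 0 ≤ 15 / l ^ 3 * h ^ 2 := by positivity
    linarith
  linarith

/-! ### the smooth law -/

variable {lam l : ℝ}

theorem rhoS_out (hl : 0 < l) {v : ℝ} (hv : v ∉ Set.Icc (-lam) lam) : rhoS lam l v = 0 := by
  unfold rhoS
  have h1 : ∫ c, rhoB c l v ∂(muc lam l) = 0 := by
    rw [muc]
    refine setIntegral_eq_zero_of_forall_eq_zero fun c hc => ?_
    refine rhoB_eq_zero hl fun h => hv ⟨?_, ?_⟩
    · linarith [h.1, hc.1]
    · linarith [h.2, hc.2]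
  rw [h1, mul_zero]

theorem int3 (hl : 0 < l) (v t : ℝ) :
    ∫ c, (rhoB c l (v + t) + rhoB c l (v - t) - 2 * rhoB c l v) ∂(muc lam l) =
      ∫ c, rhoB c l (v + t) ∂(muc lam l) + ∫ c, rhoB c l (v - t) ∂(muc lam l) -
        2 * ∫ c, rhoB c l v ∂(muc lam l) := by
  have hi := fun v => integrable_rhoB_c (lam := lam) hl v
  rw [integral_sub (f := fun c => rhoB c l (v + t) + rhoB c l (v - t))
    (g := fun c => 2 * rhoB c l v) ((hi _).add (hi _)) ((hi v).const_mul 2),
    integral_add (hi _) (hi _), integral_const_mul]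

theorem rhoS_second_ge (hl : 0 < l) (h : l < lam) (v t : ℝ) :
    -(16 / l ^ 2 * t ^ 2 * rhoS lam l v) ≤
      rhoS lam l (v + t) + rhoS lam l (v - t) - 2 * rhoS lam l v := by
  have h2 : (0 : ℝ) ≤ (2 * (lam - l))⁻¹ := inv_nonneg.2 (by linarith)
  have hi := fun v => integrable_rhoB_c (lam := lam) hl v
  have h3 : ∫ c, -(16 / l ^ 2 * t ^ 2 * rhoB c l v) ∂(muc lam l) ≤
      ∫ c, (rhoB c l (v + t) + rhoB c l (v - t) - 2 * rhoB c l v) ∂(muc lam l) :=
    integral_mono ((hi v).const_mul _).neg (((hi _).add (hi _)).sub ((hi v).const_mul 2))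
      fun c => rhoB_second_ge hl c v t
  rw [integral_neg, integral_const_mul, int3 hl] at h3
  have h4 := mul_le_mul_of_nonneg_left h3 h2
  unfold rhoS
  linarith

theorem rhoS_second_le (hl : 0 < l) (h : l < lam) (v t : ℝ) :
    rhoS lam l (v + t) + rhoS lam l (v - t) - 2 * rhoS lam l v ≤ 15 / l ^ 3 * t ^ 2 := by
  have h2 : (0 : ℝ) < 2 * (lam - l) := by linarith
  have hi := fun v => integrable_rhoB_c (lam := lam) hl v
  have h3 : ∫ c, (rhoB c l (v + t) + rhoB c l (v - t) - 2 * rhoB c l v) ∂(muc lam l) ≤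
      ∫ c, 15 / l ^ 3 * t ^ 2 ∂(muc lam l) :=
    integral_mono (((hi _).add (hi _)).sub ((hi v).const_mul 2)) (integrable_const _)
      fun c => rhoB_second_le hl c v t
  rw [integral_const, smul_eq_mul, muc, measureReal_restrict_apply MeasurableSet.univ,
    Set.univ_inter, Real.volume_real_Icc_of_le (by linarith), ← muc] at h3
  rw [int3 hl] at h3
  have h4 := mul_le_mul_of_nonneg_left h3 (inv_nonneg.2 h2.le)
  have e : (2 * (lam - l))⁻¹ * ((lam - l - -(lam - l)) * (15 / l ^ 3 * t ^ 2)) =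
      15 / l ^ 3 * t ^ 2 := by
    have : lam - l ≠ 0 := by linarith
    field_simp
    ring
  rw [e] at h4
  unfold rhoS
  linarith

theorem nuS_eq (hl : 0 < l) :
    nuS lam l = volume.withDensity fun v => ENNReal.ofReal (rhoS lam l v) := by
  rw [nuS, muv, ← withDensity_indicator measurableSet_Icc]
  congr 1
  funext v
  by_cases hv : v ∈ Set.Icc (-lam) lam
  · rw [Set.indicator_of_mem hv]
  · rw [Set.indicator_of_notMem hv, rhoS_out hl hv, ENNReal.ofReal_zero]

theorem lintegral_rhoS (hl : 0 < l) (h : l < lam) :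
    ∫⁻ v, ENNReal.ofReal (rhoS lam l v) = 1 := by
  haveI := isProbabilityMeasure_nuS hl h
  have h1 : nuS lam l Set.univ = 1 := measure_univ
  rwa [nuS_eq hl, withDensity_apply _ MeasurableSet.univ, Measure.restrict_univ] at h1

theorem integrable_rhoS (hl : 0 < l) (h : l < lam) : Integrable (rhoS lam l) := by
  refine ⟨(measurable_rhoS lam l).aestronglyMeasurable, ?_⟩
  rw [hasFiniteIntegral_iff_ofReal (Filter.Eventually.of_forall (rhoS_nonneg hl h)),
    lintegral_rhoS hl h]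
  exact ENNReal.one_lt_top

theorem integral_rhoS (hl : 0 < l) (h : l < lam) : ∫ v, rhoS lam l v = 1 := by
  rw [integral_eq_lintegral_of_nonneg_ae (Filter.Eventually.of_forall (rhoS_nonneg hl h))
    (measurable_rhoS lam l).aestronglyMeasurable, lintegral_rhoS hl h]
  rfl

/-! ### the Cauchy law -/

theorem nu_integral (f : ℝ → ℝ) : ∫ t, f t ∂nu = ∫ t, π⁻¹ * (t ^ 2 + 1)⁻¹ * f t := by
  have h1 : nu = volume.withDensity (cauchyPDF 0 1) :=
    cauchyMeasure_of_scale_ne_zero 0 one_ne_zero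
  rw [h1, integral_withDensity_eq_integral_toReal_smul (measurable_cauchyPDF 0 1)
    (Filter.Eventually.of_forall fun x => ENNReal.ofReal_lt_top)]
  refine integral_congr_ae (Filter.Eventually.of_forall fun t => ?_)
  simp only [cauchyPDF, ENNReal.toReal_ofReal (cauchyPDF_pos 0 one_ne_zero t).le]
  rw [smul_eq_mul]
  congr 1
  simp only [cauchyPDFReal, NNReal.coe_one, mul_one, sub_zero, one_pow]

theorem nu_symm (f : ℝ → ℝ) : ∫ t, f (-t) ∂nu = ∫ t, f t ∂nu := by
  rw [nu_integral, nu_integral, ← integral_neg_eq_self]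
  refine integral_congr_ae (Filter.Eventually.of_forall fun t => ?_)
  simp

/-- `∫ A²t²/(1+A²t²) dnu ≤ A` -/
theorem nu_integral_le {A : ℝ} (hA : 0 ≤ A) :
    ∫ t, (A * t) ^ 2 / (1 + (A * t) ^ 2) ∂nu ≤ A := by
  rcases hA.eq_or_lt with rfl | hA
  · simp
  rw [nu_integral]
  have h1 : ∀ t : ℝ, π⁻¹ * (t ^ 2 + 1)⁻¹ * ((A * t) ^ 2 / (1 + (A * t) ^ 2)) ≤
      π⁻¹ * A ^ 2 * (1 + (A * t) ^ 2)⁻¹ := by
    intro t
    have h2 : (t ^ 2 + 1)⁻¹ * (A * t) ^ 2 ≤ A ^ 2 := by
      rw [inv_mul_le_iff₀ (by positivity)]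
      nlinarith [sq_nonneg A]
    have h3 : (0 : ℝ) ≤ π⁻¹ * (1 + (A * t) ^ 2)⁻¹ := by positivity
    calc π⁻¹ * (t ^ 2 + 1)⁻¹ * ((A * t) ^ 2 / (1 + (A * t) ^ 2)) =
          π⁻¹ * (1 + (A * t) ^ 2)⁻¹ * ((t ^ 2 + 1)⁻¹ * (A * t) ^ 2) := by ring
      _ ≤ π⁻¹ * (1 + (A * t) ^ 2)⁻¹ * A ^ 2 := mul_le_mul_of_nonneg_left h2 h3
      _ = _ := by ring
  have hint : Integrable fun t : ℝ => (1 + (A * t) ^ 2)⁻¹ :=
    integrable_inv_one_add_sq.comp_mul_left' hA.ne'
  have e1 : ∫ t : ℝ, π⁻¹ * A ^ 2 * (1 + (A * t) ^ 2)⁻¹ = A := by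
    rw [integral_const_mul, Measure.integral_comp_mul_left (fun x : ℝ => (1 + x ^ 2)⁻¹) A,
      integral_univ_inv_one_add_sq, smul_eq_mul, abs_of_pos (inv_pos.2 hA)]
    have := Real.pi_pos.ne'
    field_simp
  refine le_trans ?_ e1.le
  refine integral_mono_of_nonneg (Filter.Eventually.of_forall fun t => ?_)
    (hint.const_mul _) (Filter.Eventually.of_forall h1)
  simp only [Pi.zero_apply]
  positivity

/-! ### the noisy density -/

/-- density of `v + k t`, `v ~ nuS`, `t` standard Cauchy -/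
noncomputable def rhoN (lam l k v : ℝ) : ℝ := ∫ t, rhoS lam l (v - k * t) ∂nu

theorem measurable_rhoS2 (lam l k : ℝ) :
    Measurable fun p : ℝ × ℝ => rhoS lam l (p.1 - k * p.2) :=
  (measurable_rhoS lam l).comp (by fun_prop)

theorem measurable_rhoN (lam l k : ℝ) : Measurable (rhoN lam l k) :=
  ((measurable_rhoS2 lam l k).stronglyMeasurable.integral_prod_right).measurable

theorem integrable_rhoS_nu (hl : 0 < l) (h : l < lam) (k v : ℝ) :
    Integrable (fun t => rhoS lam l (v - k * t)) nu := by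
  refine Integrable.of_bound ((measurable_rhoS lam l).comp (by fun_prop)).aestronglyMeasurable
    ((2 * (lam - l))⁻¹) (Filter.Eventually.of_forall fun t => ?_)
  rw [Real.norm_eq_abs, abs_of_nonneg (rhoS_nonneg hl h _)]
  exact rhoS_le hl h _

theorem rhoN_nonneg (hl : 0 < l) (h : l < lam) (k v : ℝ) : 0 ≤ rhoN lam l k v :=
  integral_nonneg fun t => rhoS_nonneg hl h _

theorem rhoN_le (hl : 0 < l) (h : l < lam) (k v : ℝ) :
    rhoN lam l k v ≤ (2 * (lam - l))⁻¹ := by
  have h1 := integral_mono (integrable_rhoS_nu hl h k v) (integrable_const ((2 * (lam - l))⁻¹))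
    fun t => rhoS_le hl h (v - k * t)
  simpa [rhoN] using h1

theorem rhoN_zero (lam l v : ℝ) : rhoN lam l 0 v = rhoS lam l v := by simp [rhoN]

theorem rhoN_symm (hl : 0 < l) (h : l < lam) (k v : ℝ) :
    rhoN lam l k v = ∫ t, 1 / 2 * (rhoS lam l (v + k * t) + rhoS lam l (v - k * t)) ∂nu := by
  have h1 := nu_symm fun t => rhoS lam l (v - k * t)
  have e : ∀ t : ℝ, rhoS lam l (v - k * -t) = rhoS lam l (v + k * t) := fun t => by
    congr 1; ring
  simp only [e] at h1
  have hi : Integrable (fun t => rhoS lam l (v + k * t)) nu := by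
    have := integrable_rhoS_nu hl h (-k) v
    simpa [sub_eq_add_neg] using this
  rw [integral_const_mul, integral_add hi (integrable_rhoS_nu hl h k v), h1]
  unfold rhoN
  ring

theorem integrable_frac (A : ℝ) : Integrable (fun t : ℝ => (A * t) ^ 2 / (1 + (A * t) ^ 2)) nu := by
  refine Integrable.of_bound (by fun_prop : Measurable fun t : ℝ =>
    (A * t) ^ 2 / (1 + (A * t) ^ 2)).aestronglyMeasurable 1
    (Filter.Eventually.of_forall fun t => ?_)
  rw [Real.norm_eq_abs, abs_of_nonneg (by positivity), div_le_one (by positivity)]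
  linarith

/-- **lower bound of the noisy density** -/
theorem rhoN_ge (hl : 0 < l) (h : l < lam) {k : ℝ} (hk : 0 ≤ k) (v : ℝ) :
    (1 - 6 * k / l) * rhoS lam l v ≤ rhoN lam l k v := by
  have h0 := rhoS_nonneg hl h v
  rw [rhoN_symm hl h]
  have h1 : ∀ t : ℝ, rhoS lam l v - 3 / 2 * rhoS lam l v *
      ((4 * k / l * t) ^ 2 / (1 + (4 * k / l * t) ^ 2)) ≤
      1 / 2 * (rhoS lam l (v + k * t) + rhoS lam l (v - k * t)) := by
    intro t
    have h2 := rhoS_second_ge hl h v (k * t)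
    have p1 := rhoS_nonneg hl h (v + k * t)
    have p2 := rhoS_nonneg hl h (v - k * t)
    have e1 : 16 / l ^ 2 * (k * t) ^ 2 = (4 * k / l * t) ^ 2 := by ring
    rw [e1] at h2
    set x : ℝ := (4 * k / l * t) ^ 2 with hx
    have hx0 : 0 ≤ x := sq_nonneg _
    by_cases hx2 : x ≤ 2
    · have h3 : x ≤ 3 * (x / (1 + x)) := by
        rw [← mul_div_assoc, le_div_iff₀ (by positivity)]
        nlinarith
      nlinarith [mul_le_mul_of_nonneg_right h3 h0]
    · push Not at hx2
      have h3 : 2 ≤ 3 * (x / (1 + x)) := by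
        rw [← mul_div_assoc, le_div_iff₀ (by positivity)]
        nlinarith
      nlinarith [mul_le_mul_of_nonneg_right h3 h0]
  have h2 := integral_mono (μ := nu) ((integrable_const (rhoS lam l v)).sub
    ((integrable_frac (4 * k / l)).const_mul (3 / 2 * rhoS lam l v)))
    (f := fun t => rhoS lam l v - 3 / 2 * rhoS lam l v *
      ((4 * k / l * t) ^ 2 / (1 + (4 * k / l * t) ^ 2)))
    (g := fun t => 1 / 2 * (rhoS lam l (v + k * t) + rhoS lam l (v - k * t)))
    (by
      refine Integrable.const_mul (Integrable.add ?_ (integrable_rhoS_nu hl h k v)) _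
      have := integrable_rhoS_nu hl h (-k) v
      simpa [sub_eq_add_neg] using this) h1
  rw [integral_sub (integrable_const _) ((integrable_frac (4 * k / l)).const_mul _),
    integral_const_mul] at h2
  have h3 := nu_integral_le (A := 4 * k / l) (by positivity)
  have h4 := mul_le_mul_of_nonneg_left h3 (by positivity : 0 ≤ 3 / 2 * rhoS lam l v)
  have h5 : ∫ _t : ℝ, rhoS lam l v ∂nu = rhoS lam l v := by simp
  rw [h5] at h2
  have e2 : (1 - 6 * k / l) * rhoS lam l v =
      rhoS lam l v - 3 / 2 * rhoS lam l v * (4 * k / l) := by ring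
  rw [e2]
  linarith

/-- constant near the support -/
noncomputable def KD (lam l : ℝ) : ℝ := 15 / (8 * l) + 8 * (2 * (lam - l))⁻¹

theorem abs_rhoN_near (hl : 0 < l) (h : l < lam) {k : ℝ} (hk : 0 ≤ k) (v : ℝ) :
    |rhoN lam l k v - rhoS lam l v| ≤ 2 * KD lam l / l * k := by
  have hM : 0 < (2 * (lam - l))⁻¹ := inv_pos.2 (by linarith)
  have h1 : ∀ t : ℝ, |1 / 2 * (rhoS lam l (v + k * t) + rhoS lam l (v - k * t)) - rhoS lam l v| ≤
      1 / 2 * KD lam l * ((4 * k / l * t) ^ 2 / (1 + (4 * k / l * t) ^ 2)) := by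
    intro t
    have a1 := rhoS_second_ge hl h v (k * t)
    have a2 := rhoS_second_le hl h v (k * t)
    have p0 := rhoS_nonneg hl h v
    have p1 := rhoS_nonneg hl h (v + k * t)
    have p2 := rhoS_nonneg hl h (v - k * t)
    have q0 := rhoS_le hl h v
    have q1 := rhoS_le hl h (v + k * t)
    have q2 := rhoS_le hl h (v - k * t)
    have q3 : rhoS lam l v ≤ 15 / (16 * l) := by
      have h5 : ∫ c, rhoB c l v ∂(muc lam l) ≤ ∫ c, 15 / (16 * l) ∂(muc lam l) :=
        integral_mono (integrable_rhoB_c hl v) (integrable_const _) fun c => rhoB_le hl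
      rw [integral_const, smul_eq_mul, muc, measureReal_restrict_apply MeasurableSet.univ,
        Set.univ_inter, Real.volume_real_Icc_of_le (by linarith), ← muc] at h5
      have h6 := mul_le_mul_of_nonneg_left h5 hM.le
      have e : (2 * (lam - l))⁻¹ * ((lam - l - -(lam - l)) * (15 / (16 * l))) =
          15 / (16 * l) := by
        have : lam - l ≠ 0 := by linarith
        field_simp
        ring
      rw [e] at h6
      exact h6
    set x : ℝ := (4 * k / l * t) ^ 2 with hx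
    have e1 : 16 / l ^ 2 * (k * t) ^ 2 = x := by rw [hx]; ring
    have e2 : 15 / l ^ 3 * (k * t) ^ 2 = 15 / (16 * l) * x := by
      rw [hx]
      field_simp
      ring
    rw [e1] at a1
    rw [e2] at a2
    have hx0 : 0 ≤ x := sq_nonneg _
    have hl15 : (0 : ℝ) < 15 / (16 * l) := by positivity
    have e3 : 15 / (8 * l) = 2 * (15 / (16 * l)) := by
      field_simp
      norm_num
    have hfr : 0 ≤ x / (1 + x) := by positivity
    unfold KD
    rw [e3]
    by_cases hx1 : x ≤ 1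
    · have h3 : x ≤ 2 * (x / (1 + x)) := by
        rw [← mul_div_assoc, le_div_iff₀ (by positivity)]
        nlinarith
      have h4 := mul_le_mul_of_nonneg_left h3 hl15.le
      have h5 : x * rhoS lam l v ≤ x * (15 / (16 * l)) := mul_le_mul_of_nonneg_left q3 hx0
      have h6 : 0 ≤ 8 * (2 * (lam - l))⁻¹ * (x / (1 + x)) := by positivity
      rw [abs_le]
      constructor <;> nlinarith
    · push Not at hx1
      have h3 : 1 ≤ 2 * (x / (1 + x)) := by
        rw [← mul_div_assoc, le_div_iff₀ (by positivity)]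
        nlinarith
      have h4 := mul_le_mul_of_nonneg_left h3 hM.le
      have h6 : 0 ≤ 15 / (16 * l) * (x / (1 + x)) := by positivity
      rw [abs_le]
      constructor <;> nlinarith
  have hi2 : Integrable (fun t : ℝ => 1 / 2 * (rhoS lam l (v + k * t) + rhoS lam l (v - k * t)))
      nu := by
    refine Integrable.const_mul (Integrable.add ?_ (integrable_rhoS_nu hl h k v)) _
    have := integrable_rhoS_nu hl h (-k) v
    simpa [sub_eq_add_neg] using this
  have e1 : rhoN lam l k v - rhoS lam l v =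
      ∫ t, (1 / 2 * (rhoS lam l (v + k * t) + rhoS lam l (v - k * t)) - rhoS lam l v) ∂nu := by
    rw [integral_sub hi2 (integrable_const _), ← rhoN_symm hl h]
    simp
  rw [e1]
  have hKD : 0 ≤ KD lam l := by unfold KD; positivity
  calc |∫ t, (1 / 2 * (rhoS lam l (v + k * t) + rhoS lam l (v - k * t)) - rhoS lam l v) ∂nu|
      ≤ ∫ t, |1 / 2 * (rhoS lam l (v + k * t) + rhoS lam l (v - k * t)) - rhoS lam l v| ∂nu :=
        abs_integral_le_integral_abs
    _ ≤ ∫ t, 1 / 2 * KD lam l * ((4 * k / l * t) ^ 2 / (1 + (4 * k / l * t) ^ 2)) ∂nu :=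
        integral_mono (hi2.sub (integrable_const _)).abs
          ((integrable_frac (4 * k / l)).const_mul _) h1
    _ = 1 / 2 * KD lam l * ∫ t, (4 * k / l * t) ^ 2 / (1 + (4 * k / l * t) ^ 2) ∂nu :=
        integral_const_mul _ _
    _ ≤ 1 / 2 * KD lam l * (4 * k / l) :=
        mul_le_mul_of_nonneg_left (nu_integral_le (by positivity)) (by positivity)
    _ = 2 * KD lam l / l * k := by ring

theorem rhoN_far (hl : 0 < l) (h : l < lam) {k : ℝ} (hk : 0 ≤ k) {v : ℝ} (hv : 2 * lam ≤ |v|) :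
    rhoN lam l k v ≤ 2 * k / v ^ 2 := by
  have hlam : 0 < lam := hl.trans h
  have hv0 : 0 < |v| := by linarith
  have hv2 : 0 < v ^ 2 := by rw [← sq_abs]; positivity
  rcases hk.eq_or_lt with rfl | hk
  · rw [rhoN_zero, rhoS_out hl]
    · positivity
    · intro hc
      have : |v| ≤ lam := abs_le.2 hc
      linarith
  rw [rhoN, nu_integral]
  have h1 : ∀ t : ℝ, π⁻¹ * (t ^ 2 + 1)⁻¹ * rhoS lam l (v - k * t) ≤
      π⁻¹ * (4 * k ^ 2 / v ^ 2) * rhoS lam l (v - k * t) := by
    intro t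
    by_cases hz : rhoS lam l (v - k * t) = 0
    · rw [hz]; simp
    have hin : v - k * t ∈ Set.Icc (-lam) lam := by
      by_contra hc
      exact hz (rhoS_out hl hc)
    have h2 : |v - k * t| ≤ lam := abs_le.2 hin
    have h3 : |v| ≤ |v - k * t| + |k * t| := by
      calc |v| = |(v - k * t) + k * t| := by rw [sub_add_cancel]
        _ ≤ _ := abs_add_le _ _
    have h4 : |v| / 2 ≤ |k * t| := by linarith
    have h5 : v ^ 2 / 4 ≤ (k * t) ^ 2 := by
      rw [← sq_abs v, ← sq_abs (k * t)]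
      have := pow_le_pow_left₀ (by positivity) h4 2
      linarith [this, (by ring : (|v| / 2) ^ 2 = |v| ^ 2 / 4)]
    refine mul_le_mul_of_nonneg_right ?_ (rhoS_nonneg hl h _)
    refine mul_le_mul_of_nonneg_left ?_ (by positivity)
    rw [inv_eq_one_div, div_le_div_iff₀ (by positivity) hv2]
    nlinarith [sq_nonneg k]
  have hint : Integrable fun t : ℝ => rhoS lam l (v - k * t) := by
    have h2 : Integrable fun t : ℝ => rhoS lam l (v - t) := (integrable_rhoS hl h).comp_sub_left v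
    exact h2.comp_mul_left' hk.ne'
  have e1 : ∫ t : ℝ, rhoS lam l (v - k * t) = k⁻¹ := by
    rw [Measure.integral_comp_mul_left (fun x : ℝ => rhoS lam l (v - x)) k,
      integral_sub_left_eq_self (fun x => rhoS lam l x) volume v, integral_rhoS hl h, smul_eq_mul,
      mul_one, abs_of_pos (inv_pos.2 hk)]
  calc ∫ t, π⁻¹ * (t ^ 2 + 1)⁻¹ * rhoS lam l (v - k * t)
      ≤ ∫ t, π⁻¹ * (4 * k ^ 2 / v ^ 2) * rhoS lam l (v - k * t) := by
        refine integral_mono_of_nonneg (Filter.Eventually.of_forall fun t => ?_)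
          (hint.const_mul _) (Filter.Eventually.of_forall h1)
        exact mul_nonneg (by positivity) (rhoS_nonneg hl h _)
    _ = π⁻¹ * (4 * k ^ 2 / v ^ 2) * k⁻¹ := by rw [integral_const_mul, e1]
    _ = π⁻¹ * 4 * (k / v ^ 2) := by field_simp
    _ ≤ 2 * (k / v ^ 2) := by
        refine mul_le_mul_of_nonneg_right ?_ (by positivity)
        rw [inv_mul_le_iff₀ Real.pi_pos]
        linarith [Real.pi_gt_three]
    _ = 2 * k / v ^ 2 := by ring

/-- constant of the noisy density -/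
noncomputable def KN (lam l : ℝ) : ℝ :=
  (1 + 4 * lam ^ 2) * (2 * KD lam l / l) + 2 * (1 + 1 / (4 * lam ^ 2))

theorem KN_nonneg (hl : 0 < l) (h : l < lam) : 0 ≤ KN lam l := by
  have hM : 0 < (2 * (lam - l))⁻¹ := inv_pos.2 (by linarith)
  have : 0 ≤ KD lam l := by unfold KD; positivity
  unfold KN
  positivity

/-- **the noisy density is close to the smooth density** -/
theorem abs_rhoN_sub_le (hl : 0 < l) (h : l < lam) {k : ℝ} (hk : 0 ≤ k) (v : ℝ) :
    |rhoN lam l k v - rhoS lam l v| ≤ KN lam l * k / (1 + v ^ 2) := by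
  have hlam : 0 < lam := hl.trans h
  have hM : 0 < (2 * (lam - l))⁻¹ := inv_pos.2 (by linarith)
  have hKD : 0 ≤ 2 * KD lam l / l := by
    have : 0 ≤ KD lam l := by unfold KD; positivity
    positivity
  rw [le_div_iff₀ (by positivity)]
  by_cases hv : 2 * lam ≤ |v|
  · have h1 := rhoN_far hl h hk hv
    have h0 := rhoN_nonneg hl h k v
    have e : rhoS lam l v = 0 := rhoS_out hl fun hc => by
      have : |v| ≤ lam := abs_le.2 hc
      linarith
    have hv0 : 0 < |v| := by linarith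
    have hv2 : 0 < v ^ 2 := by rw [← sq_abs]; positivity
    have hv4 : 4 * lam ^ 2 ≤ v ^ 2 := by
      rw [← sq_abs v]
      nlinarith
    rw [e, sub_zero, abs_of_nonneg h0]
    have h2 : (1 + v ^ 2) / v ^ 2 ≤ 1 + 1 / (4 * lam ^ 2) := by
      rw [div_le_iff₀ hv2]
      have h3 : 1 ≤ 1 / (4 * lam ^ 2) * v ^ 2 := by
        rw [one_div, ← div_eq_inv_mul, le_div_iff₀ (by positivity)]
        linarith
      nlinarith
    calc rhoN lam l k v * (1 + v ^ 2) ≤ 2 * k / v ^ 2 * (1 + v ^ 2) :=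
          mul_le_mul_of_nonneg_right h1 (by positivity)
      _ = 2 * k * ((1 + v ^ 2) / v ^ 2) := by ring
      _ ≤ 2 * k * (1 + 1 / (4 * lam ^ 2)) := mul_le_mul_of_nonneg_left h2 (by positivity)
      _ ≤ KN lam l * k := by
          unfold KN
          have : 0 ≤ (1 + 4 * lam ^ 2) * (2 * KD lam l / l) * k := by positivity
          nlinarith
  · push Not at hv
    have h1 := abs_rhoN_near hl h hk v
    have hv4 : v ^ 2 ≤ 4 * lam ^ 2 := by
      rw [← sq_abs v]
      nlinarith [abs_nonneg v]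
    calc |rhoN lam l k v - rhoS lam l v| * (1 + v ^ 2) ≤
          (2 * KD lam l / l * k) * (1 + 4 * lam ^ 2) :=
          mul_le_mul h1 (by linarith) (by positivity) (by positivity)
      _ ≤ KN lam l * k := by
          unfold KN
          have : 0 ≤ 2 * (1 + 1 / (4 * lam ^ 2)) * k := by positivity
          nlinarith

/-! ### the noisy law -/

/-- the law of `v + k t` -/
noncomputable def noisy (lam l k : ℝ) : Measure ℝ :=
  ((nuS lam l).prod nu).map fun p : ℝ × ℝ => p.1 + k * p.2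

theorem noisy_eq (hl : 0 < l) (h : l < lam) (k : ℝ) :
    noisy lam l k = volume.withDensity fun v => ENNReal.ofReal (rhoN lam l k v) := by
  haveI := isProbabilityMeasure_nuS hl h
  have hm : Measurable fun p : ℝ × ℝ => p.1 + k * p.2 := by fun_prop
  have hr : Measurable fun v => ENNReal.ofReal (rhoS lam l v) :=
    (measurable_rhoS lam l).ennreal_ofReal
  ext S hS
  rw [noisy, Measure.map_apply hm hS, Measure.prod_apply_symm (hm hS), withDensity_apply _ hS]
  have e1 : ∀ t : ℝ, nuS lam l ((fun v : ℝ => (v, t)) ⁻¹' ((fun p : ℝ × ℝ => p.1 + k * p.2) ⁻¹' S)) =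
      ∫⁻ v in S, ENNReal.ofReal (rhoS lam l (v - k * t)) := by
    intro t
    have hS' : MeasurableSet ((fun v : ℝ => v + k * t) ⁻¹' S) := by
      exact (measurable_id.add_const (k * t)) hS
    have e0 : (fun v : ℝ => (v, t)) ⁻¹' ((fun p : ℝ × ℝ => p.1 + k * p.2) ⁻¹' S) =
        (fun v : ℝ => v + k * t) ⁻¹' S := rfl
    rw [e0, nuS_eq hl, withDensity_apply _ hS', ← lintegral_indicator hS',
      ← lintegral_indicator hS,
      ← lintegral_sub_right_eq_self (μ := volume) (fun v => (((fun v : ℝ => v + k * t) ⁻¹' S).indicator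
        (fun v => ENNReal.ofReal (rhoS lam l v))) v) (k * t)]
    refine lintegral_congr fun v => ?_
    by_cases hv : v ∈ S
    · rw [Set.indicator_of_mem hv, Set.indicator_of_mem]
      simpa using hv
    · rw [Set.indicator_of_notMem hv, Set.indicator_of_notMem]
      simpa using hv
  simp only [e1]
  have hr2 : Measurable fun p : ℝ × ℝ => ENNReal.ofReal (rhoS lam l (p.2 - k * p.1)) :=
    hr.comp (by fun_prop)
  rw [lintegral_lintegral_swap hr2.aemeasurable]
  refine lintegral_congr fun v => ?_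
  rw [rhoN, ofReal_integral_eq_lintegral_ofReal (integrable_rhoS_nu hl h k v)
    (Filter.Eventually.of_forall fun t => rhoS_nonneg hl h _)]

theorem isProbabilityMeasure_noisy (hl : 0 < l) (h : l < lam) (k : ℝ) :
    IsProbabilityMeasure (noisy lam l k) := by
  haveI := isProbabilityMeasure_nuS hl h
  exact Measure.isProbabilityMeasure_map (by fun_prop : Measurable fun p : ℝ × ℝ =>
    p.1 + k * p.2).aemeasurable

/-- density of the kick law -/
noncomputable def xiD (lam l k v : ℝ) : ℝ :=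
  rhoS lam l v + (rhoN lam l k v - rhoS lam l v) / (6 * k / l)

/-- the kick law -/
noncomputable def xiN (lam l k : ℝ) : Measure ℝ :=
  volume.withDensity fun v => ENNReal.ofReal (xiD lam l k v)

/-- constant of the kick density -/
noncomputable def KX (lam l : ℝ) : ℝ := (2 * (lam - l))⁻¹ * (1 + lam ^ 2) + KN lam l * l / 6

theorem measurable_xiD (lam l k : ℝ) : Measurable (xiD lam l k) := by
  unfold xiD
  exact (measurable_rhoS lam l).add
    (((measurable_rhoN lam l k).sub (measurable_rhoS lam l)).div_const _)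

theorem xiD_nonneg (hl : 0 < l) (h : l < lam) {k : ℝ} (hk : 0 ≤ k) (v : ℝ) :
    0 ≤ xiD lam l k v := by
  rcases hk.eq_or_lt with rfl | hk
  · simp [xiD, rhoS_nonneg hl h v]
  have h1 := rhoN_ge hl h hk.le v
  have hq : 0 < 6 * k / l := by positivity
  unfold xiD
  have h2 : -rhoS lam l v ≤ (rhoN lam l k v - rhoS lam l v) / (6 * k / l) := by
    rw [le_div_iff₀ hq]
    linarith
  linarith

theorem rhoS_le_tail (hl : 0 < l) (h : l < lam) (v : ℝ) :
    rhoS lam l v ≤ (2 * (lam - l))⁻¹ * (1 + lam ^ 2) / (1 + v ^ 2) := by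
  have hM : 0 < (2 * (lam - l))⁻¹ := inv_pos.2 (by linarith)
  rw [le_div_iff₀ (by positivity)]
  by_cases hv : v ∈ Set.Icc (-lam) lam
  · have h1 := rhoS_le hl h v
    have h2 : v ^ 2 ≤ lam ^ 2 := sq_le_sq' hv.1 hv.2
    exact mul_le_mul h1 (by linarith) (by positivity) hM.le
  · rw [rhoS_out hl hv, zero_mul]
    positivity

theorem xiD_le (hl : 0 < l) (h : l < lam) {k : ℝ} (hk : 0 ≤ k) (v : ℝ) :
    xiD lam l k v ≤ KX lam l / (1 + v ^ 2) := by
  have h1 := rhoS_le_tail hl h v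
  have hKN := KN_nonneg hl h
  have h2 : (rhoN lam l k v - rhoS lam l v) / (6 * k / l) ≤ (KN lam l * l / 6) / (1 + v ^ 2) := by
    rcases hk.eq_or_lt with rfl | hk
    · simp
      positivity
    rw [div_le_iff₀ (by positivity)]
    refine (le_abs_self _).trans ((abs_rhoN_sub_le hl h hk.le v).trans (le_of_eq ?_))
    field_simp
  unfold xiD KX
  rw [add_div]
  linarith

/-- **the noisy law is a mixture of the smooth law and a small kick law** -/
theorem noisy_decomp (hl : 0 < l) (h : l < lam) {k : ℝ} (hk : 0 ≤ k) (hkl : 6 * k ≤ l) :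
    noisy lam l k = ENNReal.ofReal (1 - 6 * k / l) • nuS lam l +
      ENNReal.ofReal (6 * k / l) • xiN lam l k := by
  have hq1 : 6 * k / l ≤ 1 := by rw [div_le_one hl]; exact hkl
  have hq0 : 0 ≤ 6 * k / l := by positivity
  have hm1 : Measurable fun v => ENNReal.ofReal (rhoS lam l v) :=
    (measurable_rhoS lam l).ennreal_ofReal
  have hm2 : Measurable fun v => ENNReal.ofReal (xiD lam l k v) :=
    (measurable_xiD lam l k).ennreal_ofReal
  rw [noisy_eq hl h, nuS_eq hl, xiN, ← withDensity_smul _ hm1, ← withDensity_smul _ hm2,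
    ← withDensity_add_left (hm1.const_smul _)]
  congr 1
  funext v
  simp only [Pi.add_apply, Pi.smul_apply, smul_eq_mul]
  rw [← ENNReal.ofReal_mul (by linarith), ← ENNReal.ofReal_mul hq0,
    ← ENNReal.ofReal_add (mul_nonneg (by linarith) (rhoS_nonneg hl h v))
      (mul_nonneg hq0 (xiD_nonneg hl h hk v))]
  congr 1
  unfold xiD
  rcases hk.eq_or_lt with rfl | hk
  · rw [rhoN_zero]; ring
  have : 6 * k / l ≠ 0 := by positivity
  rw [mul_add, mul_div_cancel₀ _ this]
  ring

theorem isProbabilityMeasure_xiN (hl : 0 < l) (h : l < lam) {k : ℝ} (hk : 0 ≤ k)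
    (hkl : 6 * k ≤ l) : IsProbabilityMeasure (xiN lam l k) := by
  haveI := isProbabilityMeasure_nuS hl h
  rcases hk.eq_or_lt with rfl | hk
  · have e : xiN lam l 0 = nuS lam l := by
      rw [nuS_eq hl, xiN]
      congr 1
      funext v
      simp [xiD]
    rw [e]
    infer_instance
  haveI := isProbabilityMeasure_noisy hl h k
  have h1 := congrArg (fun μ : Measure ℝ => μ Set.univ) (noisy_decomp hl h hk.le hkl)
  simp only [measure_univ, Measure.add_apply, Measure.smul_apply, smul_eq_mul, mul_one] at h1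
  have hq1 : 6 * k / l ≤ 1 := by rw [div_le_one hl]; exact hkl
  have hq0 : 0 < 6 * k / l := by positivity
  have h2 : (1 : ℝ≥0∞) = ENNReal.ofReal (1 - 6 * k / l) + ENNReal.ofReal (6 * k / l) := by
    rw [← ENNReal.ofReal_add (by linarith) hq0.le]
    simp
  have h3 : ENNReal.ofReal (6 * k / l) * xiN lam l k Set.univ = ENNReal.ofReal (6 * k / l) := by
    have h4 : ENNReal.ofReal (1 - 6 * k / l) + ENNReal.ofReal (6 * k / l) * xiN lam l k Set.univ =
        ENNReal.ofReal (1 - 6 * k / l) + ENNReal.ofReal (6 * k / l) := h1.symm.trans h2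
    exact (ENNReal.add_right_inj ENNReal.ofReal_ne_top).1 h4
  have h5 : ENNReal.ofReal (6 * k / l) ≠ 0 := by
    rw [Ne, ENNReal.ofReal_eq_zero, not_le]
    exact hq0
  have h6 : ENNReal.ofReal (6 * k / l) * xiN lam l k Set.univ = ENNReal.ofReal (6 * k / l) * 1 := by
    rw [h3, mul_one]
  exact ⟨(ENNReal.mul_right_inj h5 ENNReal.ofReal_ne_top).1 h6⟩

/-- `(1 - q) nuS ≤ noisy` as measures -/
theorem nuS_le_noisy (hl : 0 < l) (h : l < lam) {k : ℝ} (hk : 0 ≤ k) (hkl : 6 * k ≤ l) :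
    ENNReal.ofReal (1 - 6 * k / l) • nuS lam l ≤ noisy lam l k := by
  rw [noisy_decomp hl h hk hkl]
  exact Measure.le_add_right le_rfl

/-- the noisy law has bounded density -/
theorem noisy_le (hl : 0 < l) (h : l < lam) (k : ℝ) :
    noisy lam l k ≤ ENNReal.ofReal ((2 * (lam - l))⁻¹) • (volume : Measure ℝ) := by
  rw [noisy_eq hl h, ← withDensity_const]
  exact withDensity_mono (Filter.Eventually.of_forall fun v =>
    ENNReal.ofReal_le_ofReal (rhoN_le hl h k v))

end P365T2.N37
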