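import Vale.Agent.P365.Open.OneSite
import Vale.Agent.P365.L1.Alg2

/-!
# P365-T2, exact noise world: one-site structure of the energy `En`, quadratic variation and
exponential supermartingale.

`θ = tz h g t`, `g = G_zz`, `V = kickW z h W t`.  With `B = m_z μ_z`, `D = m_z Q_z`:
* `En V f = En W f + 2 Re (i θ X) - 2 |θ|² B²`, `|X| ≤ D` (pointwise, `En_kick_eq`, `norm_Xq_le`);
* `|θ| (m_z - e_z K_zz) ≤ 1` (`norm_tz_mul_le`);
* `E (En V f - En W f)² ≤ κ (96 B_f² + 16 B_{f²}²)` for `|f| ≤ 1` (`qv_le`);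
* `E exp ((4 En V f + En V f²)/576) ≤ exp ((4 En W f + En W f²)/576)` for `|f| ≤ 1` (`exp_kick_le`),
  and the same when the absorptions of all sites are lowered (`exp_lower_all`).
-/

set_option linter.all false

namespace P365T2

open MeasureTheory ProbabilityTheory Complex P365L P365L.Poi P365F P365O
open scoped ENNReal NNReal Real ComplexConjugate

/-! ### one variable -/

theorem norm_sub_mul_le {a b : ℂ} {s : ℝ} (hs : 0 ≤ s) (ha : s ≤ a.im) (hb : s ≤ b.im) :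
    ‖a - b‖ * s ≤ ‖a‖ * ‖b‖ := by
  have h : ∀ z : ℂ, ‖z‖ ^ 2 = z.re * z.re + z.im * z.im := by
    intro z
    rw [← Complex.normSq_eq_norm_sq, Complex.normSq_apply]
  refine le_of_sq_le_sq ?_ (by positivity)
  rw [mul_pow, mul_pow, h, h, h]
  simp only [Complex.sub_re, Complex.sub_im]
  obtain ⟨p, hp⟩ : ∃ p, a.im = s + p := ⟨a.im - s, by ring⟩
  obtain ⟨q, hq⟩ : ∃ q, b.im = s + q := ⟨b.im - s, by ring⟩
  have hp0 : 0 ≤ p := by linarith
  have hq0 : 0 ≤ q := by linarith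
  rw [hp, hq]
  have h1 : 0 ≤ (a.re * b.re + s ^ 2) ^ 2 := sq_nonneg _
  have h2 : 0 ≤ (a.re * q) ^ 2 := sq_nonneg _
  have h3 : 0 ≤ (b.re * p) ^ 2 := sq_nonneg _
  have h4 : 0 ≤ (a.re ^ 2 + s ^ 2) * (2 * s * q) := by positivity
  have h5 : 0 ≤ (b.re ^ 2 + s ^ 2) * (2 * s * p) := by positivity
  have h6 : 0 ≤ (2 * s * p + p ^ 2) * (2 * s * q + q ^ 2) := by positivity
  have h7 : 0 ≤ 2 * s ^ 2 * p * q := by positivity
  nlinarith only [h1, h2, h3, h4, h5, h6, h7]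

/-- pointwise bound of the multiplier -/
theorem norm_tz_mul_le {h e : ℝ} (hh : 0 < h) (he : h ≤ e) {g : ℂ} (hg : e * ‖g‖ ^ 2 ≤ g.im)
    (hg' : h * ‖g‖ ^ 2 < g.im) (t : ℝ) : ‖tz h g t‖ * (g.im - e * ‖g‖ ^ 2) ≤ 1 := by
  have hg0 := cau_ne_zero hh hg'
  have hgn : 0 < ‖g‖ := norm_pos_iff.2 hg0
  set a : ℂ := -g⁻¹ with ha
  set δ : ℂ := h * ((t : ℂ) + I) with hδ
  have haim : a.im = g.im / ‖g‖ ^ 2 := by
    rw [ha, Complex.neg_im, Complex.inv_im, ← Complex.sq_norm]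
    ring
  have hδim : δ.im = h := by rw [hδ]; simp
  have hs : 0 ≤ a.im - e := by
    rw [haim]
    have := (le_div_iff₀ (pow_pos hgn 2)).2 hg
    linarith
  have h1 := norm_sub_mul_le (a := a) (b := a - δ) hs (by linarith) (by
    rw [Complex.sub_im, hδim]; linarith)
  rw [sub_sub_cancel] at h1
  have h2 : 1 + δ * g = g * (δ - a) := by
    rw [ha]
    field_simp
    ring
  have h3 : tz h g t = δ / (g * (δ - a)) := by
    rw [tz, ← hδ, h2]
  have h5 : δ - a ≠ 0 := by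
    intro h6
    have h7 := den_ne_zero hh hg' t
    apply h7
    rw [← hδ, h2, h6, mul_zero]
  have h6 : 0 < ‖δ - a‖ := norm_pos_iff.2 h5
  have h7 : ‖a‖ = ‖g‖⁻¹ := by rw [ha, norm_neg, norm_inv]
  have h8 : ‖a - δ‖ = ‖δ - a‖ := norm_sub_rev _ _
  rw [h7, h8, haim] at h1
  rw [h3, norm_div, norm_mul g (δ - a)]
  have h9 : ‖δ‖ * (g.im / ‖g‖ ^ 2 - e) * ‖g‖ ≤ ‖δ - a‖ := by
    have := mul_le_mul_of_nonneg_right h1 hgn.le
    have h10 : ‖g‖⁻¹ * ‖δ - a‖ * ‖g‖ = ‖δ - a‖ := by field_simp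
    rwa [h10] at this
  have h11 : ‖δ‖ / (‖g‖ * ‖δ - a‖) * (g.im - e * ‖g‖ ^ 2) =
      (‖δ‖ * (g.im / ‖g‖ ^ 2 - e) * ‖g‖) / ‖δ - a‖ := by
    field_simp
  rw [h11]
  exact (div_le_one h6).2 h9

/-- the multiplier lives on a circle -/
theorem tz_circle {h : ℝ} (hh : 0 < h) {g : ℂ} (hg : h * ‖g‖ ^ 2 < g.im) (t : ℝ) :
    ‖tz h g t‖ ^ 2 * (g.im - h * ‖g‖ ^ 2) =
      h + (I * (1 + 2 * I * (h : ℂ) * g) * tz h g t).re := by
  set θ := tz h g t with hθ
  have hd := den_ne_zero hh hg t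
  have h1 : θ * (1 + h * ((t : ℂ) + I) * g) = h * ((t : ℂ) + I) := by
    rw [hθ, tz, div_mul_cancel₀ _ hd]
  have h2 : (h : ℂ) * ((t : ℂ) + I) * (1 - θ * g) = θ := by
    linear_combination -h1
  have hn : ∀ z : ℂ, ‖z‖ ^ 2 = z.re * z.re + z.im * z.im := by
    intro z
    rw [← Complex.normSq_eq_norm_sq, Complex.normSq_apply]
  -- imaginary and real parts
  have h3 : ((h : ℂ) * ((t : ℂ) + I) * (1 - θ * g) * conj (1 - θ * g)).im =
      (θ * conj (1 - θ * g)).im := by rw [h2]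
  have h4 : ((h : ℂ) * ((t : ℂ) + I) * (1 - θ * g) * conj (1 - θ * g)).im =
      h * ‖1 - θ * g‖ ^ 2 := by
    have : (h : ℂ) * ((t : ℂ) + I) * (1 - θ * g) * conj (1 - θ * g) =
        ((h * ‖1 - θ * g‖ ^ 2 : ℝ) : ℂ) * ((t : ℂ) + I) := by
      have h5 : (1 - θ * g) * conj (1 - θ * g) = ((‖1 - θ * g‖ ^ 2 : ℝ) : ℂ) := by
        rw [Complex.mul_conj, Complex.normSq_eq_norm_sq]
      push_cast at h5 ⊢
      linear_combination (h : ℂ) * ((t : ℂ) + I) * h5
    rw [this, Complex.im_ofReal_mul]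
    simp
  rw [h4] at h3
  rw [hn] at h3 ⊢
  rw [hn]
  simp only [Complex.sub_re, Complex.sub_im, Complex.mul_re, Complex.mul_im, Complex.one_re,
    Complex.one_im, Complex.conj_re, Complex.conj_im, Complex.add_re, Complex.add_im, Complex.I_re,
    Complex.I_im, Complex.ofReal_re, Complex.ofReal_im, Complex.re_ofNat, Complex.im_ofNat] at h3 ⊢
  nlinarith only [h3]


/-! ### the quantities `B`, `D`, `X` -/

variable {ι : Type*} [Fintype ι] [DecidableEq ι] {A : Matrix ι ι ℝ} {W : ι → ℂ}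

/-- `B = m_z μ_z = ∑ e_a K_za (f_a - f_z)` -/
noncomputable def Bq (A : Matrix ι ι ℝ) (W : ι → ℂ) (f : ι → ℝ) (z : ι) : ℝ :=
  ∑ y, (-(W y).im) * KK A W z y * (f y - f z)

/-- `D = m_z Q_z = ∑ e_a K_za (f_a - f_z)²` -/
noncomputable def Dq (A : Matrix ι ι ℝ) (W : ι → ℂ) (f : ι → ℝ) (z : ι) : ℝ :=
  ∑ y, (-(W y).im) * KK A W z y * (f y - f z) ^ 2

/-- off-diagonal mass `M = m_z - e_z K_zz` -/
noncomputable def Mq (A : Matrix ι ι ℝ) (W : ι → ℂ) (z : ι) : ℝ :=
  mm A W z - (-(W z).im) * KK A W z z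

/-- `w_a = (f_a - f_z) G_az` -/
noncomputable def wq (A : Matrix ι ι ℝ) (W : ι → ℂ) (f : ι → ℝ) (z a : ι) : ℂ :=
  ((f a - f z : ℝ) : ℂ) * Gr A W a z

/-- `y_a = ∑_b conj(G_ab) e_b w_b` -/
noncomputable def yq (A : Matrix ι ι ℝ) (W : ι → ℂ) (f : ι → ℝ) (z a : ι) : ℂ :=
  ∑ b, conj (Gr A W a b) * (((-(W b).im : ℝ) : ℂ) * wq A W f z b)

/-- the coefficient `X` -/
noncomputable def Xq (A : Matrix ι ι ℝ) (W : ι → ℂ) (f : ι → ℝ) (z : ι) : ℂ :=
  ∑ a, ((-(W a).im : ℝ) : ℂ) * (wq A W f z a * (wq A W f z a - 2 * I * yq A W f z a))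

theorem Bq_eq (hA : A.IsSymm) (hW : ∀ x, (W x).im < 0) (f : ι → ℝ) (z : ι) :
    Bq A W f z = mm A W z * muf A W f z := (mm_mul_muf hA hW z).symm

theorem Dq_nonneg (hW : ∀ x, (W x).im < 0) (f : ι → ℝ) (z : ι) : 0 ≤ Dq A W f z :=
  Finset.sum_nonneg fun a _ => mul_nonneg (mul_nonneg (by linarith [hW a]) (KK_nonneg _ _))
    (sq_nonneg _)

theorem Mq_eq (hA : A.IsSymm) (hW : ∀ x, (W x).im < 0) (z : ι) :
    Mq A W z = ∑ y ∈ Finset.univ.erase z, (-(W y).im) * KK A W z y := by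
  rw [Mq, mm_eq hA hW, ← Finset.add_sum_erase Finset.univ _ (Finset.mem_univ z)]
  ring

theorem Mq_nonneg (hA : A.IsSymm) (hW : ∀ x, (W x).im < 0) (z : ι) : 0 ≤ Mq A W z := by
  rw [Mq_eq hA hW]
  exact Finset.sum_nonneg fun a _ => mul_nonneg (by linarith [hW a]) (KK_nonneg _ _)

theorem abs_Bq_le (hA : A.IsSymm) (hW : ∀ x, (W x).im < 0) {f : ι → ℝ} {z : ι} {L : ℝ}
    (hL : ∀ y, |f y - f z| ≤ L) : |Bq A W f z| ≤ L * Mq A W z := by
  have h1 : Bq A W f z = ∑ y ∈ Finset.univ.erase z, (-(W y).im) * KK A W z y * (f y - f z) := by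
    rw [Bq, ← Finset.add_sum_erase Finset.univ _ (Finset.mem_univ z), sub_self, mul_zero, zero_add]
  rw [h1, Mq_eq hA hW, Finset.mul_sum]
  refine (Finset.abs_sum_le_sum_abs _ _).trans (Finset.sum_le_sum fun y _ => ?_)
  rw [abs_mul, abs_of_nonneg (mul_nonneg (by linarith [hW y]) (KK_nonneg _ _)), mul_comm]
  exact mul_le_mul_of_nonneg_right (hL y) (mul_nonneg (by linarith [hW y]) (KK_nonneg _ _))

/-- `D_f = B_{f²} - 2 f_z B_f` -/
theorem Dq_eq (f : ι → ℝ) (z : ι) :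
    Dq A W f z = Bq A W (fun x => f x ^ 2) z - 2 * f z * Bq A W f z := by
  rw [Dq, Bq, Bq, Finset.mul_sum, ← Finset.sum_sub_distrib]
  exact Finset.sum_congr rfl fun y _ => by ring

/-- isometry: `∑ e_a |w_a - 2 i y_a|² = ∑ e_a |w_a|²` -/
theorem isometry (hA : A.IsSymm) (hW : ∀ x, (W x).im < 0) (w : ι → ℂ) :
    ∑ a, (-(W a).im) * ‖w a - 2 * I * ∑ b, conj (Gr A W a b) * (((-(W b).im : ℝ) : ℂ) * w b)‖ ^ 2 =
      ∑ a, (-(W a).im) * ‖w a‖ ^ 2 := by
  set y : ι → ℂ := fun a => ∑ b, conj (Gr A W a b) * (((-(W b).im : ℝ) : ℂ) * w b) with hy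
  set u : ι → ℂ := fun b => ((-(W b).im : ℝ) : ℂ) * w b with hu
  -- `y = Gᴴ u`
  have hyG : y = (Gr A W).conjTranspose.mulVec u := by
    funext a
    rw [hy, Matrix.mulVec, dotProduct]
    exact Finset.sum_congr rfl fun b _ => by rw [GrH_apply hA]
  -- Ward
  have h1 : star u ⬝ᵥ ((Gr A W - (Gr A W).conjTranspose).mulVec u) =
      2 * I * ∑ a, ((-(W a).im : ℝ) : ℂ) * (conj (y a) * y a) := by
    rw [Ward' hA hW, Matrix.smul_mulVec, dotProduct_smul, smul_eq_mul]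
    congr 1
    rw [Matrix.mul_assoc, ← Matrix.mulVec_mulVec, ← Matrix.mulVec_mulVec, ← hyG,
      Matrix.dotProduct_mulVec]
    have h2 : Matrix.vecMul (star u) (Gr A W) = star y := by
      rw [hyG, Matrix.star_mulVec, Matrix.conjTranspose_conjTranspose]
    rw [h2, Ed, dotProduct]
    refine Finset.sum_congr rfl fun a _ => ?_
    rw [Matrix.mulVec_diagonal, Pi.star_apply]
    simp only [RCLike.star_def]
    ring
  have h2 : star u ⬝ᵥ ((Gr A W - (Gr A W).conjTranspose).mulVec u) =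
      conj (∑ a, conj (u a) * y a) - ∑ a, conj (u a) * y a := by
    rw [Matrix.sub_mulVec, dotProduct_sub, ← hyG]
    congr 1
    rw [Matrix.dotProduct_mulVec]
    have h3 : Matrix.vecMul (star u) (Gr A W) = star y := by
      rw [hyG, Matrix.star_mulVec, Matrix.conjTranspose_conjTranspose]
    rw [h3, dotProduct, map_sum]
    refine Finset.sum_congr rfl fun a _ => ?_
    simp only [map_mul, Complex.conj_conj, Pi.star_apply, RCLike.star_def]
    ring
  have h3 : (∑ a, conj (u a) * y a).im = -∑ a, (-(W a).im) * ‖y a‖ ^ 2 := by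
    have h4 := h2.symm.trans h1
    have h5 : conj (∑ a, conj (u a) * y a) - ∑ a, conj (u a) * y a =
        -(2 * I * (((∑ a, conj (u a) * y a).im : ℝ) : ℂ)) := by
      generalize (∑ a, conj (u a) * y a) = s
      apply Complex.ext
      · simp
      · simp
        ring
    rw [h5] at h4
    have h6 : ∑ a, ((-(W a).im : ℝ) : ℂ) * (conj (y a) * y a) =
        ((∑ a, (-(W a).im) * ‖y a‖ ^ 2 : ℝ) : ℂ) := by
      push_cast
      refine Finset.sum_congr rfl fun a _ => ?_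
      rw [← Complex.normSq_eq_conj_mul_self, Complex.normSq_eq_norm_sq]
      push_cast
      ring
    rw [h6] at h4
    have h7 : (2 * I : ℂ) ≠ 0 := by simp
    have h8 : (((∑ a, conj (u a) * y a).im : ℝ) : ℂ) =
        -((∑ a, (-(W a).im) * ‖y a‖ ^ 2 : ℝ) : ℂ) := by
      apply mul_left_cancel₀ h7
      linear_combination -h4
    exact_mod_cast h8
  have h4 : ∀ a, (-(W a).im) * ‖w a - 2 * I * y a‖ ^ 2 =
      (-(W a).im) * ‖w a‖ ^ 2 + 4 * ((-(W a).im) * ‖y a‖ ^ 2) + 4 * (conj (u a) * y a).im := by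
    intro a
    have hn : ∀ z : ℂ, ‖z‖ ^ 2 = z.re * z.re + z.im * z.im := by
      intro z
      rw [← Complex.normSq_eq_norm_sq, Complex.normSq_apply]
    rw [hn, hn, hn, hu]
    simp only [Complex.sub_re, Complex.sub_im, Complex.mul_re, Complex.mul_im, Complex.conj_re,
      Complex.conj_im, Complex.I_re, Complex.I_im, Complex.ofReal_re, Complex.ofReal_im,
      Complex.re_ofNat, Complex.im_ofNat]
    ring
  rw [Finset.sum_congr rfl fun a _ => h4 a, Finset.sum_add_distrib, Finset.sum_add_distrib,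
    ← Finset.mul_sum, ← Finset.mul_sum, ← Complex.im_sum, h3]
  ring

/-- `|X| ≤ D` -/
theorem norm_Xq_le (hA : A.IsSymm) (hW : ∀ x, (W x).im < 0) (f : ι → ℝ) (z : ι) :
    ‖Xq A W f z‖ ≤ Dq A W f z := by
  have h0 : ∀ a, ‖wq A W f z a‖ ^ 2 = KK A W z a * (f a - f z) ^ 2 := by
    intro a
    rw [wq, norm_mul, mul_pow, Complex.norm_real, Real.norm_eq_abs, sq_abs, KK, Gr_symm hA a z]
    ring
  have h1 : ∑ a, (-(W a).im) * ‖wq A W f z a‖ ^ 2 = Dq A W f z := by
    rw [Dq]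
    exact Finset.sum_congr rfl fun a _ => by rw [h0]; ring
  have h2 := isometry hA hW (wq A W f z)
  have h3 : ‖Xq A W f z‖ ≤ ∑ a, (-(W a).im) * (‖wq A W f z a‖ *
      ‖wq A W f z a - 2 * I * yq A W f z a‖) := by
    rw [Xq]
    refine (norm_sum_le _ _).trans (Finset.sum_le_sum fun a _ => ?_)
    rw [norm_mul, norm_mul, Complex.norm_real, Real.norm_of_nonneg (by linarith [hW a])]
  refine h3.trans ?_
  have h4 : ∀ a, (-(W a).im) * (‖wq A W f z a‖ * ‖wq A W f z a - 2 * I * yq A W f z a‖) ≤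
      (-(W a).im) * ‖wq A W f z a‖ ^ 2 / 2 +
        (-(W a).im) * ‖wq A W f z a - 2 * I * yq A W f z a‖ ^ 2 / 2 := by
    intro a
    have := mul_nonneg (show 0 ≤ -(W a).im by linarith [hW a])
      (sq_nonneg (‖wq A W f z a‖ - ‖wq A W f z a - 2 * I * yq A W f z a‖))
    nlinarith only [this]
  refine (Finset.sum_le_sum fun a _ => h4 a).trans ?_
  rw [Finset.sum_add_distrib, ← Finset.sum_div, ← Finset.sum_div]
  have h5 : ∑ a, (-(W a).im) * ‖wq A W f z a - 2 * I * yq A W f z a‖ ^ 2 =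
      ∑ a, (-(W a).im) * ‖wq A W f z a‖ ^ 2 := h2
  rw [h5, h1]
  linarith

/-! ### the pointwise identity -/

theorem En_eq_hat (hA : A.IsSymm) (hW : ∀ x, (W x).im < 0) (f : ι → ℝ) (c : ℝ) :
    En A W f = 2 * (∑ a, (-(W a).im) * (f a - c) ^ 2 * mm A W a) -
      2 * ∑ a, ∑ b, (-(W a).im) * (-(W b).im) * (f a - c) * (f b - c) * KK A W a b := by
  have h1 : ∑ a, (-(W a).im) * (f a - c) ^ 2 * mm A W a =
      ∑ a, ∑ b, (-(W a).im) * (-(W b).im) * (f a - c) ^ 2 * KK A W a b := by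
    refine Finset.sum_congr rfl fun a _ => ?_
    rw [mm_eq hA hW, Finset.mul_sum]
    exact Finset.sum_congr rfl fun b _ => by ring
  have h2 : ∑ a, (-(W a).im) * (f a - c) ^ 2 * mm A W a =
      ∑ a, ∑ b, (-(W a).im) * (-(W b).im) * (f b - c) ^ 2 * KK A W a b := by
    rw [h1, Finset.sum_comm]
    refine Finset.sum_congr rfl fun a _ => Finset.sum_congr rfl fun b _ => ?_
    rw [KK_symm hA b a]
    ring
  have h3 : 2 * (∑ a, (-(W a).im) * (f a - c) ^ 2 * mm A W a) =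
      (∑ a, ∑ b, (-(W a).im) * (-(W b).im) * (f a - c) ^ 2 * KK A W a b) +
      ∑ a, ∑ b, (-(W a).im) * (-(W b).im) * (f b - c) ^ 2 * KK A W a b := by
    rw [two_mul]
    nth_rewrite 1 [h1]
    rw [h2]
  rw [h3, En, Finset.mul_sum, ← Finset.sum_add_distrib, ← Finset.sum_sub_distrib]
  refine Finset.sum_congr rfl fun a _ => ?_
  rw [Finset.mul_sum, ← Finset.sum_add_distrib, ← Finset.sum_sub_distrib]
  exact Finset.sum_congr rfl fun b _ => by ring

theorem Xq_re (hA : A.IsSymm) (f : ι → ℝ) (z : ι) (θ : ℂ) :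
    (I * θ * Xq A W f z).re =
      (-∑ a, (-(W a).im) * (f a - f z) ^ 2 * (Gr A W a z * Gr A W z a * θ).im) +
        2 * ∑ a, ∑ b, (-(W a).im) * (-(W b).im) * (f a - f z) * (f b - f z) *
          (conj (Gr A W a b) * (Gr A W a z * Gr A W z b * θ)).re := by
  have h1 : I * θ * Xq A W f z =
      (I * ∑ a, (((-(W a).im) * (f a - f z) ^ 2 : ℝ) : ℂ) * (Gr A W a z * Gr A W z a * θ)) +
        2 * ∑ a, ∑ b, (((-(W a).im) * (-(W b).im) * (f a - f z) * (f b - f z) : ℝ) : ℂ) *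
          (conj (Gr A W a b) * (Gr A W a z * Gr A W z b * θ)) := by
    rw [Xq, Finset.mul_sum, Finset.mul_sum, Finset.mul_sum, ← Finset.sum_add_distrib]
    refine Finset.sum_congr rfl fun a _ => ?_
    have h2 : ∑ b, (((-(W a).im) * (-(W b).im) * (f a - f z) * (f b - f z) : ℝ) : ℂ) *
          (conj (Gr A W a b) * (Gr A W a z * Gr A W z b * θ)) =
        ((-(W a).im : ℝ) : ℂ) * wq A W f z a * θ * yq A W f z a := by
      rw [yq, Finset.mul_sum]
      refine Finset.sum_congr rfl fun b _ => ?_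
      rw [wq, wq, Gr_symm hA z b]
      push_cast
      ring
    rw [h2, wq, Gr_symm hA z a]
    push_cast
    linear_combination (2 * (W a).im * ((f a : ℂ) - f z) * Gr A W a z * θ * yq A W f z a) *
      Complex.I_mul_I
  rw [h1, Complex.add_re, Complex.I_mul_re, Complex.im_sum]
  have h3 : (2 * ∑ a, ∑ b, (((-(W a).im) * (-(W b).im) * (f a - f z) * (f b - f z) : ℝ) : ℂ) *
          (conj (Gr A W a b) * (Gr A W a z * Gr A W z b * θ)) : ℂ).re =
      2 * ∑ a, ∑ b, (-(W a).im) * (-(W b).im) * (f a - f z) * (f b - f z) *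
          (conj (Gr A W a b) * (Gr A W a z * Gr A W z b * θ)).re := by
    rw [show (2 : ℂ) = ((2 : ℝ) : ℂ) by norm_num, Complex.re_ofReal_mul, Complex.re_sum]
    congr 1
    refine Finset.sum_congr rfl fun a _ => ?_
    rw [Complex.re_sum]
    exact Finset.sum_congr rfl fun b _ => Complex.re_ofReal_mul _ _
  rw [h3]
  congr 2
  exact Finset.sum_congr rfl fun a _ => Complex.im_ofReal_mul _ _

/-- **pointwise identity** for a kick -/
theorem En_kick_eq (hA : A.IsSymm) (hW : ∀ x, (W x).im < 0) {z : ι} {h : ℝ}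
    (hz : h < -(W z).im) (f : ι → ℝ) (t : ℝ) :
    En A (kickW z h W t) f = En A W f + 2 * (I * tz h (Gr A W z z) t * Xq A W f z).re -
      2 * ‖tz h (Gr A W z z) t‖ ^ 2 * Bq A W f z ^ 2 := by
  have hV := kickW_neg hW hz t
  rw [En_eq_hat hA hV f (f z), En_eq_hat hA hW f (f z), Xq_re hA]
  set θ := tz h (Gr A W z z) t with hθ
  have hd : ∀ a, (-(kickW z h W t a).im) * (f a - f z) = (-(W a).im) * (f a - f z) := by
    intro a
    rw [kickW_im]
    by_cases ha : a = z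
    · subst ha
      rw [sub_self, mul_zero, mul_zero]
    · rw [if_neg ha, sub_zero]
  have hm : ∀ a, mm A (kickW z h W t) a = mm A W a - (Gr A W a z * Gr A W z a * θ).im := by
    intro a
    rw [mm, Gr_kick hA hW hz, Complex.sub_im, mm]
  have hK : ∀ a b, KK A (kickW z h W t) a b = KK A W a b -
      2 * (conj (Gr A W a b) * (Gr A W a z * Gr A W z b * θ)).re +
      KK A W z a * KK A W z b * ‖θ‖ ^ 2 := by
    intro a b
    rw [KK, Gr_kick hA hW hz, norm_sub_sq_ge, KK, KK, KK, norm_mul, norm_mul, Gr_symm hA a z]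
    ring
  have s1 : ∑ a, (-(kickW z h W t a).im) * (f a - f z) ^ 2 * mm A (kickW z h W t) a =
      (∑ a, (-(W a).im) * (f a - f z) ^ 2 * mm A W a) -
        ∑ a, (-(W a).im) * (f a - f z) ^ 2 * (Gr A W a z * Gr A W z a * θ).im := by
    rw [← Finset.sum_sub_distrib]
    refine Finset.sum_congr rfl fun a _ => ?_
    rw [hm]
    have := hd a
    linear_combination ((f a - f z) * (mm A W a - (Gr A W a z * Gr A W z a * θ).im)) * this
  have s2 : ∑ a, ∑ b, (-(kickW z h W t a).im) * (-(kickW z h W t b).im) * (f a - f z) *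
        (f b - f z) * KK A (kickW z h W t) a b =
      (∑ a, ∑ b, (-(W a).im) * (-(W b).im) * (f a - f z) * (f b - f z) * KK A W a b) -
        2 * (∑ a, ∑ b, (-(W a).im) * (-(W b).im) * (f a - f z) * (f b - f z) *
          (conj (Gr A W a b) * (Gr A W a z * Gr A W z b * θ)).re) +
        ‖θ‖ ^ 2 * Bq A W f z ^ 2 := by
    have s3 : Bq A W f z ^ 2 = ∑ a, ∑ b, (-(W a).im) * (-(W b).im) * (f a - f z) * (f b - f z) *
        (KK A W z a * KK A W z b) := by
      rw [pow_two, Bq, Finset.sum_mul_sum]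
      exact Finset.sum_congr rfl fun a _ => Finset.sum_congr rfl fun b _ => by ring
    rw [s3, Finset.mul_sum, Finset.mul_sum, ← Finset.sum_sub_distrib, ← Finset.sum_add_distrib]
    refine Finset.sum_congr rfl fun a _ => ?_
    rw [Finset.mul_sum, Finset.mul_sum, ← Finset.sum_sub_distrib, ← Finset.sum_add_distrib]
    refine Finset.sum_congr rfl fun b _ => ?_
    rw [hK]
    have ha := hd a
    have hb := hd b
    have hab : (-(kickW z h W t a).im) * (-(kickW z h W t b).im) * (f a - f z) * (f b - f z) =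
        (-(W a).im) * (-(W b).im) * (f a - f z) * (f b - f z) := by
      calc (-(kickW z h W t a).im) * (-(kickW z h W t b).im) * (f a - f z) * (f b - f z) =
          ((-(kickW z h W t a).im) * (f a - f z)) * ((-(kickW z h W t b).im) * (f b - f z)) := by
            ring
        _ = _ := by rw [ha, hb]; ring
    rw [hab]
    ring
  rw [s1, s2]
  ring

/-! ### quadratic variation -/

theorem norm_tz_mul_Mq_le (hA : A.IsSymm) (hW : ∀ x, (W x).im < 0) {z : ι} {h : ℝ}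
    (hh : 0 < h) (hz : h < -(W z).im) (t : ℝ) : ‖tz h (Gr A W z z) t‖ * Mq A W z ≤ 1 :=
  norm_tz_mul_le hh hz.le (e_mul_KK_le hA hW z z) (hg_of hA hW hz) t

theorem norm_tz_mul_Bq_le (hA : A.IsSymm) (hW : ∀ x, (W x).im < 0) {z : ι} {h : ℝ}
    (hh : 0 < h) (hz : h < -(W z).im) {f : ι → ℝ} {L : ℝ} (hL : ∀ y, |f y - f z| ≤ L) (t : ℝ) :
    ‖tz h (Gr A W z z) t‖ * |Bq A W f z| ≤ L := by
  have hL0 : 0 ≤ L := (abs_nonneg _).trans (hL z)
  have h1 := mul_le_mul_of_nonneg_left (abs_Bq_le hA hW hL) (norm_nonneg (tz h (Gr A W z z) t))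
  have h2 := mul_le_mul_of_nonneg_left (norm_tz_mul_Mq_le hA hW hh hz t) hL0
  calc ‖tz h (Gr A W z z) t‖ * |Bq A W f z| ≤ ‖tz h (Gr A W z z) t‖ * (L * Mq A W z) := h1
    _ = L * (‖tz h (Gr A W z z) t‖ * Mq A W z) := by ring
    _ ≤ L * 1 := h2
    _ = L := mul_one L

/-- pointwise bound of the squared increment -/
theorem sq_incr_le (hA : A.IsSymm) (hW : ∀ x, (W x).im < 0) {z : ι} {h : ℝ}
    (hh : 0 < h) (hz : h < -(W z).im) {f : ι → ℝ} {L : ℝ} (hL : ∀ y, |f y - f z| ≤ L) (t : ℝ) :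
    (En A (kickW z h W t) f - En A W f) ^ 2 ≤
      (8 * Dq A W f z ^ 2 + 8 * L ^ 2 * Bq A W f z ^ 2) * ‖tz h (Gr A W z z) t‖ ^ 2 := by
  rw [En_kick_eq hA hW hz f t]
  set θ := tz h (Gr A W z z) t with hθ
  set X := Xq A W f z with hX
  set B := Bq A W f z with hB
  have h1 : (I * θ * X).re ^ 2 ≤ (‖θ‖ * Dq A W f z) ^ 2 := by
    have h2 : |(I * θ * X).re| ≤ ‖θ‖ * Dq A W f z := by
      refine (Complex.abs_re_le_norm _).trans ?_
      rw [norm_mul, norm_mul, Complex.norm_I, one_mul]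
      exact mul_le_mul_of_nonneg_left (norm_Xq_le hA hW f z) (norm_nonneg _)
    rw [← sq_abs (I * θ * X).re]
    exact pow_le_pow_left₀ (abs_nonneg _) h2 2
  have h3 : (‖θ‖ * |B|) ^ 2 ≤ L ^ 2 :=
    pow_le_pow_left₀ (by positivity) (norm_tz_mul_Bq_le hA hW hh hz hL t) 2
  have h4 : (‖θ‖ ^ 2 * B ^ 2) ^ 2 ≤ L ^ 2 * (‖θ‖ ^ 2 * B ^ 2) := by
    rw [mul_pow, sq_abs] at h3
    have h5 : 0 ≤ ‖θ‖ ^ 2 * B ^ 2 := by positivity
    rw [pow_two (‖θ‖ ^ 2 * B ^ 2)]
    exact mul_le_mul_of_nonneg_right h3 h5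
  have h6 : (En A W f + 2 * (I * θ * X).re - 2 * ‖θ‖ ^ 2 * B ^ 2 - En A W f) ^ 2 ≤
      8 * (I * θ * X).re ^ 2 + 8 * (‖θ‖ ^ 2 * B ^ 2) ^ 2 := by
    nlinarith only [sq_nonneg (2 * (I * θ * X).re + 2 * (‖θ‖ ^ 2 * B ^ 2))]
  refine h6.trans ?_
  have h7 : (‖θ‖ * Dq A W f z) ^ 2 = Dq A W f z ^ 2 * ‖θ‖ ^ 2 := by ring
  rw [h7] at h1
  nlinarith only [h1, h4]

theorem integral_norm_sq_tz' (hA : A.IsSymm) (hW : ∀ x, (W x).im < 0) {z : ι} {h : ℝ}
    (hh : 0 < h) (hz : h < -(W z).im) :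
    ∫ t, ‖tz h (Gr A W z z) t‖ ^ 2 ∂nu = kap A W z h :=
  integral_norm_sq_tz hh (hg_of hA hW hz)

theorem integrable_norm_sq_tz' (hA : A.IsSymm) (hW : ∀ x, (W x).im < 0) {z : ι} {h : ℝ}
    (hh : 0 < h) (hz : h < -(W z).im) :
    Integrable (fun t => ‖tz h (Gr A W z z) t‖ ^ 2) nu := by
  have := integrable_norm_pow_sub_mul_tz hh (hg_of hA hW hz) 0 1 2
  simpa only [one_mul, zero_sub, norm_neg] using this

theorem measurable_En_kick (hA : A.IsSymm) (hW : ∀ x, (W x).im < 0) {z : ι} {h : ℝ}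
    (hz : h < -(W z).im) (f : ι → ℝ) : Measurable fun t => En A (kickW z h W t) f := by
  have h1 := measurable_tz h (Gr A W z z)
  have h2 : (fun t => En A (kickW z h W t) f) = fun t => En A W f +
      2 * (I * tz h (Gr A W z z) t * Xq A W f z).re -
      2 * ‖tz h (Gr A W z z) t‖ ^ 2 * Bq A W f z ^ 2 := by
    funext t
    exact En_kick_eq hA hW hz f t
  rw [h2]
  exact (((Complex.measurable_re.comp ((h1.const_mul I).mul_const _)).const_mul 2).const_add _).sub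
    (((h1.norm.pow_const 2).const_mul 2).mul_const _)

/-- quadratic variation, general form -/
theorem qv_gen (hA : A.IsSymm) (hW : ∀ x, (W x).im < 0) {z : ι} {h : ℝ}
    (hh : 0 < h) (hz : h < -(W z).im) {f : ι → ℝ} {L : ℝ} (hL : ∀ y, |f y - f z| ≤ L) :
    Integrable (fun t => (En A (kickW z h W t) f - En A W f) ^ 2) nu ∧
    ∫ t, (En A (kickW z h W t) f - En A W f) ^ 2 ∂nu ≤
      kap A W z h * (8 * Dq A W f z ^ 2 + 8 * L ^ 2 * Bq A W f z ^ 2) := by
  have hi := (integrable_norm_sq_tz' hA hW hh hz).const_mul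
    (8 * Dq A W f z ^ 2 + 8 * L ^ 2 * Bq A W f z ^ 2)
  have hI : Integrable (fun t => (En A (kickW z h W t) f - En A W f) ^ 2) nu := by
    refine hi.mono' (((measurable_En_kick hA hW hz f).sub_const _).pow_const 2).aestronglyMeasurable
      (Filter.Eventually.of_forall fun t => ?_)
    rw [Real.norm_of_nonneg (sq_nonneg _)]
    exact sq_incr_le hA hW hh hz hL t
  refine ⟨hI, ?_⟩
  refine (integral_mono hI hi fun t => sq_incr_le hA hW hh hz hL t).trans ?_
  rw [integral_const_mul, integral_norm_sq_tz' hA hW hh hz, mul_comm]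

theorem Dq_sq_le {f : ι → ℝ} (hf : ∀ x, |f x| ≤ 1) (z : ι) :
    Dq A W f z ^ 2 ≤ 2 * Bq A W (fun x => f x ^ 2) z ^ 2 + 8 * Bq A W f z ^ 2 := by
  rw [Dq_eq]
  have h1 : f z ^ 2 ≤ 1 := by
    have := hf z
    rw [← sq_abs]
    exact pow_le_one₀ (abs_nonneg _) this
  have h2 := mul_le_mul_of_nonneg_right h1 (sq_nonneg (Bq A W f z))
  nlinarith only [h2, sq_nonneg (Bq A W (fun x => f x ^ 2) z + 2 * f z * Bq A W f z)]

/-- **quadratic variation ≤ C · drift** (`drift_f = 2 κ B_f²`) -/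
theorem qv_le (hA : A.IsSymm) (hW : ∀ x, (W x).im < 0) {z : ι} {h : ℝ}
    (hh : 0 < h) (hz : h < -(W z).im) {f : ι → ℝ} (hf : ∀ x, |f x| ≤ 1) :
    ∫ t, (En A (kickW z h W t) f - En A W f) ^ 2 ∂nu ≤
      kap A W z h * (96 * Bq A W f z ^ 2 + 16 * Bq A W (fun x => f x ^ 2) z ^ 2) := by
  have hL : ∀ y, |f y - f z| ≤ 2 := fun y => by
    have := abs_sub (f y) (f z)
    linarith [hf y, hf z]
  refine (qv_gen hA hW hh hz hL).2.trans ?_
  refine mul_le_mul_of_nonneg_left ?_ (kap_pos hA hW hh hz).le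
  have := Dq_sq_le (A := A) (W := W) hf z
  nlinarith only [this]

/-- mean of the square after a kick -/
theorem integral_En_sq_kick_le (hA : A.IsSymm) (hW : ∀ x, (W x).im < 0) {z : ι} {h : ℝ}
    (hh : 0 < h) (hz : h < -(W z).im) {f : ι → ℝ} (hf : ∀ x, |f x| ≤ 1) :
    ∫ t, En A (kickW z h W t) f ^ 2 ∂nu ≤
      En A W f ^ 2 - 4 * En A W f * kap A W z h * Bq A W f z ^ 2 +
      kap A W z h * (96 * Bq A W f z ^ 2 + 16 * Bq A W (fun x => f x ^ 2) z ^ 2) := by
  have hL : ∀ y, |f y - f z| ≤ 2 := fun y => by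
    have := abs_sub (f y) (f z)
    linarith [hf y, hf z]
  have i1 := (qv_gen hA hW hh hz hL).1
  have i2 := integrable_En_kick hA hW hh hz f
  have h1 : ∀ t, En A (kickW z h W t) f ^ 2 = (En A (kickW z h W t) f - En A W f) ^ 2 +
      (2 * En A W f * En A (kickW z h W t) f - En A W f ^ 2) := fun t => by ring
  simp only [h1]
  have i3 : Integrable (fun t => 2 * En A W f * En A (kickW z h W t) f - En A W f ^ 2) nu :=
    (i2.const_mul _).sub (integrable_const _)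
  rw [integral_add i1 i3, integral_sub (i2.const_mul _) (integrable_const _), integral_const_mul,
    integral_En_kick hA hW hh hz f]
  have h2 := qv_le hA hW hh hz hf
  have h3 : (∑ y, (-(W y).im) * KK A W z y * (f y - f z)) = Bq A W f z := rfl
  rw [h3]
  simp only [integral_const, probReal_univ, smul_eq_mul, one_mul]
  linarith

/-! ### the exponential supermartingale -/

/-- `Φ = 4 En f + En f²` -/
noncomputable def PhE (A : Matrix ι ι ℝ) (W : ι → ℂ) (f : ι → ℝ) : ℝ :=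
  4 * En A W f + En A W (fun x => f x ^ 2)

theorem Dq_sq_le_four {f : ι → ℝ} (hW : ∀ x, (W x).im < 0) (hf : ∀ x, |f x| ≤ 1) (z : ι) :
    Dq A W (fun x => f x ^ 2) z ≤ 4 * Dq A W f z := by
  rw [Dq, Dq, Finset.mul_sum]
  refine Finset.sum_le_sum fun y _ => ?_
  have h1 : (f y ^ 2 - f z ^ 2) ^ 2 ≤ 4 * (f y - f z) ^ 2 := by
    have h2 : (f y + f z) ^ 2 ≤ 4 := by
      have h3 : |f y + f z| ≤ 2 := (abs_add_le _ _).trans (by linarith [hf y, hf z])
      rw [← sq_abs]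
      nlinarith only [h3, abs_nonneg (f y + f z)]
    have := mul_le_mul_of_nonneg_right h2 (sq_nonneg (f y - f z))
    nlinarith only [this]
  have h2 : 0 ≤ (-(W y).im) * KK A W z y := mul_nonneg (by linarith [hW y]) (KK_nonneg _ _)
  have := mul_le_mul_of_nonneg_left h1 h2
  linarith

/-- the coefficient of the linear part on the circle -/
noncomputable def beE (A : Matrix ι ι ℝ) (W : ι → ℂ) (f : ι → ℝ) (z : ι) (h : ℝ) : ℂ :=
  2 * I * (4 * Xq A W f z + Xq A W (fun x => f x ^ 2) z) -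
    ((2 * (4 * Bq A W f z ^ 2 + Bq A W (fun x => f x ^ 2) z ^ 2) /
      (mm A W z - h * KK A W z z) : ℝ) : ℂ) * (I * (1 + 2 * I * (h : ℂ) * Gr A W z z))

theorem PhE_kick_eq (hA : A.IsSymm) (hW : ∀ x, (W x).im < 0) {z : ι} {h : ℝ}
    (hh : 0 < h) (hz : h < -(W z).im) (f : ι → ℝ) (t : ℝ) :
    PhE A (kickW z h W t) f = PhE A W f -
      2 * kap A W z h * (4 * Bq A W f z ^ 2 + Bq A W (fun x => f x ^ 2) z ^ 2) +
      (beE A W f z h * tz h (Gr A W z z) t).re := by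
  rw [PhE, PhE, En_kick_eq hA hW hz f t, En_kick_eq hA hW hz (fun x => f x ^ 2) t, beE, kap]
  set θ := tz h (Gr A W z z) t with hθ
  set Γ := 4 * Bq A W f z ^ 2 + Bq A W (fun x => f x ^ 2) z ^ 2 with hΓ
  have hpos : 0 < mm A W z - h * KK A W z z := by linarith [hK_lt hA hW hz]
  have h1 : ‖θ‖ ^ 2 * (mm A W z - h * KK A W z z) =
      h + (I * (1 + 2 * I * (h : ℂ) * Gr A W z z) * θ).re := tz_circle hh (hg_of hA hW hz) t
  have h2 : ‖θ‖ ^ 2 = h / (mm A W z - h * KK A W z z) +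
      (I * (1 + 2 * I * (h : ℂ) * Gr A W z z) * θ).re / (mm A W z - h * KK A W z z) := by
    rw [← add_div, ← h1]
    field_simp
  have h3 : ((2 * I * (4 * Xq A W f z + Xq A W (fun x => f x ^ 2) z) -
    ((2 * Γ / (mm A W z - h * KK A W z z) : ℝ) : ℂ) *
      (I * (1 + 2 * I * (h : ℂ) * Gr A W z z))) * θ).re =
      8 * (I * θ * Xq A W f z).re + 2 * (I * θ * Xq A W (fun x => f x ^ 2) z).re -
        2 * Γ / (mm A W z - h * KK A W z z) *
          (I * (1 + 2 * I * (h : ℂ) * Gr A W z z) * θ).re := by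
    have h4 : (2 * I * (4 * Xq A W f z + Xq A W (fun x => f x ^ 2) z) -
      ((2 * Γ / (mm A W z - h * KK A W z z) : ℝ) : ℂ) *
      (I * (1 + 2 * I * (h : ℂ) * Gr A W z z))) * θ =
      ((8 : ℝ) : ℂ) * (I * θ * Xq A W f z) +
        ((2 : ℝ) : ℂ) * (I * θ * Xq A W (fun x => f x ^ 2) z) -
        ((2 * Γ / (mm A W z - h * KK A W z z) : ℝ) : ℂ) *
          (I * (1 + 2 * I * (h : ℂ) * Gr A W z z) * θ) := by
      push_cast
      ring
    rw [h4, Complex.sub_re, Complex.add_re, Complex.re_ofReal_mul, Complex.re_ofReal_mul,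
      Complex.re_ofReal_mul]
  rw [h3]
  have h5 : 4 * (En A W f + 2 * (I * θ * Xq A W f z).re - 2 * ‖θ‖ ^ 2 * Bq A W f z ^ 2) +
      (En A W (fun x => f x ^ 2) + 2 * (I * θ * Xq A W (fun x => f x ^ 2) z).re -
        2 * ‖θ‖ ^ 2 * Bq A W (fun x => f x ^ 2) z ^ 2) =
      4 * En A W f + En A W (fun x => f x ^ 2) + 8 * (I * θ * Xq A W f z).re +
        2 * (I * θ * Xq A W (fun x => f x ^ 2) z).re - 2 * Γ * ‖θ‖ ^ 2 := by
    rw [hΓ]
    ring
  rw [h5, h2]
  ring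

theorem norm_beE_le (hA : A.IsSymm) (hW : ∀ x, (W x).im < 0) {z : ι} {h : ℝ}
    (hh : 0 < h) (hz : h < -(W z).im) {f : ι → ℝ} (hf : ∀ x, |f x| ≤ 1) :
    ‖beE A W f z h‖ ≤ 48 * |Bq A W f z| + 18 * |Bq A W (fun x => f x ^ 2) z| := by
  have hpos : 0 < mm A W z - h * KK A W z z := by linarith [hK_lt hA hW hz]
  have hM : Mq A W z ≤ mm A W z - h * KK A W z z := by
    rw [Mq]
    have := mul_le_mul_of_nonneg_right hz.le (KK_nonneg (A := A) (W := W) z z)
    linarith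
  have hM0 := Mq_nonneg hA hW z
  have hB : |Bq A W f z| ≤ 2 * Mq A W z := abs_Bq_le hA hW fun y =>
    (abs_sub _ _).trans (by linarith [hf y, hf z])
  have hG : |Bq A W (fun x => f x ^ 2) z| ≤ 1 * Mq A W z := by
    refine abs_Bq_le hA hW fun y => ?_
    have h1 : f y ^ 2 ≤ 1 := by rw [← sq_abs]; exact pow_le_one₀ (abs_nonneg _) (hf y)
    have h2 : f z ^ 2 ≤ 1 := by rw [← sq_abs]; exact pow_le_one₀ (abs_nonneg _) (hf z)
    rw [abs_le]
    constructor <;> nlinarith only [h1, h2, sq_nonneg (f y), sq_nonneg (f z)]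
  set b := |Bq A W f z| with hb
  set g := |Bq A W (fun x => f x ^ 2) z| with hg
  have hb0 : 0 ≤ b := abs_nonneg _
  have hg0 : 0 ≤ g := abs_nonneg _
  -- `|1 + 2 i h G| ≤ 1`
  have h1 : ‖(1 : ℂ) + 2 * I * (h : ℂ) * Gr A W z z‖ ≤ 1 := by
    refine le_of_sq_le_sq ?_ zero_le_one
    have hn : ∀ z : ℂ, ‖z‖ ^ 2 = z.re * z.re + z.im * z.im := by
      intro z
      rw [← Complex.normSq_eq_norm_sq, Complex.normSq_apply]
    have h2 := hK_lt hA hW hz
    rw [KK, mm, hn] at h2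
    rw [hn]
    simp only [Complex.add_re, Complex.add_im, Complex.mul_re, Complex.mul_im, Complex.one_re,
      Complex.one_im, Complex.I_re, Complex.I_im, Complex.ofReal_re, Complex.ofReal_im,
      Complex.re_ofNat, Complex.im_ofNat]
    have h3 := mul_le_mul_of_nonneg_left h2.le hh.le
    nlinarith only [h3]
  -- first part
  have h2 : ‖4 * Xq A W f z + Xq A W (fun x => f x ^ 2) z‖ ≤ 8 * (g + 2 * b) := by
    have h3 := norm_Xq_le hA hW f z
    have h4 := norm_Xq_le hA hW (fun x => f x ^ 2) z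
    have h5 := Dq_sq_le_four (A := A) hW hf z
    have h6 : Dq A W f z ≤ g + 2 * b := by
      rw [Dq_eq]
      have h7 := le_abs_self (Bq A W (fun x => f x ^ 2) z)
      have h8 : -(2 * f z * Bq A W f z) ≤ 2 * b := by
        have h9 : |f z * Bq A W f z| ≤ b := by
          rw [abs_mul]
          exact (mul_le_mul_of_nonneg_right (hf z) (abs_nonneg _)).trans (one_mul _).le
        have := neg_abs_le (f z * Bq A W f z)
        linarith
      linarith
    refine (norm_add_le _ _).trans ?_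
    rw [norm_mul]
    have : ‖(4 : ℂ)‖ = 4 := by norm_num
    rw [this]
    linarith
  -- second part
  have h3 : 2 * (4 * Bq A W f z ^ 2 + Bq A W (fun x => f x ^ 2) z ^ 2) /
      (mm A W z - h * KK A W z z) ≤ 16 * b + 2 * g := by
    rw [div_le_iff₀ hpos]
    have h4 : Bq A W f z ^ 2 = b * b := by rw [hb, abs_mul_abs_self, pow_two]
    have h5 : Bq A W (fun x => f x ^ 2) z ^ 2 = g * g := by rw [hg, abs_mul_abs_self, pow_two]
    rw [h4, h5]
    have h6 : b * b ≤ b * (2 * (mm A W z - h * KK A W z z)) :=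
      mul_le_mul_of_nonneg_left (by linarith) hb0
    have h7 : g * g ≤ g * (mm A W z - h * KK A W z z) :=
      mul_le_mul_of_nonneg_left (by linarith) hg0
    nlinarith only [h6, h7]
  have h3' : 0 ≤ 2 * (4 * Bq A W f z ^ 2 + Bq A W (fun x => f x ^ 2) z ^ 2) /
      (mm A W z - h * KK A W z z) := by positivity
  rw [beE]
  refine (norm_sub_le _ _).trans ?_
  rw [norm_mul, norm_mul, norm_mul, norm_mul, Complex.norm_I, Complex.norm_real,
    Real.norm_of_nonneg h3']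
  have h4 : ‖(2 : ℂ)‖ = 2 := by norm_num
  rw [h4, mul_one, one_mul]
  have h5 := mul_le_mul h3 h1 (norm_nonneg _) (by positivity)
  linarith

/-- **one-site exponential bound** -/
theorem exp_kick_le (hA : A.IsSymm) (hW : ∀ x, (W x).im < 0) {z : ι} {h : ℝ}
    (hh : 0 < h) (hz : h < -(W z).im) {f : ι → ℝ} (hf : ∀ x, |f x| ≤ 1) :
    Integrable (fun t => Real.exp (PhE A (kickW z h W t) f / 576)) nu ∧
    ∫ t, Real.exp (PhE A (kickW z h W t) f / 576) ∂nu ≤ Real.exp (PhE A W f / 576) := by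
  set b := |Bq A W f z| with hb
  set g := |Bq A W (fun x => f x ^ 2) z| with hg
  have hb0 : 0 ≤ b := abs_nonneg _
  have hg0 : 0 ≤ g := abs_nonneg _
  set Γ := 4 * Bq A W f z ^ 2 + Bq A W (fun x => f x ^ 2) z ^ 2 with hΓ
  have hΓ' : Γ = 4 * b ^ 2 + g ^ 2 := by rw [hΓ, hb, hg, sq_abs, sq_abs]
  set κ := kap A W z h with hκ
  have hκ0 : 0 < κ := kap_pos hA hW hh hz
  set β := beE A W f z h with hβ
  have hβn : ‖β‖ ≤ 48 * b + 18 * g := norm_beE_le hA hW hh hz hf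
  set c0 := Real.exp ((PhE A W f - 2 * κ * Γ) / 576) with hc0
  have hc0p : 0 < c0 := Real.exp_pos _
  -- pointwise
  have key : ∀ t, Real.exp (PhE A (kickW z h W t) f / 576) ≤
      c0 * (1 + (β * tz h (Gr A W z z) t).re / 576 +
        ‖β‖ ^ 2 / 576 ^ 2 * ‖tz h (Gr A W z z) t‖ ^ 2) := by
    intro t
    set θ := tz h (Gr A W z z) t with hθ
    have h1 : PhE A (kickW z h W t) f / 576 = (PhE A W f - 2 * κ * Γ) / 576 +
        (β * θ).re / 576 := by
      rw [PhE_kick_eq hA hW hh hz f t]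
      ring
    rw [h1, Real.exp_add]
    refine mul_le_mul_of_nonneg_left ?_ hc0p.le
    have h2 : |(β * θ).re| ≤ ‖β‖ * ‖θ‖ := by
      rw [← norm_mul]
      exact Complex.abs_re_le_norm _
    have h3 : ‖β‖ * ‖θ‖ ≤ 576 := by
      have h4 : ‖θ‖ * b ≤ 2 := norm_tz_mul_Bq_le hA hW hh hz (fun y =>
        (abs_sub _ _).trans (by linarith [hf y, hf z])) t
      have h5 : ‖θ‖ * g ≤ 1 := by
        refine norm_tz_mul_Bq_le hA hW hh hz (fun y => ?_) t
        have h1 : f y ^ 2 ≤ 1 := by rw [← sq_abs]; exact pow_le_one₀ (abs_nonneg _) (hf y)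
        have h2 : f z ^ 2 ≤ 1 := by rw [← sq_abs]; exact pow_le_one₀ (abs_nonneg _) (hf z)
        rw [abs_le]
        constructor <;> nlinarith only [h1, h2, sq_nonneg (f y), sq_nonneg (f z)]
      have h6 := mul_le_mul_of_nonneg_right hβn (norm_nonneg θ)
      nlinarith only [h4, h5, h6]
    set x := (β * θ).re / 576 with hx
    have h4 : |x| ≤ 1 := by
      rw [hx, abs_div, abs_of_pos (show (0 : ℝ) < 576 by norm_num), div_le_one (by norm_num)]
      exact h2.trans h3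
    have h5 := Real.abs_exp_sub_one_sub_id_le h4
    have h6 : x ^ 2 ≤ ‖β‖ ^ 2 / 576 ^ 2 * ‖θ‖ ^ 2 := by
      rw [hx, div_pow, ← sq_abs]
      have h7 := pow_le_pow_left₀ (abs_nonneg _) h2 2
      rw [mul_pow] at h7
      rw [div_mul_eq_mul_div]
      exact div_le_div_of_nonneg_right h7 (by positivity)
    have h7 := (abs_le.1 h5).2
    linarith
  have hi1 : Integrable (fun t => (β * tz h (Gr A W z z) t).re) nu :=
    integrable_re_mul_tz hh (hg_of hA hW hz) β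
  have hi2 := integrable_norm_sq_tz' hA hW hh hz
  have hi : Integrable (fun t => c0 * (1 + (β * tz h (Gr A W z z) t).re / 576 +
        ‖β‖ ^ 2 / 576 ^ 2 * ‖tz h (Gr A W z z) t‖ ^ 2)) nu :=
    (((integrable_const _).add (hi1.div_const _)).add (hi2.const_mul _)).const_mul _
  have hm : Measurable (fun t => Real.exp (PhE A (kickW z h W t) f / 576)) := by
    unfold PhE
    exact Real.measurable_exp.comp ((((measurable_En_kick hA hW hz f).const_mul 4).add
      (measurable_En_kick hA hW hz (fun x => f x ^ 2))).div_const _)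
  have hI : Integrable (fun t => Real.exp (PhE A (kickW z h W t) f / 576)) nu := by
    refine hi.mono' hm.aestronglyMeasurable (Filter.Eventually.of_forall fun t => ?_)
    rw [Real.norm_of_nonneg (Real.exp_pos _).le]
    exact key t
  refine ⟨hI, (integral_mono hI hi key).trans ?_⟩
  have i4 : Integrable (fun t => (1 : ℝ) + (β * tz h (Gr A W z z) t).re / 576) nu :=
    (integrable_const _).add (hi1.div_const _)
  rw [integral_const_mul, integral_add i4 (hi2.const_mul _),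
    integral_add (integrable_const _) (hi1.div_const _), integral_div,
    integral_re_mul_tz hh (hg_of hA hW hz), integral_const_mul, integral_norm_sq_tz' hA hW hh hz,
    ← hκ]
  simp only [integral_const, probReal_univ, smul_eq_mul, one_mul, zero_div, add_zero]
  have h1 : ‖β‖ ^ 2 ≤ 576 * (2 * Γ) := by
    have h2 := pow_le_pow_left₀ (norm_nonneg β) hβn 2
    rw [hΓ']
    nlinarith only [h2, sq_nonneg (48 * b - 18 * g), sq_nonneg g]
  have h2 : 1 + ‖β‖ ^ 2 / 576 ^ 2 * κ ≤ Real.exp (2 * κ * Γ / 576) := by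
    refine le_trans ?_ (Real.add_one_le_exp _)
    have h3 := mul_le_mul_of_nonneg_right h1 hκ0.le
    nlinarith only [h3]
  calc c0 * (1 + ‖β‖ ^ 2 / 576 ^ 2 * κ) ≤ c0 * Real.exp (2 * κ * Γ / 576) :=
        mul_le_mul_of_nonneg_left h2 hc0p.le
    _ = Real.exp (PhE A W f / 576) := by
        rw [hc0, ← Real.exp_add]
        congr 1
        ring

end P365T2
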