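import Vale.Agent.P365.T2.OneDet905

/-!
# P365-T2, ONE: the linear forms `(om)` and `(det)` (helper905)
-/

open Finset

namespace P365T2.H905

variable {ι κ : Type*} [Fintype ι] [Fintype κ]

open Classical in
/-- energy of the mobile rows times the mass of their weak or bad partners -/
noncomputable def Om (D : Dat ι κ) (Mv Z : Finset ι) (θ ε : ℝ) : ℝ :=
  ∑ v ∈ D.mob Mv θ, D.om v * (D.pw v * D.V v) *
    ∑ x, (if x ∈ Z ∨ D.kap v x < ε then D.P v x else 0)

theorem Dat.En_eq (D : Dat ι κ) : D.En = ∑ v, D.pw v * D.V v := by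
  unfold Dat.En Dat.V Dat.pw Dat.P
  apply Finset.sum_congr rfl
  intro x _
  rw [Finset.mul_sum]
  apply Finset.sum_congr rfl
  intro y _
  have := (D.hm x).ne'
  field_simp

theorem Dat.MobE_le_En (D : Dat ι κ) (Mv : Finset ι) (θ : ℝ) : D.MobE Mv θ ≤ D.En := by
  rw [D.En_eq]
  unfold Dat.MobE
  calc ∑ v ∈ D.mob Mv θ, D.om v * (D.pw v * D.V v) ≤ ∑ v ∈ D.mob Mv θ, D.pw v * D.V v := by
        apply Finset.sum_le_sum
        intro v _
        have := mul_nonneg (D.pw_pos v).le (D.V_nonneg v)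
        have := D.hom1 v
        nlinarith
    _ ≤ _ := Finset.sum_le_sum_of_subset_of_nonneg (Finset.subset_univ _)
        fun v _ _ => mul_nonneg (D.pw_pos v).le (D.V_nonneg v)

namespace Ker

noncomputable section

variable {σ : Type*} {Cs : ℝ} {D : Dat ι κ} (k : Ker D σ Cs)

open Classical in
/-- mobile flux at heavy places, all scales -/
def BH (Mv : Finset ι) (c1 : ℝ) (Hv : σ → ι → Prop) : ℝ :=
  ∑ s ∈ k.Sc, k.rad s ^ 2 * ∑ v ∈ Mv.filter (fun v => c1 ≤ k.u s v),
    if Hv s v then D.om v * D.pw v else 0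

open Classical in
theorem BH_nonneg {Mv : Finset ι} {c1 : ℝ} {Hv : σ → ι → Prop} : 0 ≤ k.BH Mv c1 Hv := by
  unfold BH
  refine Finset.sum_nonneg fun s _ => mul_nonneg (sq_nonneg _) (Finset.sum_nonneg fun v _ => ?_)
  split_ifs
  · exact mul_nonneg (D.hom0 v) (D.pw_pos v).le
  · exact le_rfl

open Classical in
/-- **(om)**: the weak or bad partners of the mobile rows -/
theorem om_le {Mv Z : Finset ι} {θ c1 : ℝ} {sv : ι → σ} {pos : ℝ → ℝ → ℝ}
    {q0 L CF M ε : ℝ} (hθ : 0 < θ) (hC : 0 < CF) (hM : 0 < M) (hq : 0 < q0) (hL : 0 < L)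
    (hε : 0 < ε) (hεh : ε ≤ 1 / 2) (hsv : k.Scl Mv θ c1 sv)
    (hp0 : ∀ a b, 0 ≤ a → 0 ≤ b → 0 ≤ pos a b)
    (hp : ∀ a b, c1 ≤ a → 0 ≤ b → b ≤ q0 → M ≤ pos a b) (Hv : σ → ι → Prop)
    (hHv : ∀ s ∈ k.Sc, ∀ v, CF < ∑ x ∈ univ.filter (fun x => D.dd v x ≤ L * k.rad s),
      D.pw x * k.u s x → Hv s v) :
    Om D Mv Z θ ε ≤ 4 / (θ * M) * k.Pos pos Mv + 2 / L * D.En + 4 * Cs / (θ * q0) * BadE D Z
        + 2 * ε * CF / q0 * D.En + 4 / θ * k.BH Mv c1 Hv := by
  set Q : σ → ι → ℝ := fun r v => ∑ x ∈ univ.filter (fun x => k.u r x ≤ q0), D.P v x with hQ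
  set B : σ → ι → ℝ := fun r v => ∑ x ∈ Z.filter (fun x => q0 < k.u r x), D.P v x with hB
  have hQ0 : ∀ r v, 0 ≤ Q r v := fun r v => Finset.sum_nonneg fun x _ => D.P_nonneg v x
  have hB0 : ∀ r v, 0 ≤ B r v := fun r v => Finset.sum_nonneg fun x _ => D.P_nonneg v x
  have hop : ∀ v, 0 ≤ D.om v * D.pw v := fun v => mul_nonneg (D.hom0 v) (D.pw_pos v).le
  set hv : σ → ι → ℝ := fun r v => if Hv r v then 1 else 0 with hhv
  have hv0 : ∀ r v, 0 ≤ hv r v := fun r v => by simp only [hhv]; split_ifs <;> norm_num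
  -- rows
  have h1 : Om D Mv Z θ ε ≤ ∑ v ∈ D.mob Mv θ,
        (4 / θ * (k.rad (sv v) ^ 2 * (D.om v * D.pw v * Q (sv v) v))
          + 4 / θ * (k.rad (sv v) ^ 2 * (D.om v * D.pw v * B (sv v) v))
          + 4 / θ * (k.rad (sv v) ^ 2 * (D.om v * D.pw v * hv (sv v) v))
          + (2 / L + 2 * ε * CF / q0) * (D.om v * (D.pw v * D.V v))) := by
    unfold Om
    apply Finset.sum_le_sum
    intro v hvm
    have hv1 := hsv v hvm
    have hv2 := (Finset.mem_filter.1 hvm).2
    have hV := D.V_le hθ hv2.2 hv1.2.1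
    have hVr : 0 ≤ k.rad (sv v) ^ 2 := sq_nonneg _
    have hr := k.hr _ hv1.1
    have hl : 0 < D.l v := by
      have h1 : 0 < D.l v ^ 2 := lt_of_lt_of_le (mul_pos hθ hv2.1) hv2.2
      have h2 := D.l_nonneg v
      rcases h2.lt_or_eq with h | h
      · exact h
      · rw [← h] at h1; norm_num at h1
    have hE0 : 0 ≤ D.om v * (D.pw v * D.V v) :=
      mul_nonneg (D.hom0 v) (mul_nonneg (D.pw_pos v).le (D.V_nonneg v))
    have h3 : D.om v * (D.pw v * D.V v)
        ≤ D.om v * D.pw v * (4 / θ * k.rad (sv v) ^ 2) := by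
      rw [← mul_assoc]
      exact mul_le_mul_of_nonneg_left hV (hop v)
    -- the mass
    have hfar : ∑ x ∈ univ.filter (fun x => L * k.rad (sv v) < D.dd v x), D.P v x ≤ 2 / L := by
      have h4 := D.markov hl (L := L / 2) (by positivity)
      rw [one_div_div] at h4
      refine le_trans ?_ h4
      apply Finset.sum_le_sum_of_subset_of_nonneg
      · intro x hx
        have hx' := (Finset.mem_filter.1 hx).2
        refine Finset.mem_filter.2 ⟨Finset.mem_univ _, ?_⟩
        have h6 : L / 2 * D.l v ≤ L / 2 * (2 * k.rad (sv v)) :=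
          mul_le_mul_of_nonneg_left hv1.2.1 (by positivity)
        have h7 : L / 2 * (2 * k.rad (sv v)) = L * k.rad (sv v) := by ring
        linarith
      · intro x _ _; exact D.P_nonneg v x
    have hmass1 : ∑ x, (if x ∈ Z ∨ D.kap v x < ε then D.P v x else 0) ≤ 1 := by
      rw [← D.sum_P v]
      apply Finset.sum_le_sum
      intro x _
      have := D.P_nonneg v x
      split_ifs <;> linarith
    have hmass : ∑ x, (if x ∈ Z ∨ D.kap v x < ε then D.P v x else 0)
        ≤ Q (sv v) v + B (sv v) v + hv (sv v) v + (2 / L + 2 * ε * CF / q0) := by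
      have hQn := hQ0 (sv v) v
      have hBn := hB0 (sv v) v
      by_cases hH : Hv (sv v) v
      · have h8 : hv (sv v) v = 1 := by simp only [hhv]; rw [if_pos hH]
        have h9 : 0 ≤ 2 / L + 2 * ε * CF / q0 := by positivity
        rw [h8]
        linarith
      · have h8 : hv (sv v) v = 0 := by simp only [hhv]; rw [if_neg hH]
        have h9 : ∑ x ∈ univ.filter (fun x => D.dd v x ≤ L * k.rad (sv v)),
            D.pw x * k.u (sv v) x ≤ CF := by
          by_contra hcon
          exact hH (hHv _ hv1.1 v (not_le.1 hcon))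
        have h10 := k.weak_le (v := v) (s := sv v) (R := L * k.rad (sv v)) Z hq hε hεh
        have h11 : 2 * ε / q0 * ∑ x ∈ univ.filter (fun x => D.dd v x ≤ L * k.rad (sv v)),
            D.pw x * k.u (sv v) x ≤ 2 * ε * CF / q0 := by
          calc 2 * ε / q0 * ∑ x ∈ univ.filter (fun x => D.dd v x ≤ L * k.rad (sv v)),
                D.pw x * k.u (sv v) x
              ≤ 2 * ε / q0 * CF := mul_le_mul_of_nonneg_left h9 (by positivity)
            _ = 2 * ε * CF / q0 := by ring
        rw [h8]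
        have h12 : ∑ x ∈ univ.filter (fun x => k.u (sv v) x ≤ q0), D.P v x = Q (sv v) v := rfl
        have h13 : ∑ x ∈ Z.filter (fun x => q0 < k.u (sv v) x), D.P v x = B (sv v) v := rfl
        rw [h12, h13] at h10
        linarith
    have h14 := mul_le_mul_of_nonneg_left hmass hE0
    have h15 : D.om v * (D.pw v * D.V v) * (Q (sv v) v + B (sv v) v + hv (sv v) v)
        ≤ D.om v * D.pw v * (4 / θ * k.rad (sv v) ^ 2) *
          (Q (sv v) v + B (sv v) v + hv (sv v) v) := by
      apply mul_le_mul_of_nonneg_right h3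
      have := hQ0 (sv v) v
      have := hB0 (sv v) v
      have := hv0 (sv v) v
      linarith
    have h16 : D.om v * (D.pw v * D.V v) * (Q (sv v) v + B (sv v) v + hv (sv v) v
        + (2 / L + 2 * ε * CF / q0)) = D.om v * (D.pw v * D.V v) *
          (Q (sv v) v + B (sv v) v + hv (sv v) v)
          + (2 / L + 2 * ε * CF / q0) * (D.om v * (D.pw v * D.V v)) := by ring
    have h17 : D.om v * D.pw v * (4 / θ * k.rad (sv v) ^ 2) *
          (Q (sv v) v + B (sv v) v + hv (sv v) v)
        = 4 / θ * (k.rad (sv v) ^ 2 * (D.om v * D.pw v * Q (sv v) v))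
          + 4 / θ * (k.rad (sv v) ^ 2 * (D.om v * D.pw v * B (sv v) v))
          + 4 / θ * (k.rad (sv v) ^ 2 * (D.om v * D.pw v * hv (sv v) v)) := by ring
    linarith
  have h2 : ∑ v ∈ D.mob Mv θ, k.rad (sv v) ^ 2 * (D.om v * D.pw v * Q (sv v) v)
      ≤ 1 / M * k.Pos pos Mv := by
    refine le_trans (k.fib hsv (fun r v => k.rad r ^ 2 * (D.om v * D.pw v * Q r v))
      (fun r v => mul_nonneg (sq_nonneg _) (mul_nonneg (hop v) (hQ0 r v)))) ?_
    rw [Pos, Finset.mul_sum]
    apply Finset.sum_le_sum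
    intro r hr
    rw [← Finset.mul_sum]
    have h3 : ∑ v ∈ Mv.filter (fun v => c1 ≤ k.u r v), D.om v * D.pw v * Q r v
        ≤ 1 / M * ∑ v ∈ Mv, D.om v * D.pw v * ∑ x, D.P v x * pos (k.u r v) (k.u r x) := by
      rw [Finset.mul_sum]
      calc ∑ v ∈ Mv.filter (fun v => c1 ≤ k.u r v), D.om v * D.pw v * Q r v
          ≤ ∑ v ∈ Mv.filter (fun v => c1 ≤ k.u r v),
              1 / M * (D.om v * D.pw v * ∑ x, D.P v x * pos (k.u r v) (k.u r x)) := by
            apply Finset.sum_le_sum
            intro v hv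
            have hv' := (Finset.mem_filter.1 hv).2
            have h4 : M * Q r v ≤ ∑ x, D.P v x * pos (k.u r v) (k.u r x) := by
              rw [hQ]
              simp only
              rw [Finset.mul_sum]
              calc ∑ x ∈ univ.filter (fun x => k.u r x ≤ q0), M * D.P v x
                  ≤ ∑ x ∈ univ.filter (fun x => k.u r x ≤ q0),
                      D.P v x * pos (k.u r v) (k.u r x) := by
                    apply Finset.sum_le_sum
                    intro x hx
                    have hx' := (Finset.mem_filter.1 hx).2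
                    rw [mul_comm M]
                    exact mul_le_mul_of_nonneg_left (hp _ _ hv' (k.u_nonneg r x) hx')
                      (D.P_nonneg v x)
                _ ≤ _ := Finset.sum_le_sum_of_subset_of_nonneg (Finset.filter_subset _ _)
                    fun x _ _ => mul_nonneg (D.P_nonneg v x)
                      (hp0 _ _ (k.u_nonneg r v) (k.u_nonneg r x))
            have h5 : Q r v ≤ 1 / M * ∑ x, D.P v x * pos (k.u r v) (k.u r x) := by
              rw [div_mul_eq_mul_div, le_div_iff₀ hM]; linarith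
            calc D.om v * D.pw v * Q r v
                ≤ D.om v * D.pw v * (1 / M * ∑ x, D.P v x * pos (k.u r v) (k.u r x)) :=
                  mul_le_mul_of_nonneg_left h5 (hop v)
              _ = _ := by ring
        _ ≤ _ := Finset.sum_le_sum_of_subset_of_nonneg (Finset.filter_subset _ _)
            fun v _ _ => mul_nonneg (by positivity) (mul_nonneg (hop v)
              (Finset.sum_nonneg fun x _ => mul_nonneg (D.P_nonneg v x)
                (hp0 _ _ (k.u_nonneg r v) (k.u_nonneg r x))))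
    calc k.rad r ^ 2 * ∑ v ∈ Mv.filter (fun v => c1 ≤ k.u r v), D.om v * D.pw v * Q r v
        ≤ k.rad r ^ 2 * (1 / M * ∑ v ∈ Mv, D.om v * D.pw v *
            ∑ x, D.P v x * pos (k.u r v) (k.u r x)) :=
          mul_le_mul_of_nonneg_left h3 (sq_nonneg _)
      _ = _ := by ring
  have h3 : ∑ v ∈ D.mob Mv θ, k.rad (sv v) ^ 2 * (D.om v * D.pw v * hv (sv v) v)
      ≤ k.BH Mv c1 Hv := by
    refine le_trans (k.fib hsv (fun r v => k.rad r ^ 2 * (D.om v * D.pw v * hv r v))
      (fun r v => mul_nonneg (sq_nonneg _) (mul_nonneg (hop v) (hv0 r v)))) ?_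
    rw [BH]
    apply le_of_eq
    apply Finset.sum_congr rfl
    intro r hr
    rw [Finset.mul_sum]
    apply Finset.sum_congr rfl
    intro v _
    simp only [hhv]
    split_ifs <;> simp
  have h4 : ∑ v ∈ D.mob Mv θ, k.rad (sv v) ^ 2 * (D.om v * D.pw v * B (sv v) v)
      ≤ Cs / q0 * BadE D Z := by
    refine le_trans (k.fib hsv (fun r v => k.rad r ^ 2 * (D.om v * D.pw v * B r v))
      (fun r v => mul_nonneg (sq_nonneg _) (mul_nonneg (hop v) (hB0 r v)))) ?_
    have h5 : ∀ r ∈ k.Sc, ∑ v ∈ Mv.filter (fun v => c1 ≤ k.u r v),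
        k.rad r ^ 2 * (D.om v * D.pw v * B r v)
        ≤ ∑ z ∈ Z, 1 / q0 * (D.pw z * (k.rad r ^ 2 * k.u r z)) := by
      intro r hr
      calc ∑ v ∈ Mv.filter (fun v => c1 ≤ k.u r v), k.rad r ^ 2 * (D.om v * D.pw v * B r v)
          ≤ ∑ v, k.rad r ^ 2 * (D.pw v * B r v) := by
            refine le_trans (Finset.sum_le_sum_of_subset_of_nonneg (Finset.subset_univ _)
              fun v _ _ => mul_nonneg (sq_nonneg _) (mul_nonneg (hop v) (hB0 r v))) ?_
            apply Finset.sum_le_sum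
            intro v _
            apply mul_le_mul_of_nonneg_left _ (sq_nonneg _)
            apply mul_le_mul_of_nonneg_right _ (hB0 r v)
            have := D.hom1 v
            have := (D.pw_pos v).le
            nlinarith
        _ = ∑ z ∈ Z.filter (fun x => q0 < k.u r x), k.rad r ^ 2 * (D.pw z * ∑ v, D.P z v) := by
            simp only [hB, Finset.mul_sum]
            rw [Finset.sum_comm]
            apply Finset.sum_congr rfl
            intro z _
            apply Finset.sum_congr rfl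
            intro v _
            rw [D.rev v z]
        _ ≤ ∑ z ∈ Z.filter (fun x => q0 < k.u r x),
              1 / q0 * (D.pw z * (k.rad r ^ 2 * k.u r z)) := by
            apply Finset.sum_le_sum
            intro z hz
            have hz' := (Finset.mem_filter.1 hz).2
            rw [D.sum_P, mul_one]
            have h6 : 1 ≤ 1 / q0 * k.u r z := by
              rw [div_mul_eq_mul_div, le_div_iff₀ hq]; linarith
            have h7 : 0 ≤ k.rad r ^ 2 * D.pw z := mul_nonneg (sq_nonneg _) (D.pw_pos z).le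
            have h8 := mul_le_mul_of_nonneg_left h6 h7
            calc k.rad r ^ 2 * D.pw z = k.rad r ^ 2 * D.pw z * 1 := (mul_one _).symm
              _ ≤ _ := h8
              _ = _ := by ring
        _ ≤ _ := Finset.sum_le_sum_of_subset_of_nonneg (Finset.filter_subset _ _)
            fun z _ _ => mul_nonneg (by positivity) (mul_nonneg (D.pw_pos z).le
              (mul_nonneg (sq_nonneg _) (k.u_nonneg r z)))
    refine le_trans (Finset.sum_le_sum h5) ?_
    rw [Finset.sum_comm, BadE, Finset.mul_sum]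
    apply Finset.sum_le_sum
    intro z _
    rw [← Finset.mul_sum, ← Finset.mul_sum]
    have h6 : ∑ r ∈ k.Sc, k.rad r ^ 2 * k.u r z ≤ Cs * D.V z := by
      calc ∑ r ∈ k.Sc, k.rad r ^ 2 * k.u r z
          = ∑ y, D.P z y * ∑ r ∈ k.Sc, k.rad r ^ 2 * k.w r z y := by
            simp only [u, Finset.mul_sum]
            rw [Finset.sum_comm]
            apply Finset.sum_congr rfl
            intro y _
            apply Finset.sum_congr rfl
            intro r _
            ring
        _ ≤ ∑ y, D.P z y * (Cs * D.d2 z y) := by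
            apply Finset.sum_le_sum
            intro y _
            exact mul_le_mul_of_nonneg_left (k.hs z y) (D.P_nonneg z y)
        _ = _ := by
            unfold Dat.V
            rw [Finset.mul_sum]
            apply Finset.sum_congr rfl
            intro y _
            ring
    calc 1 / q0 * (D.pw z * ∑ r ∈ k.Sc, k.rad r ^ 2 * k.u r z)
        ≤ 1 / q0 * (D.pw z * (Cs * D.V z)) := by
          apply mul_le_mul_of_nonneg_left _ (by positivity)
          exact mul_le_mul_of_nonneg_left h6 (D.pw_pos z).le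
      _ = _ := by ring
  have h5 : 4 / θ * (1 / M * k.Pos pos Mv) = 4 / (θ * M) * k.Pos pos Mv := by
    field_simp
  have h6 : 4 / θ * (Cs / q0 * BadE D Z) = 4 * Cs / (θ * q0) * BadE D Z := by
    field_simp
  have e1 := mul_le_mul_of_nonneg_left h2 (show 0 ≤ 4 / θ by positivity)
  have e2 := mul_le_mul_of_nonneg_left h4 (show 0 ≤ 4 / θ by positivity)
  have e3 := mul_le_mul_of_nonneg_left h3 (show 0 ≤ 4 / θ by positivity)
  have e4 : (2 / L + 2 * ε * CF / q0) * D.MobE Mv θ ≤ (2 / L + 2 * ε * CF / q0) * D.En :=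
    mul_le_mul_of_nonneg_left (D.MobE_le_En Mv θ) (by positivity)
  have e5 : (2 / L + 2 * ε * CF / q0) * D.En = 2 / L * D.En + 2 * ε * CF / q0 * D.En := by ring
  rw [Finset.sum_add_distrib, Finset.sum_add_distrib, Finset.sum_add_distrib, ← Finset.mul_sum,
    ← Finset.mul_sum, ← Finset.mul_sum, ← Finset.mul_sum] at h1
  have e6 : ∑ v ∈ D.mob Mv θ, D.om v * (D.pw v * D.V v) = D.MobE Mv θ := rfl
  rw [e6] at h1
  linarith

end

end Ker

namespace Ker

open Classical in
/-- the energy of the good rows by the static step -/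
theorem good_le2 {D : Dat ι κ} {T2 : κ → ι → ι → ℝ} {mu2 : κ → ι → ℝ} {Mv Z : Finset ι} {θ : ℝ}
    {dlt2 ε1 ε2 : ℝ} (hθ : 0 < θ) (hd2 : 0 < dlt2) (hε1 : 0 < ε1) (hε2 : 0 < ε2)
    (hT2 : ∀ j u x, 0 ≤ T2 j u x) (hTE : ∑ j, ∑ w, ∑ x, D.e w * D.e x * T2 j w x ≤ D.En / 4)
    (hst : StatH D T2 mu2) :
    ∑ v ∈ (D.mob Mv θ).filter (fun v => v ∉ Z ∧
        ∑ x, (if x ∈ Z ∨ D.kap v x < ε1 then D.P v x else 0) ≤ θ / 8 ∧
        ∑ x, (if x ∈ Z ∨ D.kap v x < ε2 then D.P v x else 0) ≤ dlt2), D.om v * (D.pw v * D.V v)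
      ≤ 32 / θ ^ 2 * (144 * (JS D T2 Z ε1 / ε1 + MS D mu2 Z + LamS D T2 Z ε1 ε2 / (ε1 * ε2)
        + dlt2 / ε1 * (D.En / 4))) := by
  set G := (D.mob Mv θ).filter (fun v => v ∉ Z ∧
        ∑ x, (if x ∈ Z ∨ D.kap v x < ε1 then D.P v x else 0) ≤ θ / 8 ∧
        ∑ x, (if x ∈ Z ∨ D.kap v x < ε2 then D.P v x else 0) ≤ dlt2) with hG
  have hG1 : ∀ v ∈ G, v ∈ D.mob Mv θ ∧ v ∉ Z ∧
        ∑ x, (if x ∈ Z ∨ D.kap v x < ε1 then D.P v x else 0) ≤ θ / 8 ∧
        ∑ x, (if x ∈ Z ∨ D.kap v x < ε2 then D.P v x else 0) ≤ dlt2 := fun v hv => Finset.mem_filter.1 hv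
  set R : ι → ι → Prop := fun u x => u ∈ G ∧ x ∉ Z ∧ u ≠ x ∧ ε1 ≤ D.kap u x with hR
  set St : ι → ι → Prop := fun w u => w ∉ Z ∧ ε2 ≤ D.kap w u with hSt
  have hee : ∀ u x, 0 ≤ D.e u * D.e x := fun u x => mul_nonneg (D.he u).le (D.he x).le
  -- step 1: good rows against the energy of `R`
  have h1 : ∑ v ∈ G, D.om v * (D.pw v * D.V v)
      ≤ 32 / θ ^ 2 * ∑ j, ∑ u, ∑ x,
        (if R u x then D.e u * D.e x * ((D.a j u - D.a j x) ^ 2 * D.K u x) else 0) := by
    have h2 : ∀ v ∈ G, D.om v * (D.pw v * D.V v)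
        ≤ 32 / θ ^ 2 * ∑ x, (if R v x then D.e v * D.e x * (D.d2 v x * D.K v x) else 0) := by
      intro v hv
      obtain ⟨g1, g2, g3, g4⟩ := hG1 v hv
      have g5 := (Finset.mem_filter.1 g1).2
      have hw := g3
      have h3 := D.row_good (fun x => x ∈ Z ∨ D.kap v x < ε1) hθ g5.1 g5.2
        hw
      have h4 : D.pw v * ∑ x, (if x ∈ Z ∨ D.kap v x < ε1 then 0 else D.P v x * D.d2 v x)
          ≤ ∑ x, (if R v x then D.e v * D.e x * (D.d2 v x * D.K v x) else 0) := by
        rw [Finset.mul_sum]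
        apply Finset.sum_le_sum
        intro x _
        by_cases hx : R v x
        · rw [if_pos hx]
          have hx2 : ¬ (x ∈ Z ∨ D.kap v x < ε1) := by
            rintro (h | h)
            · exact hx.2.1 h
            · exact absurd hx.2.2.2 (not_le.2 h)
          rw [if_neg hx2]
          apply le_of_eq
          unfold Dat.pw Dat.P
          have := (D.hm v).ne'
          field_simp
        · rw [if_neg hx]
          by_cases hx2 : x ∈ Z ∨ D.kap v x < ε1
          · rw [if_pos hx2, mul_zero]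
          · rw [if_neg hx2]
            push Not at hx2
            have hvx : v = x := by
              by_contra hne
              exact hx ⟨hv, hx2.1, hne, hx2.2⟩
            rw [← hvx, D.d2_self]
            simp
      have h5 : D.pw v * D.V v ≤ 32 / θ ^ 2 * (D.pw v *
          ∑ x, (if x ∈ Z ∨ D.kap v x < ε1 then 0 else D.P v x * D.d2 v x)) := by
        have h6 := mul_le_mul_of_nonneg_left h3 (D.pw_pos v).le
        have h7 := mul_le_mul_of_nonneg_left h6 (show 0 ≤ 32 / θ ^ 2 by positivity)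
        have h8 : 32 / θ ^ 2 * (D.pw v * (θ ^ 2 / 32 * D.V v)) = D.pw v * D.V v := by
          field_simp
        rw [h8] at h7
        exact h7
      have h6 : D.om v * (D.pw v * D.V v) ≤ D.pw v * D.V v := by
        have := mul_nonneg (D.pw_pos v).le (D.V_nonneg v)
        nlinarith [D.hom1 v]
      have h7 := mul_le_mul_of_nonneg_left h4 (show 0 ≤ 32 / θ ^ 2 by positivity)
      linarith
    refine le_trans (Finset.sum_le_sum h2) ?_
    rw [← Finset.mul_sum]
    apply mul_le_mul_of_nonneg_left _ (by positivity)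
    calc ∑ v ∈ G, ∑ x, (if R v x then D.e v * D.e x * (D.d2 v x * D.K v x) else 0)
        ≤ ∑ v, ∑ x, (if R v x then D.e v * D.e x * (D.d2 v x * D.K v x) else 0) := by
          apply Finset.sum_le_sum_of_subset_of_nonneg (Finset.subset_univ _)
          intro v _ _
          apply Finset.sum_nonneg
          intro x _
          split_ifs
          · exact mul_nonneg (hee v x) (mul_nonneg (D.d2_nonneg v x) (D.hK v x))
          · exact le_rfl
      _ = ∑ j, ∑ u, ∑ x,
        (if R u x then D.e u * D.e x * ((D.a j u - D.a j x) ^ 2 * D.K u x) else 0) := by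
          rw [Finset.sum_comm]
          rw [Finset.sum_comm (s := (univ : Finset κ))]
          rw [Finset.sum_comm]
          apply Finset.sum_congr rfl
          intro v _
          rw [Finset.sum_comm]
          apply Finset.sum_congr rfl
          intro x _
          by_cases hx : R v x
          · simp only [if_pos hx]
            unfold Dat.d2
            rw [Finset.sum_mul, Finset.mul_sum]
          · simp only [if_neg hx, Finset.sum_const_zero]
  -- step 2: the static step
  have h2 : ∀ j, ∑ u, ∑ x,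
      (if R u x then D.e u * D.e x * ((D.a j u - D.a j x) ^ 2 * D.K u x) else 0)
      ≤ 144 * ((∑ u, ∑ x, if R u x then D.e u * D.e x * (D.kap u x * T2 j u x) else 0) / ε1 +
        (∑ x, if x ∉ Z then D.e x * (D.m x * mu2 j x) else 0) +
        (∑ w, ∑ x, if w ≠ x then D.e w * D.e x * (T2 j w x *
          ∑ u, if R u x ∧ St w u ∧ u ≠ w then
            D.e u * D.m u * (D.kap w u * D.kap u x) else 0) else 0) / (ε1 * ε2) +
        dlt2 / ε1 * ∑ w, ∑ x, if x ∉ Z then D.e w * D.e x * T2 j w x else 0) := by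
    intro j
    apply hst j R St (fun x => x ∉ Z) ε1 ε2 dlt2 hε1 hε2 hd2
    · intro u x h; exact h.2.1
    · intro u x h; exact h.2.2.1
    · intro u x h; exact h.2.2.2
    · intro u x w _ h; exact h.2
    · intro u x h
      obtain ⟨g1, g2, g3, g4⟩ := hG1 u h.1
      have hw := g4
      refine le_trans (le_of_eq ?_) hw
      rw [← Finset.sum_filter]
      apply Finset.sum_congr _ (fun _ _ => rfl)
      ext w
      simp only [Finset.mem_filter, Finset.mem_univ, true_and, hSt, not_and_or, not_not, not_le,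
        D.kap_symm w u]
  refine le_trans h1 ?_
  apply mul_le_mul_of_nonneg_left _ (by positivity)
  refine le_trans (Finset.sum_le_sum fun j _ => h2 j) ?_
  rw [← Finset.mul_sum]
  apply mul_le_mul_of_nonneg_left _ (by norm_num)
  rw [Finset.sum_add_distrib, Finset.sum_add_distrib, Finset.sum_add_distrib,
    ← Finset.sum_div, ← Finset.sum_div, ← Finset.mul_sum]
  have hkk : ∀ u x, 0 ≤ D.kap u x := D.kap_nonneg
  have hJ : ∑ j, ∑ u, ∑ x, (if R u x then D.e u * D.e x * (D.kap u x * T2 j u x) else 0)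
      ≤ JS D T2 Z ε1 := by
    unfold JS
    refine Finset.sum_le_sum fun j _ => Finset.sum_le_sum fun u _ =>
      Finset.sum_le_sum fun x _ => ?_
    have hnn : 0 ≤ D.e u * D.e x * (D.kap u x * T2 j u x) :=
      mul_nonneg (hee u x) (mul_nonneg (hkk u x) (hT2 j u x))
    by_cases hx : R u x
    · rw [if_pos hx, if_pos ⟨(hG1 u hx.1).2.1, hx.2.1, hx.2.2.1, hx.2.2.2⟩]
    · rw [if_neg hx]; split_ifs
      · exact hnn
      · exact le_rfl
  have hL : ∑ j, ∑ w, ∑ x, (if w ≠ x then D.e w * D.e x * (T2 j w x *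
          ∑ u, if R u x ∧ St w u ∧ u ≠ w then
            D.e u * D.m u * (D.kap w u * D.kap u x) else 0) else 0)
      ≤ LamS D T2 Z ε1 ε2 := by
    unfold LamS
    refine Finset.sum_le_sum fun j _ => Finset.sum_le_sum fun w _ =>
      Finset.sum_le_sum fun x _ => ?_
    have hnn : ∀ u, 0 ≤ D.e u * D.m u * (D.kap w u * D.kap u x) := fun u =>
      mul_nonneg (D.pw_pos u).le (mul_nonneg (hkk w u) (hkk u x))
    have hin : ∑ u, (if R u x ∧ St w u ∧ u ≠ w then
            D.e u * D.m u * (D.kap w u * D.kap u x) else 0)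
        ≤ ∑ u, (if u ∉ Z ∧ u ≠ w ∧ u ≠ x ∧ ε2 ≤ D.kap w u ∧ ε1 ≤ D.kap u x then
          D.e u * D.m u * (D.kap w u * D.kap u x) else 0) := by
      refine Finset.sum_le_sum fun u _ => ?_
      by_cases hx : R u x ∧ St w u ∧ u ≠ w
      · rw [if_pos hx, if_pos ⟨(hG1 u hx.1.1).2.1, hx.2.2, hx.1.2.2.1, hx.2.1.2, hx.1.2.2.2⟩]
      · rw [if_neg hx]; split_ifs
        · exact hnn u
        · exact le_rfl
    by_cases hwx : w ≠ x
    · rw [if_pos hwx]
      by_cases hz : w ∉ Z ∧ x ∉ Z
      · rw [if_pos ⟨hz.1, hz.2, hwx⟩]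
        apply mul_le_mul_of_nonneg_left _ (hee w x)
        exact mul_le_mul_of_nonneg_left hin (hT2 j w x)
      · have h0 : ∑ u, (if R u x ∧ St w u ∧ u ≠ w then
            D.e u * D.m u * (D.kap w u * D.kap u x) else 0) = 0 := by
          apply Finset.sum_eq_zero
          intro u _
          rw [if_neg]
          rintro ⟨h3, h4, _⟩
          exact hz ⟨h4.1, h3.2.1⟩
        rw [h0, mul_zero, mul_zero]
        rw [if_neg]
        rintro ⟨h3, h4, _⟩
        exact hz ⟨h3, h4⟩
    · rw [if_neg hwx, if_neg]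
      rintro ⟨_, _, h⟩
      exact hwx h
  have hE : ∑ j, ∑ w, ∑ x, (if x ∉ Z then D.e w * D.e x * T2 j w x else 0) ≤ D.En / 4 := by
    refine le_trans ?_ hTE
    refine Finset.sum_le_sum fun j _ => Finset.sum_le_sum fun w _ =>
      Finset.sum_le_sum fun x _ => ?_
    by_cases hx : x ∉ Z
    · rw [if_pos hx]
    · rw [if_neg hx]
      exact mul_nonneg (hee w x) (hT2 j w x)
  have e1 := div_le_div_of_nonneg_right hJ hε1.le
  have e2 := div_le_div_of_nonneg_right hL (mul_pos hε1 hε2).le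
  have e3 := mul_le_mul_of_nonneg_left hE (show 0 ≤ dlt2 / ε1 by positivity)
  unfold MS
  linarith

open Classical in
/-- **(det)**: the energy of the mobile rows by the static step, all constants free -/
theorem det_le {D : Dat ι κ} {T2 : κ → ι → ι → ℝ} {mu2 : κ → ι → ℝ} {Mv Z : Finset ι} {θ : ℝ}
    {dlt2 ε1 ε2 : ℝ} (hθ : 0 < θ) (hd2 : 0 < dlt2) (hε1 : 0 < ε1) (hε2 : 0 < ε2)
    (hT2 : ∀ j u x, 0 ≤ T2 j u x) (hTE : ∑ j, ∑ w, ∑ x, D.e w * D.e x * T2 j w x ≤ D.En / 4)
    (hst : StatH D T2 mu2) :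
    D.MobE Mv θ ≤ BadE D Z + 8 / θ * Om D Mv Z θ ε1 + 1 / dlt2 * Om D Mv Z θ ε2
      + 4608 / θ ^ 2 * (JS D T2 Z ε1 / ε1 + MS D mu2 Z + LamS D T2 Z ε1 ε2 / (ε1 * ε2)
        + dlt2 / ε1 * (D.En / 4)) := by
  have hg := good_le2 (D := D) (T2 := T2) (mu2 := mu2) (Mv := Mv) (Z := Z) (θ := θ)
    (dlt2 := dlt2) (ε1 := ε1) (ε2 := ε2) hθ hd2 hε1 hε2 hT2 hTE hst
  have e : 32 / θ ^ 2 * (144 * (JS D T2 Z ε1 / ε1 + MS D mu2 Z + LamS D T2 Z ε1 ε2 / (ε1 * ε2)
        + dlt2 / ε1 * (D.En / 4)))
      = 4608 / θ ^ 2 * (JS D T2 Z ε1 / ε1 + MS D mu2 Z + LamS D T2 Z ε1 ε2 / (ε1 * ε2)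
        + dlt2 / ε1 * (D.En / 4)) := by ring
  rw [e] at hg
  set X := 4608 / θ ^ 2 * (JS D T2 Z ε1 / ε1 + MS D mu2 Z + LamS D T2 Z ε1 ε2 / (ε1 * ε2)
        + dlt2 / ε1 * (D.En / 4)) with hX
  clear_value X
  have hf0 : ∀ v, 0 ≤ D.om v * (D.pw v * D.V v) := fun v =>
    mul_nonneg (D.hom0 v) (mul_nonneg (D.pw_pos v).le (D.V_nonneg v))
  have hw0 : ∀ v ε, 0 ≤ ∑ x, (if x ∈ Z ∨ D.kap v x < ε then D.P v x else 0) := fun v ε =>
    Finset.sum_nonneg fun x _ => by
      split_ifs
      · exact D.P_nonneg v x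
      · exact le_rfl
  have hsplit : D.MobE Mv θ ≤ ∑ v ∈ (D.mob Mv θ).filter (fun v => v ∈ Z),
        D.om v * (D.pw v * D.V v)
      + 8 / θ * Om D Mv Z θ ε1 + 1 / dlt2 * Om D Mv Z θ ε2
      + ∑ v ∈ (D.mob Mv θ).filter (fun v => v ∉ Z ∧
        ∑ x, (if x ∈ Z ∨ D.kap v x < ε1 then D.P v x else 0) ≤ θ / 8 ∧
        ∑ x, (if x ∈ Z ∨ D.kap v x < ε2 then D.P v x else 0) ≤ dlt2),
          D.om v * (D.pw v * D.V v) := by
    unfold Dat.MobE Om
    rw [Finset.sum_filter, Finset.sum_filter, Finset.mul_sum, Finset.mul_sum,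
      ← Finset.sum_add_distrib, ← Finset.sum_add_distrib, ← Finset.sum_add_distrib]
    apply Finset.sum_le_sum
    intro v _
    have h0 := hf0 v
    have w1 := hw0 v ε1
    have w2 := hw0 v ε2
    set f := D.om v * (D.pw v * D.V v) with hf
    set W1 := ∑ x, (if x ∈ Z ∨ D.kap v x < ε1 then D.P v x else 0) with hW1
    set W2 := ∑ x, (if x ∈ Z ∨ D.kap v x < ε2 then D.P v x else 0) with hW2
    clear_value f W1 W2
    have t1 : 0 ≤ 8 / θ * (f * W1) := by positivity
    have t2 : 0 ≤ 1 / dlt2 * (f * W2) := by positivity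
    by_cases h1 : v ∈ Z
    · rw [if_pos h1]
      split_ifs <;> linarith
    · rw [if_neg h1]
      by_cases h2 : W1 ≤ θ / 8
      · by_cases h3 : W2 ≤ dlt2
        · rw [if_pos ⟨h1, h2, h3⟩]
          linarith
        · have h4 : f ≤ 1 / dlt2 * (f * W2) := by
            rw [div_mul_eq_mul_div, le_div_iff₀ hd2]
            nlinarith [not_le.1 h3]
          split_ifs <;> linarith
      · have h4 : f ≤ 8 / θ * (f * W1) := by
          rw [div_mul_eq_mul_div, le_div_iff₀ hθ]
          nlinarith [not_le.1 h2]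
        split_ifs <;> linarith
  have hZ : ∑ v ∈ (D.mob Mv θ).filter (fun v => v ∈ Z), D.om v * (D.pw v * D.V v)
      ≤ BadE D Z := by
    unfold BadE
    calc ∑ v ∈ (D.mob Mv θ).filter (fun v => v ∈ Z), D.om v * (D.pw v * D.V v)
        ≤ ∑ v ∈ Z, D.om v * (D.pw v * D.V v) := by
          apply Finset.sum_le_sum_of_subset_of_nonneg
          · intro v hv; exact (Finset.mem_filter.1 hv).2
          · intro v _ _; exact hf0 v
      _ ≤ _ := by
          apply Finset.sum_le_sum
          intro v _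
          have := mul_nonneg (D.pw_pos v).le (D.V_nonneg v)
          have := D.hom1 v
          nlinarith
  linarith

end Ker

end P365T2.H905
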