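import Mathlib

/-!
# P365-T2, 213's ONE: the deterministic assembly (helper905)

At one state (finite matrices, one potential): the energy carried by the mobile rows is bounded by
`A * (J + M2 + Lam) + rho * (En + Pos + FN)`.
-/

open Finset

namespace P365T2.H905

/-- one state: absorptions `e`, `m = Im G_xx`, `K = |G|^2`, positions `a k`, row weights `om` -/
structure Dat (ι κ : Type*) [Fintype ι] where
  e : ι → ℝ
  m : ι → ℝ
  K : ι → ι → ℝ
  a : κ → ι → ℝ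
  om : ι → ℝ
  he : ∀ x, 0 < e x
  hm : ∀ x, 0 < m x
  hK : ∀ x y, 0 ≤ K x y
  hsym : ∀ x y, K x y = K y x
  hW : ∀ x, ∑ y, e y * K x y = m x
  hom0 : ∀ x, 0 ≤ om x
  hom1 : ∀ x, om x ≤ 1

variable {ι κ : Type*} [Fintype ι] [Fintype κ]

namespace Dat

noncomputable section

variable (D : Dat ι κ)

def d2 (x y : ι) : ℝ := ∑ k, (D.a k x - D.a k y) ^ 2
def dd (x y : ι) : ℝ := Real.sqrt (D.d2 x y)
def P (v x : ι) : ℝ := D.e x * D.K v x / D.m v
def pw (v : ι) : ℝ := D.e v * D.m v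
/-- the landed `P365L.kap` -/
def kap (v x : ι) : ℝ := D.K v x / (D.m v * D.m x + D.K v x)
def V (v : ι) : ℝ := ∑ x, D.P v x * D.d2 v x
def l (v : ι) : ℝ := ∑ x, D.P v x * D.dd v x

/-- the total energy `Sum e e K d^2` -/
def En : ℝ := ∑ x, ∑ y, D.e x * D.e y * D.K x y * D.d2 x y

/-- the mobile rows of a set `Mv` -/
def mob (Mv : Finset ι) (θ : ℝ) : Finset ι := Mv.filter fun v => 0 < D.V v ∧ θ * D.V v ≤ D.l v ^ 2

/-- the energy of the mobile rows -/
def MobE (Mv : Finset ι) (θ : ℝ) : ℝ := ∑ v ∈ D.mob Mv θ, D.om v * (D.pw v * D.V v)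

theorem P_nonneg (v x : ι) : 0 ≤ D.P v x :=
  div_nonneg (mul_nonneg (D.he x).le (D.hK v x)) (D.hm v).le

theorem sum_P (v : ι) : ∑ x, D.P v x = 1 := by
  unfold P
  rw [← Finset.sum_div, D.hW v, div_self (D.hm v).ne']

theorem pw_pos (v : ι) : 0 < D.pw v := mul_pos (D.he v) (D.hm v)

theorem kap_nonneg (v x : ι) : 0 ≤ D.kap v x :=
  div_nonneg (D.hK v x) (add_nonneg (mul_pos (D.hm v) (D.hm x)).le (D.hK v x))

theorem kap_symm (v x : ι) : D.kap v x = D.kap x v := by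
  unfold kap; rw [D.hsym v x, mul_comm (D.m v)]

/-- weak partners -/
theorem P_le_of_kap {v x : ι} {ε : ℝ} (hε : ε ≤ 1 / 2) (h : D.kap v x < ε) :
    D.P v x ≤ 2 * ε * D.pw x := by
  have hv := D.hm v
  have hx := D.hm x
  have hK := D.hK v x
  have he := D.he x
  have h1 : 0 < D.m v * D.m x + D.K v x := by
    have := mul_pos hv hx
    linarith
  unfold kap at h
  rw [div_lt_iff₀ h1] at h
  have h2 : D.K v x ≤ 2 * ε * (D.m v * D.m x) := by nlinarith
  unfold P pw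
  rw [div_le_iff₀ hv]
  have h3 := mul_le_mul_of_nonneg_left h2 he.le
  nlinarith

theorem d2_nonneg (x y : ι) : 0 ≤ D.d2 x y := Finset.sum_nonneg fun _ _ => sq_nonneg _

theorem d2_self (x : ι) : D.d2 x x = 0 := by simp [d2]

theorem dd_nonneg (x y : ι) : 0 ≤ D.dd x y := Real.sqrt_nonneg _

theorem dd_sq (x y : ι) : D.dd x y ^ 2 = D.d2 x y := Real.sq_sqrt (D.d2_nonneg x y)

theorem V_nonneg (v : ι) : 0 ≤ D.V v :=
  Finset.sum_nonneg fun x _ => mul_nonneg (D.P_nonneg v x) (D.d2_nonneg v x)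

theorem l_nonneg (v : ι) : 0 ≤ D.l v :=
  Finset.sum_nonneg fun x _ => mul_nonneg (D.P_nonneg v x) (D.dd_nonneg v x)

/-- Paley-Zygmund: `l^2 <= 4 V * P(d >= l/2)` -/
theorem pz (v : ι) :
    D.l v ^ 2 ≤ 4 * D.V v * ∑ x ∈ univ.filter (fun x => D.l v / 2 ≤ D.dd v x), D.P v x := by
  set s := univ.filter (fun x => D.l v / 2 ≤ D.dd v x) with hs
  have h1 : D.l v ≤ D.l v / 2 + ∑ x ∈ s, D.P v x * D.dd v x := by
    have h2 : D.l v = ∑ x ∈ univ.filter (fun x => ¬ (D.l v / 2 ≤ D.dd v x)), D.P v x * D.dd v x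
        + ∑ x ∈ s, D.P v x * D.dd v x := by
      rw [hs, add_comm, Finset.sum_filter_add_sum_filter_not]; rfl
    have h3 : ∑ x ∈ univ.filter (fun x => ¬ (D.l v / 2 ≤ D.dd v x)), D.P v x * D.dd v x
        ≤ D.l v / 2 := by
      calc ∑ x ∈ univ.filter (fun x => ¬ (D.l v / 2 ≤ D.dd v x)), D.P v x * D.dd v x
          ≤ ∑ x ∈ univ.filter (fun x => ¬ (D.l v / 2 ≤ D.dd v x)), D.P v x * (D.l v / 2) := by
            apply Finset.sum_le_sum
            intro x hx
            have := (Finset.mem_filter.1 hx).2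
            exact mul_le_mul_of_nonneg_left (by linarith) (D.P_nonneg v x)
        _ ≤ ∑ x, D.P v x * (D.l v / 2) :=
            Finset.sum_le_sum_of_subset_of_nonneg (Finset.filter_subset _ _)
              fun x _ _ => mul_nonneg (D.P_nonneg v x) (by linarith [D.l_nonneg v])
        _ = D.l v / 2 := by rw [← Finset.sum_mul, D.sum_P, one_mul]
    linarith
  have h4 : (∑ x ∈ s, D.P v x * D.dd v x) ^ 2
      ≤ (∑ x ∈ s, D.P v x) * ∑ x ∈ s, D.P v x * D.d2 v x := by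
    have := Finset.sum_mul_sq_le_sq_mul_sq s (fun x => Real.sqrt (D.P v x))
      (fun x => Real.sqrt (D.P v x) * D.dd v x)
    have e1 : ∀ x, Real.sqrt (D.P v x) * (Real.sqrt (D.P v x) * D.dd v x)
        = D.P v x * D.dd v x := by
      intro x
      rw [← mul_assoc, Real.mul_self_sqrt (D.P_nonneg v x)]
    have e2 : ∀ x, (Real.sqrt (D.P v x) * D.dd v x) ^ 2 = D.P v x * D.d2 v x := by
      intro x
      rw [mul_pow, Real.sq_sqrt (D.P_nonneg v x), D.dd_sq]
    have e3 : ∀ x, Real.sqrt (D.P v x) ^ 2 = D.P v x := fun x =>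
      Real.sq_sqrt (D.P_nonneg v x)
    simp only [e1, e2, e3] at this
    exact this
  have h5 : ∑ x ∈ s, D.P v x * D.d2 v x ≤ D.V v :=
    Finset.sum_le_sum_of_subset_of_nonneg (Finset.filter_subset _ _)
      fun x _ _ => mul_nonneg (D.P_nonneg v x) (D.d2_nonneg v x)
  have h6 : 0 ≤ ∑ x ∈ s, D.P v x := Finset.sum_nonneg fun x _ => D.P_nonneg v x
  have h7 : (D.l v / 2) ^ 2 ≤ (∑ x ∈ s, D.P v x * D.dd v x) ^ 2 :=
    pow_le_pow_left₀ (by linarith [D.l_nonneg v]) (by linarith) 2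
  have h8 : (∑ x ∈ s, D.P v x) * ∑ x ∈ s, D.P v x * D.d2 v x
      ≤ (∑ x ∈ s, D.P v x) * D.V v := mul_le_mul_of_nonneg_left h5 h6
  nlinarith

/-- the mass of a mobile row far from the row -/
theorem mass_far {v : ι} {θ : ℝ} (hV : 0 < D.V v) (h : θ * D.V v ≤ D.l v ^ 2) :
    θ / 4 ≤ ∑ x ∈ univ.filter (fun x => D.l v / 2 ≤ D.dd v x), D.P v x := by
  have h1 := D.pz v
  have h2 : θ * D.V v ≤ 4 * D.V v *
      ∑ x ∈ univ.filter (fun x => D.l v / 2 ≤ D.dd v x), D.P v x := le_trans h h1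
  have h3 : D.V v * (θ / 4) ≤ D.V v *
      ∑ x ∈ univ.filter (fun x => D.l v / 2 ≤ D.dd v x), D.P v x := by linarith
  exact le_of_mul_le_mul_left h3 hV

/-- the strong partners of a mobile row carry a fixed part of its energy (`W` = weak or bad) -/
theorem row_good {v : ι} {θ : ℝ} (W : ι → Prop) [DecidablePred W] (hθ : 0 < θ) (hV : 0 < D.V v)
    (h : θ * D.V v ≤ D.l v ^ 2)
    (hw : ∑ x, (if W x then D.P v x else 0) ≤ θ / 8) :
    θ ^ 2 / 32 * D.V v ≤ ∑ x, (if W x then 0 else D.P v x * D.d2 v x) := by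
  have h1 := D.mass_far hV h
  set s := univ.filter (fun x => D.l v / 2 ≤ D.dd v x) with hs
  have h2 : ∑ x ∈ s, D.P v x ≤ ∑ x ∈ s.filter (fun x => ¬ W x), D.P v x
      + ∑ x, (if W x then D.P v x else 0) := by
    rw [← Finset.sum_filter_add_sum_filter_not s (fun x => ¬ W x)]
    have : ∑ x ∈ s.filter (fun x => ¬ ¬ W x), D.P v x
        ≤ ∑ x, (if W x then D.P v x else 0) := by
      rw [← Finset.sum_filter]
      apply Finset.sum_le_sum_of_subset_of_nonneg
      · intro x hx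
        have := (Finset.mem_filter.1 hx).2
        exact Finset.mem_filter.2 ⟨Finset.mem_univ _, not_not.1 this⟩
      · intro x _ _; exact D.P_nonneg v x
    linarith
  have h3 : θ / 8 ≤ ∑ x ∈ s.filter (fun x => ¬ W x), D.P v x := by linarith
  have h4 : ∑ x ∈ s.filter (fun x => ¬ W x), D.P v x * (D.l v ^ 2 / 4)
      ≤ ∑ x, (if W x then 0 else D.P v x * D.d2 v x) := by
    calc ∑ x ∈ s.filter (fun x => ¬ W x), D.P v x * (D.l v ^ 2 / 4)
        ≤ ∑ x ∈ s.filter (fun x => ¬ W x), (if W x then 0 else D.P v x * D.d2 v x) := by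
          apply Finset.sum_le_sum
          intro x hx
          have hx' := (Finset.mem_filter.1 (Finset.mem_filter.1 hx).1).2
          rw [if_neg (Finset.mem_filter.1 hx).2]
          apply mul_le_mul_of_nonneg_left _ (D.P_nonneg v x)
          rw [← D.dd_sq]
          nlinarith [D.l_nonneg v]
      _ ≤ _ := by
          apply Finset.sum_le_sum_of_subset_of_nonneg (Finset.subset_univ _)
          intro x _ _
          split_ifs
          · exact le_rfl
          · exact mul_nonneg (D.P_nonneg v x) (D.d2_nonneg v x)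
  rw [← Finset.sum_mul] at h4
  have h5 : θ / 8 * (D.l v ^ 2 / 4)
      ≤ (∑ x ∈ s.filter (fun x => ¬ W x), D.P v x) * (D.l v ^ 2 / 4) :=
    mul_le_mul_of_nonneg_right h3 (by positivity)
  nlinarith [mul_le_mul_of_nonneg_left h (by positivity : (0:ℝ) ≤ θ)]

/-- Markov -/
theorem markov {v : ι} {L : ℝ} (hl : 0 < D.l v) (hL : 0 < L) :
    ∑ x ∈ univ.filter (fun x => L * D.l v ≤ D.dd v x), D.P v x ≤ 1 / L := by
  have h1 : (∑ x ∈ univ.filter (fun x => L * D.l v ≤ D.dd v x), D.P v x) * (L * D.l v)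
      ≤ D.l v := by
    rw [Finset.sum_mul]
    calc ∑ x ∈ univ.filter (fun x => L * D.l v ≤ D.dd v x), D.P v x * (L * D.l v)
        ≤ ∑ x ∈ univ.filter (fun x => L * D.l v ≤ D.dd v x), D.P v x * D.dd v x := by
          apply Finset.sum_le_sum
          intro x hx
          exact mul_le_mul_of_nonneg_left (Finset.mem_filter.1 hx).2 (D.P_nonneg v x)
      _ ≤ _ := Finset.sum_le_sum_of_subset_of_nonneg (Finset.filter_subset _ _)
          fun x _ _ => mul_nonneg (D.P_nonneg v x) (D.dd_nonneg v x)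
  rw [le_div_iff₀ hL]
  have h2 : ((∑ x ∈ univ.filter (fun x => L * D.l v ≤ D.dd v x), D.P v x) * L) * D.l v
      ≤ 1 * D.l v := by linarith
  exact le_of_mul_le_mul_right h2 hl


theorem V_le {v : ι} {θ r : ℝ} (hθ : 0 < θ) (h : θ * D.V v ≤ D.l v ^ 2)
    (hr : D.l v ≤ 2 * r) : D.V v ≤ 4 / θ * r ^ 2 := by
  have h1 : θ * D.V v ≤ (2 * r) ^ 2 :=
    le_trans h (pow_le_pow_left₀ (D.l_nonneg v) hr 2)
  have h2 : D.V v = θ * D.V v / θ := by field_simp
  rw [h2, show 4 / θ * r ^ 2 = (2 * r) ^ 2 / θ by ring]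
  exact div_le_div_of_nonneg_right h1 hθ.le

theorem rev (v x : ι) : D.pw v * D.P v x = D.pw x * D.P x v := by
  unfold pw P
  rw [D.hsym x v]
  have h1 := (D.hm v).ne'
  have h2 := (D.hm x).ne'
  field_simp

end

end Dat

/-- the kernels of the one-body functional: scale `s` has radius `rad s`, `w s x y` is the kernel
divided by `rad s ^ 2` -/
structure Ker {ι κ : Type*} [Fintype ι] [Fintype κ] (D : Dat ι κ) (σ : Type*) (Cs : ℝ) where
  Sc : Finset σ
  rad : σ → ℝ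
  w : σ → ι → ι → ℝ
  hr : ∀ s ∈ Sc, 0 < rad s
  hw : ∀ s x y, 0 ≤ w s x y
  hs : ∀ x y, ∑ s ∈ Sc, rad s ^ 2 * w s x y ≤ Cs * D.d2 x y

namespace Ker

noncomputable section

variable {σ : Type*} {Cs : ℝ} {D : Dat ι κ} (k : Ker D σ Cs)

def u (s : σ) (x : ι) : ℝ := ∑ y, D.P x y * k.w s x y

/-- the entropy production, for an abstract positivity kernel `pos (u_v) (u_x)` -/
def Pos (pos : ℝ → ℝ → ℝ) (Mv : Finset ι) : ℝ :=
  ∑ s ∈ k.Sc, k.rad s ^ 2 * ∑ v ∈ Mv, D.om v * D.pw v * ∑ x, D.P v x * pos (k.u s v) (k.u s x)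

/-- flux times energy at the same place and scale -/
def FN (Mv : Finset ι) (c1 L : ℝ) : ℝ :=
  ∑ s ∈ k.Sc, k.rad s ^ 2 * ∑ v ∈ Mv.filter (fun v => c1 ≤ k.u s v), D.om v * D.pw v *
    ∑ x ∈ univ.filter (fun x => D.dd v x ≤ L * k.rad s), D.pw x * k.u s x

theorem u_nonneg (s : σ) (x : ι) : 0 ≤ k.u s x :=
  Finset.sum_nonneg fun y _ => mul_nonneg (D.P_nonneg x y) (k.hw s x y)

theorem FN_mono {Mv : Finset ι} {c1 L L' : ℝ} (h : L ≤ L') : k.FN Mv c1 L ≤ k.FN Mv c1 L' := by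
  unfold FN
  apply Finset.sum_le_sum
  intro s hs
  apply mul_le_mul_of_nonneg_left _ (sq_nonneg _)
  apply Finset.sum_le_sum
  intro v hv
  apply mul_le_mul_of_nonneg_left _ (mul_nonneg (D.hom0 v) (D.pw_pos v).le)
  apply Finset.sum_le_sum_of_subset_of_nonneg
  · intro x hx
    refine Finset.mem_filter.2 ⟨Finset.mem_univ _, ?_⟩
    have h1 := (Finset.mem_filter.1 hx).2
    have h2 := mul_le_mul_of_nonneg_right h (k.hr s hs).le
    linarith
  · intro x _ _
    exact mul_nonneg (D.pw_pos x).le (k.u_nonneg s x)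

theorem FN_nonneg {Mv : Finset ι} {c1 L : ℝ} : 0 ≤ k.FN Mv c1 L := by
  unfold FN
  apply Finset.sum_nonneg
  intro s hs
  apply mul_nonneg (sq_nonneg _)
  apply Finset.sum_nonneg
  intro v hv
  apply mul_nonneg (mul_nonneg (D.hom0 v) (D.pw_pos v).le)
  apply Finset.sum_nonneg
  intro x _
  exact mul_nonneg (D.pw_pos x).le (k.u_nonneg s x)

theorem Pos_nonneg {pos : ℝ → ℝ → ℝ} {Mv : Finset ι}
    (hp0 : ∀ a b, 0 ≤ a → 0 ≤ b → 0 ≤ pos a b) : 0 ≤ k.Pos pos Mv := by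
  unfold Pos
  apply Finset.sum_nonneg
  intro s hs
  apply mul_nonneg (sq_nonneg _)
  apply Finset.sum_nonneg
  intro v hv
  apply mul_nonneg (mul_nonneg (D.hom0 v) (D.pw_pos v).le)
  apply Finset.sum_nonneg
  intro x _
  exact mul_nonneg (D.P_nonneg v x) (hp0 _ _ (k.u_nonneg s v) (k.u_nonneg s x))

/-- a mobile row is hot at its own scale -/
theorem u_ge {v : ι} {θ cw : ℝ} {s : σ} (hV : 0 < D.V v)
    (h : θ * D.V v ≤ D.l v ^ 2) (hrl : k.rad s ≤ D.l v) (hcw : 0 ≤ cw)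
    (hw1 : ∀ x, k.rad s / 2 ≤ D.dd v x → cw ≤ k.w s v x) : cw * (θ / 4) ≤ k.u s v := by
  have h1 := D.mass_far hV h
  have h2 : ∑ x ∈ univ.filter (fun x => D.l v / 2 ≤ D.dd v x), D.P v x * cw ≤ k.u s v := by
    unfold u
    calc ∑ x ∈ univ.filter (fun x => D.l v / 2 ≤ D.dd v x), D.P v x * cw
        ≤ ∑ x ∈ univ.filter (fun x => D.l v / 2 ≤ D.dd v x), D.P v x * k.w s v x := by
          apply Finset.sum_le_sum
          intro x hx
          have hx' := (Finset.mem_filter.1 hx).2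
          apply mul_le_mul_of_nonneg_left _ (D.P_nonneg v x)
          exact hw1 x (by linarith)
      _ ≤ _ := Finset.sum_le_sum_of_subset_of_nonneg (Finset.filter_subset _ _)
          fun x _ _ => mul_nonneg (D.P_nonneg v x) (k.hw s v x)
  rw [← Finset.sum_mul] at h2
  have := mul_le_mul_of_nonneg_left h1 hcw
  linarith

/-- weak or bad partners are quiet, far, bad and hot, or there is much energy in the ball -/
theorem weak_le [DecidableEq ι] {v : ι} {q0 ε R : ℝ} {s : σ} (Z : Finset ι) (hq : 0 < q0)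
    (hε : 0 < ε) (hεh : ε ≤ 1 / 2) :
    ∑ x, (if x ∈ Z ∨ D.kap v x < ε then D.P v x else 0)
      ≤ ∑ x ∈ univ.filter (fun x => k.u s x ≤ q0), D.P v x
        + ∑ x ∈ univ.filter (fun x => R < D.dd v x), D.P v x
        + ∑ x ∈ Z.filter (fun x => q0 < k.u s x), D.P v x
        + 2 * ε / q0 * ∑ x ∈ univ.filter (fun x => D.dd v x ≤ R), D.pw x * k.u s x := by
  have hZ : ∑ x ∈ Z.filter (fun x => q0 < k.u s x), D.P v x
      = ∑ x, (if x ∈ Z ∧ q0 < k.u s x then D.P v x else 0) := by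
    rw [← Finset.sum_filter]
    apply Finset.sum_congr _ (fun _ _ => rfl)
    ext x
    simp [Finset.mem_filter]
  rw [hZ, Finset.sum_filter, Finset.sum_filter, Finset.sum_filter, Finset.mul_sum,
    ← Finset.sum_add_distrib, ← Finset.sum_add_distrib, ← Finset.sum_add_distrib]
  apply Finset.sum_le_sum
  intro x _
  have hP := D.P_nonneg v x
  have hu := k.u_nonneg s x
  have hpw := D.pw_pos x
  have t1 : 0 ≤ (if k.u s x ≤ q0 then D.P v x else 0) := by split_ifs <;> simp [hP]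
  have t2 : 0 ≤ (if R < D.dd v x then D.P v x else 0) := by split_ifs <;> simp [hP]
  have t3 : 0 ≤ (if x ∈ Z ∧ q0 < k.u s x then D.P v x else 0) := by split_ifs <;> simp [hP]
  have t4 : 0 ≤ 2 * ε / q0 * (if D.dd v x ≤ R then D.pw x * k.u s x else 0) := by
    apply mul_nonneg (by positivity)
    split_ifs
    · positivity
    · exact le_rfl
  by_cases h1 : x ∈ Z ∨ D.kap v x < ε
  · rw [if_pos h1]
    by_cases h2 : k.u s x ≤ q0
    · rw [if_pos h2]
      linarith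
    · have h2' : q0 < k.u s x := not_le.1 h2
      by_cases h3 : x ∈ Z
      · rw [if_pos (show x ∈ Z ∧ q0 < k.u s x from ⟨h3, h2'⟩)]
        linarith
      · have h1' : D.kap v x < ε := by
          rcases h1 with h | h
          · exact absurd h h3
          · exact h
        by_cases h4 : R < D.dd v x
        · rw [if_pos h4]; linarith
        · rw [if_pos (not_lt.1 h4)]
          have h5 : 2 * ε ≤ 2 * ε / q0 * k.u s x := by
            calc 2 * ε = 2 * ε / q0 * q0 := by field_simp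
              _ ≤ 2 * ε / q0 * k.u s x := mul_le_mul_of_nonneg_left h2'.le (by positivity)
          have h6 : D.P v x ≤ 2 * ε / q0 * (D.pw x * k.u s x) := by
            have h7 := D.P_le_of_kap hεh h1'
            have h8 := mul_le_mul_of_nonneg_right h5 hpw.le
            nlinarith
          rw [if_pos (not_lt.1 h4)] at t4
          linarith
  · rw [if_neg h1]
    linarith

/-- the choice of scales -/
def Scl (Mv : Finset ι) (θ c1 : ℝ) (sv : ι → σ) : Prop :=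
  ∀ v ∈ D.mob Mv θ, sv v ∈ k.Sc ∧ D.l v ≤ 2 * k.rad (sv v) ∧ c1 ≤ k.u (sv v) v

/-- summing a nonnegative function of a mobile row and its scale -/
theorem fib [DecidableEq σ] {Mv : Finset ι} {θ c1 : ℝ} {sv : ι → σ} (hsv : k.Scl Mv θ c1 sv)
    (g : σ → ι → ℝ) (hg : ∀ r v, 0 ≤ g r v) :
    ∑ v ∈ D.mob Mv θ, g (sv v) v
      ≤ ∑ r ∈ k.Sc, ∑ v ∈ Mv.filter (fun v => c1 ≤ k.u r v), g r v := by
  rw [← Finset.sum_fiberwise_of_maps_to (s := D.mob Mv θ) (t := k.Sc) (g := sv)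
    (fun v hv => (hsv v hv).1)]
  apply Finset.sum_le_sum
  intro r hr
  calc ∑ v ∈ (D.mob Mv θ).filter (fun v => sv v = r), g (sv v) v
      = ∑ v ∈ (D.mob Mv θ).filter (fun v => sv v = r), g r v := by
        apply Finset.sum_congr rfl
        intro v hv
        rw [(Finset.mem_filter.1 hv).2]
    _ ≤ _ := by
        apply Finset.sum_le_sum_of_subset_of_nonneg
        · intro v hv
          have h1 := Finset.mem_filter.1 hv
          have h2 := hsv v h1.1
          have h3 := (Finset.mem_filter.1 (show v ∈ D.mob Mv θ from h1.1))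
          rw [h1.2] at h2
          exact Finset.mem_filter.2 ⟨h3.1, h2.2.2⟩
        · intro v _ _; exact hg r v

/-- the bad rows of one level -/
def Bd (Z : Finset ι) (sv : ι → σ) (q0 dlt L CF : ℝ) (v : ι) : Prop :=
  dlt / 4 < ∑ x ∈ univ.filter (fun x => k.u (sv v) x ≤ q0), D.P v x ∨
    dlt / 4 < ∑ x ∈ Z.filter (fun x => q0 < k.u (sv v) x), D.P v x ∨
      CF < ∑ x ∈ univ.filter (fun x => D.dd v x ≤ L * k.rad (sv v)), D.pw x * k.u (sv v) x

/-- energy of the bad sites -/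
def BadE (D : Dat ι κ) (Z : Finset ι) : ℝ := ∑ z ∈ Z, D.pw z * D.V z

theorem BadE_nonneg (Z : Finset ι) : 0 ≤ BadE D Z :=
  Finset.sum_nonneg fun z _ => mul_nonneg (D.pw_pos z).le (D.V_nonneg z)

open Classical in
theorem bad_le {Mv Z : Finset ι} {θ c1 : ℝ} {sv : ι → σ} {pos : ℝ → ℝ → ℝ}
    {q0 dlt L CF M : ℝ} (hθ : 0 < θ) (hd : 0 < dlt) (hC : 0 < CF) (hM : 0 < M) (hq : 0 < q0)
    (hsv : k.Scl Mv θ c1 sv)
    (hp0 : ∀ a b, 0 ≤ a → 0 ≤ b → 0 ≤ pos a b)
    (hp : ∀ a b, c1 ≤ a → 0 ≤ b → b ≤ q0 → M ≤ pos a b) :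
    ∑ v ∈ (D.mob Mv θ).filter (k.Bd Z sv q0 dlt L CF), D.om v * (D.pw v * D.V v)
      ≤ 16 / (θ * dlt * M) * k.Pos pos Mv + 16 * Cs / (θ * dlt * q0) * BadE D Z
        + 4 / (θ * CF) * k.FN Mv c1 L := by
  set Q : σ → ι → ℝ := fun r v => ∑ x ∈ univ.filter (fun x => k.u r x ≤ q0), D.P v x with hQ
  set B : σ → ι → ℝ := fun r v => ∑ x ∈ Z.filter (fun x => q0 < k.u r x), D.P v x with hB
  set F : σ → ι → ℝ := fun r v =>
    ∑ x ∈ univ.filter (fun x => D.dd v x ≤ L * k.rad r), D.pw x * k.u r x with hF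
  have hQ0 : ∀ r v, 0 ≤ Q r v := fun r v => Finset.sum_nonneg fun x _ => D.P_nonneg v x
  have hB0 : ∀ r v, 0 ≤ B r v := fun r v => Finset.sum_nonneg fun x _ => D.P_nonneg v x
  have hF0 : ∀ r v, 0 ≤ F r v := fun r v =>
    Finset.sum_nonneg fun x _ => mul_nonneg (D.pw_pos x).le (k.u_nonneg r x)
  have hop : ∀ v, 0 ≤ D.om v * D.pw v := fun v => mul_nonneg (D.hom0 v) (D.pw_pos v).le
  -- rows
  have h1 : ∑ v ∈ (D.mob Mv θ).filter (k.Bd Z sv q0 dlt L CF), D.om v * (D.pw v * D.V v)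
      ≤ ∑ v ∈ D.mob Mv θ,
        (16 / (θ * dlt) * (k.rad (sv v) ^ 2 * (D.om v * D.pw v * Q (sv v) v))
          + 16 / (θ * dlt) * (k.rad (sv v) ^ 2 * (D.om v * D.pw v * B (sv v) v))
          + 4 / (θ * CF) * (k.rad (sv v) ^ 2 * (D.om v * D.pw v * F (sv v) v))) := by
    rw [Finset.sum_filter]
    apply Finset.sum_le_sum
    intro v hv
    have hv1 := hsv v hv
    have hv2 := (Finset.mem_filter.1 hv).2
    have hV := D.V_le hθ hv2.2 hv1.2.1
    have hVr : 0 ≤ k.rad (sv v) ^ 2 := sq_nonneg _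
    have hA : 0 ≤ 16 / (θ * dlt) * (k.rad (sv v) ^ 2 * (D.om v * D.pw v * Q (sv v) v)) :=
      mul_nonneg (by positivity) (mul_nonneg hVr (mul_nonneg (hop v) (hQ0 _ v)))
    have hA' : 0 ≤ 16 / (θ * dlt) * (k.rad (sv v) ^ 2 * (D.om v * D.pw v * B (sv v) v)) :=
      mul_nonneg (by positivity) (mul_nonneg hVr (mul_nonneg (hop v) (hB0 _ v)))
    have hA'' : 0 ≤ 4 / (θ * CF) * (k.rad (sv v) ^ 2 * (D.om v * D.pw v * F (sv v) v)) :=
      mul_nonneg (by positivity) (mul_nonneg hVr (mul_nonneg (hop v) (hF0 _ v)))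
    split_ifs with h
    · have h3 : D.om v * (D.pw v * D.V v)
          ≤ D.om v * D.pw v * (4 / θ * k.rad (sv v) ^ 2) := by
        rw [← mul_assoc]
        exact mul_le_mul_of_nonneg_left hV (hop v)
      have h7 : 0 ≤ D.om v * D.pw v * (4 / θ * k.rad (sv v) ^ 2) :=
        mul_nonneg (hop v) (mul_nonneg (by positivity) hVr)
      rcases h with h | h | h
      · have h4 : 1 ≤ 4 / dlt * Q (sv v) v := by
          rw [div_mul_eq_mul_div, le_div_iff₀ hd]; simp only [hQ]; linarith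
        have h5 := mul_le_mul_of_nonneg_left h4 h7
        have h6 : D.om v * D.pw v * (4 / θ * k.rad (sv v) ^ 2) * (4 / dlt * Q (sv v) v)
            = 16 / (θ * dlt) * (k.rad (sv v) ^ 2 * (D.om v * D.pw v * Q (sv v) v)) := by
          field_simp
          ring
        linarith
      · have h4 : 1 ≤ 4 / dlt * B (sv v) v := by
          rw [div_mul_eq_mul_div, le_div_iff₀ hd]; simp only [hB]; linarith
        have h5 := mul_le_mul_of_nonneg_left h4 h7
        have h6 : D.om v * D.pw v * (4 / θ * k.rad (sv v) ^ 2) * (4 / dlt * B (sv v) v)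
            = 16 / (θ * dlt) * (k.rad (sv v) ^ 2 * (D.om v * D.pw v * B (sv v) v)) := by
          field_simp
          ring
        linarith
      · have h4 : 1 ≤ 1 / CF * F (sv v) v := by
          rw [div_mul_eq_mul_div, le_div_iff₀ hC]; simp only [hF]; linarith
        have h5 := mul_le_mul_of_nonneg_left h4 h7
        have h6 : D.om v * D.pw v * (4 / θ * k.rad (sv v) ^ 2) * (1 / CF * F (sv v) v)
            = 4 / (θ * CF) * (k.rad (sv v) ^ 2 * (D.om v * D.pw v * F (sv v) v)) := by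
          field_simp
        linarith
    · linarith
  have h2 : ∑ v ∈ D.mob Mv θ, k.rad (sv v) ^ 2 * (D.om v * D.pw v * Q (sv v) v)
      ≤ 1 / M * k.Pos pos Mv := by
    refine le_trans (k.fib hsv (fun r v => k.rad r ^ 2 * (D.om v * D.pw v * Q r v))
      (fun r v => mul_nonneg (sq_nonneg _) (mul_nonneg (hop v) (hQ0 r v)))) ?_
    rw [Pos, Finset.mul_sum]
    apply Finset.sum_le_sum
    intro r hr
    rw [← Finset.mul_sum]
    have h3 : ∑ v ∈ Mv.filter (fun v => c1 ≤ k.u r v), D.om v * D.pw v * Q r v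
        ≤ 1 / M * ∑ v ∈ Mv, D.om v * D.pw v * ∑ x, D.P v x * pos (k.u r v) (k.u r x) := by
      rw [Finset.mul_sum]
      calc ∑ v ∈ Mv.filter (fun v => c1 ≤ k.u r v), D.om v * D.pw v * Q r v
          ≤ ∑ v ∈ Mv.filter (fun v => c1 ≤ k.u r v),
              1 / M * (D.om v * D.pw v * ∑ x, D.P v x * pos (k.u r v) (k.u r x)) := by
            apply Finset.sum_le_sum
            intro v hv
            have hv' := (Finset.mem_filter.1 hv).2
            have h4 : M * Q r v ≤ ∑ x, D.P v x * pos (k.u r v) (k.u r x) := by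
              rw [hQ]
              simp only
              rw [Finset.mul_sum]
              calc ∑ x ∈ univ.filter (fun x => k.u r x ≤ q0), M * D.P v x
                  ≤ ∑ x ∈ univ.filter (fun x => k.u r x ≤ q0),
                      D.P v x * pos (k.u r v) (k.u r x) := by
                    apply Finset.sum_le_sum
                    intro x hx
                    have hx' := (Finset.mem_filter.1 hx).2
                    rw [mul_comm M]
                    exact mul_le_mul_of_nonneg_left (hp _ _ hv' (k.u_nonneg r x) hx')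
                      (D.P_nonneg v x)
                _ ≤ _ := Finset.sum_le_sum_of_subset_of_nonneg (Finset.filter_subset _ _)
                    fun x _ _ => mul_nonneg (D.P_nonneg v x)
                      (hp0 _ _ (k.u_nonneg r v) (k.u_nonneg r x))
            have h5 : Q r v ≤ 1 / M * ∑ x, D.P v x * pos (k.u r v) (k.u r x) := by
              rw [div_mul_eq_mul_div, le_div_iff₀ hM]; linarith
            calc D.om v * D.pw v * Q r v
                ≤ D.om v * D.pw v * (1 / M * ∑ x, D.P v x * pos (k.u r v) (k.u r x)) :=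
                  mul_le_mul_of_nonneg_left h5 (hop v)
              _ = _ := by ring
        _ ≤ _ := Finset.sum_le_sum_of_subset_of_nonneg (Finset.filter_subset _ _)
            fun v _ _ => mul_nonneg (by positivity) (mul_nonneg (hop v)
              (Finset.sum_nonneg fun x _ => mul_nonneg (D.P_nonneg v x)
                (hp0 _ _ (k.u_nonneg r v) (k.u_nonneg r x))))
    calc k.rad r ^ 2 * ∑ v ∈ Mv.filter (fun v => c1 ≤ k.u r v), D.om v * D.pw v * Q r v
        ≤ k.rad r ^ 2 * (1 / M * ∑ v ∈ Mv, D.om v * D.pw v *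
            ∑ x, D.P v x * pos (k.u r v) (k.u r x)) :=
          mul_le_mul_of_nonneg_left h3 (sq_nonneg _)
      _ = _ := by ring
  have h3 : ∑ v ∈ D.mob Mv θ, k.rad (sv v) ^ 2 * (D.om v * D.pw v * F (sv v) v)
      ≤ k.FN Mv c1 L := by
    refine le_trans (k.fib hsv (fun r v => k.rad r ^ 2 * (D.om v * D.pw v * F r v))
      (fun r v => mul_nonneg (sq_nonneg _) (mul_nonneg (hop v) (hF0 r v)))) ?_
    rw [FN]
    apply le_of_eq
    apply Finset.sum_congr rfl
    intro r hr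
    rw [Finset.mul_sum]
  have h4 : ∑ v ∈ D.mob Mv θ, k.rad (sv v) ^ 2 * (D.om v * D.pw v * B (sv v) v)
      ≤ Cs / q0 * BadE D Z := by
    refine le_trans (k.fib hsv (fun r v => k.rad r ^ 2 * (D.om v * D.pw v * B r v))
      (fun r v => mul_nonneg (sq_nonneg _) (mul_nonneg (hop v) (hB0 r v)))) ?_
    have h5 : ∀ r ∈ k.Sc, ∑ v ∈ Mv.filter (fun v => c1 ≤ k.u r v),
        k.rad r ^ 2 * (D.om v * D.pw v * B r v)
        ≤ ∑ z ∈ Z, 1 / q0 * (D.pw z * (k.rad r ^ 2 * k.u r z)) := by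
      intro r hr
      calc ∑ v ∈ Mv.filter (fun v => c1 ≤ k.u r v), k.rad r ^ 2 * (D.om v * D.pw v * B r v)
          ≤ ∑ v, k.rad r ^ 2 * (D.pw v * B r v) := by
            refine le_trans (Finset.sum_le_sum_of_subset_of_nonneg (Finset.subset_univ _)
              fun v _ _ => mul_nonneg (sq_nonneg _) (mul_nonneg (hop v) (hB0 r v))) ?_
            apply Finset.sum_le_sum
            intro v _
            apply mul_le_mul_of_nonneg_left _ (sq_nonneg _)
            apply mul_le_mul_of_nonneg_right _ (hB0 r v)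
            have := D.hom1 v
            have := (D.pw_pos v).le
            nlinarith
        _ = ∑ z ∈ Z.filter (fun x => q0 < k.u r x), k.rad r ^ 2 * (D.pw z * ∑ v, D.P z v) := by
            simp only [hB, Finset.mul_sum]
            rw [Finset.sum_comm]
            apply Finset.sum_congr rfl
            intro z _
            apply Finset.sum_congr rfl
            intro v _
            rw [D.rev v z]
        _ ≤ ∑ z ∈ Z.filter (fun x => q0 < k.u r x),
              1 / q0 * (D.pw z * (k.rad r ^ 2 * k.u r z)) := by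
            apply Finset.sum_le_sum
            intro z hz
            have hz' := (Finset.mem_filter.1 hz).2
            rw [D.sum_P, mul_one]
            have h6 : 1 ≤ 1 / q0 * k.u r z := by
              rw [div_mul_eq_mul_div, le_div_iff₀ hq]; linarith
            have h7 : 0 ≤ k.rad r ^ 2 * D.pw z := mul_nonneg (sq_nonneg _) (D.pw_pos z).le
            have h8 := mul_le_mul_of_nonneg_left h6 h7
            calc k.rad r ^ 2 * D.pw z = k.rad r ^ 2 * D.pw z * 1 := (mul_one _).symm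
              _ ≤ _ := h8
              _ = _ := by ring
        _ ≤ _ := Finset.sum_le_sum_of_subset_of_nonneg (Finset.filter_subset _ _)
            fun z _ _ => mul_nonneg (by positivity) (mul_nonneg (D.pw_pos z).le
              (mul_nonneg (sq_nonneg _) (k.u_nonneg r z)))
    refine le_trans (Finset.sum_le_sum h5) ?_
    rw [Finset.sum_comm, BadE, Finset.mul_sum]
    apply Finset.sum_le_sum
    intro z _
    rw [← Finset.mul_sum, ← Finset.mul_sum]
    have h6 : ∑ r ∈ k.Sc, k.rad r ^ 2 * k.u r z ≤ Cs * D.V z := by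
      calc ∑ r ∈ k.Sc, k.rad r ^ 2 * k.u r z
          = ∑ y, D.P z y * ∑ r ∈ k.Sc, k.rad r ^ 2 * k.w r z y := by
            simp only [u, Finset.mul_sum]
            rw [Finset.sum_comm]
            apply Finset.sum_congr rfl
            intro y _
            apply Finset.sum_congr rfl
            intro r _
            ring
        _ ≤ ∑ y, D.P z y * (Cs * D.d2 z y) := by
            apply Finset.sum_le_sum
            intro y _
            exact mul_le_mul_of_nonneg_left (k.hs z y) (D.P_nonneg z y)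
        _ = _ := by
            unfold Dat.V
            rw [Finset.mul_sum]
            apply Finset.sum_congr rfl
            intro y _
            ring
    calc 1 / q0 * (D.pw z * ∑ r ∈ k.Sc, k.rad r ^ 2 * k.u r z)
        ≤ 1 / q0 * (D.pw z * (Cs * D.V z)) := by
          apply mul_le_mul_of_nonneg_left _ (by positivity)
          exact mul_le_mul_of_nonneg_left h6 (D.pw_pos z).le
      _ = _ := by ring
  have h5 : 16 / (θ * dlt) * (1 / M * k.Pos pos Mv)
      = 16 / (θ * dlt * M) * k.Pos pos Mv := by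
    field_simp
  have h6 : 16 / (θ * dlt) * (Cs / q0 * BadE D Z)
      = 16 * Cs / (θ * dlt * q0) * BadE D Z := by
    field_simp
  have e1 := mul_le_mul_of_nonneg_left h2 (show 0 ≤ 16 / (θ * dlt) by positivity)
  have e2 := mul_le_mul_of_nonneg_left h4 (show 0 ≤ 16 / (θ * dlt) by positivity)
  have e3 := mul_le_mul_of_nonneg_left h3 (show 0 ≤ 4 / (θ * CF) by positivity)
  rw [Finset.sum_add_distrib, Finset.sum_add_distrib, ← Finset.mul_sum, ← Finset.mul_sum,
    ← Finset.mul_sum] at h1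
  linarith

/-- a row which is not bad has few weak or bad partners -/
theorem not_bad [DecidableEq ι] {Mv Z : Finset ι} {θ c1 : ℝ} {sv : ι → σ}
    {q0 dlt L CF ε : ℝ} {v : ι}
    (hθ : 0 < θ) (hd : 0 < dlt) (hC : 0 < CF) (hq : 0 < q0) (hε : 0 < ε)
    (hL : 8 / dlt < L) (hε' : ε * (8 * CF) ≤ dlt * q0) (hεh : ε ≤ 1 / 2)
    (hsv : k.Scl Mv θ c1 sv) (hv : v ∈ D.mob Mv θ)
    (hnb : ¬ k.Bd Z sv q0 dlt L CF v) :
    ∑ x, (if x ∈ Z ∨ D.kap v x < ε then D.P v x else 0) ≤ dlt := by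
  have h0 := (Finset.mem_filter.1 hv).2
  have hs := hsv v hv
  have hr := k.hr _ hs.1
  have hl : 0 < D.l v := by
    have h1 : 0 < D.l v ^ 2 := lt_of_lt_of_le (mul_pos hθ h0.1) h0.2
    have h2 := D.l_nonneg v
    rcases h2.lt_or_eq with h | h
    · exact h
    · rw [← h] at h1; norm_num at h1
  unfold Bd at hnb
  push Not at hnb
  obtain ⟨g1, g2, g3⟩ := hnb
  have h2 := k.weak_le (v := v) (s := sv v) (R := L * k.rad (sv v)) Z hq hε hεh
  have h3 : ∑ x ∈ univ.filter (fun x => L * k.rad (sv v) < D.dd v x), D.P v x ≤ dlt / 4 := by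
    have h4 := D.markov hl (L := 4 / dlt) (by positivity)
    rw [one_div_div] at h4
    refine le_trans ?_ h4
    apply Finset.sum_le_sum_of_subset_of_nonneg
    · intro x hx
      have hx' := (Finset.mem_filter.1 hx).2
      refine Finset.mem_filter.2 ⟨Finset.mem_univ _, ?_⟩
      have h5 : 8 / dlt * k.rad (sv v) ≤ L * k.rad (sv v) :=
        mul_le_mul_of_nonneg_right hL.le hr.le
      have h6 : 4 / dlt * D.l v ≤ 4 / dlt * (2 * k.rad (sv v)) :=
        mul_le_mul_of_nonneg_left hs.2.1 (by positivity)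
      have h7 : 4 / dlt * (2 * k.rad (sv v)) = 8 / dlt * k.rad (sv v) := by ring
      linarith
    · intro x _ _; exact D.P_nonneg v x
  have h4 : 2 * ε / q0 * ∑ x ∈ univ.filter (fun x => D.dd v x ≤ L * k.rad (sv v)),
      D.pw x * k.u (sv v) x ≤ dlt / 4 := by
    calc 2 * ε / q0 * ∑ x ∈ univ.filter (fun x => D.dd v x ≤ L * k.rad (sv v)),
          D.pw x * k.u (sv v) x
        ≤ 2 * ε / q0 * CF := mul_le_mul_of_nonneg_left g3 (by positivity)
      _ ≤ dlt / 4 := by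
        rw [div_mul_eq_mul_div, div_le_div_iff₀ hq (by norm_num)]
        linarith
  linarith

/-! ### the strong-pair functionals and the static hypothesis -/

open Classical in
/-- `J` over strong pairs of good sites -/
def JS (D : Dat ι κ) (T2 : κ → ι → ι → ℝ) (Z : Finset ι) (ε1 : ℝ) : ℝ :=
  ∑ j, ∑ u, ∑ x, if u ∉ Z ∧ x ∉ Z ∧ u ≠ x ∧ ε1 ≤ D.kap u x then
    D.e u * D.e x * (D.kap u x * T2 j u x) else 0

open Classical in
/-- the loss over good sites -/
def MS (D : Dat ι κ) (mu2 : κ → ι → ℝ) (Z : Finset ι) : ℝ :=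
  ∑ j, ∑ x, if x ∉ Z then D.e x * (D.m x * mu2 j x) else 0

open Classical in
/-- `Lam` over strong pairs of good sites -/
def LamS (D : Dat ι κ) (T2 : κ → ι → ι → ℝ) (Z : Finset ι) (ε1 ε2 : ℝ) : ℝ :=
  ∑ j, ∑ w, ∑ x, if w ∉ Z ∧ x ∉ Z ∧ w ≠ x then D.e w * D.e x * (T2 j w x *
    ∑ u, if u ∉ Z ∧ u ≠ w ∧ u ≠ x ∧ ε2 ≤ D.kap w u ∧ ε1 ≤ D.kap u x then
      D.e u * D.m u * (D.kap w u * D.kap u x) else 0) else 0

/-- the conclusion of the static step (`P365T2.StaticGen.static_gen`) for every position function -/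
def StatH (D : Dat ι κ) (T2 : κ → ι → ι → ℝ) (mu2 : κ → ι → ℝ) : Prop :=
  ∀ (j : κ) (R : ι → ι → Prop) [∀ u x, Decidable (R u x)] (St : ι → ι → Prop)
    [∀ w u, Decidable (St w u)] (X : ι → Prop) [DecidablePred X] [DecidableEq ι] (e1 e2 δ : ℝ),
    0 < e1 → 0 < e2 → 0 < δ → (∀ u x, R u x → X x) → (∀ u x, R u x → u ≠ x) →
    (∀ u x, R u x → e1 ≤ D.kap u x) → (∀ u x w, R u x → St w u → e2 ≤ D.kap w u) →
    (∀ u x, R u x → ∑ w ∈ Finset.univ.filter (fun w => ¬ St w u), D.P u w ≤ δ) →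
    ∑ u, ∑ x, (if R u x then D.e u * D.e x * ((D.a j u - D.a j x) ^ 2 * D.K u x) else 0) ≤
      144 * ((∑ u, ∑ x, if R u x then D.e u * D.e x * (D.kap u x * T2 j u x) else 0) / e1 +
        (∑ x, if X x then D.e x * (D.m x * mu2 j x) else 0) +
        (∑ w, ∑ x, if w ≠ x then D.e w * D.e x * (T2 j w x *
          ∑ u, if R u x ∧ St w u ∧ u ≠ w then
            D.e u * D.m u * (D.kap w u * D.kap u x) else 0) else 0) / (e1 * e2) +
        δ / e1 * ∑ w, ∑ x, if X x then D.e w * D.e x * T2 j w x else 0)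

/-- the positivity kernels of the entropy production -/
def PosFam (pos : ℝ → ℝ → ℝ → ℝ) : Prop :=
  (∀ t a b, 0 < t → 0 ≤ a → 0 ≤ b → 0 ≤ pos t a b) ∧
    ∀ M c : ℝ, 0 < c → ∃ q > 0, ∃ t0 > 0, ∀ t a b, 0 < t → t ≤ t0 → c ≤ a → 0 ≤ b → b ≤ q →
      M ≤ pos t a b

theorem posFam_log : PosFam (fun t a b => (a - b) * Real.log ((a + t) / (b + t))) := by
  constructor
  · intro t a b ht ha hb
    rcases le_total a b with h | h
    · have h1 : Real.log ((a + t) / (b + t)) ≤ 0 := by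
        apply Real.log_nonpos (by positivity)
        rw [div_le_one (by positivity)]; linarith
      nlinarith
    · have h1 : 0 ≤ Real.log ((a + t) / (b + t)) := by
        apply Real.log_nonneg
        rw [le_div_iff₀ (by positivity)]; linarith
      exact mul_nonneg (by linarith) h1
  · intro M c hc
    set Y : ℝ := Real.exp (2 * |M| / c) with hY
    have hY1 : 1 ≤ Y := Real.one_le_exp (by positivity)
    have hY0 : 0 < Y := by linarith
    refine ⟨c / (4 * Y), by positivity, c / (4 * Y), by positivity, ?_⟩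
    intro t a b ht ht0 hca hb hbq
    have h1 : c / (4 * Y) ≤ c / 4 := by
      apply div_le_div_of_nonneg_left hc.le (by norm_num) (by linarith)
    have h2 : Y ≤ (a + t) / (b + t) := by
      rw [le_div_iff₀ (by positivity)]
      have h3 : b + t ≤ c / (2 * Y) := by
        have : c / (4 * Y) + c / (4 * Y) = c / (2 * Y) := by
          field_simp
          norm_num
        linarith
      have h4 : Y * (b + t) ≤ Y * (c / (2 * Y)) := mul_le_mul_of_nonneg_left h3 hY0.le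
      have h5 : Y * (c / (2 * Y)) = c / 2 := by field_simp
      linarith
    have ha : 0 < a := by linarith
    have h3 : 2 * |M| / c ≤ Real.log ((a + t) / (b + t)) := by
      rw [Real.le_log_iff_exp_le (by positivity)]
      exact h2
    have h4 : c / 2 ≤ a - b := by linarith
    have h5 : 0 ≤ 2 * |M| / c := by positivity
    calc M ≤ |M| := le_abs_self M
      _ = c / 2 * (2 * |M| / c) := by field_simp
      _ ≤ (a - b) * Real.log ((a + t) / (b + t)) :=
          mul_le_mul h4 h3 h5 (by linarith)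

open Classical in
/-- the energy of the good rows by the static step -/
theorem good_le {T2 : κ → ι → ι → ℝ} {mu2 : κ → ι → ℝ} {Mv Z : Finset ι} {θ c1 : ℝ}
    {sv : ι → σ} {dlt1 dlt2 q1 q2 L1 L2 CF ε1 ε2 : ℝ} (hθ : 0 < θ)
    (hd1 : 0 < dlt1) (hd2 : 0 < dlt2) (hC : 0 < CF) (hq1 : 0 < q1) (hq2 : 0 < q2)
    (hε1 : 0 < ε1) (hε2 : 0 < ε2) (hL1 : 8 / dlt1 < L1) (hL2 : 8 / dlt2 < L2)
    (hε1' : ε1 * (8 * CF) ≤ dlt1 * q1) (hε2' : ε2 * (8 * CF) ≤ dlt2 * q2)
    (hε1h : ε1 ≤ 1 / 2) (hε2h : ε2 ≤ 1 / 2) (hdθ : dlt1 ≤ θ / 8)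
    (hT2 : ∀ j u x, 0 ≤ T2 j u x) (hTE : ∑ j, ∑ w, ∑ x, D.e w * D.e x * T2 j w x ≤ D.En / 4)
    (hst : StatH D T2 mu2) (hsv : k.Scl Mv θ c1 sv) :
    ∑ v ∈ (D.mob Mv θ).filter (fun v => v ∉ Z ∧ ¬ k.Bd Z sv q1 dlt1 L1 CF v ∧
        ¬ k.Bd Z sv q2 dlt2 L2 CF v), D.om v * (D.pw v * D.V v)
      ≤ 32 / θ ^ 2 * (144 * (JS D T2 Z ε1 / ε1 + MS D mu2 Z + LamS D T2 Z ε1 ε2 / (ε1 * ε2)
        + dlt2 / ε1 * (D.En / 4))) := by
  set G := (D.mob Mv θ).filter (fun v => v ∉ Z ∧ ¬ k.Bd Z sv q1 dlt1 L1 CF v ∧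
        ¬ k.Bd Z sv q2 dlt2 L2 CF v) with hG
  have hG1 : ∀ v ∈ G, v ∈ D.mob Mv θ ∧ v ∉ Z ∧ ¬ k.Bd Z sv q1 dlt1 L1 CF v ∧
        ¬ k.Bd Z sv q2 dlt2 L2 CF v := fun v hv => Finset.mem_filter.1 hv
  set R : ι → ι → Prop := fun u x => u ∈ G ∧ x ∉ Z ∧ u ≠ x ∧ ε1 ≤ D.kap u x with hR
  set St : ι → ι → Prop := fun w u => w ∉ Z ∧ ε2 ≤ D.kap w u with hSt
  have hee : ∀ u x, 0 ≤ D.e u * D.e x := fun u x => mul_nonneg (D.he u).le (D.he x).le
  -- step 1: good rows against the energy of `R`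
  have h1 : ∑ v ∈ G, D.om v * (D.pw v * D.V v)
      ≤ 32 / θ ^ 2 * ∑ j, ∑ u, ∑ x,
        (if R u x then D.e u * D.e x * ((D.a j u - D.a j x) ^ 2 * D.K u x) else 0) := by
    have h2 : ∀ v ∈ G, D.om v * (D.pw v * D.V v)
        ≤ 32 / θ ^ 2 * ∑ x, (if R v x then D.e v * D.e x * (D.d2 v x * D.K v x) else 0) := by
      intro v hv
      obtain ⟨g1, g2, g3, g4⟩ := hG1 v hv
      have g5 := (Finset.mem_filter.1 g1).2
      have hw := k.not_bad hθ hd1 hC hq1 hε1 hL1 hε1' hε1h hsv g1 g3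
      have h3 := D.row_good (fun x => x ∈ Z ∨ D.kap v x < ε1) hθ g5.1 g5.2
        (le_trans hw hdθ)
      have h4 : D.pw v * ∑ x, (if x ∈ Z ∨ D.kap v x < ε1 then 0 else D.P v x * D.d2 v x)
          ≤ ∑ x, (if R v x then D.e v * D.e x * (D.d2 v x * D.K v x) else 0) := by
        rw [Finset.mul_sum]
        apply Finset.sum_le_sum
        intro x _
        by_cases hx : R v x
        · rw [if_pos hx]
          have hx2 : ¬ (x ∈ Z ∨ D.kap v x < ε1) := by
            rintro (h | h)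
            · exact hx.2.1 h
            · exact absurd hx.2.2.2 (not_le.2 h)
          rw [if_neg hx2]
          apply le_of_eq
          unfold Dat.pw Dat.P
          have := (D.hm v).ne'
          field_simp
        · rw [if_neg hx]
          by_cases hx2 : x ∈ Z ∨ D.kap v x < ε1
          · rw [if_pos hx2, mul_zero]
          · rw [if_neg hx2]
            push Not at hx2
            have hvx : v = x := by
              by_contra hne
              exact hx ⟨hv, hx2.1, hne, hx2.2⟩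
            rw [← hvx, D.d2_self]
            simp
      have h5 : D.pw v * D.V v ≤ 32 / θ ^ 2 * (D.pw v *
          ∑ x, (if x ∈ Z ∨ D.kap v x < ε1 then 0 else D.P v x * D.d2 v x)) := by
        have h6 := mul_le_mul_of_nonneg_left h3 (D.pw_pos v).le
        have h7 := mul_le_mul_of_nonneg_left h6 (show 0 ≤ 32 / θ ^ 2 by positivity)
        have h8 : 32 / θ ^ 2 * (D.pw v * (θ ^ 2 / 32 * D.V v)) = D.pw v * D.V v := by
          field_simp
        rw [h8] at h7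
        exact h7
      have h6 : D.om v * (D.pw v * D.V v) ≤ D.pw v * D.V v := by
        have := mul_nonneg (D.pw_pos v).le (D.V_nonneg v)
        nlinarith [D.hom1 v]
      have h7 := mul_le_mul_of_nonneg_left h4 (show 0 ≤ 32 / θ ^ 2 by positivity)
      linarith
    refine le_trans (Finset.sum_le_sum h2) ?_
    rw [← Finset.mul_sum]
    apply mul_le_mul_of_nonneg_left _ (by positivity)
    calc ∑ v ∈ G, ∑ x, (if R v x then D.e v * D.e x * (D.d2 v x * D.K v x) else 0)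
        ≤ ∑ v, ∑ x, (if R v x then D.e v * D.e x * (D.d2 v x * D.K v x) else 0) := by
          apply Finset.sum_le_sum_of_subset_of_nonneg (Finset.subset_univ _)
          intro v _ _
          apply Finset.sum_nonneg
          intro x _
          split_ifs
          · exact mul_nonneg (hee v x) (mul_nonneg (D.d2_nonneg v x) (D.hK v x))
          · exact le_rfl
      _ = ∑ j, ∑ u, ∑ x,
        (if R u x then D.e u * D.e x * ((D.a j u - D.a j x) ^ 2 * D.K u x) else 0) := by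
          rw [Finset.sum_comm]
          rw [Finset.sum_comm (s := (univ : Finset κ))]
          rw [Finset.sum_comm]
          apply Finset.sum_congr rfl
          intro v _
          rw [Finset.sum_comm]
          apply Finset.sum_congr rfl
          intro x _
          by_cases hx : R v x
          · simp only [if_pos hx]
            unfold Dat.d2
            rw [Finset.sum_mul, Finset.mul_sum]
          · simp only [if_neg hx, Finset.sum_const_zero]
  -- step 2: the static step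
  have h2 : ∀ j, ∑ u, ∑ x,
      (if R u x then D.e u * D.e x * ((D.a j u - D.a j x) ^ 2 * D.K u x) else 0)
      ≤ 144 * ((∑ u, ∑ x, if R u x then D.e u * D.e x * (D.kap u x * T2 j u x) else 0) / ε1 +
        (∑ x, if x ∉ Z then D.e x * (D.m x * mu2 j x) else 0) +
        (∑ w, ∑ x, if w ≠ x then D.e w * D.e x * (T2 j w x *
          ∑ u, if R u x ∧ St w u ∧ u ≠ w then
            D.e u * D.m u * (D.kap w u * D.kap u x) else 0) else 0) / (ε1 * ε2) +
        dlt2 / ε1 * ∑ w, ∑ x, if x ∉ Z then D.e w * D.e x * T2 j w x else 0) := by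
    intro j
    apply hst j R St (fun x => x ∉ Z) ε1 ε2 dlt2 hε1 hε2 hd2
    · intro u x h; exact h.2.1
    · intro u x h; exact h.2.2.1
    · intro u x h; exact h.2.2.2
    · intro u x w _ h; exact h.2
    · intro u x h
      obtain ⟨g1, g2, g3, g4⟩ := hG1 u h.1
      have hw := k.not_bad hθ hd2 hC hq2 hε2 hL2 hε2' hε2h hsv g1 g4
      refine le_trans (le_of_eq ?_) hw
      rw [← Finset.sum_filter]
      apply Finset.sum_congr _ (fun _ _ => rfl)
      ext w
      simp only [Finset.mem_filter, Finset.mem_univ, true_and, hSt, not_and_or, not_not, not_le,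
        D.kap_symm w u]
  refine le_trans h1 ?_
  apply mul_le_mul_of_nonneg_left _ (by positivity)
  refine le_trans (Finset.sum_le_sum fun j _ => h2 j) ?_
  rw [← Finset.mul_sum]
  apply mul_le_mul_of_nonneg_left _ (by norm_num)
  rw [Finset.sum_add_distrib, Finset.sum_add_distrib, Finset.sum_add_distrib,
    ← Finset.sum_div, ← Finset.sum_div, ← Finset.mul_sum]
  have hkk : ∀ u x, 0 ≤ D.kap u x := D.kap_nonneg
  have hJ : ∑ j, ∑ u, ∑ x, (if R u x then D.e u * D.e x * (D.kap u x * T2 j u x) else 0)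
      ≤ JS D T2 Z ε1 := by
    unfold JS
    refine Finset.sum_le_sum fun j _ => Finset.sum_le_sum fun u _ =>
      Finset.sum_le_sum fun x _ => ?_
    have hnn : 0 ≤ D.e u * D.e x * (D.kap u x * T2 j u x) :=
      mul_nonneg (hee u x) (mul_nonneg (hkk u x) (hT2 j u x))
    by_cases hx : R u x
    · rw [if_pos hx, if_pos ⟨(hG1 u hx.1).2.1, hx.2.1, hx.2.2.1, hx.2.2.2⟩]
    · rw [if_neg hx]; split_ifs
      · exact hnn
      · exact le_rfl
  have hL : ∑ j, ∑ w, ∑ x, (if w ≠ x then D.e w * D.e x * (T2 j w x *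
          ∑ u, if R u x ∧ St w u ∧ u ≠ w then
            D.e u * D.m u * (D.kap w u * D.kap u x) else 0) else 0)
      ≤ LamS D T2 Z ε1 ε2 := by
    unfold LamS
    refine Finset.sum_le_sum fun j _ => Finset.sum_le_sum fun w _ =>
      Finset.sum_le_sum fun x _ => ?_
    have hnn : ∀ u, 0 ≤ D.e u * D.m u * (D.kap w u * D.kap u x) := fun u =>
      mul_nonneg (D.pw_pos u).le (mul_nonneg (hkk w u) (hkk u x))
    have hin : ∑ u, (if R u x ∧ St w u ∧ u ≠ w then
            D.e u * D.m u * (D.kap w u * D.kap u x) else 0)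
        ≤ ∑ u, (if u ∉ Z ∧ u ≠ w ∧ u ≠ x ∧ ε2 ≤ D.kap w u ∧ ε1 ≤ D.kap u x then
          D.e u * D.m u * (D.kap w u * D.kap u x) else 0) := by
      refine Finset.sum_le_sum fun u _ => ?_
      by_cases hx : R u x ∧ St w u ∧ u ≠ w
      · rw [if_pos hx, if_pos ⟨(hG1 u hx.1.1).2.1, hx.2.2, hx.1.2.2.1, hx.2.1.2, hx.1.2.2.2⟩]
      · rw [if_neg hx]; split_ifs
        · exact hnn u
        · exact le_rfl
    by_cases hwx : w ≠ x
    · rw [if_pos hwx]
      by_cases hz : w ∉ Z ∧ x ∉ Z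
      · rw [if_pos ⟨hz.1, hz.2, hwx⟩]
        apply mul_le_mul_of_nonneg_left _ (hee w x)
        exact mul_le_mul_of_nonneg_left hin (hT2 j w x)
      · have h0 : ∑ u, (if R u x ∧ St w u ∧ u ≠ w then
            D.e u * D.m u * (D.kap w u * D.kap u x) else 0) = 0 := by
          apply Finset.sum_eq_zero
          intro u _
          rw [if_neg]
          rintro ⟨h3, h4, _⟩
          exact hz ⟨h4.1, h3.2.1⟩
        rw [h0, mul_zero, mul_zero]
        rw [if_neg]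
        rintro ⟨h3, h4, _⟩
        exact hz ⟨h3, h4⟩
    · rw [if_neg hwx, if_neg]
      rintro ⟨_, _, h⟩
      exact hwx h
  have hE : ∑ j, ∑ w, ∑ x, (if x ∉ Z then D.e w * D.e x * T2 j w x else 0) ≤ D.En / 4 := by
    refine le_trans ?_ hTE
    refine Finset.sum_le_sum fun j _ => Finset.sum_le_sum fun w _ =>
      Finset.sum_le_sum fun x _ => ?_
    by_cases hx : x ∉ Z
    · rw [if_pos hx]
    · rw [if_neg hx]
      exact mul_nonneg (hee w x) (hT2 j w x)
  have e1 := div_le_div_of_nonneg_right hJ hε1.le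
  have e2 := div_le_div_of_nonneg_right hL (mul_pos hε1 hε2).le
  have e3 := mul_le_mul_of_nonneg_left hE (show 0 ≤ dlt2 / ε1 by positivity)
  unfold MS
  linarith

end

end Ker

theorem En_nonneg (D : Dat ι κ) : 0 ≤ D.En :=
  Finset.sum_nonneg fun x _ => Finset.sum_nonneg fun y _ =>
    mul_nonneg (mul_nonneg (mul_nonneg (D.he x).le (D.he y).le) (D.hK x y)) (D.d2_nonneg x y)

open Classical in
theorem JS_nonneg {D : Dat ι κ} {T2 : κ → ι → ι → ℝ} {Z : Finset ι} {ε1 : ℝ}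
    (hT2 : ∀ j u x, 0 ≤ T2 j u x) : 0 ≤ Ker.JS D T2 Z ε1 := by
  unfold Ker.JS
  refine Finset.sum_nonneg fun j _ => Finset.sum_nonneg fun u _ => Finset.sum_nonneg fun x _ => ?_
  split_ifs
  · exact mul_nonneg (mul_nonneg (D.he u).le (D.he x).le) (mul_nonneg (D.kap_nonneg u x)
      (hT2 j u x))
  · exact le_rfl

open Classical in
theorem MS_nonneg {D : Dat ι κ} {mu2 : κ → ι → ℝ} {Z : Finset ι}
    (hmu : ∀ j x, 0 ≤ mu2 j x) : 0 ≤ Ker.MS D mu2 Z := by
  unfold Ker.MS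
  refine Finset.sum_nonneg fun j _ => Finset.sum_nonneg fun x _ => ?_
  by_cases h : x ∉ Z
  · rw [if_pos h]
    exact mul_nonneg (D.he x).le (mul_nonneg (D.hm x).le (hmu j x))
  · rw [if_neg h]

open Classical in
theorem LamS_nonneg {D : Dat ι κ} {T2 : κ → ι → ι → ℝ} {Z : Finset ι} {ε1 ε2 : ℝ}
    (hT2 : ∀ j u x, 0 ≤ T2 j u x) : 0 ≤ Ker.LamS D T2 Z ε1 ε2 := by
  unfold Ker.LamS
  refine Finset.sum_nonneg fun j _ => Finset.sum_nonneg fun w _ => Finset.sum_nonneg fun x _ => ?_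
  split_ifs
  · refine mul_nonneg (mul_nonneg (D.he w).le (D.he x).le) (mul_nonneg (hT2 j w x)
      (Finset.sum_nonneg fun u _ => ?_))
    split_ifs
    · exact mul_nonneg (D.pw_pos u).le (mul_nonneg (D.kap_nonneg w u) (D.kap_nonneg u x))
    · exact le_rfl
  · exact le_rfl

/-- bookkeeping of the coefficients -/
theorem coef_aux {a1 a2 x1 bb x2 J M La B : ℝ} (ha1 : 0 ≤ a1) (ha2 : 0 ≤ a2) (hx1 : 0 ≤ x1)
    (hbb : 0 ≤ bb) (hx2 : 0 ≤ x2) (hJ : 0 ≤ J) (hM : 0 ≤ M) (hLa : 0 ≤ La) (hB : 0 ≤ B) :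
    a1 * B + a2 * B + B + (x1 * J + bb * M + x2 * La)
      ≤ (1 + a1 + a2 + x1 + bb + x2) * (J + M + La + B) := by
  have : (1 + a1 + a2 + x1 + bb + x2) * (J + M + La + B)
      - (a1 * B + a2 * B + B + (x1 * J + bb * M + x2 * La))
      = (1 + a1 + a2 + bb + x2) * J + (1 + a1 + a2 + x1 + x2) * M
        + (1 + a1 + a2 + x1 + bb) * La + (x1 + bb + x2) * B := by ring
  have h1 : 0 ≤ (1 + a1 + a2 + bb + x2) * J + (1 + a1 + a2 + x1 + x2) * M
        + (1 + a1 + a2 + x1 + bb) * La + (x1 + bb + x2) * B := by positivity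
  linarith

/-- the last algebra of `one_det` -/
theorem static_aux {θ ρ ε1 ε2 J M La E : ℝ} (hθ : 0 < θ) (hε1 : 0 < ε1) (hε2 : 0 < ε2) :
    32 / θ ^ 2 * (144 * (J / ε1 + M + La / (ε1 * ε2)
        + (ρ * ε1 * θ ^ 2 / 2304) / ε1 * (E / 4)))
      = 32 / θ ^ 2 * 144 * (1 / ε1) * J + 32 / θ ^ 2 * 144 * M
        + 32 / θ ^ 2 * 144 * (1 / (ε1 * ε2)) * La + ρ / 2 * E := by
  field_simp
  ring

theorem lin_aux {Mob s1 s2 s3 s4 B a1 a2 x1 bb x2 J M La E Ps F F1 F2 ρ A : ℝ}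
    (hsplit : Mob ≤ s1 + s2 + s3 + s4) (hZ : s1 ≤ B)
    (hb1 : s2 ≤ ρ / 4 * Ps + a1 * B + ρ / 4 * F1)
    (hb2 : s3 ≤ ρ / 4 * Ps + a2 * B + ρ / 4 * F2)
    (hg : s4 ≤ x1 * J + bb * M + x2 * La + ρ / 2 * E)
    (j1 : ρ / 4 * F1 ≤ ρ / 4 * F) (j2 : ρ / 4 * F2 ≤ ρ / 4 * F)
    (i1 : 0 ≤ ρ * E) (i2 : 0 ≤ ρ * Ps) (i3 : 0 ≤ ρ * F)
    (key : a1 * B + a2 * B + B + (x1 * J + bb * M + x2 * La) ≤ A) :
    Mob ≤ A + ρ * (E + Ps + F) := by
  linarith

open Classical in
theorem split_aux {σ : Type*} {Cs : ℝ} {D : Dat ι κ} (k : Ker D σ Cs) (Mv Z : Finset ι) (θ : ℝ)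
    (sv : ι → σ) (q1 dlt1 L1 q2 dlt2 L2 CF : ℝ) :
    D.MobE Mv θ ≤ Ker.BadE D Z
      + ∑ v ∈ (D.mob Mv θ).filter (k.Bd Z sv q1 dlt1 L1 CF), D.om v * (D.pw v * D.V v)
      + ∑ v ∈ (D.mob Mv θ).filter (k.Bd Z sv q2 dlt2 L2 CF), D.om v * (D.pw v * D.V v)
      + ∑ v ∈ (D.mob Mv θ).filter (fun v => v ∉ Z ∧ ¬ k.Bd Z sv q1 dlt1 L1 CF v ∧
        ¬ k.Bd Z sv q2 dlt2 L2 CF v), D.om v * (D.pw v * D.V v) := by
  have hf0 : ∀ v, 0 ≤ D.om v * (D.pw v * D.V v) := fun v =>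
    mul_nonneg (D.hom0 v) (mul_nonneg (D.pw_pos v).le (D.V_nonneg v))
  have hsplit : D.MobE Mv θ ≤ ∑ v ∈ (D.mob Mv θ).filter (fun v => v ∈ Z),
        D.om v * (D.pw v * D.V v)
      + ∑ v ∈ (D.mob Mv θ).filter (k.Bd Z sv q1 dlt1 L1 CF), D.om v * (D.pw v * D.V v)
      + ∑ v ∈ (D.mob Mv θ).filter (k.Bd Z sv q2 dlt2 L2 CF), D.om v * (D.pw v * D.V v)
      + ∑ v ∈ (D.mob Mv θ).filter (fun v => v ∉ Z ∧ ¬ k.Bd Z sv q1 dlt1 L1 CF v ∧
        ¬ k.Bd Z sv q2 dlt2 L2 CF v), D.om v * (D.pw v * D.V v) := by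
    unfold Dat.MobE
    rw [Finset.sum_filter, Finset.sum_filter, Finset.sum_filter, Finset.sum_filter,
      ← Finset.sum_add_distrib, ← Finset.sum_add_distrib, ← Finset.sum_add_distrib]
    apply Finset.sum_le_sum
    intro v _
    have h0 := hf0 v
    by_cases h1 : v ∈ Z
    · rw [if_pos h1]
      split_ifs <;> linarith
    · by_cases h2 : k.Bd Z sv q1 dlt1 L1 CF v
      · rw [if_pos h2]
        split_ifs <;> linarith
      · by_cases h3 : k.Bd Z sv q2 dlt2 L2 CF v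
        · rw [if_pos h3]
          split_ifs <;> linarith
        · rw [if_neg h1, if_neg h2, if_neg h3, if_pos ⟨h1, h2, h3⟩]
          linarith
  have hZ : ∑ v ∈ (D.mob Mv θ).filter (fun v => v ∈ Z), D.om v * (D.pw v * D.V v)
      ≤ Ker.BadE D Z := by
    unfold Ker.BadE
    calc ∑ v ∈ (D.mob Mv θ).filter (fun v => v ∈ Z), D.om v * (D.pw v * D.V v)
        ≤ ∑ v ∈ Z, D.om v * (D.pw v * D.V v) := by
          apply Finset.sum_le_sum_of_subset_of_nonneg
          · intro v hv; exact (Finset.mem_filter.1 hv).2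
          · intro v _ _; exact hf0 v
      _ ≤ _ := by
          apply Finset.sum_le_sum
          intro v _
          have := mul_nonneg (D.pw_pos v).le (D.V_nonneg v)
          have := D.hom1 v
          nlinarith
  linarith

/-- the constants -/
structure Cst (θ ρ c1 : ℝ) (pos : ℝ → ℝ → ℝ → ℝ)
    (dlt1 dlt2 q1 q2 L1 L2 CF M1 M2 ε1 ε2 t0 : ℝ) : Prop where
  hd1 : 0 < dlt1
  hd2 : 0 < dlt2
  hC : 0 < CF
  hM1 : 0 < M1
  hM2 : 0 < M2
  hq1 : 0 < q1
  hq2 : 0 < q2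
  hε1 : 0 < ε1
  hε2 : 0 < ε2
  hL10 : 0 < L1
  hL20 : 0 < L2
  ht0 : 0 < t0
  hL1 : 8 / dlt1 < L1
  hL2 : 8 / dlt2 < L2
  hε1' : ε1 * (8 * CF) ≤ dlt1 * q1
  hε2' : ε2 * (8 * CF) ≤ dlt2 * q2
  hε1h : ε1 ≤ 1 / 2
  hε2h : ε2 ≤ 1 / 2
  hdθ : dlt1 ≤ θ / 8
  hdlt2 : dlt2 = ρ * ε1 * θ ^ 2 / 2304
  c1' : 16 / (θ * dlt1 * M1) = ρ / 4
  c2' : 16 / (θ * dlt2 * M2) = ρ / 4
  c3' : 4 / (θ * CF) = ρ / 4
  hp1 : ∀ t a b, 0 < t → t ≤ t0 → c1 ≤ a → 0 ≤ b → b ≤ q1 → M1 ≤ pos t a b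
  hp2 : ∀ t a b, 0 < t → t ≤ t0 → c1 ≤ a → 0 ≤ b → b ≤ q2 → M2 ≤ pos t a b

theorem exists_cst {θ ρ c1 : ℝ} (hθ : 0 < θ) (hρ : 0 < ρ) (hc1 : 0 < c1)
    {pos : ℝ → ℝ → ℝ → ℝ} (hpos : Ker.PosFam pos) :
    ∃ dlt1 dlt2 q1 q2 L1 L2 CF M1 M2 ε1 ε2 t0,
      Cst θ ρ c1 pos dlt1 dlt2 q1 q2 L1 L2 CF M1 M2 ε1 ε2 t0 := by
  obtain ⟨hp0, hpL⟩ := hpos
  have hd1 : 0 < θ / 8 := by positivity
  have hC : 0 < 16 / (θ * ρ) := by positivity
  have hM1 : 0 < 64 / (θ * (θ / 8) * ρ) := by positivity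
  obtain ⟨q1, hq1, t1, ht1, hp1⟩ := hpL (64 / (θ * (θ / 8) * ρ)) c1 hc1
  obtain ⟨ε1, hε1, hε1', hε1h⟩ : ∃ ε1 > 0, ε1 * (8 * (16 / (θ * ρ))) ≤ θ / 8 * q1 ∧
      ε1 ≤ 1 / 2 :=
    ⟨min (θ / 8 * q1 / (8 * (16 / (θ * ρ)))) (1 / 2), lt_min (by positivity) (by norm_num),
      by
        rw [← le_div_iff₀ (by positivity)]
        exact min_le_left _ _, min_le_right _ _⟩
  obtain ⟨dlt2, hdlt2⟩ : ∃ dlt2, dlt2 = ρ * ε1 * θ ^ 2 / 2304 := ⟨_, rfl⟩
  have hd2 : 0 < dlt2 := by rw [hdlt2]; positivity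
  obtain ⟨q2, hq2, t2, ht2, hp2⟩ := hpL (64 / (θ * dlt2 * ρ)) c1 hc1
  obtain ⟨ε2, hε2, hε2', hε2h⟩ : ∃ ε2 > 0, ε2 * (8 * (16 / (θ * ρ))) ≤ dlt2 * q2 ∧
      ε2 ≤ 1 / 2 :=
    ⟨min (dlt2 * q2 / (8 * (16 / (θ * ρ)))) (1 / 2), lt_min (by positivity) (by norm_num),
      by
        rw [← le_div_iff₀ (by positivity)]
        exact min_le_left _ _, min_le_right _ _⟩
  refine ⟨θ / 8, dlt2, q1, q2, 8 / (θ / 8) + 1, 8 / dlt2 + 1, 16 / (θ * ρ),
    64 / (θ * (θ / 8) * ρ), 64 / (θ * dlt2 * ρ), ε1, ε2, min t1 t2,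
    { hd1 := hd1, hd2 := hd2, hC := hC, hM1 := hM1, hM2 := by positivity, hq1 := hq1,
      hq2 := hq2, hε1 := hε1, hε2 := hε2, hL10 := by positivity, hL20 := by positivity,
      ht0 := lt_min ht1 ht2, hL1 := by linarith, hL2 := by linarith, hε1' := hε1',
      hε2' := hε2', hε1h := hε1h, hε2h := hε2h, hdθ := le_rfl, hdlt2 := hdlt2,
      c1' := ?_, c2' := ?_, c3' := ?_,
      hp1 := fun t a b ht ht0 ha hb hbq => hp1 t a b ht (le_trans ht0 (min_le_left _ _)) ha hb hbq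
      hp2 := fun t a b ht ht0 ha hb hbq =>
        hp2 t a b ht (le_trans ht0 (min_le_right _ _)) ha hb hbq }⟩
  · field_simp; norm_num
  · field_simp; norm_num
  · field_simp; norm_num

open Classical in
theorem one_core {θ ρ c1 Cs : ℝ} (hθ : 0 < θ) (hρ : 0 < ρ) (hCs : 0 ≤ Cs)
    {pos : ℝ → ℝ → ℝ → ℝ} (hp0 : ∀ t a b, 0 < t → 0 ≤ a → 0 ≤ b → 0 ≤ pos t a b)
    {dlt1 dlt2 q1 q2 L1 L2 CF M1 M2 ε1 ε2 t0 : ℝ}
    (C : Cst θ ρ c1 pos dlt1 dlt2 q1 q2 L1 L2 CF M1 M2 ε1 ε2 t0)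
    {σ : Type*} {D : Dat ι κ} (k : Ker D σ Cs)
    (Mv Z : Finset ι) {T2 : κ → ι → ι → ℝ} {mu2 : κ → ι → ℝ} {sv : ι → σ} {t : ℝ}
    (ht : 0 < t) (ht0 : t ≤ t0) (hT2 : ∀ j u x, 0 ≤ T2 j u x) (hmu : ∀ j x, 0 ≤ mu2 j x)
    (hTE : ∑ j, ∑ w, ∑ x, D.e w * D.e x * T2 j w x ≤ D.En / 4)
    (hst : Ker.StatH D T2 mu2) (hsv : k.Scl Mv θ c1 sv) :
    D.MobE Mv θ ≤ (1 + 16 * Cs / (θ * dlt1 * q1) + 16 * Cs / (θ * dlt2 * q2)
        + 32 / θ ^ 2 * 144 * (1 / ε1) + 32 / θ ^ 2 * 144 + 32 / θ ^ 2 * 144 * (1 / (ε1 * ε2))) *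
        (Ker.JS D T2 Z ε1 + Ker.MS D mu2 Z + Ker.LamS D T2 Z ε1 ε2 + Ker.BadE D Z)
      + ρ * (D.En + k.Pos (pos t) Mv + k.FN Mv c1 (L1 + L2)) := by
  have hb1 := k.bad_le (Z := Z) (L := L1) hθ C.hd1 C.hC C.hM1 C.hq1 hsv
    (fun a b ha hb => hp0 t a b ht ha hb)
    (fun a b ha hb hbq => C.hp1 t a b ht ht0 ha hb hbq)
  have hb2 := k.bad_le (Z := Z) (L := L2) hθ C.hd2 C.hC C.hM2 C.hq2 hsv
    (fun a b ha hb => hp0 t a b ht ha hb)
    (fun a b ha hb hbq => C.hp2 t a b ht ht0 ha hb hbq)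
  have hg := k.good_le (Z := Z) hθ C.hd1 C.hd2 C.hC C.hq1 C.hq2 C.hε1 C.hε2 C.hL1 C.hL2
    C.hε1' C.hε2' C.hε1h C.hε2h C.hdθ hT2 hTE hst hsv
  rw [C.c1', C.c3'] at hb1
  rw [C.c2', C.c3'] at hb2
  have e : dlt2 / ε1 * (D.En / 4) = (ρ * ε1 * θ ^ 2 / 2304) / ε1 * (D.En / 4) := by
    rw [← C.hdlt2]
  rw [e, static_aux hθ C.hε1 C.hε2] at hg
  have hd1 := C.hd1
  have hd2 := C.hd2
  have hq1 := C.hq1
  have hq2 := C.hq2
  have hε1 := C.hε1
  have hε2 := C.hε2
  have hFN1 : k.FN Mv c1 L1 ≤ k.FN Mv c1 (L1 + L2) := k.FN_mono (by linarith [C.hL20])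
  have hFN2 : k.FN Mv c1 L2 ≤ k.FN Mv c1 (L1 + L2) := k.FN_mono (by linarith [C.hL10])
  exact lin_aux (split_aux k Mv Z θ sv q1 dlt1 L1 q2 dlt2 L2 CF) le_rfl hb1 hb2 hg
    (mul_le_mul_of_nonneg_left hFN1 (show 0 ≤ ρ / 4 by positivity))
    (mul_le_mul_of_nonneg_left hFN2 (show 0 ≤ ρ / 4 by positivity))
    (mul_nonneg hρ.le (En_nonneg D))
    (mul_nonneg hρ.le (k.Pos_nonneg (fun a b ha hb => hp0 t a b ht ha hb)))
    (mul_nonneg hρ.le k.FN_nonneg)
    (coef_aux (by positivity) (by positivity) (by positivity) (by positivity) (by positivity)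
      (JS_nonneg hT2) (MS_nonneg hmu) (LamS_nonneg hT2) (Ker.BadE_nonneg Z))

open Classical in
/-- **deterministic half of ONE**: the constants `t0, L, ε1, ε2, A` depend on `θ, ρ, c1, Cs` (and on
the family `pos`) only. -/
theorem one_det {θ ρ c1 Cs : ℝ} (hθ : 0 < θ) (hρ : 0 < ρ) (hc1 : 0 < c1) (hCs : 0 ≤ Cs)
    {pos : ℝ → ℝ → ℝ → ℝ} (hpos : Ker.PosFam pos) :
    ∃ t0 > 0, ∃ L > 0, ∃ ε1 > 0, ∃ ε2 > 0, ∃ A > 0,
      ∀ (ι κ σ : Type) [Fintype ι] [Fintype κ] (D : Dat ι κ) (k : Ker D σ Cs)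
        (Mv Z : Finset ι) (T2 : κ → ι → ι → ℝ) (mu2 : κ → ι → ℝ) (sv : ι → σ) (t : ℝ),
        0 < t → t ≤ t0 → (∀ j u x, 0 ≤ T2 j u x) → (∀ j x, 0 ≤ mu2 j x) →
        (∑ j, ∑ w, ∑ x, D.e w * D.e x * T2 j w x ≤ D.En / 4) →
        Ker.StatH D T2 mu2 → k.Scl Mv θ c1 sv →
        D.MobE Mv θ ≤ A * (Ker.JS D T2 Z ε1 + Ker.MS D mu2 Z + Ker.LamS D T2 Z ε1 ε2
          + Ker.BadE D Z) + ρ * (D.En + k.Pos (pos t) Mv + k.FN Mv c1 L) := by
  obtain ⟨dlt1, dlt2, q1, q2, L1, L2, CF, M1, M2, ε1, ε2, t0, C⟩ := exists_cst hθ hρ hc1 hpos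
  have hd1 := C.hd1
  have hd2 := C.hd2
  have hq1 := C.hq1
  have hq2 := C.hq2
  have hε1 := C.hε1
  have hε2 := C.hε2
  refine ⟨t0, C.ht0, L1 + L2, add_pos C.hL10 C.hL20, ε1, C.hε1, ε2, C.hε2,
    1 + 16 * Cs / (θ * dlt1 * q1) + 16 * Cs / (θ * dlt2 * q2)
        + 32 / θ ^ 2 * 144 * (1 / ε1) + 32 / θ ^ 2 * 144 + 32 / θ ^ 2 * 144 * (1 / (ε1 * ε2)),
    by positivity, ?_⟩
  intro ι κ σ _ _ D k Mv Z T2 mu2 sv t ht ht0 hT2 hmu hTE hst hsv
  exact one_core hθ hρ hCs hpos.1 C k Mv Z ht ht0 hT2 hmu hTE hst hsv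

end P365T2.H905
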