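import Vale.Agent.P365.J376.Bridge

/-!
# P365 T2: differentiation along a path of absorption profiles, ANY smooth functional

`LH ι` = product of lower half planes.  Any `Ψ : (ι → ℂ) → ℝ` which is `C¹` on `LH ι`
(`ContDiffOn ℝ 1 Ψ (LH ι)`), any product law with bounded support, any path `e τ` of positive profiles:
`d/dτ E Ψ = E ∑_x e_x'(τ) ∂_{e_x} Ψ`; also summed over labels.  `dI Ψ x` = derivative in `e_x`
(direction `-i`), `dR Ψ x` = derivative in `v_x`.
-/

set_option autoImplicit false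
set_option linter.all false

namespace P365L.T2.Path

open P365L P365T1 Vale.Agent.P365.J376 Matrix Complex MeasureTheory Filter Topology Set

section half

variable {ι : Type*} [Fintype ι] [DecidableEq ι]

/-- product of lower half planes -/
def LH (ι : Type*) : Set (ι → ℂ) := {W | ∀ x, (W x).im < 0}

theorem isOpen_LH : IsOpen (LH ι) := by
  have h : LH ι = ⋂ x : ι, {W : ι → ℂ | (W x).im < 0} := by
    ext W
    simp [LH]
  rw [h]
  exact isOpen_iInter_of_finite fun x =>
    isOpen_lt (Complex.continuous_im.comp (continuous_apply x)) continuous_const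

theorem WV_mem_LH {E : ℝ} {e : ι → ℝ} (he : ∀ x, 0 < e x) (v : ι → ℝ) : WV E e v ∈ LH ι :=
  WV_neg he v

/-! ### smoothness of the Green matrix -/

theorem contDiff_det {E' : Type*} [NormedAddCommGroup E'] [NormedSpace ℝ E'] {n : WithTop ℕ∞}
    {M : E' → Matrix ι ι ℂ} (h : ∀ i j, ContDiff ℝ n fun t => M t i j) :
    ContDiff ℝ n fun t => (M t).det := by
  have e : (fun t => (M t).det) = fun t => ∑ σ : Equiv.Perm ι,
      ((Equiv.Perm.sign σ : ℤ) : ℂ) * ∏ i, M t (σ i) i := by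
    funext t
    exact Matrix.det_apply' _
  rw [e]
  refine ContDiff.sum fun σ _ => contDiff_const.mul ?_
  exact contDiff_prod fun i _ => h _ _

theorem contDiff_Kmat (A : Matrix ι ι ℝ) {n : WithTop ℕ∞} (i j : ι) :
    ContDiff ℝ n fun W : ι → ℂ => Kmat A W i j := by
  by_cases h : i = j
  · subst h
    have e : (fun W : ι → ℂ => Kmat A W i i) = fun W => (A i i : ℂ) + W i := by
      funext W
      simp [Kmat]
    rw [e]
    exact contDiff_const.add (contDiff_apply ℝ ℂ i)
  · have e : (fun W : ι → ℂ => Kmat A W i j) = fun _ => (A i j : ℂ) := by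
      funext W
      simp [Kmat, Matrix.diagonal_apply_ne _ h]
    rw [e]
    exact contDiff_const

variable {A : Matrix ι ι ℝ}

/-- entries of the Green matrix are smooth on the lower half plane -/
theorem contDiffOn_Gr (hA : A.IsSymm) {n : WithTop ℕ∞} (x y : ι) :
    ContDiffOn ℝ n (fun W : ι → ℂ => Gr A W x y) (LH ι) := by
  have e : (fun W : ι → ℂ => Gr A W x y) =
      fun W => ((Kmat A W).det)⁻¹ * (Kmat A W).adjugate x y := by
    funext W
    rw [Gr, Matrix.inv_def, Ring.inverse_eq_inv', Matrix.smul_apply, smul_eq_mul]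
  rw [e]
  have h1 : ContDiff ℝ n fun W : ι → ℂ => (Kmat A W).det := contDiff_det (contDiff_Kmat A)
  have h2 : ContDiff ℝ n fun W : ι → ℂ => (Kmat A W).adjugate x y := by
    simp only [Matrix.adjugate_apply]
    refine contDiff_det fun i j => ?_
    by_cases hi : i = y
    · subst hi
      simp only [Matrix.updateRow_self]
      exact contDiff_const
    · simp only [Matrix.updateRow_ne hi]
      exact contDiff_Kmat A i j
  exact (h1.contDiffOn.inv fun W hW => det_ne_zero hA hW).mul h2.contDiffOn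

theorem contDiffOn_Gr_re (hA : A.IsSymm) {n : WithTop ℕ∞} (x y : ι) :
    ContDiffOn ℝ n (fun W : ι → ℂ => (Gr A W x y).re) (LH ι) :=
  Complex.reCLM.contDiff.comp_contDiffOn (contDiffOn_Gr hA x y)

theorem contDiffOn_Gr_im (hA : A.IsSymm) {n : WithTop ℕ∞} (x y : ι) :
    ContDiffOn ℝ n (fun W : ι → ℂ => (Gr A W x y).im) (LH ι) :=
  Complex.imCLM.contDiff.comp_contDiffOn (contDiffOn_Gr hA x y)

theorem contDiffOn_mm (hA : A.IsSymm) {n : WithTop ℕ∞} (x : ι) :
    ContDiffOn ℝ n (fun W : ι → ℂ => mm A W x) (LH ι) := contDiffOn_Gr_im hA x x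

theorem contDiffOn_KK (hA : A.IsSymm) {n : WithTop ℕ∞} (x y : ι) :
    ContDiffOn ℝ n (fun W : ι → ℂ => KK A W x y) (LH ι) :=
  (contDiffOn_Gr hA x y).norm_sq ℝ

theorem contDiff_e {n : WithTop ℕ∞} (x : ι) :
    ContDiff ℝ n fun W : ι → ℂ => -(W x).im :=
  (Complex.imCLM.contDiff.comp (contDiff_apply ℝ ℂ x)).neg

theorem contDiffOn_Mf (hA : A.IsSymm) {n : WithTop ℕ∞} (f : ι → ℝ) (z : ι) :
    ContDiffOn ℝ n (fun W : ι → ℂ => Mf A W f z) (LH ι) :=
  ContDiffOn.sum fun a _ => (((contDiff_e a).contDiffOn.mul (contDiffOn_KK hA z a)).mul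
    contDiffOn_const)

theorem contDiffOn_PP (hA : A.IsSymm) {n : WithTop ℕ∞} (x y : ι) :
    ContDiffOn ℝ n (fun W : ι → ℂ => PP A W x y) (LH ι) :=
  (((contDiff_e y).contDiffOn).mul (contDiffOn_KK hA x y)).div (contDiffOn_mm hA x)
    fun W hW => (mm_pos hA hW x).ne'

end half

/-! ### derivatives -/

section deriv

variable {ι : Type*} [Fintype ι] [DecidableEq ι]

/-- derivative in the absorption of `x` -/
noncomputable def dI (Ψ : (ι → ℂ) → ℝ) (x : ι) (W : ι → ℂ) : ℝ :=
  fderiv ℝ Ψ W (Pi.single x (-I))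

/-- derivative in the potential of `x` -/
noncomputable def dR (Ψ : (ι → ℂ) → ℝ) (x : ι) (W : ι → ℂ) : ℝ :=
  fderiv ℝ Ψ W (Pi.single x 1)

variable {Ψ : (ι → ℂ) → ℝ}

theorem hasFDerivAt_of (hΨ : ContDiffOn ℝ 1 Ψ (LH ι)) {W : ι → ℂ} (hW : W ∈ LH ι) :
    HasFDerivAt Ψ (fderiv ℝ Ψ W) W :=
  ((hΨ.differentiableOn one_ne_zero).differentiableAt (isOpen_LH.mem_nhds hW)).hasFDerivAt

theorem continuousOn_dI (hΨ : ContDiffOn ℝ 1 Ψ (LH ι)) (x : ι) : ContinuousOn (dI Ψ x) (LH ι) :=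
  (hΨ.continuousOn_fderiv_of_isOpen isOpen_LH le_rfl).clm_apply continuousOn_const

theorem continuousOn_dR (hΨ : ContDiffOn ℝ 1 Ψ (LH ι)) (x : ι) : ContinuousOn (dR Ψ x) (LH ι) :=
  (hΨ.continuousOn_fderiv_of_isOpen isOpen_LH le_rfl).clm_apply continuousOn_const

theorem hasDerivAt_WV {E : ℝ} {v : ι → ℝ} {e : ℝ → ι → ℝ} {e' : ι → ℝ} {τ : ℝ}
    (he : ∀ x, HasDerivAt (fun τ => e τ x) (e' x) τ) :
    HasDerivAt (fun τ => WV E (e τ) v) (fun x => (e' x : ℂ) * (-I)) τ := by
  rw [hasDerivAt_pi]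
  intro x
  have h1 : HasDerivAt (fun τ => (e τ x : ℂ)) (e' x : ℂ) τ := (he x).ofReal_comp
  have h2 := (h1.mul_const I).const_sub (((v x - E : ℝ)) : ℂ)
  have e3 : (e' x : ℂ) * (-I) = -((e' x : ℂ) * I) := by ring
  rw [e3]
  exact h2

theorem sum_single (e' : ι → ℝ) :
    (fun x => (e' x : ℂ) * (-I)) = ∑ x, e' x • (Pi.single x (-I) : ι → ℂ) := by
  funext y
  rw [Finset.sum_apply, Finset.sum_eq_single y]
  · simp
  · intro x _ hx
    simp [Pi.single_apply, hx.symm]
  · intro h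
    exact absurd (Finset.mem_univ y) h

/-- chain rule along a path of profiles -/
theorem hasDerivAt_path (hΨ : ContDiffOn ℝ 1 Ψ (LH ι)) {E : ℝ} {v : ι → ℝ} {e : ℝ → ι → ℝ}
    {e' : ι → ℝ} {τ : ℝ} (he : ∀ x, HasDerivAt (fun τ => e τ x) (e' x) τ)
    (hpos : ∀ x, 0 < e τ x) :
    HasDerivAt (fun τ => Ψ (WV E (e τ) v)) (∑ x, e' x * dI Ψ x (WV E (e τ) v)) τ := by
  have h1 := (hasFDerivAt_of hΨ (WV_mem_LH (E := E) hpos v)).comp_hasDerivAt τ
    (hasDerivAt_WV (E := E) (v := v) he)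
  rw [sum_single, map_sum] at h1
  simp only [map_smul, smul_eq_mul] at h1
  exact h1

/-- derivative in one absorption -/
theorem hasDerivAt_e (hΨ : ContDiffOn ℝ 1 Ψ (LH ι)) {E : ℝ} {v e : ι → ℝ} (x : ι)
    (hpos : ∀ z, 0 < e z) {s : ℝ} (hs : 0 < s) :
    HasDerivAt (fun s => Ψ (WV E (Function.update e x s) v))
      (dI Ψ x (WV E (Function.update e x s) v)) s := by
  have h := hasDerivAt_path (Ψ := Ψ) hΨ (E := E) (v := v) (e := fun s => Function.update e x s)
    (e' := Pi.single x 1) (τ := s) (fun z => ?_) (fun z => ?_)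
  · rw [Finset.sum_eq_single x] at h
    · simpa using h
    · intro z _ hz
      simp [Pi.single_apply, hz]
    · intro h'
      exact absurd (Finset.mem_univ x) h'
  · by_cases hz : z = x
    · subst hz
      simp only [Function.update_self, Pi.single_eq_same]
      exact hasDerivAt_id' s
    · simp only [Function.update_of_ne hz, Pi.single_apply, hz, if_false]
      exact hasDerivAt_const _ _
  · by_cases hz : z = x
    · subst hz
      simpa using hs
    · simpa only [Function.update_of_ne hz] using hpos z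

/-- derivative in one potential -/
theorem hasDerivAt_v (hΨ : ContDiffOn ℝ 1 Ψ (LH ι)) {E : ℝ} {v e : ι → ℝ} (x : ι)
    (hpos : ∀ z, 0 < e z) (t : ℝ) :
    HasDerivAt (fun t => Ψ (WV E e (Function.update v x t)))
      (dR Ψ x (WV E e (Function.update v x t))) t := by
  have h1 := (hasFDerivAt_of hΨ (WV_mem_LH (E := E) hpos (Function.update v x t)))
  have h2 : HasDerivAt (fun t => WV E e (Function.update v x t)) (Pi.single x (1 : ℂ)) t := by
    rw [hasDerivAt_pi]
    intro y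
    by_cases hy : y = x
    · subst hy
      simp only [WV, Function.update_self, Pi.single_eq_same]
      have h3 : HasDerivAt (fun t : ℝ => ((t - E : ℝ) : ℂ)) (1 : ℂ) t := by
        have := ((hasDerivAt_id t).sub_const E).ofReal_comp
        simpa using this
      exact h3.sub_const _
    · simp only [WV, Function.update_of_ne hy, Pi.single_apply, hy, if_false]
      exact hasDerivAt_const _ _
  exact h1.comp_hasDerivAt t h2

end deriv

/-! ### integrals -/

section integral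

variable {ι : Type*} [Fintype ι] [DecidableEq ι]

theorem continuous_WV_prod (E : ℝ) :
    Continuous fun p : (ι → ℝ) × (ι → ℝ) => WV E p.1 p.2 := by
  refine continuous_pi fun x => ?_
  unfold WV
  exact (Complex.continuous_ofReal.comp (((continuous_apply x).comp continuous_snd).sub
    continuous_const)).sub ((Complex.continuous_ofReal.comp
    ((continuous_apply x).comp continuous_fst)).mul continuous_const)

/-- bounded support of a product law -/
theorem ae_box {m : ι → Measure ℝ} [∀ x, IsProbabilityMeasure (m x)] {R : ℝ}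
    (hR : ∀ x, m x (Icc (-R) R)ᶜ = 0) :
    ∀ᵐ v ∂(Measure.pi m), v ∈ Set.pi univ fun _ : ι => Icc (-R) R := by
  have h : ∀ x, ∀ᵐ v ∂(Measure.pi m), v x ∈ Icc (-R) R := by
    intro x
    have h1 : ∀ᵐ t ∂(m x), t ∈ Icc (-R) R := by
      rw [ae_iff]
      exact hR x
    exact (measurePreserving_eval m x).quasiMeasurePreserving.ae h1
  filter_upwards [eventually_all.2 h] with v hv x _
  exact hv x

theorem continuous_comp {G : (ι → ℂ) → ℝ} (hG : ContinuousOn G (LH ι)) {E : ℝ} {e : ι → ℝ}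
    (he : ∀ x, 0 < e x) : Continuous fun v => G (WV E e v) := by
  refine hG.comp_continuous ?_ fun v => WV_mem_LH he v
  exact (continuous_WV_prod E).comp (continuous_const.prodMk continuous_id)

/-- a functional which is continuous on the lower half plane is integrable -/
theorem integrable_of_continuousOn {G : (ι → ℂ) → ℝ} (hG : ContinuousOn G (LH ι))
    {m : ι → Measure ℝ} [∀ x, IsProbabilityMeasure (m x)] {R : ℝ}
    (hR : ∀ x, m x (Icc (-R) R)ᶜ = 0) {E : ℝ} {e : ι → ℝ} (he : ∀ x, 0 < e x) :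
    Integrable (fun v => G (WV E e v)) (Measure.pi m) := by
  have hc := continuous_comp hG (E := E) he
  have hK : IsCompact (Set.pi univ fun _ : ι => Icc (-R) R) :=
    isCompact_univ_pi fun _ => isCompact_Icc
  obtain ⟨C, hC⟩ := hK.exists_bound_of_continuousOn hc.continuousOn
  refine Integrable.mono' (integrable_const C) hc.aestronglyMeasurable ?_
  filter_upwards [ae_box hR] with v hv
  exact hC v hv

/-- **derivative of the expectation of any smooth functional along a path of profiles** -/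
theorem hasDerivAt_Ex_path {Ψ : (ι → ℂ) → ℝ} (hΨ : ContDiffOn ℝ 1 Ψ (LH ι))
    {m : ι → Measure ℝ} [∀ x, IsProbabilityMeasure (m x)] {R : ℝ}
    (hR : ∀ x, m x (Icc (-R) R)ᶜ = 0) {E : ℝ} {e e' : ℝ → ι → ℝ}
    (he : ∀ τ x, HasDerivAt (fun τ => e τ x) (e' τ x) τ)
    (he' : ∀ x, Continuous fun τ => e' τ x) {U : Set ℝ} (hU : IsOpen U)
    (hpos : ∀ τ ∈ U, ∀ x, 0 < e τ x) {τ₀ : ℝ} (hτ : τ₀ ∈ U) :
    HasDerivAt (fun τ => Ex m E (e τ) Ψ)
      (Ex m E (e τ₀) fun W => ∑ x, e' τ₀ x * dI Ψ x W) τ₀ := by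
  obtain ⟨δ, hδ, hball⟩ := Metric.isOpen_iff.1 hU τ₀ hτ
  set J : Set ℝ := Icc (τ₀ - δ / 2) (τ₀ + δ / 2) with hJ
  have hJU : J ⊆ U := by
    intro τ h
    refine hball ?_
    rw [Metric.mem_ball, Real.dist_eq, abs_lt]
    constructor
    · linarith [h.1]
    · linarith [h.2]
  set g : ℝ → (ι → ℝ) → ℝ := fun τ v => ∑ x, e' τ x * dI Ψ x (WV E (e τ) v) with hg
  have hce : Continuous fun τ => e τ := continuous_pi fun x =>
    continuous_iff_continuousAt.2 fun τ => (he τ x).continuousAt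
  have hgc : ContinuousOn (fun p : ℝ × (ι → ℝ) => g p.1 p.2)
      (U ×ˢ (univ : Set (ι → ℝ))) := by
    refine continuousOn_finset_sum _ fun x _ => ?_
    refine ((he' x).comp continuous_fst).continuousOn.mul ?_
    refine (continuousOn_dI hΨ x).comp (t := LH ι) ?_ ?_
    · exact ((continuous_WV_prod E).comp ((hce.comp continuous_fst).prodMk
        continuous_snd)).continuousOn
    · intro p hp
      exact WV_mem_LH (hpos p.1 hp.1) p.2
  have hK : IsCompact (J ×ˢ (Set.pi univ fun _ : ι => Icc (-R) R)) :=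
    isCompact_Icc.prod (isCompact_univ_pi fun _ => isCompact_Icc)
  obtain ⟨C, hC⟩ := hK.exists_bound_of_continuousOn
    (hgc.mono (Set.prod_mono hJU (Set.subset_univ _)))
  have hs : Ioo (τ₀ - δ / 2) (τ₀ + δ / 2) ∈ 𝓝 τ₀ := Ioo_mem_nhds (by linarith) (by linarith)
  have hΨc := hΨ.continuousOn
  refine (hasDerivAt_integral_of_dominated_loc_of_deriv_le (μ := Measure.pi m)
    (s := Ioo (τ₀ - δ / 2) (τ₀ + δ / 2)) (F := fun τ v => Ψ (WV E (e τ) v))
    (F' := g) (bound := fun _ => C) hs ?_ ?_ ?_ ?_ (integrable_const _) ?_).2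
  · filter_upwards [hs] with τ h
    exact (continuous_comp hΨc (hpos τ (hJU ⟨h.1.le, h.2.le⟩))).aestronglyMeasurable
  · exact integrable_of_continuousOn hΨc hR (hpos τ₀ hτ)
  · have h1 : ContinuousOn (fun W => ∑ x, e' τ₀ x * dI Ψ x W) (LH ι) :=
      continuousOn_finset_sum _ fun x _ => continuousOn_const.mul (continuousOn_dI hΨ x)
    exact (continuous_comp h1 (hpos τ₀ hτ)).aestronglyMeasurable
  · filter_upwards [ae_box hR] with v hv τ h
    exact hC (τ, v) ⟨⟨h.1.le, h.2.le⟩, hv⟩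
  · refine Eventually.of_forall fun v τ h => ?_
    exact hasDerivAt_path hΨ (he τ) (hpos τ (hJU ⟨h.1.le, h.2.le⟩))

/-- monotonicity of the expectation, continuous functionals -/
theorem Ex_mono_of {G G' : (ι → ℂ) → ℝ} (hG : ContinuousOn G (LH ι))
    (hG' : ContinuousOn G' (LH ι)) {m : ι → Measure ℝ} [∀ x, IsProbabilityMeasure (m x)] {R : ℝ}
    (hR : ∀ x, m x (Icc (-R) R)ᶜ = 0) {E : ℝ} {e : ι → ℝ} (he : ∀ x, 0 < e x)
    (h : ∀ W ∈ LH ι, G W ≤ G' W) : Ex m E e G ≤ Ex m E e G' :=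
  integral_mono (integrable_of_continuousOn hG hR he) (integrable_of_continuousOn hG' hR he)
    fun v => h _ (WV_mem_LH he v)

/-- one coordinate first: the inner integral runs over the potential of `x` alone -/
theorem Ex_resample {G : (ι → ℂ) → ℝ} (hG : ContinuousOn G (LH ι))
    {m : ι → Measure ℝ} [∀ x, IsProbabilityMeasure (m x)] {R : ℝ}
    (hR : ∀ x, m x (Icc (-R) R)ᶜ = 0) {E : ℝ} {e : ι → ℝ} (he : ∀ x, 0 < e x) (x : ι) :
    Ex m E e G = ∫ v, ∫ t, G (WV E e (Function.update v x t)) ∂(m x) ∂(Measure.pi m) :=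
  integral_resample' m x _ (integrable_of_continuousOn hG hR he)

end integral

/-! ### labels -/

section labels

variable {ι : Type*} [Fintype ι] [DecidableEq ι] {Λ : Type*} [Fintype Λ] {p : Λ → ℝ}
  {ν : Λ → Measure ℝ} {E : ℝ}

/-- **derivative of the average over labels and potentials**; the functional may depend on the
labels -/
theorem hasDerivAt_AvG_path {Ψ : (ι → Λ) → (ι → ℂ) → ℝ}
    (hΨ : ∀ l, ContDiffOn ℝ 1 (Ψ l) (LH ι)) [∀ k, IsProbabilityMeasure (ν k)] {R : ℝ}
    (hR : ∀ k, ν k (Icc (-R) R)ᶜ = 0) {e e' : ℝ → (ι → Λ) → ι → ℝ}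
    (he : ∀ τ l x, HasDerivAt (fun τ => e τ l x) (e' τ l x) τ)
    (he' : ∀ l x, Continuous fun τ => e' τ l x) {U : Set ℝ} (hU : IsOpen U)
    (hpos : ∀ τ ∈ U, ∀ l x, 0 < e τ l x) {τ₀ : ℝ} (hτ : τ₀ ∈ U) :
    HasDerivAt (fun τ => AvG p ν E (e τ) Ψ)
      (AvG p ν E (e τ₀) fun l W => ∑ x, e' τ₀ l x * dI (Ψ l) x W) τ₀ := by
  refine HasDerivAt.fun_sum fun l _ => HasDerivAt.const_mul _ ?_
  exact hasDerivAt_Ex_path (hΨ l) (fun x => hR (l x)) (fun τ x => he τ l x) (fun x => he' l x) hU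
    (fun τ h x => hpos τ h l x) hτ

/-- **the path of a stage**: `e = u + exp(-τ) w`, `u > 0`, `w ≥ 0`; the derivative is minus the
average of `∑_x (moving absorption of x) ∂_{e_x} Ψ` -/
theorem hasDerivAt_AvG_stage {Ψ : (ι → Λ) → (ι → ℂ) → ℝ}
    (hΨ : ∀ l, ContDiffOn ℝ 1 (Ψ l) (LH ι)) [∀ k, IsProbabilityMeasure (ν k)] {R : ℝ}
    (hR : ∀ k, ν k (Icc (-R) R)ᶜ = 0) {u w : (ι → Λ) → ι → ℝ} (hu : ∀ l x, 0 < u l x)
    (hw : ∀ l x, 0 ≤ w l x) (τ : ℝ) :
    HasDerivAt (fun τ => AvG p ν E (fun l x => u l x + Real.exp (-τ) * w l x) Ψ)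
      (-(AvG p ν E (fun l x => u l x + Real.exp (-τ) * w l x) fun l W =>
        ∑ x, Real.exp (-τ) * w l x * dI (Ψ l) x W)) τ := by
  have h := hasDerivAt_AvG_path (p := p) (ν := ν) (E := E) hΨ hR
    (e := fun τ l x => u l x + Real.exp (-τ) * w l x)
    (e' := fun τ l x => -(Real.exp (-τ) * w l x)) (fun τ l x => ?_) (fun l x => ?_)
    (U := univ) isOpen_univ (fun τ _ l x => ?_) (mem_univ τ)
  · convert h using 1
    unfold AvG
    rw [← Finset.sum_neg_distrib]
    refine Finset.sum_congr rfl fun l _ => ?_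
    rw [← mul_neg]
    congr 1
    unfold Ex
    rw [← integral_neg]
    congr 1
    funext v
    rw [← Finset.sum_neg_distrib]
    refine Finset.sum_congr rfl fun x _ => ?_
    ring
  · have h1 : HasDerivAt (fun τ => Real.exp (-τ)) (-Real.exp (-τ)) τ := by
      have := (hasDerivAt_neg τ).exp
      simpa using this
    have h2 := (h1.mul_const (w l x)).const_add (u l x)
    rw [neg_mul] at h2
    exact h2
  · exact ((Real.continuous_exp.comp continuous_neg).mul continuous_const).neg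
  · have := mul_nonneg (Real.exp_pos (-τ)).le (hw l x)
    linarith [hu l x]

theorem continuous_AvG_stage {Ψ : (ι → Λ) → (ι → ℂ) → ℝ}
    (hΨ : ∀ l, ContDiffOn ℝ 1 (Ψ l) (LH ι)) [∀ k, IsProbabilityMeasure (ν k)] {R : ℝ}
    (hR : ∀ k, ν k (Icc (-R) R)ᶜ = 0) {u w : (ι → Λ) → ι → ℝ} (hu : ∀ l x, 0 < u l x)
    (hw : ∀ l x, 0 ≤ w l x) :
    Continuous fun τ => AvG p ν E (fun l x => u l x + Real.exp (-τ) * w l x) Ψ :=
  continuous_iff_continuousAt.2 fun τ => (hasDerivAt_AvG_stage hΨ hR hu hw τ).continuousAt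

end labels

end P365L.T2.Path
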