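import Mathlib

/-!
# P365-T2, section X: the ROW LEMMA (layer cake), helper408

One row `P` of the kernel `P_y`, `u x = F x - F y` (vector of test functions), `g x = g_{xy}` in `[0,T]`.
`row_gain` bounds from below

  `∑_{x,z} P_x P_z |u_x-u_z|² (max(g_x,g_z) + φ_{xz} min(g_x,g_z)) - 2 ∑_x P_x |u_x|² g_x`.
-/

namespace Vale.Agent.P365T2.Row408

open Finset MeasureTheory

variable {ι κ : Type*} [Fintype ι] [Fintype κ]

/-- squared length of a vector of test functions -/
def sq (v : κ → ℝ) : ℝ := ∑ k, v k ^ 2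

/-- moments of a weight -/
def M0 (w : ι → ℝ) : ℝ := ∑ x, w x
/-- first moment -/
def M1 (u : ι → κ → ℝ) (w : ι → ℝ) : κ → ℝ := fun k => ∑ x, w x * u x k
/-- second moment -/
def M2 (u : ι → κ → ℝ) (w : ι → ℝ) : ℝ := ∑ x, w x * sq (u x)

lemma sq_nonneg' (v : κ → ℝ) : 0 ≤ sq v := Finset.sum_nonneg fun k _ => sq_nonneg (v k)

/-- pair sums are moments -/
theorem pair_sum (u : ι → κ → ℝ) (w : ι → ℝ) :
    ∑ x, ∑ z, w x * w z * sq (u x - u z) = 2 * (M0 w * M2 u w - sq (M1 u w)) := by
  have h1 : ∀ x z, w x * w z * sq (u x - u z)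
      = w z * (w x * sq (u x)) + w x * (w z * sq (u z))
        - 2 * ∑ k, (w x * u x k) * (w z * u z k) := by
    intro x z
    simp only [sq, Pi.sub_apply, Finset.mul_sum]
    rw [← Finset.sum_add_distrib, ← Finset.sum_sub_distrib]
    exact Finset.sum_congr rfl fun k _ => by ring
  simp_rw [h1]
  simp only [Finset.sum_add_distrib, Finset.sum_sub_distrib, ← Finset.mul_sum]
  have e1 : ∑ x, ∑ z, w z * (w x * sq (u x)) = M0 w * M2 u w := by
    rw [M0, M2, Finset.sum_mul_sum, Finset.sum_comm]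
  have e2 : ∑ x, w x * ∑ z, w z * sq (u z) = M0 w * M2 u w := by
    rw [M0, M2, Finset.sum_mul]
  have e3 : ∑ x, ∑ z, ∑ k, (w x * u x k) * (w z * u z k) = sq (M1 u w) := by
    have : ∀ x, ∑ z, ∑ k, (w x * u x k) * (w z * u z k)
        = ∑ k, (w x * u x k) * M1 u w k := by
      intro x
      rw [Finset.sum_comm]
      exact Finset.sum_congr rfl fun k _ => by rw [M1, Finset.mul_sum]
    simp_rw [this]
    rw [Finset.sum_comm, sq]
    exact Finset.sum_congr rfl fun k _ => by
      rw [← Finset.sum_mul, pow_two]; rfl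
  rw [e1, e2, e3]; ring

/-- Cauchy-Schwarz for moments -/
theorem cs_mom (u : ι → κ → ℝ) {w : ι → ℝ} (hw : ∀ x, 0 ≤ w x) :
    sq (M1 u w) ≤ M0 w * M2 u w := by
  have h := pair_sum u w
  have h0 : 0 ≤ ∑ x, ∑ z, w x * w z * sq (u x - u z) :=
    Finset.sum_nonneg fun x _ => Finset.sum_nonneg fun z _ =>
      mul_nonneg (mul_nonneg (hw x) (hw z)) (sq_nonneg' _)
  linarith

lemma M0_nonneg {w : ι → ℝ} (hw : ∀ x, 0 ≤ w x) : 0 ≤ M0 w := Finset.sum_nonneg fun x _ => hw x

lemma M2_nonneg (u : ι → κ → ℝ) {w : ι → ℝ} (hw : ∀ x, 0 ≤ w x) : 0 ≤ M2 u w :=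
  Finset.sum_nonneg fun x _ => mul_nonneg (hw x) (sq_nonneg' _)

lemma M0_mono {w w' : ι → ℝ} (h : ∀ x, w x ≤ w' x) : M0 w ≤ M0 w' :=
  Finset.sum_le_sum fun x _ => h x

lemma M2_mono (u : ι → κ → ℝ) {w w' : ι → ℝ} (h : ∀ x, w x ≤ w' x) : M2 u w ≤ M2 u w' :=
  Finset.sum_le_sum fun x _ => mul_le_mul_of_nonneg_right (h x) (sq_nonneg' _)

lemma sq_three (a b c : κ → ℝ) : sq (a - b - c) ≤ 3 * (sq a + sq b + sq c) := by
  simp only [sq, Finset.mul_sum, ← Finset.sum_add_distrib, Pi.sub_apply]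
  refine Finset.sum_le_sum fun k _ => ?_
  nlinarith [sq_nonneg (a k + b k), sq_nonneg (a k + c k), sq_nonneg (b k - c k)]

/-- **Fixed level.** `b` = indicator of `{g ≥ s}`, `β` = indicator of `B`. -/
theorem level (u : ι → κ → ℝ) {P : ι → ℝ} (hP : ∀ x, 0 ≤ P x) (hP1 : ∑ x, P x = 1)
    {b β : ι → ℝ} (hb0 : ∀ x, 0 ≤ b x) (hb1 : ∀ x, b x ≤ 1)
    (hβ0 : ∀ x, 0 ≤ β x) (hβ1 : ∀ x, β x ≤ 1) {θ : ℝ} (hθ0 : 0 ≤ θ) (hθ1 : θ ≤ 1) :
    2 * (θ / 3) * M0 (fun x => P x * β x * b x) * M2 u (fun x => P x * β x)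
      - 4 * sq (M1 u P) - 2 * θ * (M0 (fun x => P x * (1 - β x)) * M2 u (fun x => P x * (1 - β x)))
      ≤ ∑ x, ∑ z, P x * P z * sq (u x - u z) * (b x + b z - b x * b z)
        - 2 * ∑ x, P x * sq (u x) * b x
        + (1 / 3) * (θ * ∑ x, ∑ z, P x * P z * sq (u x - u z) * (β x * β z * (b x * b z))) := by
  set wa : ι → ℝ := fun x => P x * (1 - b x) with hwa
  set wb : ι → ℝ := fun x => P x * b x with hwb
  set wβ : ι → ℝ := fun x => P x * β x * b x with hwβ
  set wr : ι → ℝ := fun x => P x * (1 - β x) * b x with hwr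
  have nwa : ∀ x, 0 ≤ wa x := fun x => mul_nonneg (hP x) (by linarith [hb1 x])
  have nwb : ∀ x, 0 ≤ wb x := fun x => mul_nonneg (hP x) (hb0 x)
  have nwβ : ∀ x, 0 ≤ wβ x := fun x => mul_nonneg (mul_nonneg (hP x) (hβ0 x)) (hb0 x)
  have nwr : ∀ x, 0 ≤ wr x :=
    fun x => mul_nonneg (mul_nonneg (hP x) (by linarith [hβ1 x])) (hb0 x)
  have hM0P : M0 P = 1 := hP1
  -- the first double sum
  have e1 : ∑ x, ∑ z, P x * P z * sq (u x - u z) * (b x + b z - b x * b z)
      = 2 * (M0 P * M2 u P - sq (M1 u P)) - 2 * (M0 wa * M2 u wa - sq (M1 u wa)) := by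
    rw [← pair_sum u P, ← pair_sum u wa, ← Finset.sum_sub_distrib]
    refine Finset.sum_congr rfl fun x _ => ?_
    rw [← Finset.sum_sub_distrib]
    refine Finset.sum_congr rfl fun z _ => ?_
    simp only [hwa]; ring
  have e2 : ∑ x, P x * sq (u x) * b x = M2 u wb := by
    rw [M2]; exact Finset.sum_congr rfl fun x _ => by simp only [hwb]; ring
  have e3 : ∑ x, ∑ z, P x * P z * sq (u x - u z) * (β x * β z * (b x * b z))
      = 2 * (M0 wβ * M2 u wβ - sq (M1 u wβ)) := by
    rw [← pair_sum u wβ]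
    refine Finset.sum_congr rfl fun x _ => Finset.sum_congr rfl fun z _ => ?_
    simp only [hwβ]; ring
  have a0 : M0 wa + M0 wb = 1 := by
    rw [← hM0P, M0, M0, M0, ← Finset.sum_add_distrib]
    exact Finset.sum_congr rfl fun x _ => by simp only [hwa, hwb]; ring
  have a2 : M2 u wa + M2 u wb = M2 u P := by
    rw [M2, M2, M2, ← Finset.sum_add_distrib]
    exact Finset.sum_congr rfl fun x _ => by simp only [hwa, hwb]; ring
  have a1 : M1 u wβ = M1 u P - M1 u wa - M1 u wr := by
    funext k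
    simp only [M1, Pi.sub_apply]
    rw [← Finset.sum_sub_distrib, ← Finset.sum_sub_distrib]
    exact Finset.sum_congr rfl fun x _ => by simp only [hwa, hwβ, hwr]; ring
  have b1 : sq (M1 u wβ) ≤ 3 * (sq (M1 u P) + sq (M1 u wa) + sq (M1 u wr)) := by
    rw [a1]; exact sq_three _ _ _
  have b2 : sq (M1 u wr) ≤ M0 (fun x => P x * (1 - β x)) * M2 u (fun x => P x * (1 - β x)) := by
    refine (cs_mom u nwr).trans ?_
    have hle : ∀ x, wr x ≤ P x * (1 - β x) := fun x => by
      simp only [hwr]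
      exact mul_le_of_le_one_right (mul_nonneg (hP x) (by linarith [hβ1 x])) (hb1 x)
    exact mul_le_mul (M0_mono hle) (M2_mono u hle) (M2_nonneg u nwr)
      (M0_nonneg fun x => mul_nonneg (hP x) (by linarith [hβ1 x]))
  -- `m0(A^c) m2(A) ≥ M0 wβ * M2 (P β a)`
  have c1 : M0 wβ ≤ M0 wb := M0_mono fun x => by
    simp only [hwβ, hwb]
    exact mul_le_mul_of_nonneg_right (mul_le_of_le_one_right (hP x) (hβ1 x)) (hb0 x)
  have c2 : M2 u (fun x => P x * β x) - M2 u wβ ≤ M2 u wa := by
    rw [M2, M2, M2, ← Finset.sum_sub_distrib]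
    refine Finset.sum_le_sum fun x _ => ?_
    simp only [hwβ, hwa]
    have : P x * β x * sq (u x) - P x * β x * b x * sq (u x)
        = β x * (P x * (1 - b x) * sq (u x)) := by ring
    rw [this]
    exact mul_le_of_le_one_left (mul_nonneg (nwa x) (sq_nonneg' _)) (hβ1 x)
  have c3 : 0 ≤ M2 u (fun x => P x * β x) - M2 u wβ := by
    rw [M2, M2, ← Finset.sum_sub_distrib]
    refine Finset.sum_nonneg fun x _ => ?_
    simp only [hwβ]
    have : P x * β x * sq (u x) - P x * β x * b x * sq (u x)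
        = P x * β x * (1 - b x) * sq (u x) := by ring
    rw [this]
    exact mul_nonneg (mul_nonneg (mul_nonneg (hP x) (hβ0 x)) (by linarith [hb1 x])) (sq_nonneg' _)
  have c4 : M0 wβ * (M2 u (fun x => P x * β x) - M2 u wβ) ≤ M0 wb * M2 u wa :=
    mul_le_mul c1 c2 c3 (M0_nonneg nwb)
  have n1 := sq_nonneg' (M1 u P)
  have n2 := sq_nonneg' (M1 u wa)
  have n3 := sq_nonneg' (M1 u wr)
  have n4 : 0 ≤ M0 wβ * (M2 u (fun x => P x * β x) - M2 u wβ) := mul_nonneg (M0_nonneg nwβ) c3
  rw [e1, e2, e3, hM0P]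
  have k1 : M0 wa = 1 - M0 wb := by linarith
  have k2 : M2 u P = M2 u wa + M2 u wb := by linarith
  rw [k1, k2]
  set r := M0 (fun x => P x * (1 - β x)) * M2 u (fun x => P x * (1 - β x))
  set m2B := M2 u (fun x => P x * β x)
  -- everything is now a real inequality
  have d1 : θ * sq (M1 u wβ) ≤ θ * (3 * (sq (M1 u P) + sq (M1 u wa) + r)) :=
    mul_le_mul_of_nonneg_left (b1.trans (by linarith)) hθ0
  have d2 : (θ / 3) * (M0 wβ * (m2B - M2 u wβ)) ≤ M0 wβ * (m2B - M2 u wβ) :=
    mul_le_of_le_one_left n4 (by linarith)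
  have d3 : θ * sq (M1 u P) ≤ sq (M1 u P) := mul_le_of_le_one_left n1 hθ1
  have d4 : θ * sq (M1 u wa) ≤ sq (M1 u wa) := mul_le_of_le_one_left n2 hθ1
  nlinarith

/-- **Fixed level, trivial bound.** -/
theorem level0 (u : ι → κ → ℝ) {P : ι → ℝ} (hP : ∀ x, 0 ≤ P x) (hP1 : ∑ x, P x = 1)
    {b : ι → ℝ} (hb0 : ∀ x, 0 ≤ b x) (hb1 : ∀ x, b x ≤ 1) :
    - 2 * sq (M1 u P)
      ≤ ∑ x, ∑ z, P x * P z * sq (u x - u z) * (b x + b z - b x * b z)
        - 2 * ∑ x, P x * sq (u x) * b x := by
  set wa : ι → ℝ := fun x => P x * (1 - b x) with hwa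
  set wb : ι → ℝ := fun x => P x * b x with hwb
  have nwa : ∀ x, 0 ≤ wa x := fun x => mul_nonneg (hP x) (by linarith [hb1 x])
  have nwb : ∀ x, 0 ≤ wb x := fun x => mul_nonneg (hP x) (hb0 x)
  have hM0P : M0 P = 1 := hP1
  have e1 : ∑ x, ∑ z, P x * P z * sq (u x - u z) * (b x + b z - b x * b z)
      = 2 * (M0 P * M2 u P - sq (M1 u P)) - 2 * (M0 wa * M2 u wa - sq (M1 u wa)) := by
    rw [← pair_sum u P, ← pair_sum u wa, ← Finset.sum_sub_distrib]
    refine Finset.sum_congr rfl fun x _ => ?_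
    rw [← Finset.sum_sub_distrib]
    refine Finset.sum_congr rfl fun z _ => ?_
    simp only [hwa]; ring
  have e2 : ∑ x, P x * sq (u x) * b x = M2 u wb := by
    rw [M2]; exact Finset.sum_congr rfl fun x _ => by simp only [hwb]; ring
  have a0 : M0 wa + M0 wb = 1 := by
    rw [← hM0P, M0, M0, M0, ← Finset.sum_add_distrib]
    exact Finset.sum_congr rfl fun x _ => by simp only [hwa, hwb]; ring
  have a2 : M2 u wa + M2 u wb = M2 u P := by
    rw [M2, M2, M2, ← Finset.sum_add_distrib]
    exact Finset.sum_congr rfl fun x _ => by simp only [hwa, hwb]; ring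
  have n2 := sq_nonneg' (M1 u wa)
  have c4 : 0 ≤ M0 wb * M2 u wa := mul_nonneg (M0_nonneg nwb) (M2_nonneg u nwa)
  rw [e1, e2, hM0P]
  have k1 : M0 wa = 1 - M0 wb := by linarith
  have k2 : M2 u P = M2 u wa + M2 u wb := by linarith
  rw [k1, k2]
  nlinarith

/-- the step function `1{s ≤ c}` -/
noncomputable def bb (s c : ℝ) : ℝ := if s ≤ c then 1 else 0

lemma bb_nonneg (s c : ℝ) : 0 ≤ bb s c := by unfold bb; split_ifs <;> norm_num
lemma bb_le_one (s c : ℝ) : bb s c ≤ 1 := by unfold bb; split_ifs <;> norm_num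

lemma bb_mul (s c d : ℝ) : bb s c * bb s d = bb s (min c d) := by
  unfold bb
  by_cases h1 : s ≤ c <;> by_cases h2 : s ≤ d <;> simp [h1, h2]

lemma bb_int (c a b : ℝ) : IntervalIntegrable (fun s => bb s c) volume a b := by
  have : Antitone fun s => bb s c := by
    intro s t hst
    by_cases h1 : t ≤ c
    · have h2 : s ≤ c := hst.trans h1
      simp [bb, h1, h2]
    · simpa [bb, h1] using bb_nonneg s c
  exact this.intervalIntegrable

lemma integral_bb {c T : ℝ} (h0 : 0 ≤ c) (h1 : c ≤ T) : ∫ s in (0:ℝ)..T, bb s c = c := by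
  rw [← intervalIntegral.integral_add_adjacent_intervals (bb_int c 0 c) (bb_int c c T)]
  have e1 : ∫ s in (0:ℝ)..c, bb s c = ∫ s in (0:ℝ)..c, (1:ℝ) := by
    refine intervalIntegral.integral_congr fun s hs => ?_
    rw [Set.uIcc_of_le h0] at hs
    simp [bb, hs.2]
  have e2 : ∫ s in c..T, bb s c = ∫ s in c..T, (0:ℝ) := by
    refine intervalIntegral.integral_congr_ae (Filter.Eventually.of_forall fun s hs => ?_)
    rw [Set.uIoc_of_le h1] at hs
    simp [bb, not_le.mpr hs.1]
  rw [e1, e2]; simp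

/-- **ROW LEMMA.**  `P` a probability, `u` vector test functions, `0 ≤ g ≤ T`, `β` = indicator of
`B` (any weight in `[0,1]`), `φ ≥ 0` any pair weight, `θ β_x β_z ≤ φ_{xz}` up to an error `ν` in
second moment, `δ ≤ P(B ∩ {g ≥ t})`. -/
theorem row_gain (u : ι → κ → ℝ) {P : ι → ℝ} (hP : ∀ x, 0 ≤ P x) (hP1 : ∑ x, P x = 1)
    {g : ι → ℝ} {T t : ℝ} (hg0 : ∀ x, 0 ≤ g x) (hgT : ∀ x, g x ≤ T) (ht0 : 0 ≤ t) (htT : t ≤ T)
    {β : ι → ℝ} (hβ0 : ∀ x, 0 ≤ β x) (hβ1 : ∀ x, β x ≤ 1)
    {θ : ℝ} (hθ0 : 0 ≤ θ) (hθ1 : θ ≤ 1)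
    {φ : ι → ι → ℝ} (hφ0 : ∀ x z, 0 ≤ φ x z) {ν : ℝ}
    (hν : ∑ x, ∑ z, P x * P z * sq (u x - u z) * max (θ * (β x * β z) - φ x z) 0 ≤ ν)
    {δ : ℝ} (hδ : δ ≤ ∑ x, P x * β x * (if t ≤ g x then 1 else 0)) :
    t * (2 * (θ / 3) * δ * M2 u (fun x => P x * β x)
        - 2 * θ * (M0 (fun x => P x * (1 - β x)) * M2 u (fun x => P x * (1 - β x))) - ν / 3)
      - 4 * T * sq (M1 u P)
      ≤ ∑ x, ∑ z, P x * P z * sq (u x - u z) * (max (g x) (g z) + φ x z * min (g x) (g z))
        - 2 * ∑ x, P x * sq (u x) * g x := by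
  set m2B := M2 u (fun x => P x * β x) with hm2B
  set R := M0 (fun x => P x * (1 - β x)) * M2 u (fun x => P x * (1 - β x)) with hR
  have hm2B0 : 0 ≤ m2B := M2_nonneg u fun x => mul_nonneg (hP x) (hβ0 x)
  -- the integrand
  let K : ℝ → ℝ := fun s =>
    ∑ x, ∑ z, P x * P z * sq (u x - u z) *
        (bb s (g x) + bb s (g z) - bb s (min (g x) (g z)) + φ x z * bb s (min (g x) (g z)))
      - 2 * ∑ x, P x * sq (u x) * bb s (g x)
  have hKint : ∀ a b : ℝ, IntervalIntegrable K volume a b := by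
    intro a b
    have i1 : ∀ x z, IntervalIntegrable (fun s => P x * P z * sq (u x - u z) *
        (bb s (g x) + bb s (g z) - bb s (min (g x) (g z)) + φ x z * bb s (min (g x) (g z))))
        volume a b := fun x z =>
      ((((bb_int _ a b).add (bb_int _ a b)).sub (bb_int _ a b)).add
        ((bb_int _ a b).const_mul _)).const_mul _
    have i2 : ∀ x, IntervalIntegrable (fun s => P x * sq (u x) * bb s (g x)) volume a b :=
      fun x => (bb_int _ a b).const_mul _
    have i3 : IntervalIntegrable (fun s => ∑ x, ∑ z, P x * P z * sq (u x - u z) *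
        (bb s (g x) + bb s (g z) - bb s (min (g x) (g z)) + φ x z * bb s (min (g x) (g z))))
        volume a b := by
      have := IntervalIntegrable.sum (μ := volume) (a := a) (b := b) Finset.univ
        (f := fun x s => ∑ z, P x * P z * sq (u x - u z) *
        (bb s (g x) + bb s (g z) - bb s (min (g x) (g z)) + φ x z * bb s (min (g x) (g z))))
        (fun x _ => by
          have := IntervalIntegrable.sum (μ := volume) (a := a) (b := b) Finset.univ
            (f := fun z s => P x * P z * sq (u x - u z) *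
            (bb s (g x) + bb s (g z) - bb s (min (g x) (g z)) + φ x z * bb s (min (g x) (g z))))
            (fun z _ => i1 x z)
          simpa [Finset.sum_fn] using this)
      simpa [Finset.sum_fn] using this
    have i4 : IntervalIntegrable (fun s => ∑ x, P x * sq (u x) * bb s (g x)) volume a b := by
      have := IntervalIntegrable.sum (μ := volume) (a := a) (b := b) Finset.univ
        (f := fun x s => P x * sq (u x) * bb s (g x)) (fun x _ => i2 x)
      simpa [Finset.sum_fn] using this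
    exact i3.sub (i4.const_mul 2)
  -- value of the integral
  have hKval : ∫ s in (0:ℝ)..T, K s
      = ∑ x, ∑ z, P x * P z * sq (u x - u z) * (max (g x) (g z) + φ x z * min (g x) (g z))
        - 2 * ∑ x, P x * sq (u x) * g x := by
    have j1 : ∀ x z, ∫ s in (0:ℝ)..T, P x * P z * sq (u x - u z) *
        (bb s (g x) + bb s (g z) - bb s (min (g x) (g z)) + φ x z * bb s (min (g x) (g z)))
        = P x * P z * sq (u x - u z) * (max (g x) (g z) + φ x z * min (g x) (g z)) := by
      intro x z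
      rw [intervalIntegral.integral_const_mul, intervalIntegral.integral_add
        (((bb_int _ _ _).add (bb_int _ _ _)).sub (bb_int _ _ _)) ((bb_int _ _ _).const_mul _),
        intervalIntegral.integral_sub ((bb_int _ _ _).add (bb_int _ _ _)) (bb_int _ _ _),
        intervalIntegral.integral_add (bb_int _ _ _) (bb_int _ _ _),
        intervalIntegral.integral_const_mul, integral_bb (hg0 x) (hgT x),
        integral_bb (hg0 z) (hgT z),
        integral_bb (le_min (hg0 x) (hg0 z)) ((min_le_left _ _).trans (hgT x))]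
      have := min_add_max (g x) (g z)
      congr 1
      linarith
    have j2 : ∀ x, ∫ s in (0:ℝ)..T, P x * sq (u x) * bb s (g x) = P x * sq (u x) * g x := by
      intro x
      rw [intervalIntegral.integral_const_mul, integral_bb (hg0 x) (hgT x)]
    have i1 : ∀ x z, IntervalIntegrable (fun s => P x * P z * sq (u x - u z) *
        (bb s (g x) + bb s (g z) - bb s (min (g x) (g z)) + φ x z * bb s (min (g x) (g z))))
        volume 0 T := fun x z =>
      ((((bb_int _ _ _).add (bb_int _ _ _)).sub (bb_int _ _ _)).add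
        ((bb_int _ _ _).const_mul _)).const_mul _
    have i2 : ∀ x, IntervalIntegrable (fun s => P x * sq (u x) * bb s (g x)) volume 0 T :=
      fun x => (bb_int _ _ _).const_mul _
    have i1' : ∀ x, IntervalIntegrable (fun s => ∑ z, P x * P z * sq (u x - u z) *
        (bb s (g x) + bb s (g z) - bb s (min (g x) (g z)) + φ x z * bb s (min (g x) (g z))))
        volume 0 T := fun x => by
      have := IntervalIntegrable.sum (μ := volume) (a := 0) (b := T) Finset.univ
        (f := fun z s => P x * P z * sq (u x - u z) *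
        (bb s (g x) + bb s (g z) - bb s (min (g x) (g z)) + φ x z * bb s (min (g x) (g z))))
        (fun z _ => i1 x z)
      simpa [Finset.sum_fn] using this
    have i3 : IntervalIntegrable (fun s => ∑ x, ∑ z, P x * P z * sq (u x - u z) *
        (bb s (g x) + bb s (g z) - bb s (min (g x) (g z)) + φ x z * bb s (min (g x) (g z))))
        volume 0 T := by
      have := IntervalIntegrable.sum (μ := volume) (a := 0) (b := T) Finset.univ
        (f := fun x s => ∑ z, P x * P z * sq (u x - u z) *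
        (bb s (g x) + bb s (g z) - bb s (min (g x) (g z)) + φ x z * bb s (min (g x) (g z))))
        (fun x _ => i1' x)
      simpa [Finset.sum_fn] using this
    have i4 : IntervalIntegrable (fun s => ∑ x, P x * sq (u x) * bb s (g x)) volume 0 T := by
      have := IntervalIntegrable.sum (μ := volume) (a := 0) (b := T) Finset.univ
        (f := fun x s => P x * sq (u x) * bb s (g x)) (fun x _ => i2 x)
      simpa [Finset.sum_fn] using this
    show ∫ s in (0:ℝ)..T, (∑ x, ∑ z, P x * P z * sq (u x - u z) *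
        (bb s (g x) + bb s (g z) - bb s (min (g x) (g z)) + φ x z * bb s (min (g x) (g z)))
      - 2 * ∑ x, P x * sq (u x) * bb s (g x)) = _
    rw [intervalIntegral.integral_sub i3 (i4.const_mul 2), intervalIntegral.integral_const_mul,
      intervalIntegral.integral_finsetSum (fun x _ => i1' x),
      intervalIntegral.integral_finsetSum (fun x _ => i2 x)]
    congr 1
    · refine Finset.sum_congr rfl fun x _ => ?_
      rw [intervalIntegral.integral_finsetSum (fun z _ => i1 x z)]
      exact Finset.sum_congr rfl fun z _ => j1 x z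
    · congr 1
      exact Finset.sum_congr rfl fun x _ => j2 x
  -- pointwise bounds of the integrand
  have hKeq : ∀ s, K s = (∑ x, ∑ z, P x * P z * sq (u x - u z) *
        (bb s (g x) + bb s (g z) - bb s (g x) * bb s (g z))
      - 2 * ∑ x, P x * sq (u x) * bb s (g x))
      + ∑ x, ∑ z, P x * P z * sq (u x - u z) * (φ x z * (bb s (g x) * bb s (g z))) := by
    intro s
    show ∑ x, ∑ z, P x * P z * sq (u x - u z) *
        (bb s (g x) + bb s (g z) - bb s (min (g x) (g z)) + φ x z * bb s (min (g x) (g z)))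
      - 2 * ∑ x, P x * sq (u x) * bb s (g x) = _
    rw [sub_add_eq_add_sub, ← Finset.sum_add_distrib]
    congr 1
    refine Finset.sum_congr rfl fun x _ => ?_
    rw [← Finset.sum_add_distrib]
    refine Finset.sum_congr rfl fun z _ => ?_
    rw [bb_mul]; ring
  have hφnn : ∀ s, 0 ≤ ∑ x, ∑ z, P x * P z * sq (u x - u z) *
      (φ x z * (bb s (g x) * bb s (g z))) := fun s =>
    Finset.sum_nonneg fun x _ => Finset.sum_nonneg fun z _ =>
      mul_nonneg (mul_nonneg (mul_nonneg (hP x) (hP z)) (sq_nonneg' _))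
        (mul_nonneg (hφ0 x z) (mul_nonneg (bb_nonneg _ _) (bb_nonneg _ _)))
  have n1 := sq_nonneg' (M1 u P)
  have low0 : ∀ s, - 4 * sq (M1 u P) ≤ K s := by
    intro s
    rw [hKeq s]
    have h1 := level0 u hP hP1 (b := fun x => bb s (g x)) (fun x => bb_nonneg _ _)
      (fun x => bb_le_one _ _)
    have h2 := hφnn s
    linarith
  have low1 : ∀ s, s ≤ t → 2 * (θ / 3) * δ * m2B - 2 * θ * R - ν / 3 - 4 * sq (M1 u P) ≤ K s := by
    intro s hst
    rw [hKeq s]
    have h1 := level u hP hP1 (b := fun x => bb s (g x)) (β := β) (fun x => bb_nonneg _ _)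
      (fun x => bb_le_one _ _) hβ0 hβ1 hθ0 hθ1
    have h2 := hφnn s
    have h3 : θ * ∑ x, ∑ z, P x * P z * sq (u x - u z) *
          (β x * β z * (bb s (g x) * bb s (g z))) - ν
        ≤ ∑ x, ∑ z, P x * P z * sq (u x - u z) * (φ x z * (bb s (g x) * bb s (g z))) := by
      have : θ * ∑ x, ∑ z, P x * P z * sq (u x - u z) *
          (β x * β z * (bb s (g x) * bb s (g z)))
          - ∑ x, ∑ z, P x * P z * sq (u x - u z) * (φ x z * (bb s (g x) * bb s (g z)))
          ≤ ∑ x, ∑ z, P x * P z * sq (u x - u z) * max (θ * (β x * β z) - φ x z) 0 := by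
        rw [Finset.mul_sum, ← Finset.sum_sub_distrib]
        refine Finset.sum_le_sum fun x _ => ?_
        rw [Finset.mul_sum, ← Finset.sum_sub_distrib]
        refine Finset.sum_le_sum fun z _ => ?_
        have e : θ * (P x * P z * sq (u x - u z) * (β x * β z * (bb s (g x) * bb s (g z))))
            - P x * P z * sq (u x - u z) * (φ x z * (bb s (g x) * bb s (g z)))
            = P x * P z * sq (u x - u z) *
              ((θ * (β x * β z) - φ x z) * (bb s (g x) * bb s (g z))) := by ring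
        rw [e]
        refine mul_le_mul_of_nonneg_left ?_
          (mul_nonneg (mul_nonneg (hP x) (hP z)) (sq_nonneg' _))
        have hb0 : 0 ≤ bb s (g x) * bb s (g z) := mul_nonneg (bb_nonneg _ _) (bb_nonneg _ _)
        have hb1 : bb s (g x) * bb s (g z) ≤ 1 :=
          mul_le_one₀ (bb_le_one _ _) (bb_nonneg _ _) (bb_le_one _ _)
        calc (θ * (β x * β z) - φ x z) * (bb s (g x) * bb s (g z))
            ≤ max (θ * (β x * β z) - φ x z) 0 * (bb s (g x) * bb s (g z)) :=
              mul_le_mul_of_nonneg_right (le_max_left _ _) hb0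
          _ ≤ max (θ * (β x * β z) - φ x z) 0 := mul_le_of_le_one_right (le_max_right _ _) hb1
      linarith
    have h4 : δ ≤ M0 (fun x => P x * β x * bb s (g x)) := by
      refine hδ.trans ?_
      rw [M0]
      refine Finset.sum_le_sum fun x _ => ?_
      refine mul_le_mul_of_nonneg_left ?_ (mul_nonneg (hP x) (hβ0 x))
      by_cases ha : t ≤ g x
      · have hb : s ≤ g x := hst.trans ha
        simp [bb, ha, hb]
      · simpa [ha] using bb_nonneg s (g x)
    have h5 : 2 * (θ / 3) * δ * m2B ≤ 2 * (θ / 3) * M0 (fun x => P x * β x * bb s (g x)) * m2B := by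
      refine mul_le_mul_of_nonneg_right (mul_le_mul_of_nonneg_left h4 (by positivity)) hm2B0
    linarith
  -- integrate
  rw [← hKval, ← intervalIntegral.integral_add_adjacent_intervals (hKint 0 t) (hKint t T)]
  have I1 : t * (2 * (θ / 3) * δ * m2B - 2 * θ * R - ν / 3 - 4 * sq (M1 u P))
      ≤ ∫ s in (0:ℝ)..t, K s := by
    have : ∫ s in (0:ℝ)..t, (2 * (θ / 3) * δ * m2B - 2 * θ * R - ν / 3 - 4 * sq (M1 u P))
        ≤ ∫ s in (0:ℝ)..t, K s :=
      intervalIntegral.integral_mono_on ht0 (by simp) (hKint 0 t)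
        (fun s hs => low1 s hs.2)
    rw [intervalIntegral.integral_const, smul_eq_mul, sub_zero] at this
    exact this
  have I2 : (T - t) * (- 4 * sq (M1 u P)) ≤ ∫ s in t..T, K s := by
    have : ∫ s in t..T, (- 4 * sq (M1 u P)) ≤ ∫ s in t..T, K s :=
      intervalIntegral.integral_mono_on htT (by simp) (hKint t T) (fun s _ => low0 s)
    rw [intervalIntegral.integral_const, smul_eq_mul] at this
    exact this
  nlinarith [I1, I2]

end Vale.Agent.P365T2.Row408
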