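import Vale.Agent.P365.T1.SeqB795

/-!
# P365-T2: the sequences of the chain for a general base `β` and their inequalities.

`r i = rs ^ (β ^ i)`, block sides `8 * r i`, `e0 i = exp (-r i)`, `a i = (r i)^5`,
`t i = e0 i * exp (-a i) / 33` for `i ≤ I`, `b = (1/2)^(2 * (r (I+1))^5)`, `t (I+1) = b / 33`.
The names are those of `T1/Seq795` (`β = 4`), with `β` as first argument.
-/

set_option linter.all false

namespace P365T2.SeqG

open Real Filter Topology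
open P365T1.Seq (tendsto_pow_mul_exp ev_pow_exp_le ev_pow_exp_le_div ev_pow_le_exp ev_pow_le_pow
  log_33_le box_le)

/-- radii -/
def rr (β rs i : ℕ) : ℕ := rs ^ (β ^ i)

/-- block sides -/
def mS (β rs i : ℕ) : ℕ := 8 * rr β rs i

/-- diameter of the long clusters -/
def kS (β rs i : ℕ) : ℕ := rr β rs i / 2

/-- strengths -/
noncomputable def e0S (β rs i : ℕ) : ℝ := Real.exp (-(rr β rs i : ℝ))

/-- exponents of the bulk weights -/
def aS (β rs i : ℕ) : ℝ := (rr β rs i : ℝ) ^ 5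

/-- number of halvings of the background -/
def nS (β rs I : ℕ) : ℕ := 2 * rr β rs (I + 1) ^ 5

/-- background -/
noncomputable def bS (β rs I : ℕ) : ℝ := (1 / 2) ^ nS β rs I

/-- final factors of the stages -/
noncomputable def tS (β rs I i : ℕ) : ℝ :=
  if i = I + 1 then bS β rs I / 33 else e0S β rs i * Real.exp (-(aS β rs i)) / 33

variable {β : ℕ}

theorem rr_zero (rs : ℕ) : rr β rs 0 = rs := by simp [rr]

theorem rr_succ (rs i : ℕ) : rr β rs (i + 1) = rr β rs i ^ β := by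
  rw [rr, rr, ← pow_mul, pow_succ]

theorem rr_succ_cast (rs i : ℕ) : (rr β rs (i + 1) : ℝ) = (rr β rs i : ℝ) ^ β := by
  rw [rr_succ]
  push_cast
  ring

variable [hβ : Fact (2 ≤ β)]

include hβ in
theorem base_ge : 2 ≤ β := hβ.out

theorem one_le_rr {rs : ℕ} (h : 1 ≤ rs) (i : ℕ) : 1 ≤ rr β rs i := Nat.one_le_pow _ _ h

theorem rr_mono {rs : ℕ} (h : 1 ≤ rs) {i j : ℕ} (hij : i ≤ j) : rr β rs i ≤ rr β rs j :=
  Nat.pow_le_pow_right h (Nat.pow_le_pow_right (by have := hβ.out; omega) hij)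

theorem le_rr {rs : ℕ} (h : 1 ≤ rs) (i : ℕ) : rs ≤ rr β rs i := by
  have := rr_mono (β := β) h (Nat.zero_le i)
  rwa [rr_zero] at this

theorem rr_dvd (rs : ℕ) {i j : ℕ} (hij : i ≤ j) : rr β rs i ∣ rr β rs j :=
  pow_dvd_pow _ (Nat.pow_le_pow_right (by have := hβ.out; omega) hij)

omit hβ in
theorem succ_le_two_pow (i : ℕ) : i + 1 ≤ 2 ^ i := by
  induction i with
  | zero => simp
  | succ i ih =>
    rw [pow_succ]
    omega

theorem succ_le_pow (i : ℕ) : i + 1 ≤ β ^ i :=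
  (succ_le_two_pow i).trans (Nat.pow_le_pow_left hβ.out i)

theorem two_pow_le_rr {rs : ℕ} (h : 2 ≤ rs) (i : ℕ) : 2 ^ (i + 1) ≤ rr β rs i :=
  calc 2 ^ (i + 1) ≤ 2 ^ (β ^ i) := Nat.pow_le_pow_right (by norm_num) (succ_le_pow i)
    _ ≤ rs ^ (β ^ i) := Nat.pow_le_pow_left h _

theorem lt_rr {rs : ℕ} (h : 2 ≤ rs) (i : ℕ) : i < rr β rs i := by
  have h1 := two_pow_le_rr (β := β) h i
  have h2 : i + 1 < 2 ^ (i + 1) := Nat.lt_two_pow_self
  omega

theorem mS_dvd (rs : ℕ) {i j : ℕ} (hij : i ≤ j) : mS β rs i ∣ mS β rs j :=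
  Nat.mul_dvd_mul_left 8 (rr_dvd rs hij)

theorem mS_pos {rs : ℕ} (h : 1 ≤ rs) (i : ℕ) : 0 < mS β rs i := by
  have := one_le_rr (β := β) h i
  unfold mS
  omega

theorem e0S_pos (rs i : ℕ) : 0 < e0S β rs i := Real.exp_pos _

theorem e0S_le_one (rs i : ℕ) : e0S β rs i ≤ 1 :=
  Real.exp_le_one_iff.2 (by have : (0 : ℝ) ≤ rr β rs i := Nat.cast_nonneg _; linarith)

theorem aS_nonneg (rs i : ℕ) : 0 ≤ aS β rs i := by unfold aS; positivity

theorem bS_pos (rs I : ℕ) : 0 < bS β rs I := by unfold bS; positivity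

theorem bS_le_one (rs I : ℕ) : bS β rs I ≤ 1 := by
  unfold bS
  exact pow_le_one₀ (by norm_num) (by norm_num)

theorem tS_of_le {rs I i : ℕ} (hi : i ≤ I) :
    tS β rs I i = e0S β rs i * Real.exp (-(aS β rs i)) / 33 := by
  unfold tS
  rw [if_neg (by omega)]

theorem tS_last (rs I : ℕ) : tS β rs I (I + 1) = bS β rs I / 33 := by
  unfold tS
  rw [if_pos rfl]

theorem tS_pos (rs I i : ℕ) : 0 < tS β rs I i := by
  unfold tS
  have h1 := bS_pos (β := β) rs I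
  have h2 := e0S_pos (β := β) rs i
  split_ifs <;> positivity

theorem tS_le_one (rs I i : ℕ) : tS β rs I i ≤ 1 := by
  unfold tS
  have h1 := bS_le_one (β := β) rs I
  have h2 := e0S_le_one (β := β) rs i
  have h2' := e0S_pos (β := β) rs i
  have h3 : Real.exp (-(aS β rs i)) ≤ 1 := Real.exp_le_one_iff.2 (by linarith [aS_nonneg (β := β) rs i])
  have h3' := Real.exp_pos (-(aS β rs i))
  split_ifs
  · linarith
  · have : e0S β rs i * Real.exp (-(aS β rs i)) ≤ 1 * 1 :=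
      mul_le_mul h2 h3 h3'.le zero_le_one
    linarith

theorem tS_small {rs I i : ℕ} (hi : i ≤ I) :
    tS β rs I i * 33 ≤ e0S β rs i * Real.exp (-(aS β rs i)) := by
  rw [tS_of_le hi]
  linarith

theorem tS_last_le (rs I : ℕ) : tS β rs I (I + 1) * 33 ≤ bS β rs I := by
  rw [tS_last]
  linarith

/-! ### logarithmic times -/

theorem log_inv_t_of_le {rs I i : ℕ} (hi : i ≤ I) :
    Real.log (1 / tS β rs I i) ≤ 4 + (rr β rs i : ℝ) + (rr β rs i : ℝ) ^ 5 := by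
  rw [tS_of_le hi, one_div, Real.log_inv, Real.log_div
    (mul_pos (e0S_pos rs i) (Real.exp_pos _)).ne' (by norm_num),
    Real.log_mul (e0S_pos rs i).ne' (Real.exp_pos _).ne', Real.log_exp, e0S, Real.log_exp, aS]
  have := log_33_le
  linarith

theorem log_inv_t_last (rs I : ℕ) :
    Real.log (1 / tS β rs I (I + 1)) ≤ 4 + 1.4 * (rr β rs (I + 1) : ℝ) ^ 5 := by
  rw [tS_last, one_div, Real.log_inv, Real.log_div (bS_pos rs I).ne' (by norm_num), bS,
    Real.log_pow, one_div, Real.log_inv, nS]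
  push_cast
  have h1 := log_33_le
  have h2 : Real.log 2 ≤ 0.7 := by
    have := Real.log_two_lt_d9
    linarith
  have h3 : (0 : ℝ) ≤ (rr β rs (I + 1) : ℝ) ^ 5 := by positivity
  have h4 : 2 * (rr β rs (I + 1) : ℝ) ^ 5 * Real.log 2 ≤ 2 * (rr β rs (I + 1) : ℝ) ^ 5 * 0.7 :=
    mul_le_mul_of_nonneg_left h2 (by positivity)
  linarith

theorem two_le_cast_rr {rs : ℕ} (h : 2 ≤ rs) (i : ℕ) : (2 : ℝ) ≤ rr β rs i := by
  have h1 : 2 ≤ rr β rs i := h.trans (le_rr (by omega) i)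
  exact_mod_cast h1

omit hβ in
theorem pow5β {rs : ℕ} (i : ℕ) : (rr β rs (i + 1) : ℝ) ^ 5 = (rr β rs i : ℝ) ^ (5 * β) := by
  rw [rr_succ_cast, ← pow_mul, mul_comm]

theorem pow5_ge {rs : ℕ} (h : 2 ≤ rs) (i : ℕ) :
    (32 : ℝ) ≤ (rr β rs i : ℝ) ^ 5 ∧ (rr β rs i : ℝ) ≤ (rr β rs i : ℝ) ^ 5 := by
  have h2 := two_le_cast_rr (β := β) h i
  constructor
  · have h3 : (2 : ℝ) ^ 5 ≤ (rr β rs i : ℝ) ^ 5 := pow_le_pow_left₀ (by norm_num) h2 5
    norm_num at h3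
    exact h3
  · have := pow_le_pow_right₀ (show (1 : ℝ) ≤ rr β rs i by linarith) (show 1 ≤ 5 by norm_num)
    simpa using this

/-- `log (1 / t (i + 1)) ≤ 3 (r i)^(5 β)` -/
theorem log_inv_t {rs : ℕ} (h : 2 ≤ rs) {I i : ℕ} (hi : i ≤ I) :
    Real.log (1 / tS β rs I (i + 1)) ≤ 3 * (rr β rs i : ℝ) ^ (5 * β) := by
  rw [← pow5β]
  obtain ⟨h3, h4⟩ := pow5_ge (β := β) h (i + 1)
  rcases Nat.lt_or_ge i I with hlt | hge
  · have h1 := log_inv_t_of_le (β := β) (rs := rs) (show i + 1 ≤ I by omega)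
    linarith
  · have hiI : i = I := by omega
    subst hiI
    have h1 := log_inv_t_last (β := β) rs i
    linarith

theorem log_inv_t_zero (rs I : ℕ) :
    Real.log (1 / tS β rs I 0) ≤ 4 + (rs : ℝ) + (rs : ℝ) ^ 5 := by
  have h := log_inv_t_of_le (β := β) (rs := rs) (Nat.zero_le I)
  rwa [rr_zero] at h

theorem log_inv_t_nonneg (rs I i : ℕ) : 0 ≤ Real.log (1 / tS β rs I i) := by
  refine Real.log_nonneg ?_
  rw [le_div_iff₀ (tS_pos rs I i), one_mul]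
  exact tS_le_one rs I i

/-! ### strengths -/

theorem e0S_succ {rs : ℕ} (h : 2 ≤ rs) (i : ℕ) : 2 * e0S β rs (i + 1) ≤ e0S β rs i := by
  have h2 := two_le_cast_rr (β := β) h i
  have h3 : (rr β rs i : ℝ) + 1 ≤ (rr β rs (i + 1) : ℝ) := by
    rw [rr_succ_cast]
    have h9 : (rr β rs i : ℝ) ^ 2 ≤ (rr β rs i : ℝ) ^ β :=
      pow_le_pow_right₀ (by linarith) hβ.out
    nlinarith
  have h4 : e0S β rs (i + 1) ≤ Real.exp (-1) * e0S β rs i := by
    unfold e0S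
    rw [← Real.exp_add]
    exact Real.exp_le_exp.2 (by linarith)
  have h5 : Real.exp (-1) ≤ 1 / 2 := by
    rw [Real.exp_neg, ← one_div]
    have : (2.7182818283 : ℝ) < Real.exp 1 := Real.exp_one_gt_d9
    exact one_div_le_one_div_of_le (by norm_num) (by linarith)
  have h6 := e0S_pos (β := β) rs i
  nlinarith

theorem bS_le {rs : ℕ} (h : 2 ≤ rs) (I : ℕ) : bS β rs I ≤ e0S β rs (I + 1) := by
  have h2 := two_le_cast_rr (β := β) h (I + 1)
  unfold bS e0S nS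
  rw [← Real.rpow_natCast, Real.rpow_def_of_pos (by norm_num)]
  refine Real.exp_le_exp.2 ?_
  rw [one_div, Real.log_inv]
  push_cast
  have h3 : (0.5 : ℝ) ≤ Real.log 2 := by
    have := Real.log_two_gt_d9
    linarith
  have h4 : (rr β rs (I + 1) : ℝ) ≤ (rr β rs (I + 1) : ℝ) ^ 5 := by
    have := pow_le_pow_right₀ (show (1 : ℝ) ≤ rr β rs (I + 1) by linarith) (show 1 ≤ 5 by norm_num)
    simpa using this
  have h5 : (0 : ℝ) ≤ (rr β rs (I + 1) : ℝ) ^ 5 := by positivity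
  nlinarith

theorem sum_e0S {rs : ℕ} (h : 2 ≤ rs) (I : ℕ) {i : ℕ} (hi : i ≤ I + 1) :
    ∑ j ∈ Finset.Ico i (I + 1), e0S β rs j + bS β rs I ≤ 2 * e0S β rs i := by
  obtain ⟨d, hd⟩ : ∃ d, I + 1 = i + d := ⟨I + 1 - i, by omega⟩
  induction d generalizing i with
  | zero =>
    have : i = I + 1 := by omega
    subst this
    simp only [Finset.Ico_self, Finset.sum_empty, zero_add]
    have h1 := bS_le (β := β) h I
    have h2 := e0S_pos (β := β) rs (I + 1)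
    linarith
  | succ d ih =>
    rw [Finset.sum_eq_sum_Ico_succ_bot (show i < I + 1 by omega)]
    have h1 := ih (i := i + 1) (by omega) (by omega)
    have h2 := e0S_succ (β := β) h i
    linarith

/-- tail of the strengths and the background -/
theorem tail_e0S {rs : ℕ} (h : 2 ≤ rs) {I i : ℕ} (hi : i ≤ I) :
    ∑ j ∈ Finset.Ico (i + 1) (I + 1), e0S β rs j + bS β rs I ≤ e0S β rs i :=
  (sum_e0S h I (show i + 1 ≤ I + 1 by omega)).trans (e0S_succ h i)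

/-- lower bound of the own absorption of the movable sites during stage `i + 1` -/
theorem own_ge {rs : ℕ} (h : 2 ≤ rs) {I i : ℕ} (hi : i ≤ I) :
    Real.exp (-(8 * (rr β rs i : ℝ) ^ (5 * β))) ≤
      tS β rs I (i + 1) * (e0S β rs i * Real.exp (-(aS β rs i))) := by
  have h0 := tS_pos (β := β) rs I (i + 1)
  have h1 := log_inv_t (β := β) h hi
  rw [one_div, Real.log_inv] at h1
  have h2 := two_le_cast_rr (β := β) h i
  have e1 : tS β rs I (i + 1) * (e0S β rs i * Real.exp (-(aS β rs i))) =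
      Real.exp (Real.log (tS β rs I (i + 1)) + (-(rr β rs i : ℝ) + -(aS β rs i))) := by
    rw [Real.exp_add, Real.exp_log h0, Real.exp_add, e0S]
  rw [e1]
  refine Real.exp_le_exp.2 ?_
  have h3 : (rr β rs i : ℝ) ≤ (rr β rs i : ℝ) ^ (5 * β) := by
    have := pow_le_pow_right₀ (show (1 : ℝ) ≤ rr β rs i by linarith)
      (show 1 ≤ 5 * β by have := hβ.out; omega)
    simpa using this
  have h4 : (rr β rs i : ℝ) ^ 5 ≤ (rr β rs i : ℝ) ^ (5 * β) :=
    pow_le_pow_right₀ (by linarith) (by have := hβ.out; omega)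
  unfold aS
  have h5 : (0 : ℝ) ≤ (rr β rs i : ℝ) ^ (5 * β) := by positivity
  linarith

/-! ### choice of `rs` -/

variable (β) in
theorem exists_rs {P : ℕ → Prop} (hP : ∀ᶠ r : ℕ in atTop, P r) :
    ∃ R, 2 ≤ R ∧ ∀ rs, R ≤ rs → ∀ i, P (rr β rs i) := by
  obtain ⟨R, hR⟩ := eventually_atTop.1 hP
  refine ⟨max R 2, le_max_right _ _, fun rs hrs i => hR _ ?_⟩
  have h1 : R ≤ rs := (le_max_left _ _).trans hrs
  have h2 : 2 ≤ rs := (le_max_right _ _).trans hrs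
  exact h1.trans (le_rr (by omega) i)

theorem sum_inv_rr {rs : ℕ} (h : 2 ≤ rs) (n : ℕ) :
    ∑ i ∈ Finset.range n, (1 : ℝ) / rr β rs i ≤ 1 := by
  have h1 : ∀ i, (1 : ℝ) / rr β rs i ≤ (1 / 2) ^ (i + 1) := by
    intro i
    have h2 : (2 : ℝ) ^ (i + 1) ≤ rr β rs i := by exact_mod_cast two_pow_le_rr h i
    rw [one_div_pow]
    exact one_div_le_one_div_of_le (by positivity) h2
  have h2 : ∀ n : ℕ, ∑ i ∈ Finset.range n, (1 / 2 : ℝ) ^ (i + 1) = 1 - (1 / 2 : ℝ) ^ n := by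
    intro n
    induction n with
    | zero => simp
    | succ n ih =>
      rw [Finset.sum_range_succ, ih]
      ring
  calc ∑ i ∈ Finset.range n, (1 : ℝ) / rr β rs i
      ≤ ∑ i ∈ Finset.range n, (1 / 2 : ℝ) ^ (i + 1) := Finset.sum_le_sum fun i _ => h1 i
    _ = 1 - (1 / 2 : ℝ) ^ n := h2 n
    _ ≤ 1 := by
        have : (0 : ℝ) < (1 / 2 : ℝ) ^ n := by positivity
        linarith

variable (β) in
/-- sums over the families of rapidly decaying functions of the radius -/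
theorem exists_sum_le {f : ℕ → ℝ} {ε : ℝ} (hε : 0 ≤ ε)
    (hf : ∀ᶠ r : ℕ in atTop, f r ≤ ε / r) :
    ∃ R, 2 ≤ R ∧ ∀ rs, R ≤ rs → ∀ n, ∑ i ∈ Finset.range n, f (rr β rs i) ≤ ε := by
  obtain ⟨R, hR2, hR⟩ := exists_rs β hf
  refine ⟨R, hR2, fun rs hrs n => ?_⟩
  calc ∑ i ∈ Finset.range n, f (rr β rs i)
      ≤ ∑ i ∈ Finset.range n, ε * (1 / rr β rs i) :=
        Finset.sum_le_sum fun i _ => (hR rs hrs i).trans (le_of_eq (by ring))
    _ = ε * ∑ i ∈ Finset.range n, (1 : ℝ) / rr β rs i := by rw [Finset.mul_sum]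
    _ ≤ ε * 1 := mul_le_mul_of_nonneg_left (sum_inv_rr (hR2.trans hrs) n) hε
    _ = ε := mul_one _

/-! ### masses of the labels -/

variable (β) in
/-- total mass of the labels which are not good or rest -/
theorem exists_mass {ε : ℝ} (hε : 0 < ε) :
    ∃ R, 2 ≤ R ∧ ∀ rs, R ≤ rs → ∀ n,
      ∑ i ∈ Finset.range n, 65 * (rr β rs i : ℝ) ^ 2 * Real.exp (-(rr β rs i : ℝ)) ≤ ε := by
  have h := ev_pow_exp_le_div 65 2 (c := 1) one_pos hε
  simp only [one_mul] at h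
  exact exists_sum_le β (f := fun r => 65 * (r : ℝ) ^ 2 * Real.exp (-(r : ℝ))) hε.le h

variable (β) in
/-- total density of the windows -/
theorem exists_dens (A : ℝ) (ms : ℕ) {ε : ℝ} (hε : 0 < ε) :
    ∃ R, 2 ≤ R ∧ ∀ rs, R ≤ rs → ∀ n,
      ∑ i ∈ Finset.range n, A * (rr β rs i : ℝ) ^ 2 * (2 * (rr β rs i : ℝ) + 1) ^ ms *
        Real.exp (-(rr β rs i : ℝ)) ≤ ε := by
  have h := ev_pow_exp_le_div (|A| * 3 ^ ms) (2 + ms) (c := 1) one_pos hε
  simp only [one_mul] at h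
  refine exists_sum_le β (f := fun r => A * (r : ℝ) ^ 2 * (2 * (r : ℝ) + 1) ^ ms *
    Real.exp (-(r : ℝ))) hε.le ?_
  filter_upwards [h, eventually_ge_atTop 1] with r h1 hr
  refine le_trans ?_ h1
  have h2 : (1 : ℝ) ≤ r := by exact_mod_cast hr
  have h3 : (2 * (r : ℝ) + 1) ^ ms ≤ 3 ^ ms * (r : ℝ) ^ ms := by
    rw [← mul_pow]
    exact pow_le_pow_left₀ (by positivity) (by linarith) ms
  have h4 := Real.exp_pos (-(r : ℝ))
  calc A * (r : ℝ) ^ 2 * (2 * (r : ℝ) + 1) ^ ms * Real.exp (-(r : ℝ))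
      ≤ |A| * (r : ℝ) ^ 2 * (2 * (r : ℝ) + 1) ^ ms * Real.exp (-(r : ℝ)) := by
        gcongr
        exact le_abs_self A
    _ ≤ |A| * (r : ℝ) ^ 2 * (3 ^ ms * (r : ℝ) ^ ms) * Real.exp (-(r : ℝ)) := by
        gcongr
    _ = |A| * 3 ^ ms * (r : ℝ) ^ (2 + ms) * Real.exp (-(r : ℝ)) := by
        rw [pow_add]
        ring

/-! ### choices of `n` and `N` -/

theorem le_nS {rs : ℕ} (h : 2 ≤ rs) (I : ℕ) : I ≤ nS β rs I := by
  have h1 := lt_rr (β := β) h (I + 1)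
  have h2 : rr β rs (I + 1) ≤ rr β rs (I + 1) ^ 5 := Nat.le_self_pow (by norm_num) _
  unfold nS
  omega

/-- large tori: `N = m I * (N₀ + 4)` -/
theorem exists_N {rs : ℕ} (h : 1 ≤ rs) (I N₀ : ℕ) :
    ∃ N, N₀ ≤ N ∧ N ≠ 0 ∧ 4 * mS β rs I ≤ N ∧ ∀ i ≤ I, mS β rs i ∣ N := by
  have hm := mS_pos (β := β) h I
  refine ⟨mS β rs I * (N₀ + 4), ?_, ?_, ?_, fun i hi => ?_⟩
  · nlinarith
  · positivity
  · nlinarith
  · exact (mS_dvd rs hi).mul_right _

end P365T2.SeqG
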