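import Vale.Agent.P365.H763.Cmp
import Vale.Agent.P365.V4.Inst
import Vale.Agent.P365.V4.Free227

/-!
# P365-T2: pathwise comparison of the state at the start of a stage with the START state

`us (j + 1) + Ws (j + 1) ≥ θ (us 0 + Ws 0)` with `θ = e0_j exp (-a_j) / M`; all energies at the
start of stage `j + 2` are at most `(2 / θ) ^ 2` times the energies at START, path by path.
-/

set_option linter.all false

namespace Vale.Agent.P365.J376

open P365L P365O P365T1 P365L.TL Matrix Complex MeasureTheory Filter Topology Set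
open scoped ComplexConjugate ENNReal

section

variable {N : ℕ} [NeZero N] {D : V4 N} {ρ : Measure ℝ}

/-- the state at the beginning of stage `i` (`i = 0`: START) -/
noncomputable def V4.st (D : V4 N) (i : ℕ) (l : Tor N → D.Λ) (x : Tor N) : ℝ :=
  D.us i l x + D.Ws i l x

theorem V4.Ok.st_succ (h : D.Ok ρ) {i : ℕ} (hi : i ≤ D.I) (l : Tor N → D.Λ) (x : Tor N) :
    D.st (i + 1) l x = D.us i l x + D.t i * D.Ws i l x := (V4.link (by omega) l x).symm

theorem V4.Ok.st_succ_le (h : D.Ok ρ) {i : ℕ} (hi : i ≤ D.I) (l : Tor N → D.Λ) (x : Tor N) :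
    D.st (i + 1) l x ≤ D.st i l x := by
  rw [h.st_succ hi, V4.st]
  have h1 := h.t_le i (by omega)
  have h2 := h.toOk.Ws_nonneg (show i ≤ D.I + 1 by omega) l x
  have h3 : D.t i * D.Ws i l x ≤ 1 * D.Ws i l x := mul_le_mul_of_nonneg_right h1 h2
  linarith

theorem V4.Ok.st_anti (h : D.Ok ρ) {i j : ℕ} (hij : i ≤ j) (hj : j ≤ D.I + 1)
    (l : Tor N → D.Λ) (x : Tor N) : D.st j l x ≤ D.st i l x := by
  induction j with
  | zero =>
    have : i = 0 := by omega
    rw [this]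
  | succ j ih =>
    rcases Nat.eq_or_lt_of_le hij with rfl | hlt
    · exact le_rfl
    · exact (h.st_succ_le (by omega) l x).trans (ih (by omega) (by omega))

/-- upper bound of the START profile -/
theorem V4.Ok.st_zero_le (h : D.Ok ρ) (l : Tor N → D.Λ) (x : Tor N) :
    D.st 0 l x ≤ D.b' + ∑ j ∈ Finset.range (D.I + 1), D.e0 j + 33 := by
  have h1 := h.floor_le (l x) x
  have h2 : ∑ j ∈ Finset.Ico 0 (D.I + 1), D.e0 j * D.wf j l x ≤
      ∑ j ∈ Finset.range (D.I + 1), D.e0 j := by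
    rw [← Finset.range_eq_Ico]
    refine Finset.sum_le_sum fun j hj => ?_
    rw [Finset.mem_range] at hj
    have h3 := h.toOk.wf_le (show j ≤ D.I by omega) l x
    have h4 := h.e0_pos j (by omega)
    nlinarith
  have h3 := h.toOk.Ws_le (show 0 ≤ D.I + 1 by omega) l x
  unfold V4.st V4.us
  linarith

theorem V4.Ok.st_pos (h : D.Ok ρ) {i : ℕ} (hi : i ≤ D.I + 1) (l : Tor N → D.Λ) (x : Tor N) :
    0 < D.st i l x := by
  have h1 := h.us_ge i l x
  have h2 := h.toOk.Ws_nonneg hi l x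
  have h3 := h.b_pos
  unfold V4.st
  linarith

theorem V4.Ok.st_of_not_mov (h : D.Ok ρ) {i : ℕ} (hi : i ≤ D.I + 1) {l : Tor N → D.Λ}
    {x : Tor N} (hm : ¬ D.mov (l x)) : D.st i l x = D.β (l x) x := by
  unfold V4.st V4.us
  rw [h.toOk.Ws_of_not_mov hi hm, Finset.sum_eq_zero fun j hj => ?_]
  · ring
  · rw [Finset.mem_Ico] at hj
    rw [h.toOk.wf_of_not_mov (by omega) hm, mul_zero]

/-- the comparison factor -/
noncomputable def V4.th (D : V4 N) (j : ℕ) : ℝ :=
  D.e0 j * Real.exp (-(D.a j)) / (D.b' + ∑ j ∈ Finset.range (D.I + 1), D.e0 j + 33)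

theorem V4.Ok.M_ge (h : D.Ok ρ) : 33 ≤ D.b' + ∑ j ∈ Finset.range (D.I + 1), D.e0 j + 33 := by
  have h1 : 0 ≤ ∑ j ∈ Finset.range (D.I + 1), D.e0 j :=
    Finset.sum_nonneg fun j hj => (h.e0_pos j (by have := Finset.mem_range.1 hj; omega)).le
  have h2 := h.b'_pos
  linarith

theorem V4.Ok.th_pos (h : D.Ok ρ) {j : ℕ} (hj : j ≤ D.I) : 0 < D.th j := by
  have h1 := h.e0_pos j hj
  have h2 := h.M_ge
  unfold V4.th
  positivity

theorem V4.Ok.th_le_one (h : D.Ok ρ) {j : ℕ} (hj : j ≤ D.I) : D.th j ≤ 1 := by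
  have h1 := h.e0_pos j hj
  have h1' := h.e0_le j hj
  have h2 := h.M_ge
  have h3 : Real.exp (-(D.a j)) ≤ 1 := Real.exp_le_one_iff.2 (by linarith [h.a_nonneg j hj])
  have h4 : D.e0 j * Real.exp (-(D.a j)) ≤ 1 * 1 :=
    mul_le_mul h1' h3 (Real.exp_pos _).le zero_le_one
  unfold V4.th
  rw [div_le_one (by linarith)]
  linarith

/-- **the start state of stage `j + 1` against START** -/
theorem V4.Ok.th_mul_le (h : D.Ok ρ) {j : ℕ} (hj : j ≤ D.I) (l : Tor N → D.Λ) (x : Tor N) :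
    D.th j * D.st 0 l x ≤ D.st (j + 1) l x := by
  have h0 := h.st_pos (show 0 ≤ D.I + 1 by omega) l x
  by_cases hm : D.mov (l x)
  · have h1 : D.e0 j * Real.exp (-(D.a j)) ≤ D.Ws (j + 1) l x := by
      by_cases hc : D.cen j l x
      · refine le_trans ?_ (h.toOk.Ws_cen hj hc).1
        have h3 : Real.exp (-(D.a j)) ≤ 1 :=
          Real.exp_le_one_iff.2 (by linarith [h.a_nonneg j hj])
        have := h.e0_pos j hj
        nlinarith
      · exact (h.toOk.Ws_bulk hj hm hc).1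
    have h2 := h.us_nonneg (j + 1) l x
    have h3 := h.M_ge
    calc D.th j * D.st 0 l x
        ≤ D.th j * (D.b' + ∑ j ∈ Finset.range (D.I + 1), D.e0 j + 33) :=
          mul_le_mul_of_nonneg_left (h.st_zero_le l x) (h.th_pos hj).le
      _ = D.e0 j * Real.exp (-(D.a j)) := by
          unfold V4.th
          field_simp
      _ ≤ D.st (j + 1) l x := by
          unfold V4.st
          linarith
  · rw [h.st_of_not_mov (by omega) hm] at h0 ⊢
    rw [h.st_of_not_mov (by omega) hm]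
    have h1 := h.th_le_one hj
    nlinarith

/-- **pathwise comparison of the energies with START** -/
theorem V4.Ok.En_st_le (h : D.Ok ρ) {j : ℕ} (hj : j ≤ D.I) {A : Matrix (Tor N) (Tor N) ℝ}
    (hA : A.IsSymm) (E : ℝ) (l : Tor N → D.Λ) (v f : Tor N → ℝ) :
    En A (WV E (D.st (j + 1) l) v) f ≤ (2 / D.th j) ^ 2 * En A (WV E (D.st 0 l) v) f := by
  refine P365H763.En_cmp_abs hA
    (fun x => WV_im_neg' (fun y => h.st_pos (Nat.zero_le _) l y) E v x) (h.th_pos hj)
    (fun x => ?_) (fun x => ?_) (fun x => ?_) f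
  · simp [WV]
  · rw [P365T1.WV_im, P365T1.WV_im]
    have := h.th_mul_le hj l x
    linarith
  · rw [P365T1.WV_im, P365T1.WV_im]
    have h1 := h.st_anti (show 0 ≤ j + 1 by omega) (by omega) l x
    have h2 := h.th_le_one hj
    have h3 := h.st_pos (show j + 1 ≤ D.I + 1 by omega) l x
    nlinarith

/-- the same for a family -/
theorem V4.Ok.sum_En_st_le (h : D.Ok ρ) {j : ℕ} (hj : j ≤ D.I) {A : Matrix (Tor N) (Tor N) ℝ}
    (hA : A.IsSymm) (E : ℝ) (l : Tor N → D.Λ) (v : Tor N → ℝ) {κ : Type*} [Fintype κ]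
    (F : κ → Tor N → ℝ) :
    ∑ k, En A (WV E (D.st (j + 1) l) v) (F k) ≤
      (2 / D.th j) ^ 2 * ∑ k, En A (WV E (D.st 0 l) v) (F k) := by
  rw [Finset.mul_sum]
  exact Finset.sum_le_sum fun k _ => h.En_st_le hj hA E l v (F k)

end

end Vale.Agent.P365.J376

namespace P365T2.StartCmp

open P365L P365L.TL P365SH Vale.Agent.P365.C937 Vale.Agent.P365.J376 MeasureTheory Set
open P365T1 P365T2.SeqG P365V4.Free
open P365T2.ConcG (PP QQ)

variable {β : ℕ} [hβ : Fact (2 ≤ β)] {yf : ℕ → ℤ × ℤ} {rs I : ℕ}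

/-- **the factor for the concrete world**: `θ ≥ e0_j exp (-a_j) / 40` -/
theorem th_ge {N : ℕ} [NeZero N] {t : ℕ → ℝ} {b b' : ℝ} {p : (PP β yf rs I).Lb → ℝ}
    {ν : (PP β yf rs I).Lb → Measure ℝ} {X : Finset (Tor N)}
    {fl : (PP β yf rs I).Lb → Tor N → ℝ} (hrs : 2 ≤ rs) (hb'0 : 0 < b') (hb' : b' ≤ 1) (j : ℕ) :
    e0S β rs j * Real.exp (-(aS β rs j)) / 40 ≤ (Wf t b p ν X fl b').th j := by
  have h0 : ∀ i, 0 < e0S β rs i := e0S_pos rs
  have h1 : ∑ j ∈ Finset.range (I + 1), e0S β rs j ≤ 2 := by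
    have h2 := sum_e0S (β := β) hrs I (show 0 ≤ I + 1 by omega)
    rw [← Finset.range_eq_Ico] at h2
    have h3 := e0S_le_one (β := β) rs 0
    have h4 := bS_pos (β := β) rs I
    linarith
  have h5 : 0 ≤ ∑ j ∈ Finset.range (I + 1), e0S β rs j := Finset.sum_nonneg fun j _ => (h0 j).le
  show e0S β rs j * Real.exp (-(aS β rs j)) / 40 ≤
    e0S β rs j * Real.exp (-(aS β rs j)) / (b' + ∑ j ∈ Finset.range (I + 1), e0S β rs j + 33)
  have h6 := mul_pos (h0 j) (Real.exp_pos (-(aS β rs j)))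
  exact div_le_div_of_nonneg_left h6.le (by linarith) (by linarith)

end P365T2.StartCmp
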