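import Vale.Agent.P365.L1.Near

/-!
# P365-T2: the static step, pathwise, for an arbitrary absorption profile `e x = -(W x).im`.

If a set `R` of far pairs `(u,x)` is strong (`κ_ux ≥ ε₁`) and the first indices `u` send little mass
to weak partners (`P_u(κ < ε₂) ≤ δ`), then the energy of `R` is controlled by `J`, `M2`, `Λ` and
`δ / ε₁` times the total energy.
-/

set_option linter.all false

namespace P365T2.Static

open Matrix Complex P365L
open scoped ComplexConjugate

variable {ι : Type*} [Fintype ι] [DecidableEq ι]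
variable {A : Matrix ι ι ℝ} {W : ι → ℂ} {a : ι → ℝ}

/-- `U = 1 - 2 i G^* E = G^* K` -/
noncomputable def Uw (A : Matrix ι ι ℝ) (W : ι → ℂ) : Matrix ι ι ℂ :=
  1 - (2 * I) • ((Gr A W)ᴴ * Ed W)

/-- `Y = [a, G]` -/
noncomputable def Ym (A : Matrix ι ι ℝ) (W : ι → ℂ) (a : ι → ℝ) (u x : ι) : ℂ :=
  ((a u : ℂ) - (a x : ℂ)) * Gr A W u x

omit [Fintype ι] in
theorem Ed_conjTranspose : (Ed W)ᴴ = Ed W := by
  rw [Ed, Matrix.diagonal_conjTranspose]
  congr 1
  funext x
  simp

/-- `U^* E U = E` -/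
theorem Uw_unitary (hA : A.IsSymm) (hW : ∀ x, (W x).im < 0) :
    (Uw A W)ᴴ * Ed W * Uw A W = Ed W := by
  have h1 : (Uw A W)ᴴ = 1 + (2 * I) • (Ed W * Gr A W) := by
    rw [Uw, Matrix.conjTranspose_sub, Matrix.conjTranspose_one, Matrix.conjTranspose_smul,
      Matrix.conjTranspose_mul, Matrix.conjTranspose_conjTranspose, Ed_conjTranspose]
    have : star (2 * I : ℂ) = -(2 * I) := by simp
    rw [this, neg_smul, sub_neg_eq_add]
  have h2 := Ward' hA hW
  have h3 : (Uw A W)ᴴ * Ed W * Uw A W =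
      Ed W + ((2 * I) • (Ed W * (Gr A W - (Gr A W)ᴴ) * Ed W) -
        ((2 * I) * (2 * I)) • (Ed W * (Gr A W * Ed W * (Gr A W)ᴴ) * Ed W)) := by
    rw [h1, Uw]
    simp only [Matrix.add_mul, Matrix.mul_sub, Matrix.sub_mul, Matrix.one_mul, Matrix.mul_one,
      Matrix.smul_mul, Matrix.mul_smul, smul_sub, smul_add, smul_smul, Matrix.mul_assoc]
    abel
  rw [h3, h2]
  simp only [Matrix.smul_mul, Matrix.mul_smul, smul_smul, sub_self, add_zero]

theorem Uw_inner (hA : A.IsSymm) (hW : ∀ x, (W x).im < 0) (r s : ι → ℂ) :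
    ∑ w, ((-(W w).im : ℝ) : ℂ) * (conj ((Uw A W).mulVec r w) * (Uw A W).mulVec s w) =
      ∑ w, ((-(W w).im : ℝ) : ℂ) * (conj (r w) * s w) := by
  have h0 : ∀ p q : ι → ℂ, ∑ w, ((-(W w).im : ℝ) : ℂ) * (conj (p w) * q w) =
      dotProduct (star p) ((Ed W).mulVec q) := by
    intro p q
    rw [dotProduct]
    refine Finset.sum_congr rfl fun w _ => ?_
    rw [Ed, Matrix.mulVec_diagonal]
    simp only [Pi.star_apply, RCLike.star_def]
    ring
  rw [h0, h0, Matrix.star_mulVec, ← Matrix.dotProduct_mulVec, Matrix.mulVec_mulVec,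
    Matrix.mulVec_mulVec, Uw_unitary hA hW]

/-- `T = (i/2) U Y` -/
theorem Tm_eq_Uw (hA : A.IsSymm) (hW : ∀ x, (W x).im < 0) (w x : ι) :
    Tm A W a w x = (I / 2) * (Uw A W).mulVec (fun u => Ym A W a u x) w := by
  have h1 : (Gr A W)ᴴ * Bm A a * Gr A W = Uw A W * (Gr A W * Bm A a * Gr A W) := by
    have h2 : Uw A W = (Gr A W)ᴴ * Kmat A W := by
      rw [GrH_mul_Kmat hA hW]; rfl
    have h3 : (Gr A W)ᴴ * Kmat A W * (Gr A W * Bm A a * Gr A W) =
        (Gr A W)ᴴ * (Kmat A W * Gr A W) * Bm A a * Gr A W := by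
      simp only [Matrix.mul_assoc]
    rw [h2, h3, Kmat_mul_Gr hA hW, Matrix.mul_one]
  rw [Tm, h1, Gr_Bm_Gr hA hW, Matrix.smul_apply, smul_eq_mul, Matrix.mul_apply]
  congr 1
  rw [Matrix.mulVec, dotProduct]
  refine Finset.sum_congr rfl fun u _ => ?_
  rw [Matrix.sub_apply, Matrix.diagonal_mul, Matrix.mul_diagonal, Ym]
  ring

theorem Uw_mulVec (s : ι → ℂ) (w : ι) (hA : A.IsSymm) :
    (Uw A W).mulVec s w =
      s w - (2 * I) * ∑ u, conj (Gr A W w u) * (((-(W u).im : ℝ) : ℂ) * s u) := by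
  rw [Uw, Matrix.sub_mulVec, Matrix.one_mulVec, Matrix.smul_mulVec, Pi.sub_apply,
    Pi.smul_apply, smul_eq_mul, ← Matrix.mulVec_mulVec]
  congr 2
  rw [Matrix.mulVec, dotProduct]
  refine Finset.sum_congr rfl fun u _ => ?_
  rw [GrH_apply hA, Ed, Matrix.mulVec_diagonal]

/-- **the quadratic identity**: for any `Y₁ = Y 1_R`,
`(1/4) Σ_R e_u e_x |Y_ux|² = Σ e_w e_x conj(T_wx) ((i/2) Y₁_wx + Σ_u e_u conj(G_wu) Y₁_ux)`. -/
theorem quad_identity (hA : A.IsSymm) (hW : ∀ x, (W x).im < 0) (R : ι → ι → Prop)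
    [∀ u x, Decidable (R u x)] :
    ((1 / 4 * ∑ u, ∑ x, if R u x then (-(W u).im) * (-(W x).im) * ‖Ym A W a u x‖ ^ 2 else 0 : ℝ) :
        ℂ) =
      ∑ w, ∑ x, ((-(W w).im : ℝ) : ℂ) * ((-(W x).im : ℝ) : ℂ) * (conj (Tm A W a w x) *
        ((I / 2) * (if R w x then Ym A W a w x else 0) +
          ∑ u, conj (Gr A W w u) * (((-(W u).im : ℝ) : ℂ) *
            (if R u x then Ym A W a u x else 0)))) := by
  rw [Finset.sum_comm (s := Finset.univ) (t := Finset.univ)
    (f := fun w x => ((-(W w).im : ℝ) : ℂ) * ((-(W x).im : ℝ) : ℂ) * (conj (Tm A W a w x) *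
        ((I / 2) * (if R w x then Ym A W a w x else 0) +
          ∑ u, conj (Gr A W w u) * (((-(W u).im : ℝ) : ℂ) *
            (if R u x then Ym A W a u x else 0)))))]
  rw [Finset.sum_comm (s := Finset.univ) (t := Finset.univ)
    (f := fun u x => if R u x then (-(W u).im) * (-(W x).im) * ‖Ym A W a u x‖ ^ 2 else 0)]
  rw [Complex.ofReal_mul, Complex.ofReal_sum, Finset.mul_sum]
  refine Finset.sum_congr rfl fun x _ => ?_
  have h1 : ∀ w, ((-(W w).im : ℝ) : ℂ) * ((-(W x).im : ℝ) : ℂ) * (conj (Tm A W a w x) *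
        ((I / 2) * (if R w x then Ym A W a w x else 0) +
          ∑ u, conj (Gr A W w u) * (((-(W u).im : ℝ) : ℂ) *
            (if R u x then Ym A W a u x else 0)))) =
      (((-(W x).im : ℝ) : ℂ) * (1 / 4)) * (((-(W w).im : ℝ) : ℂ) *
        (conj ((Uw A W).mulVec (fun u => Ym A W a u x) w) *
          (Uw A W).mulVec (fun u => if R u x then Ym A W a u x else 0) w)) := by
    intro w
    rw [Tm_eq_Uw hA hW, map_mul, Uw_mulVec (fun u => if R u x then Ym A W a u x else 0) w hA]
    have hI : conj (I / 2) = -(I / 2) := by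
      rw [map_div₀, Complex.conj_I, map_ofNat]; ring
    rw [hI]
    linear_combination (-((-(W w).im : ℝ) : ℂ) * ((-(W x).im : ℝ) : ℂ) *
      conj ((Uw A W).mulVec (fun u => Ym A W a u x) w) *
      ((if R w x then Ym A W a w x else 0) / 4 )) * Complex.I_mul_I
  rw [Finset.sum_congr rfl fun w _ => h1 w, ← Finset.mul_sum, Uw_inner hA hW, Finset.mul_sum,
    Complex.ofReal_sum, Finset.mul_sum]
  refine Finset.sum_congr rfl fun u _ => ?_
  by_cases h : R u x
  · rw [if_pos h, if_pos h]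
    have hc : conj (Ym A W a u x) * Ym A W a u x = ((‖Ym A W a u x‖ ^ 2 : ℝ) : ℂ) := by
      rw [← Complex.normSq_eq_norm_sq, Complex.normSq_eq_conj_mul_self]
    rw [hc]
    push_cast
    ring
  · rw [if_neg h, if_neg h]
    simp

/-! ### elementary inequalities -/

theorem amgm_strong {t g y m k1 k2 e1 e2 : ℝ} (hm : 0 < m)
    (he1 : 0 < e1) (he2 : 0 < e2) (h1 : e1 ≤ k1) (h2 : e2 ≤ k2) :
    t * g * y ≤ (8 / (e1 * e2)) * (t ^ 2 * m * (k2 * k1)) + (1 / 32) * (g ^ 2 * y ^ 2 / m) := by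
  have h3 : t * g * y ≤ 8 * (t ^ 2 * m) + (1 / 32) * (g ^ 2 * y ^ 2 / m) := by
    have h4 : 8 * (t ^ 2 * m) + (1 / 32) * (g ^ 2 * y ^ 2 / m) - t * g * y =
        (16 * t * m - g * y) ^ 2 / (32 * m) := by
      field_simp
      ring
    have h5 : 0 ≤ (16 * t * m - g * y) ^ 2 / (32 * m) := by positivity
    linarith
  have h6 : e1 * e2 ≤ k2 * k1 := by
    rw [mul_comm k2]
    exact mul_le_mul h1 h2 he2.le (he1.le.trans h1)
  have h7 : 8 * (t ^ 2 * m) ≤ (8 / (e1 * e2)) * (t ^ 2 * m * (k2 * k1)) := by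
    have h8 : (8 / (e1 * e2)) * (t ^ 2 * m * (e1 * e2)) = 8 * (t ^ 2 * m) := by
      field_simp
    rw [← h8]
    have : 0 < e1 * e2 := mul_pos he1 he2
    gcongr
  linarith

theorem amgm_weak {t g y m k1 e1 δ : ℝ} (hm : 0 < m) (he1 : 0 < e1) (hδ : 0 < δ) (h1 : e1 ≤ k1) :
    t * g * y ≤ (8 * δ / e1) * (t ^ 2 * m * k1) + (1 / (32 * δ)) * (g ^ 2 * y ^ 2 / m) := by
  have h3 : t * g * y ≤ 8 * δ * (t ^ 2 * m) + (1 / (32 * δ)) * (g ^ 2 * y ^ 2 / m) := by
    have h4 : 8 * δ * (t ^ 2 * m) + (1 / (32 * δ)) * (g ^ 2 * y ^ 2 / m) - t * g * y =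
        (16 * δ * t * m - g * y) ^ 2 / (32 * δ * m) := by
      field_simp
      ring
    have h5 : 0 ≤ (16 * δ * t * m - g * y) ^ 2 / (32 * δ * m) := by positivity
    linarith
  have h7 : 8 * δ * (t ^ 2 * m) ≤ (8 * δ / e1) * (t ^ 2 * m * k1) := by
    have h8 : (8 * δ / e1) * (t ^ 2 * m * e1) = 8 * δ * (t ^ 2 * m) := by
      field_simp
    rw [← h8]
    gcongr
  linarith

theorem e_mul_norm_self_le (hA : A.IsSymm) (hW : ∀ x, (W x).im < 0) (x : ι) :
    (-(W x).im) * ‖Gr A W x x‖ ≤ 1 := by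
  have he : 0 < -(W x).im := by linarith [hW x]
  have h1 := e_mul_KK_le hA hW x x
  have h2 : mm A W x ≤ ‖Gr A W x x‖ := (le_abs_self _).trans (Complex.abs_im_le_norm _)
  have h3 : 0 < ‖Gr A W x x‖ := norm_pos_iff.2 (Gr_self_ne_zero hA hW x)
  rw [KK, pow_two] at h1
  have h4 : (-(W x).im) * ‖Gr A W x x‖ * ‖Gr A W x x‖ ≤ 1 * ‖Gr A W x x‖ := by nlinarith
  exact le_of_mul_le_mul_right h4 h3

theorem e_mul_mm_le_one (hA : A.IsSymm) (hW : ∀ x, (W x).im < 0) (x : ι) :
    (-(W x).im) * mm A W x ≤ 1 := by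
  have he : 0 < -(W x).im := by linarith [hW x]
  have h2 : mm A W x ≤ ‖Gr A W x x‖ := (le_abs_self _).trans (Complex.abs_im_le_norm _)
  exact (mul_le_mul_of_nonneg_left h2 he.le).trans (e_mul_norm_self_le hA hW x)

/-- `Σ_u e_u m_u κ_ux ≤ 1` -/
theorem sum_kap_le_one (hA : A.IsSymm) (hW : ∀ x, (W x).im < 0) (x : ι) :
    ∑ u, (-(W u).im) * mm A W u * kap A W u x ≤ 1 := by
  rw [← PP_sum hA hW x]
  refine Finset.sum_le_sum fun u _ => ?_
  have hu := mm_pos hA hW u
  have hx := mm_pos hA hW x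
  have he : 0 < -(W u).im := by linarith [hW u]
  have hK : 0 ≤ KK A W u x := KK_nonneg u x
  rw [PP, kap, KK_symm hA x u]
  have h1 : mm A W u * (KK A W u x / (mm A W u * mm A W x + KK A W u x)) ≤
      KK A W u x / mm A W x := by
    rw [← mul_div_assoc, div_le_div_iff₀ (by positivity) hx]
    nlinarith [mul_nonneg hK hK]
  calc (-(W u).im) * mm A W u * (KK A W u x / (mm A W u * mm A W x + KK A W u x))
      = (-(W u).im) * (mm A W u * (KK A W u x / (mm A W u * mm A W x + KK A W u x))) := by ring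
    _ ≤ (-(W u).im) * (KK A W u x / mm A W x) := mul_le_mul_of_nonneg_left h1 he.le
    _ = (-(W u).im) * KK A W u x / mm A W x := by ring

/-! ### the static step -/

/-- **STATIC STEP, pathwise.** -/
theorem static_pathwise (hA : A.IsSymm) (hW : ∀ x, (W x).im < 0) (R : ι → ι → Prop)
    [∀ u x, Decidable (R u x)] (U : ι → Prop) [DecidablePred U] {e1 e2 δ : ℝ} (he1 : 0 < e1)
    (he2 : 0 < e2) (hδ : 0 < δ) (hU : ∀ u x, R u x → U u) (hR1 : ∀ u x, R u x → u ≠ x)
    (hR2 : ∀ u x, R u x → e1 ≤ kap A W u x)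
    (hR3 : ∀ u x, R u x →
      ∑ w ∈ Finset.univ.filter (fun w => kap A W w u < e2), PP A W u w ≤ δ) :
    ∑ u, ∑ x, (if R u x then (-(W u).im) * (-(W x).im) * ‖Ym A W a u x‖ ^ 2 else 0) ≤
      144 * ((∑ u, ∑ x, if R u x then
          (-(W u).im) * (-(W x).im) * (kap A W u x * ‖Tm A W a u x‖ ^ 2) else 0) / e1 +
        ∑ x, (-(W x).im) * (mm A W x * muf A W a x ^ 2) +
        (∑ w, ∑ x, if w ≠ x then (-(W w).im) * (-(W x).im) * (‖Tm A W a w x‖ ^ 2 *
          ∑ u, if U u ∧ u ≠ w ∧ u ≠ x then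
            (-(W u).im) * mm A W u * (kap A W w u * kap A W u x) else 0) else 0) / (e1 * e2) +
        δ / e1 * ∑ w, ∑ x, (-(W w).im) * (-(W x).im) * ‖Tm A W a w x‖ ^ 2) := by
  classical
  set e : ι → ℝ := fun x => -(W x).im with he
  have hepos : ∀ x, 0 < e x := fun x => by simp only [he]; linarith [hW x]
  set t : ι → ι → ℝ := fun w x => ‖Tm A W a w x‖ with ht
  set g : ι → ι → ℝ := fun w u => ‖Gr A W w u‖ with hg
  set y : ι → ι → ℝ := fun u x => if R u x then ‖Ym A W a u x‖ else 0 with hy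
  have ht0 : ∀ w x, 0 ≤ t w x := fun w x => norm_nonneg _
  have hg0 : ∀ w x, 0 ≤ g w x := fun w x => norm_nonneg _
  have hy0 : ∀ u x, 0 ≤ y u x := fun u x => by
    simp only [hy]; split_ifs
    · exact norm_nonneg _
    · exact le_rfl
  have hm0 : ∀ x, 0 < mm A W x := mm_pos hA hW
  -- the energy of `R`
  set S : ℝ := ∑ u, ∑ x, e u * e x * y u x ^ 2 with hS
  have hSS : ∑ u, ∑ x, (if R u x then (-(W u).im) * (-(W x).im) * ‖Ym A W a u x‖ ^ 2 else 0) = S := by
    refine Finset.sum_congr rfl fun u _ => Finset.sum_congr rfl fun x _ => ?_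
    by_cases h : R u x
    · simp only [hy, if_pos h]; rfl
    · simp only [hy, if_neg h]; ring
  have hS0 : 0 ≤ S := Finset.sum_nonneg fun u _ => Finset.sum_nonneg fun x _ =>
    mul_nonneg (mul_nonneg (hepos u).le (hepos x).le) (sq_nonneg _)
  -- step 1: norms in the identity
  have h1 : S / 4 ≤ ∑ w, ∑ x, e w * e x * (t w x * ((1 / 2) * y w x + ∑ u, g w u * (e u * y u x))) := by
    have hq := quad_identity (a := a) hA hW R
    rw [hSS] at hq
    have hn : ‖((1 / 4 * S : ℝ) : ℂ)‖ = S / 4 := by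
      rw [Complex.norm_real, Real.norm_of_nonneg (by positivity)]
      ring
    rw [← hn, hq]
    refine (norm_sum_le _ _).trans (Finset.sum_le_sum fun w _ => ?_)
    refine (norm_sum_le _ _).trans (Finset.sum_le_sum fun x _ => ?_)
    rw [norm_mul, norm_mul, norm_mul, Complex.norm_real, Complex.norm_real, RCLike.norm_conj,
      Real.norm_of_nonneg (hepos w).le, Real.norm_of_nonneg (hepos x).le]
    have h2 : ‖(I / 2) * (if R w x then Ym A W a w x else 0) +
        ∑ u, conj (Gr A W w u) * (((-(W u).im : ℝ) : ℂ) * (if R u x then Ym A W a u x else 0))‖ ≤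
        (1 / 2) * y w x + ∑ u, g w u * (e u * y u x) := by
      refine (norm_add_le _ _).trans (add_le_add ?_ ?_)
      · rw [norm_mul]
        have : ‖(I / 2 : ℂ)‖ = 1 / 2 := by simp
        rw [this]
        refine mul_le_mul_of_nonneg_left ?_ (by norm_num)
        simp only [hy]
        split_ifs
        · exact le_rfl
        · simp
      · refine (norm_sum_le _ _).trans (Finset.sum_le_sum fun u _ => ?_)
        rw [norm_mul, norm_mul, RCLike.norm_conj, Complex.norm_real,
          Real.norm_of_nonneg (hepos u).le]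
        refine mul_le_mul_of_nonneg_left (mul_le_mul_of_nonneg_left ?_ (hepos u).le) (hg0 _ _)
        simp only [hy]
        split_ifs
        · exact le_rfl
        · simp
    exact mul_le_mul_of_nonneg_left (mul_le_mul_of_nonneg_left h2 (ht0 w x))
      (mul_nonneg (hepos w).le (hepos x).le)
  -- step 2: pointwise bound of a triple
  have h2 : ∀ w x u, e w * e x * (t w x * (g w u * (e u * y u x))) ≤
      (if u = w then e w * e x * (t w x * y w x) else 0) +
      (if w = x then e x * e u * (8 * (e x ^ 2 * t x x ^ 2 * g x u ^ 2) + 1 / 32 * y u x ^ 2) else 0) +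
      (if w ≠ x then e w * e x * (t w x ^ 2 * ((8 / (e1 * e2)) * (if U u ∧ u ≠ w ∧ u ≠ x then
        e u * mm A W u * (kap A W w u * kap A W u x) else 0))) else 0) +
      (1 / 32) * (e u * e x * y u x ^ 2 * (e w * g w u ^ 2 / mm A W u)) +
      (8 * δ / e1) * (e w * e x * t w x ^ 2 * (e u * mm A W u * kap A W u x)) +
      (1 / (32 * δ)) * (e u * e x * y u x ^ 2 *
        (if kap A W w u < e2 then e w * g w u ^ 2 / mm A W u else 0)) := by
    intro w x u
    have hew := hepos w
    have hex := hepos x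
    have heu := hepos u
    have hmu := hm0 u
    have hk1 := kap_nonneg hA hW w u
    have hk2 := kap_nonneg hA hW u x
    have n1 : 0 ≤ (if u = w then e w * e x * (t w x * y w x) else 0) := by
      split_ifs
      · exact mul_nonneg (mul_nonneg hew.le hex.le) (mul_nonneg (ht0 _ _) (hy0 _ _))
      · exact le_rfl
    have n2 : 0 ≤ (if w = x then e x * e u * (8 * (e x ^ 2 * t x x ^ 2 * g x u ^ 2) +
        1 / 32 * y u x ^ 2) else 0) := by
      split_ifs
      · positivity
      · exact le_rfl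
    have n3 : 0 ≤ (if w ≠ x then e w * e x * (t w x ^ 2 * ((8 / (e1 * e2)) *
        (if U u ∧ u ≠ w ∧ u ≠ x then e u * mm A W u * (kap A W w u * kap A W u x) else 0))) else 0) := by
      split_ifs <;> positivity
    have n4 : 0 ≤ (1 / 32) * (e u * e x * y u x ^ 2 * (e w * g w u ^ 2 / mm A W u)) := by positivity
    have n5 : 0 ≤ (8 * δ / e1) * (e w * e x * t w x ^ 2 * (e u * mm A W u * kap A W u x)) := by
      positivity
    have n6 : 0 ≤ (1 / (32 * δ)) * (e u * e x * y u x ^ 2 *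
        (if kap A W w u < e2 then e w * g w u ^ 2 / mm A W u else 0)) := by
      split_ifs <;> positivity
    by_cases hR : R u x
    swap
    · have : y u x = 0 := by simp only [hy, if_neg hR]
      have hz : e w * e x * (t w x * (g w u * (e u * y u x))) = 0 := by rw [this]; ring
      linarith
    by_cases huw : u = w
    · subst huw
      have h3 : e u * e x * (t u x * (g u u * (e u * y u x))) ≤ e u * e x * (t u x * y u x) := by
        have h4 : g u u * (e u * y u x) ≤ y u x := by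
          have h5 := e_mul_norm_self_le hA hW u
          have h6 : g u u * (e u * y u x) = (e u * g u u) * y u x := by ring
          rw [h6]
          calc (e u * g u u) * y u x ≤ 1 * y u x := mul_le_mul_of_nonneg_right h5 (hy0 _ _)
            _ = y u x := one_mul _
        exact mul_le_mul_of_nonneg_left (mul_le_mul_of_nonneg_left h4 (ht0 _ _)) (by positivity)
      rw [if_pos rfl] at n1 ⊢
      linarith
    by_cases hwx : w = x
    · subst hwx
      have h3 : e w * e w * (t w w * (g w u * (e u * y u w))) ≤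
          e w * e u * (8 * (e w ^ 2 * t w w ^ 2 * g w u ^ 2) + 1 / 32 * y u w ^ 2) := by
        have h4 : e w * (t w w * (g w u * y u w)) ≤
            8 * (e w ^ 2 * t w w ^ 2 * g w u ^ 2) + 1 / 32 * y u w ^ 2 := by
          nlinarith [sq_nonneg (16 * (e w * t w w * g w u) - y u w)]
        calc e w * e w * (t w w * (g w u * (e u * y u w)))
            = e w * e u * (e w * (t w w * (g w u * y u w))) := by ring
          _ ≤ _ := mul_le_mul_of_nonneg_left h4 (by positivity)
      rw [if_pos rfl] at n2 ⊢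
      linarith
    have hux : u ≠ x := hR1 u x hR
    by_cases hk : kap A W w u < e2
    · have h3 := amgm_weak (t := t w x) (g := g w u) (y := y u x) hmu he1 hδ (hR2 u x hR)
      have h4 : e w * e x * (t w x * (g w u * (e u * y u x))) ≤
          (8 * δ / e1) * (e w * e x * t w x ^ 2 * (e u * mm A W u * kap A W u x)) +
          (1 / (32 * δ)) * (e u * e x * y u x ^ 2 * (e w * g w u ^ 2 / mm A W u)) := by
        calc e w * e x * (t w x * (g w u * (e u * y u x)))
            = (e w * e x * e u) * (t w x * g w u * y u x) := by ring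
          _ ≤ (e w * e x * e u) * ((8 * δ / e1) * (t w x ^ 2 * mm A W u * kap A W u x) +
              (1 / (32 * δ)) * (g w u ^ 2 * y u x ^ 2 / mm A W u)) :=
              mul_le_mul_of_nonneg_left h3 (by positivity)
          _ = _ := by ring
      rw [if_pos hk] at n6 ⊢
      linarith
    · rw [not_lt] at hk
      have h3 := amgm_strong (t := t w x) (g := g w u) (y := y u x) hmu he1 he2 (hR2 u x hR) hk
      have h4 : e w * e x * (t w x * (g w u * (e u * y u x))) ≤
          e w * e x * (t w x ^ 2 * ((8 / (e1 * e2)) *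
            (e u * mm A W u * (kap A W w u * kap A W u x)))) +
          (1 / 32) * (e u * e x * y u x ^ 2 * (e w * g w u ^ 2 / mm A W u)) := by
        calc e w * e x * (t w x * (g w u * (e u * y u x)))
            = (e w * e x * e u) * (t w x * g w u * y u x) := by ring
          _ ≤ (e w * e x * e u) * ((8 / (e1 * e2)) *
              (t w x ^ 2 * mm A W u * (kap A W w u * kap A W u x)) +
              (1 / 32) * (g w u ^ 2 * y u x ^ 2 / mm A W u)) :=
              mul_le_mul_of_nonneg_left h3 (by positivity)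
          _ = _ := by ring
      have hc : U u ∧ u ≠ w ∧ u ≠ x := ⟨hU u x hR, huw, hux⟩
      rw [if_pos hwx, if_pos hc] at n3 ⊢
      linarith
  -- step 3: summation
  set J : ℝ := ∑ u, ∑ x, if R u x then
      (-(W u).im) * (-(W x).im) * (kap A W u x * ‖Tm A W a u x‖ ^ 2) else 0 with hJ
  set M : ℝ := ∑ x, (-(W x).im) * (mm A W x * muf A W a x ^ 2) with hM
  set L : ℝ := ∑ w, ∑ x, if w ≠ x then (-(W w).im) * (-(W x).im) * (‖Tm A W a w x‖ ^ 2 *
      ∑ u, if U u ∧ u ≠ w ∧ u ≠ x then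
        (-(W u).im) * mm A W u * (kap A W w u * kap A W u x) else 0) else 0 with hL
  set Q : ℝ := ∑ w, ∑ x, (-(W w).im) * (-(W x).im) * ‖Tm A W a w x‖ ^ 2 with hQ
  have hrow : ∀ u, ∑ w, e w * g w u ^ 2 / mm A W u = 1 := by
    intro u
    rw [← PP_sum hA hW u]
    refine Finset.sum_congr rfl fun w _ => ?_
    rw [PP, KK_symm hA u w, KK]
  -- s1
  have s1 : ∑ w, ∑ x, ∑ u, (if u = w then e w * e x * (t w x * y w x) else 0) =
      ∑ w, ∑ x, e w * e x * (t w x * y w x) := by
    refine Finset.sum_congr rfl fun w _ => Finset.sum_congr rfl fun x _ => ?_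
    rw [Finset.sum_ite_eq' Finset.univ w]
    simp
  -- s2
  have s2 : ∑ w, ∑ x, ∑ u, (if w = x then e x * e u * (8 * (e x ^ 2 * t x x ^ 2 * g x u ^ 2) +
      1 / 32 * y u x ^ 2) else 0) ≤ 8 * M + S / 32 := by
    have h3 : ∀ w, ∑ x, ∑ u, (if w = x then e x * e u * (8 * (e x ^ 2 * t x x ^ 2 * g x u ^ 2) +
        1 / 32 * y u x ^ 2) else 0) = ∑ u, e w * e u * (8 * (e w ^ 2 * t w w ^ 2 * g w u ^ 2) +
        1 / 32 * y u w ^ 2) := by
      intro w
      rw [Finset.sum_eq_single w]
      · exact Finset.sum_congr rfl fun u _ => if_pos rfl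
      · intro b _ hb
        exact Finset.sum_eq_zero fun u _ => if_neg (Ne.symm hb)
      · intro h; exact absurd (Finset.mem_univ w) h
    rw [Finset.sum_congr rfl fun w _ => h3 w]
    have h4 : ∀ w, ∑ u, e w * e u * (8 * (e w ^ 2 * t w w ^ 2 * g w u ^ 2) + 1 / 32 * y u w ^ 2) =
        8 * (e w ^ 3 * t w w ^ 2 * mm A W w) + (1 / 32) * ∑ u, e u * e w * y u w ^ 2 := by
      intro w
      rw [mm_eq hA hW w, Finset.mul_sum, Finset.mul_sum, Finset.mul_sum, ← Finset.sum_add_distrib]
      refine Finset.sum_congr rfl fun u _ => ?_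
      rw [KK]
      ring
    rw [Finset.sum_congr rfl fun w _ => h4 w, Finset.sum_add_distrib, ← Finset.mul_sum,
      ← Finset.mul_sum]
    have h5 : ∑ w, e w ^ 3 * t w w ^ 2 * mm A W w ≤ M := by
      refine Finset.sum_le_sum fun w _ => ?_
      have h6 : t w w ^ 2 = (mm A W w * muf A W a w) ^ 2 := by
        simp only [ht]
        rw [Tm_self hA hW, Complex.norm_real, Real.norm_eq_abs, sq_abs]
      rw [h6]
      have h7 := e_mul_mm_le_one hA hW w
      have h8 : 0 ≤ e w * mm A W w := mul_nonneg (hepos w).le (hm0 w).le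
      have h9 : (e w * mm A W w) ^ 2 ≤ 1 := pow_le_one₀ h8 h7
      calc e w ^ 3 * (mm A W w * muf A W a w) ^ 2 * mm A W w
          = (e w * mm A W w) ^ 2 * (e w * (mm A W w * muf A W a w ^ 2)) := by ring
        _ ≤ 1 * (e w * (mm A W w * muf A W a w ^ 2)) :=
            mul_le_mul_of_nonneg_right h9 (mul_nonneg (hepos w).le
              (mul_nonneg (hm0 w).le (sq_nonneg _)))
        _ = (-(W w).im) * (mm A W w * muf A W a w ^ 2) := by rw [one_mul]
    have h6 : ∑ w, ∑ u, e u * e w * y u w ^ 2 = S := by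
      rw [hS, Finset.sum_comm]
    rw [h6]
    linarith
  -- s3
  have s3 : ∑ w, ∑ x, ∑ u, (if w ≠ x then e w * e x * (t w x ^ 2 * ((8 / (e1 * e2)) *
      (if U u ∧ u ≠ w ∧ u ≠ x then
        e u * mm A W u * (kap A W w u * kap A W u x) else 0))) else 0) = (8 / (e1 * e2)) * L := by
    rw [hL, Finset.mul_sum]
    refine Finset.sum_congr rfl fun w _ => ?_
    rw [Finset.mul_sum]
    refine Finset.sum_congr rfl fun x _ => ?_
    by_cases h : w ≠ x
    · rw [if_pos h, Finset.sum_congr rfl fun u _ => if_pos h, ← Finset.mul_sum, ← Finset.mul_sum,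
        ← Finset.mul_sum]
      ring
    · rw [if_neg h, Finset.sum_congr rfl fun u _ => if_neg h]
      simp
  -- s4
  have s4 : ∑ w, ∑ x, ∑ u, (1 / 32) * (e u * e x * y u x ^ 2 * (e w * g w u ^ 2 / mm A W u)) =
      S / 32 := by
    have h3 : ∑ w, ∑ x, ∑ u, (1 / 32) * (e u * e x * y u x ^ 2 * (e w * g w u ^ 2 / mm A W u)) =
        ∑ x, ∑ u, ∑ w, (1 / 32) * (e u * e x * y u x ^ 2 * (e w * g w u ^ 2 / mm A W u)) := by
      rw [Finset.sum_comm]
      refine Finset.sum_congr rfl fun x _ => ?_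
      rw [Finset.sum_comm]
    rw [h3]
    have h4 : ∀ x u, ∑ w, (1 / 32) * (e u * e x * y u x ^ 2 * (e w * g w u ^ 2 / mm A W u)) =
        (1 / 32) * (e u * e x * y u x ^ 2) := by
      intro x u
      rw [← Finset.mul_sum, ← Finset.mul_sum, hrow u, mul_one]
    rw [Finset.sum_congr rfl fun x _ => Finset.sum_congr rfl fun u _ => h4 x u, Finset.sum_comm]
    rw [hS, Finset.sum_div]
    refine Finset.sum_congr rfl fun u _ => ?_
    rw [Finset.sum_div]
    refine Finset.sum_congr rfl fun x _ => ?_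
    ring
  -- s5
  have s5 : ∑ w, ∑ x, ∑ u, (8 * δ / e1) *
      (e w * e x * t w x ^ 2 * (e u * mm A W u * kap A W u x)) ≤ (8 * δ / e1) * Q := by
    rw [hQ, Finset.mul_sum]
    refine Finset.sum_le_sum fun w _ => ?_
    rw [Finset.mul_sum]
    refine Finset.sum_le_sum fun x _ => ?_
    rw [← Finset.mul_sum, ← Finset.mul_sum]
    have h3 := sum_kap_le_one hA hW x
    have h4 : 0 ≤ e w * e x * t w x ^ 2 := by
      have := hepos w
      have := hepos x
      positivity
    have h5 : e w * e x * t w x ^ 2 * ∑ u, e u * mm A W u * kap A W u x ≤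
        e w * e x * t w x ^ 2 * 1 := mul_le_mul_of_nonneg_left h3 h4
    rw [mul_one] at h5
    exact mul_le_mul_of_nonneg_left h5 (by positivity)
  -- s6
  have s6 : ∑ w, ∑ x, ∑ u, (1 / (32 * δ)) * (e u * e x * y u x ^ 2 *
      (if kap A W w u < e2 then e w * g w u ^ 2 / mm A W u else 0)) ≤ S / 32 := by
    have h3 : ∑ w, ∑ x, ∑ u, (1 / (32 * δ)) * (e u * e x * y u x ^ 2 *
        (if kap A W w u < e2 then e w * g w u ^ 2 / mm A W u else 0)) =
        ∑ x, ∑ u, ∑ w, (1 / (32 * δ)) * (e u * e x * y u x ^ 2 *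
        (if kap A W w u < e2 then e w * g w u ^ 2 / mm A W u else 0)) := by
      rw [Finset.sum_comm]
      refine Finset.sum_congr rfl fun x _ => ?_
      rw [Finset.sum_comm]
    rw [h3, Finset.sum_comm, hS, Finset.sum_div]
    refine Finset.sum_le_sum fun u _ => ?_
    rw [Finset.sum_div]
    refine Finset.sum_le_sum fun x _ => ?_
    rw [← Finset.mul_sum, ← Finset.mul_sum]
    by_cases hR : R u x
    · have h4 : ∑ w, (if kap A W w u < e2 then e w * g w u ^ 2 / mm A W u else 0) ≤ δ := by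
        rw [← Finset.sum_filter]
        refine le_trans (le_of_eq (Finset.sum_congr rfl fun w _ => ?_)) (hR3 u x hR)
        rw [PP, KK_symm hA u w, KK]
      have h5 : 0 ≤ e u * e x * y u x ^ 2 := by
        have := hepos u
        have := hepos x
        positivity
      calc 1 / (32 * δ) * (e u * e x * y u x ^ 2 *
            ∑ w, (if kap A W w u < e2 then e w * g w u ^ 2 / mm A W u else 0))
          ≤ 1 / (32 * δ) * (e u * e x * y u x ^ 2 * δ) :=
            mul_le_mul_of_nonneg_left (mul_le_mul_of_nonneg_left h4 h5) (by positivity)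
        _ = e u * e x * y u x ^ 2 / 32 := by field_simp
    · have h4 : y u x = 0 := by simp only [hy, if_neg hR]
      rw [h4]
      simp
  -- diagonal part in `J`
  have s0 : (3 / 2) * ∑ w, ∑ x, e w * e x * (t w x * y w x) ≤ 18 * J / e1 + S / 32 := by
    have h3 : ∀ w x, (3 / 2) * (e w * e x * (t w x * y w x)) ≤
        18 / e1 * (if R w x then (-(W w).im) * (-(W x).im) * (kap A W w x * ‖Tm A W a w x‖ ^ 2)
          else 0) + (1 / 32) * (e w * e x * y w x ^ 2) := by
      intro w x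
      by_cases hR : R w x
      · rw [if_pos hR]
        have hk := hR2 w x hR
        have h4 : (3 / 2) * (t w x * y w x) ≤ 18 / e1 * (kap A W w x * t w x ^ 2) +
            (1 / 32) * y w x ^ 2 := by
          have h5 : 18 * t w x ^ 2 ≤ 18 / e1 * (kap A W w x * t w x ^ 2) := by
            have h6 : 18 / e1 * (e1 * t w x ^ 2) = 18 * t w x ^ 2 := by field_simp
            rw [← h6]
            gcongr
          nlinarith [sq_nonneg (24 * t w x - y w x)]
        have h7 : 0 ≤ e w * e x := mul_nonneg (hepos w).le (hepos x).le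
        calc (3 / 2) * (e w * e x * (t w x * y w x)) = e w * e x * ((3 / 2) * (t w x * y w x)) := by
              ring
          _ ≤ e w * e x * (18 / e1 * (kap A W w x * t w x ^ 2) + (1 / 32) * y w x ^ 2) :=
              mul_le_mul_of_nonneg_left h4 h7
          _ = _ := by simp only [he, ht]; ring
      · have h4 : y w x = 0 := by simp only [hy, if_neg hR]
        rw [if_neg hR, h4]
        simp
    rw [Finset.mul_sum]
    have h4 : 18 * J / e1 + S / 32 = ∑ w, ∑ x, (18 / e1 * (if R w x then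
        (-(W w).im) * (-(W x).im) * (kap A W w x * ‖Tm A W a w x‖ ^ 2) else 0) +
        (1 / 32) * (e w * e x * y w x ^ 2)) := by
      simp only [Finset.sum_add_distrib, ← Finset.mul_sum]
      rw [← hJ, ← hS]
      ring
    rw [h4]
    refine Finset.sum_le_sum fun w _ => ?_
    rw [Finset.mul_sum]
    exact Finset.sum_le_sum fun x _ => h3 w x
  -- put together
  have h4 : ∑ w, ∑ x, e w * e x * (t w x * ((1 / 2) * y w x + ∑ u, g w u * (e u * y u x))) ≤
      (1 / 2) * (∑ w, ∑ x, e w * e x * (t w x * y w x)) +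
      ((∑ w, ∑ x, e w * e x * (t w x * y w x)) + (8 * M + S / 32) + (8 / (e1 * e2)) * L + S / 32 +
        (8 * δ / e1) * Q + S / 32) := by
    have h5 : ∑ w, ∑ x, e w * e x * (t w x * ((1 / 2) * y w x + ∑ u, g w u * (e u * y u x))) =
        (1 / 2) * (∑ w, ∑ x, e w * e x * (t w x * y w x)) +
        ∑ w, ∑ x, ∑ u, e w * e x * (t w x * (g w u * (e u * y u x))) := by
      rw [Finset.mul_sum, ← Finset.sum_add_distrib]
      refine Finset.sum_congr rfl fun w _ => ?_
      rw [Finset.mul_sum, ← Finset.sum_add_distrib]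
      refine Finset.sum_congr rfl fun x _ => ?_
      rw [← Finset.mul_sum, ← Finset.mul_sum]
      ring
    rw [h5]
    refine add_le_add le_rfl ?_
    refine (Finset.sum_le_sum fun w _ => Finset.sum_le_sum fun x _ =>
      Finset.sum_le_sum fun u _ => h2 w x u).trans ?_
    simp only [Finset.sum_add_distrib]
    rw [s1, s3, s4]
    linarith
  rw [hSS]
  have h5 : S ≤ 8 * (18 * J / e1 + 8 * M + (8 / (e1 * e2)) * L + (8 * δ / e1) * Q) := by
    linarith
  have hM0 : 0 ≤ M := Finset.sum_nonneg fun x _ =>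
    mul_nonneg (hepos x).le (mul_nonneg (hm0 x).le (sq_nonneg _))
  have hQ0 : 0 ≤ Q := Finset.sum_nonneg fun w _ => Finset.sum_nonneg fun x _ =>
    mul_nonneg (mul_nonneg (hepos w).le (hepos x).le) (sq_nonneg _)
  have hL0 : 0 ≤ L := Finset.sum_nonneg fun w _ => Finset.sum_nonneg fun x _ => by
    split_ifs
    · exact mul_nonneg (mul_nonneg (hepos w).le (hepos x).le) (mul_nonneg (sq_nonneg _)
        (Finset.sum_nonneg fun u _ => by
          split_ifs
          · exact mul_nonneg (mul_nonneg (hepos u).le (hm0 u).le)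
              (mul_nonneg (kap_nonneg hA hW w u) (kap_nonneg hA hW u x))
          · exact le_rfl))
    · exact le_rfl
  have hLe : 0 ≤ L / (e1 * e2) := div_nonneg hL0 (mul_pos he1 he2).le
  have hQe : 0 ≤ δ / e1 * Q := mul_nonneg (div_nonneg hδ.le he1.le) hQ0
  have h6 : 8 * (18 * J / e1 + 8 * M + (8 / (e1 * e2)) * L + (8 * δ / e1) * Q) =
      144 * (J / e1) + 64 * M + 64 * (L / (e1 * e2)) + 64 * (δ / e1 * Q) := by ring
  rw [h6] at h5
  linarith

end P365T2.Static
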