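import Vale.Agent.P365.L1.Alg2
import Vale.Agent.P365.Stat.T1

/-!
# P365 T2, static step, deterministic half (629 (7), 125 F3)

Any finite index set, any real symmetric `A`, any potential `W` in the lower half plane, weights
`e = -Im W`, any real function `a`.  `T = (i/2) U Y`, `Y = [a, G]`, `U = 1 - 2 i G^* e` unitary for
the weight `e`.  The energy of the strong pairs is controlled by `J`, `Lam` and by the energy of the
strong pairs weighted with the weak part of their landing kernel.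
-/

set_option autoImplicit false
set_option linter.all false

namespace P365L.T2

open Matrix Complex P365L P365L.Stat
open scoped ComplexConjugate

variable {ι : Type*} [Fintype ι] [DecidableEq ι]
variable {A : Matrix ι ι ℝ} {W : ι → ℂ} {a : ι → ℝ}

/-- the weight `e = -Im W` -/
def ew (W : ι → ℂ) (x : ι) : ℝ := -(W x).im

theorem ew_pos (hW : ∀ x, (W x).im < 0) (x : ι) : 0 < ew W x := by
  unfold ew
  linarith [hW x]

/-- `Y = [a, G]` -/
noncomputable def Ym (A : Matrix ι ι ℝ) (W : ι → ℂ) (a : ι → ℝ) : Matrix ι ι ℂ :=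
  Matrix.of fun u x => ((a u - a x : ℝ) : ℂ) * Gr A W u x

/-- `U = 1 - 2 i G^* E` -/
noncomputable def Um (A : Matrix ι ι ℝ) (W : ι → ℂ) : Matrix ι ι ℂ :=
  1 - (2 * I) • ((Gr A W)ᴴ * Ed W)

theorem Ed_H : (Ed W)ᴴ = Ed W := by
  unfold Ed
  rw [Matrix.diagonal_conjTranspose]
  congr 1
  ext x
  simp

theorem UmH : (Um A W)ᴴ = 1 + (2 * I) • (Ed W * Gr A W) := by
  unfold Um
  rw [Matrix.conjTranspose_sub, Matrix.conjTranspose_one, Matrix.conjTranspose_smul,
    Matrix.conjTranspose_mul, Matrix.conjTranspose_conjTranspose, Ed_H]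
  have h : star (2 * I : ℂ) = -(2 * I) := by simp
  rw [h, neg_smul, sub_neg_eq_add]

/-- `U` is unitary for the weight `E` -/
theorem Um_unitary (hA : A.IsSymm) (hW : ∀ x, (W x).im < 0) :
    (Um A W)ᴴ * Ed W * Um A W = Ed W := by
  rw [UmH, Um]
  set G := Gr A W with hG
  set E := Ed W with hE
  have h1 : (2 * I) • (G * E * Gᴴ) = G - Gᴴ := (Ward' hA hW).symm
  have h2 : (1 + (2 * I) • (E * G)) * E * (1 - (2 * I) • (Gᴴ * E)) =
      E + E * ((2 * I) • G - (2 * I) • Gᴴ - (2 * I) • ((2 * I) • (G * E * Gᴴ))) * E := by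
    simp only [Matrix.mul_add, Matrix.add_mul, Matrix.mul_sub, Matrix.sub_mul, Matrix.one_mul,
      Matrix.mul_one, Matrix.smul_mul, Matrix.mul_smul, Matrix.mul_assoc, smul_sub, smul_add]
    abel
  rw [h2, h1, smul_sub]
  simp

/-- `T = (i/2) U Y` -/
theorem Tm_eq_UY (hA : A.IsSymm) (hW : ∀ x, (W x).im < 0) :
    Tm A W a = (I / 2) • (Um A W * Ym A W a) := by
  set G := Gr A W with hG
  set D : Matrix ι ι ℂ := Matrix.diagonal (fun x => ((a x : ℝ) : ℂ)) with hD
  have hY : Ym A W a = D * G - G * D := by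
    ext u x
    rw [Ym, Matrix.of_apply, Matrix.sub_apply, hD, Matrix.diagonal_mul, Matrix.mul_diagonal]
    push_cast
    ring
  have hW' : (2 * I) • (Gᴴ * Ed W * G) = G - Gᴴ := (Ward hA hW).symm
  rw [Tm_eq hA hW, Um, hY]
  have h1 : Gᴴ * Matrix.diagonal (fun x => ((-(W x).im : ℝ) : ℂ)) * D * G =
      Gᴴ * Ed W * D * G := rfl
  rw [h1]
  have h2 : (1 - (2 * I) • (Gᴴ * Ed W)) * (D * G - G * D) =
      D * G - G * D - (2 * I) • (Gᴴ * Ed W * D * G) + ((2 * I) • (Gᴴ * Ed W * G)) * D := by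
    simp only [Matrix.sub_mul, Matrix.mul_sub, Matrix.one_mul, Matrix.smul_mul, Matrix.mul_assoc,
      smul_sub]
    abel
  rw [h2, hW']
  ext z w
  simp only [Matrix.smul_apply, Matrix.sub_apply, Matrix.add_apply, smul_eq_mul, Matrix.sub_mul]
  linear_combination ((Gᴴ * Ed W * D * G) z w) * Complex.I_mul_I

/-- `T^* E (i/2) U Y₁ = (1/4) Y^* E Y₁` -/
theorem Tm_inner (hA : A.IsSymm) (hW : ∀ x, (W x).im < 0) (Y1 : Matrix ι ι ℂ) :
    (Tm A W a)ᴴ * Ed W * ((I / 2) • (Um A W * Y1)) = (1 / 4 : ℂ) • ((Ym A W a)ᴴ * Ed W * Y1) := by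
  rw [Tm_eq_UY hA hW, Matrix.conjTranspose_smul, Matrix.conjTranspose_mul]
  have h : star (I / 2 : ℂ) = -(I / 2) := by simp; ring
  rw [h]
  have h1 : (-(I / 2)) • ((Ym A W a)ᴴ * (Um A W)ᴴ) * Ed W * ((I / 2) • (Um A W * Y1)) =
      ((-(I / 2)) * (I / 2)) • ((Ym A W a)ᴴ * ((Um A W)ᴴ * Ed W * Um A W) * Y1) := by
    simp only [Matrix.smul_mul, Matrix.mul_smul, Matrix.mul_assoc, smul_smul]
    congr 1
    ring
  rw [h1, Um_unitary hA hW]
  congr 1
  linear_combination (-(1 / 4 : ℂ)) * Complex.I_mul_I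

/-- entrywise: column `x` of `(i/2) U Y₁` -/
theorem UY_apply (hA : A.IsSymm) (hW : ∀ x, (W x).im < 0) (Y1 : Matrix ι ι ℂ) (w x : ι) :
    ((I / 2) • (Um A W * Y1)) w x =
      (I / 2) * Y1 w x + ∑ u, (ew W u : ℂ) * (conj (Gr A W w u) * Y1 u x) := by
  rw [Matrix.smul_apply, Um, Matrix.sub_mul, Matrix.one_mul, Matrix.sub_apply, Matrix.smul_mul,
    Matrix.smul_apply, smul_eq_mul, smul_eq_mul, Matrix.mul_apply]
  have h1 : ∀ u, ((Gr A W)ᴴ * Ed W) w u * Y1 u x =
      (ew W u : ℂ) * (conj (Gr A W w u) * Y1 u x) := by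
    intro u
    rw [Ed, Matrix.mul_diagonal, GrH_apply hA, ew]
    ring
  rw [Finset.sum_congr rfl fun u _ => h1 u]
  linear_combination (-(∑ u, (ew W u : ℂ) * (conj (Gr A W w u) * Y1 u x))) * Complex.I_mul_I

/-- **exact identity** (column `x`) -/
theorem col_identity (hA : A.IsSymm) (hW : ∀ x, (W x).im < 0) (Y1 : Matrix ι ι ℂ) (x : ι) :
    (1 / 4 : ℂ) * ∑ u, (ew W u : ℂ) * (conj (Ym A W a u x) * Y1 u x) =
      ∑ w, (ew W w : ℂ) * (conj (Tm A W a w x) *
        ((I / 2) * Y1 w x + ∑ u, (ew W u : ℂ) * (conj (Gr A W w u) * Y1 u x))) := by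
  have h := congrFun (congrFun (Tm_inner (a := a) hA hW Y1) x) x
  rw [Matrix.smul_apply, Matrix.mul_apply, Matrix.mul_apply, smul_eq_mul] at h
  have e1 : ∀ u, ((Ym A W a)ᴴ * Ed W) x u * Y1 u x =
      (ew W u : ℂ) * (conj (Ym A W a u x) * Y1 u x) := by
    intro u
    rw [Ed, Matrix.mul_diagonal, Matrix.conjTranspose_apply, ew]
    simp only [RCLike.star_def]
    ring
  have e2 : ∀ w, ((Tm A W a)ᴴ * Ed W) x w * ((I / 2) • (Um A W * Y1)) w x =
      (ew W w : ℂ) * (conj (Tm A W a w x) *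
        ((I / 2) * Y1 w x + ∑ u, (ew W u : ℂ) * (conj (Gr A W w u) * Y1 u x))) := by
    intro w
    rw [UY_apply hA hW, Ed, Matrix.mul_diagonal, Matrix.conjTranspose_apply, ew]
    simp only [RCLike.star_def]
    ring
  rw [Finset.sum_congr rfl fun u _ => e1 u, Finset.sum_congr rfl fun w _ => e2 w] at h
  exact h.symm

/-- Ward: `Σ_w e_w |G_wu|² = m_u` -/
theorem sum_ew_KK (hA : A.IsSymm) (hW : ∀ x, (W x).im < 0) (u : ι) :
    ∑ w, ew W w * KK A W w u = mm A W u := by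
  rw [mm_eq hA hW]
  exact Finset.sum_congr rfl fun w _ => by rw [ew, KK_symm hA w u]

theorem mm_mul_le_of_kp (hA : A.IsSymm) (hW : ∀ x, (W x).im < 0) {ε : ℝ} (hε : 0 < ε) {u x : ι}
    (h : ε ≤ kp A W u x) : ε * (mm A W u * mm A W x) ≤ KK A W u x := by
  have h1 := mul_pos (mm_pos hA hW u) (mm_pos hA hW x)
  have h2 := KK_nonneg (A := A) (W := W) u x
  unfold kp at h
  rw [le_div_iff₀ (by linarith)] at h
  nlinarith

/-- `Σ_{u : κ_ux ≥ ε} e_u m_u ≤ 1/ε` -/
theorem sum_strong_le (hA : A.IsSymm) (hW : ∀ x, (W x).im < 0) {ε : ℝ} (hε : 0 < ε) (x : ι)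
    (S : Finset ι) (hS : ∀ u ∈ S, ε ≤ kp A W u x) :
    ∑ u ∈ S, ew W u * mm A W u ≤ 1 / ε := by
  have hx := mm_pos hA hW x
  have h1 : ∀ u ∈ S, ew W u * mm A W u ≤ (1 / (ε * mm A W x)) * (ew W u * KK A W u x) := by
    intro u hu
    have h2 := mm_mul_le_of_kp hA hW hε (hS u hu)
    have h3 := ew_pos hW u
    rw [one_div, inv_mul_eq_div, le_div_iff₀ (by positivity)]
    calc ew W u * mm A W u * (ε * mm A W x) = ew W u * (ε * (mm A W u * mm A W x)) := by ring
      _ ≤ ew W u * KK A W u x := mul_le_mul_of_nonneg_left h2 h3.le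
  calc ∑ u ∈ S, ew W u * mm A W u
      ≤ ∑ u ∈ S, (1 / (ε * mm A W x)) * (ew W u * KK A W u x) := Finset.sum_le_sum h1
    _ ≤ ∑ u, (1 / (ε * mm A W x)) * (ew W u * KK A W u x) :=
        Finset.sum_le_sum_of_subset_of_nonneg (Finset.subset_univ _) fun u _ _ => by
          have h3 := ew_pos hW u
          have h4 := KK_nonneg (A := A) (W := W) u x
          positivity
    _ = 1 / ε := by
        rw [← Finset.mul_sum, sum_ew_KK hA hW]
        field_simp

/-- mass of the weak part of the kernel of `u` -/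
noncomputable def Pweak (A : Matrix ι ι ℝ) (W : ι → ℂ) (ε : ℝ) (u : ι) : ℝ :=
  ∑ w, if kp A W w u < ε then ew W w * KK A W w u / mm A W u else 0

theorem Pweak_nonneg (hA : A.IsSymm) (hW : ∀ x, (W x).im < 0) (ε : ℝ) (u : ι) :
    0 ≤ Pweak A W ε u := by
  unfold Pweak
  refine Finset.sum_nonneg fun w _ => ?_
  split_ifs
  · exact div_nonneg (mul_nonneg (ew_pos hW w).le (KK_nonneg _ _)) (mm_pos hA hW u).le
  · exact le_rfl

theorem norm_Ym_sq (u x : ι) : ‖Ym A W a u x‖ ^ 2 = KK A W u x * (a u - a x) ^ 2 := by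
  rw [Ym, Matrix.of_apply, norm_mul, mul_pow, KK, Complex.norm_real, Real.norm_eq_abs, sq_abs]
  ring

/-- strong pairs of the column `x` -/
noncomputable def YnC (A : Matrix ι ι ℝ) (W : ι → ℂ) (a : ι → ℝ) (p : ι → ι → ℝ) (x : ι) : ℝ :=
  ∑ u, ew W u * p u x * (KK A W u x * (a u - a x) ^ 2)

/-- `Σ_w e_w κ_wx |T_wx|²` -/
noncomputable def JC (A : Matrix ι ι ℝ) (W : ι → ℂ) (a : ι → ℝ) (x : ι) : ℝ :=
  ∑ w, ew W w * (kp A W w x * ‖Tm A W a w x‖ ^ 2)

/-- `Σ_w e_w |T_wx|² Σ_u e_u m_u κ_wu κ_ux` -/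
noncomputable def LC (A : Matrix ι ι ℝ) (W : ι → ℂ) (a : ι → ℝ) (x : ι) : ℝ :=
  ∑ w, ew W w * (‖Tm A W a w x‖ ^ 2 * ∑ u, ew W u * mm A W u * (kp A W w u * kp A W u x))

/-- energy of the strong pairs weighted with the weak part of the landing kernel -/
noncomputable def WC (A : Matrix ι ι ℝ) (W : ι → ℂ) (a : ι → ℝ) (p : ι → ι → ℝ) (ε2 : ℝ)
    (x : ι) : ℝ :=
  ∑ u, ew W u * p u x * (KK A W u x * (a u - a x) ^ 2) * Pweak A W ε2 u

/-- scalar inequality for the strong part -/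
theorem strong_scalar {t g p y m κ1 κ2 ε1 ε2 : ℝ} (hp0 : 0 ≤ p) (hp1 : p ≤ 1) (hm : 0 < m)
    (hε1 : 0 < ε1) (hε2 : 0 < ε2) (hκ1 : ε2 ≤ κ1) (hκ2 : ε1 ≤ κ2) :
    t * (g * (p * y)) ≤ 4 / (ε1 * ε2) * (t ^ 2 * (m * (κ1 * κ2))) +
      1 / 16 * (g ^ 2 * (p * y ^ 2) / m) := by
  have h1 : t * (g * (p * y)) ≤ 4 * (t ^ 2 * m) + 1 / 16 * (g ^ 2 * (p ^ 2 * y ^ 2) / m) := by
    have h2 : 0 ≤ (2 * t * m - g * p * y / 4) ^ 2 / m := by positivity
    have h3 : (2 * t * m - g * p * y / 4) ^ 2 / m =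
        4 * (t ^ 2 * m) + 1 / 16 * (g ^ 2 * (p ^ 2 * y ^ 2) / m) - t * (g * (p * y)) := by
      field_simp
      ring
    linarith
  have h4 : t ^ 2 * m ≤ 1 / (ε1 * ε2) * (t ^ 2 * (m * (κ1 * κ2))) := by
    have h5 : ε1 * ε2 ≤ κ1 * κ2 := by nlinarith
    rw [one_div, inv_mul_eq_div, le_div_iff₀ (by positivity)]
    have h6 : 0 ≤ t ^ 2 * m := by positivity
    nlinarith
  have h7 : g ^ 2 * (p ^ 2 * y ^ 2) / m ≤ g ^ 2 * (p * y ^ 2) / m := by
    have h8 : p ^ 2 ≤ p := by nlinarith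
    gcongr
  calc t * (g * (p * y)) ≤ 4 * (t ^ 2 * m) + 1 / 16 * (g ^ 2 * (p ^ 2 * y ^ 2) / m) := h1
    _ ≤ 4 * (1 / (ε1 * ε2) * (t ^ 2 * (m * (κ1 * κ2)))) +
        1 / 16 * (g ^ 2 * (p * y ^ 2) / m) := by linarith
    _ = _ := by ring

theorem strong_sum (hA : A.IsSymm) (hW : ∀ x, (W x).im < 0) {p : ι → ι → ℝ} {ε1 ε2 : ℝ}
    (hε1 : 0 < ε1) (hε2 : 0 < ε2) (x : ι) (hp0 : ∀ u, 0 ≤ p u x) (hp1 : ∀ u, p u x ≤ 1)
    (hp : ∀ u, p u x ≠ 0 → ε1 ≤ kp A W u x) :
    ∑ w, ew W w * (‖Tm A W a w x‖ * ∑ u, (if ε2 ≤ kp A W w u then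
      ew W u * (‖Gr A W w u‖ * (p u x * ‖Ym A W a u x‖)) else 0)) ≤
      4 / (ε1 * ε2) * LC A W a x + 1 / 16 * YnC A W a p x := by
  have hterm : ∀ w u, ew W w * (‖Tm A W a w x‖ * (if ε2 ≤ kp A W w u then
      ew W u * (‖Gr A W w u‖ * (p u x * ‖Ym A W a u x‖)) else 0)) ≤
      4 / (ε1 * ε2) * (ew W w * (‖Tm A W a w x‖ ^ 2 * (ew W u * mm A W u *
        (kp A W w u * kp A W u x)))) +
      1 / 16 * (ew W u * p u x * (KK A W u x * (a u - a x) ^ 2) *
        (ew W w * KK A W w u / mm A W u)) := by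
    intro w u
    have hew := ew_pos hW w
    have heu := ew_pos hW u
    have hmu := mm_pos hA hW u
    have hk1 := kp_nonneg hA hW w u
    have hk2 := kp_nonneg hA hW u x
    have hr : 0 ≤ 4 / (ε1 * ε2) * (ew W w * (‖Tm A W a w x‖ ^ 2 * (ew W u * mm A W u *
        (kp A W w u * kp A W u x)))) +
      1 / 16 * (ew W u * p u x * (KK A W u x * (a u - a x) ^ 2) *
        (ew W w * KK A W w u / mm A W u)) := by
      have h1 := hp0 u
      have h2 := KK_nonneg (A := A) (W := W) u x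
      have h3 := KK_nonneg (A := A) (W := W) w u
      positivity
    by_cases hpu : p u x = 0
    · rw [hpu]
      rw [hpu] at hr
      simp only [zero_mul, mul_zero, ite_self] at hr ⊢
      exact hr
    split_ifs with hk
    · have h := strong_scalar (t := ‖Tm A W a w x‖) (g := ‖Gr A W w u‖) (y := ‖Ym A W a u x‖)
        (hp0 u) (hp1 u) hmu hε1 hε2 hk (hp u hpu)
      have h5 := mul_le_mul_of_nonneg_left h (mul_pos hew heu).le
      rw [← norm_Ym_sq]
      calc ew W w * (‖Tm A W a w x‖ * (ew W u * (‖Gr A W w u‖ * (p u x * ‖Ym A W a u x‖))))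
          = ew W w * ew W u * (‖Tm A W a w x‖ * (‖Gr A W w u‖ * (p u x * ‖Ym A W a u x‖))) := by
            ring
        _ ≤ _ := h5
        _ = _ := by
            unfold KK
            ring
    · simp only [mul_zero]
      exact hr
  calc ∑ w, ew W w * (‖Tm A W a w x‖ * ∑ u, (if ε2 ≤ kp A W w u then
        ew W u * (‖Gr A W w u‖ * (p u x * ‖Ym A W a u x‖)) else 0))
      = ∑ w, ∑ u, ew W w * (‖Tm A W a w x‖ * (if ε2 ≤ kp A W w u then
        ew W u * (‖Gr A W w u‖ * (p u x * ‖Ym A W a u x‖)) else 0)) := by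
        refine Finset.sum_congr rfl fun w _ => ?_
        rw [Finset.mul_sum, Finset.mul_sum]
    _ ≤ ∑ w, ∑ u, (4 / (ε1 * ε2) * (ew W w * (‖Tm A W a w x‖ ^ 2 * (ew W u * mm A W u *
        (kp A W w u * kp A W u x)))) +
      1 / 16 * (ew W u * p u x * (KK A W u x * (a u - a x) ^ 2) *
        (ew W w * KK A W w u / mm A W u))) :=
        Finset.sum_le_sum fun w _ => Finset.sum_le_sum fun u _ => hterm w u
    _ = 4 / (ε1 * ε2) * LC A W a x + 1 / 16 * YnC A W a p x := by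
        simp only [Finset.sum_add_distrib]
        congr 1
        · unfold LC
          rw [Finset.mul_sum]
          refine Finset.sum_congr rfl fun w _ => ?_
          rw [Finset.mul_sum, Finset.mul_sum, Finset.mul_sum]
        · rw [Finset.sum_comm]
          unfold YnC
          rw [Finset.mul_sum]
          refine Finset.sum_congr rfl fun u _ => ?_
          rw [← Finset.mul_sum, ← Finset.mul_sum, ← Finset.sum_div, sum_ew_KK hA hW,
            div_self (mm_pos hA hW u).ne', mul_one]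

theorem weak_sum (hA : A.IsSymm) (hW : ∀ x, (W x).im < 0) {p : ι → ι → ℝ} {ε1 ε2 θ : ℝ}
    (hε1 : 0 < ε1) (hθ : 0 < θ) (x : ι) (hp0 : ∀ u, 0 ≤ p u x) (hp1 : ∀ u, p u x ≤ 1)
    (hp : ∀ u, p u x ≠ 0 → ε1 ≤ kp A W u x) :
    ∑ w, ew W w * (‖Tm A W a w x‖ * ∑ u, (if ε2 ≤ kp A W w u then 0 else
      ew W u * (‖Gr A W w u‖ * (p u x * ‖Ym A W a u x‖)))) ≤
      θ / 2 * ∑ w, ew W w * ‖Tm A W a w x‖ ^ 2 + 1 / (2 * θ * ε1) * WC A W a p ε2 x := by
  classical
  set Z : ι → ℝ := fun w => ∑ u, (if ε2 ≤ kp A W w u then 0 else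
      ew W u * (‖Gr A W w u‖ * (p u x * ‖Ym A W a u x‖))) with hZ
  -- Cauchy-Schwarz in `u`
  have hCS : ∀ w, Z w ^ 2 ≤ 1 / ε1 * ∑ u, (if kp A W w u < ε2 then
      ew W u * p u x * (KK A W u x * (a u - a x) ^ 2) * (KK A W w u / mm A W u) else 0) := by
    intro w
    set S : Finset ι := Finset.univ.filter fun u => p u x ≠ 0 with hS
    set r : ι → ℝ := fun u => if ε2 ≤ kp A W w u then 0 else
      ew W u * (‖Gr A W w u‖ * (p u x * ‖Ym A W a u x‖)) with hr
    have h1 : Z w = ∑ u ∈ S, r u := by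
      rw [hZ, hS, Finset.sum_filter]
      refine Finset.sum_congr rfl fun u _ => ?_
      by_cases hpu : p u x = 0
      · simp [hr, hpu]
      · simp [hr, hpu]
    have h2 : (∑ u ∈ S, r u) ^ 2 ≤ (∑ u ∈ S, ew W u * mm A W u) *
        ∑ u ∈ S, (if ε2 ≤ kp A W w u then 0 else
          ew W u * (‖Gr A W w u‖ ^ 2 * (p u x ^ 2 * ‖Ym A W a u x‖ ^ 2)) / mm A W u) := by
      refine Finset.sum_sq_le_sum_mul_sum_of_sq_eq_mul S (fun u _ => ?_) (fun u _ => ?_)
        (fun u _ => ?_)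
      · exact mul_nonneg (ew_pos hW u).le (mm_pos hA hW u).le
      · split_ifs
        · exact le_rfl
        · have := ew_pos hW u
          have := mm_pos hA hW u
          positivity
      · have := mm_pos hA hW u
        simp only [hr]
        split_ifs
        · ring
        · field_simp
    have h3 : ∑ u ∈ S, ew W u * mm A W u ≤ 1 / ε1 :=
      sum_strong_le hA hW hε1 x S fun u hu => hp u (Finset.mem_filter.1 hu).2
    rw [h1]
    refine h2.trans (mul_le_mul h3 ?_ ?_ (by positivity))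
    · refine (Finset.sum_le_sum_of_subset_of_nonneg (Finset.subset_univ S) fun u _ _ => ?_).trans
        (Finset.sum_le_sum fun u _ => ?_)
      · split_ifs
        · exact le_rfl
        · have := ew_pos hW u
          have := mm_pos hA hW u
          positivity
      · have heu := ew_pos hW u
        have hmu := mm_pos hA hW u
        have h4 := hp0 u
        have h5 := hp1 u
        by_cases hk : ε2 ≤ kp A W w u
        · rw [if_pos hk, if_neg (not_lt.2 hk)]
        · rw [if_neg hk, if_pos (not_le.1 hk), norm_Ym_sq]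
          have h6 : p u x ^ 2 ≤ p u x := by nlinarith
          have h7 : 0 ≤ KK A W u x * (a u - a x) ^ 2 :=
            mul_nonneg (KK_nonneg _ _) (sq_nonneg _)
          have h8 : 0 ≤ KK A W w u / mm A W u := div_nonneg (KK_nonneg _ _) hmu.le
          have h9 : ew W u * (‖Gr A W w u‖ ^ 2 * (p u x ^ 2 * (KK A W u x * (a u - a x) ^ 2))) /
              mm A W u = p u x ^ 2 * (ew W u * (KK A W u x * (a u - a x) ^ 2) *
                (KK A W w u / mm A W u)) := by
            unfold KK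
            ring
          have h10 : ew W u * p u x * (KK A W u x * (a u - a x) ^ 2) *
              (KK A W w u / mm A W u) = p u x * (ew W u * (KK A W u x * (a u - a x) ^ 2) *
                (KK A W w u / mm A W u)) := by ring
          rw [h9, h10]
          exact mul_le_mul_of_nonneg_right h6 (by positivity)
    · refine Finset.sum_nonneg fun u _ => ?_
      split_ifs
      · exact le_rfl
      · have := ew_pos hW u
        have := mm_pos hA hW u
        positivity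
  have hswap : ∑ w, ew W w * ∑ u, (if kp A W w u < ε2 then
      ew W u * p u x * (KK A W u x * (a u - a x) ^ 2) * (KK A W w u / mm A W u) else 0) =
      WC A W a p ε2 x := by
    unfold WC Pweak
    simp only [Finset.mul_sum]
    rw [Finset.sum_comm]
    refine Finset.sum_congr rfl fun u _ => Finset.sum_congr rfl fun w _ => ?_
    split_ifs
    · ring
    · ring
  have hterm : ∀ w, ew W w * (‖Tm A W a w x‖ * Z w) ≤
      θ / 2 * (ew W w * ‖Tm A W a w x‖ ^ 2) + 1 / (2 * θ) * (ew W w * Z w ^ 2) := by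
    intro w
    have hew := ew_pos hW w
    have h1 : 0 ≤ (θ * ‖Tm A W a w x‖ - Z w) ^ 2 / (2 * θ) := by positivity
    have h2 : (θ * ‖Tm A W a w x‖ - Z w) ^ 2 / (2 * θ) =
        θ / 2 * ‖Tm A W a w x‖ ^ 2 + 1 / (2 * θ) * Z w ^ 2 - ‖Tm A W a w x‖ * Z w := by
      field_simp
      ring
    have h3 := mul_nonneg hew.le h1
    rw [h2] at h3
    nlinarith
  calc ∑ w, ew W w * (‖Tm A W a w x‖ * Z w)
      ≤ ∑ w, (θ / 2 * (ew W w * ‖Tm A W a w x‖ ^ 2) + 1 / (2 * θ) * (ew W w * Z w ^ 2)) :=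
        Finset.sum_le_sum fun w _ => hterm w
    _ = θ / 2 * ∑ w, ew W w * ‖Tm A W a w x‖ ^ 2 + 1 / (2 * θ) * ∑ w, ew W w * Z w ^ 2 := by
        rw [Finset.sum_add_distrib, Finset.mul_sum, Finset.mul_sum]
    _ ≤ θ / 2 * ∑ w, ew W w * ‖Tm A W a w x‖ ^ 2 + 1 / (2 * θ) * (1 / ε1 * WC A W a p ε2 x) := by
        have h4 : ∑ w, ew W w * Z w ^ 2 ≤ 1 / ε1 * WC A W a p ε2 x := by
          rw [← hswap, Finset.mul_sum]
          refine Finset.sum_le_sum fun w _ => ?_
          calc ew W w * Z w ^ 2 ≤ ew W w * (1 / ε1 * ∑ u, (if kp A W w u < ε2 then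
                ew W u * p u x * (KK A W u x * (a u - a x) ^ 2) *
                  (KK A W w u / mm A W u) else 0)) :=
                mul_le_mul_of_nonneg_left (hCS w) (ew_pos hW w).le
            _ = _ := by ring
        have h5 : 0 ≤ 1 / (2 * θ) := by positivity
        nlinarith [mul_le_mul_of_nonneg_left h4 h5]
    _ = θ / 2 * ∑ w, ew W w * ‖Tm A W a w x‖ ^ 2 + 1 / (2 * θ * ε1) * WC A W a p ε2 x := by
        congr 1
        field_simp

/-- **static inequality, one column** -/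
theorem static_col (hA : A.IsSymm) (hW : ∀ x, (W x).im < 0) {p : ι → ι → ℝ} {ε1 ε2 θ : ℝ}
    (hε1 : 0 < ε1) (hε2 : 0 < ε2) (hθ : 0 < θ) (x : ι) (hp0 : ∀ u, 0 ≤ p u x)
    (hp1 : ∀ u, p u x ≤ 1) (hp : ∀ u, p u x ≠ 0 → ε1 ≤ kp A W u x) :
    YnC A W a p x ≤ 8 / ε1 * JC A W a x + 32 / (ε1 * ε2) * LC A W a x +
      4 * θ * ∑ w, ew W w * ‖Tm A W a w x‖ ^ 2 + 4 / (θ * ε1) * WC A W a p ε2 x := by
  -- the exact identity with `Y₁ = p Y`
  set Y1 : Matrix ι ι ℂ := Matrix.of fun u x' => ((p u x' : ℝ) : ℂ) * Ym A W a u x' with hY1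
  have hid := col_identity (a := a) hA hW Y1 x
  have hL : (1 / 4 : ℂ) * ∑ u, (ew W u : ℂ) * (conj (Ym A W a u x) * Y1 u x) =
      ((1 / 4 * YnC A W a p x : ℝ) : ℂ) := by
    unfold YnC
    push_cast
    congr 1
    refine Finset.sum_congr rfl fun u _ => ?_
    rw [hY1, Matrix.of_apply]
    have h1 : conj (Ym A W a u x) * Ym A W a u x = ((‖Ym A W a u x‖ ^ 2 : ℝ) : ℂ) := by
      rw [← Complex.normSq_eq_norm_sq, Complex.normSq_eq_conj_mul_self]
    rw [norm_Ym_sq] at h1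
    push_cast at h1
    linear_combination (ew W u : ℂ) * (p u x : ℂ) * h1
  rw [hL] at hid
  have hnorm : 1 / 4 * YnC A W a p x ≤ ∑ w, ew W w * (‖Tm A W a w x‖ *
      (1 / 2 * (p w x * ‖Ym A W a w x‖) +
        ∑ u, ew W u * (‖Gr A W w u‖ * (p u x * ‖Ym A W a u x‖)))) := by
    calc 1 / 4 * YnC A W a p x ≤ ‖((1 / 4 * YnC A W a p x : ℝ) : ℂ)‖ := by
          rw [Complex.norm_real]
          exact le_abs_self _
      _ = ‖∑ w, (ew W w : ℂ) * (conj (Tm A W a w x) *
        ((I / 2) * Y1 w x + ∑ u, (ew W u : ℂ) * (conj (Gr A W w u) * Y1 u x)))‖ := by rw [hid]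
      _ ≤ ∑ w, ‖(ew W w : ℂ) * (conj (Tm A W a w x) *
        ((I / 2) * Y1 w x + ∑ u, (ew W u : ℂ) * (conj (Gr A W w u) * Y1 u x)))‖ :=
          norm_sum_le _ _
      _ ≤ _ := by
          refine Finset.sum_le_sum fun w _ => ?_
          have hY1n : ∀ u, ‖Y1 u x‖ = p u x * ‖Ym A W a u x‖ := by
            intro u
            rw [hY1, Matrix.of_apply, norm_mul, Complex.norm_real, Real.norm_eq_abs,
              abs_of_nonneg (hp0 u)]
          rw [norm_mul, norm_mul, Complex.norm_real, Real.norm_eq_abs,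
            abs_of_pos (ew_pos hW w), RCLike.norm_conj]
          refine mul_le_mul_of_nonneg_left (mul_le_mul_of_nonneg_left ?_ (norm_nonneg _))
            (ew_pos hW w).le
          refine (norm_add_le _ _).trans (add_le_add ?_ ?_)
          · rw [norm_mul, hY1n, norm_div, Complex.norm_I, Complex.norm_ofNat]
          · refine (norm_sum_le _ _).trans (Finset.sum_le_sum fun u _ => ?_)
            rw [norm_mul, norm_mul, Complex.norm_real, Real.norm_eq_abs,
              abs_of_pos (ew_pos hW u), RCLike.norm_conj, hY1n]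
  -- split
  have hsplit : ∑ w, ew W w * (‖Tm A W a w x‖ * (1 / 2 * (p w x * ‖Ym A W a w x‖) +
        ∑ u, ew W u * (‖Gr A W w u‖ * (p u x * ‖Ym A W a u x‖)))) =
      ∑ w, ew W w * (‖Tm A W a w x‖ * (1 / 2 * (p w x * ‖Ym A W a w x‖))) +
      (∑ w, ew W w * (‖Tm A W a w x‖ * ∑ u, (if ε2 ≤ kp A W w u then
        ew W u * (‖Gr A W w u‖ * (p u x * ‖Ym A W a u x‖)) else 0)) +
      ∑ w, ew W w * (‖Tm A W a w x‖ * ∑ u, (if ε2 ≤ kp A W w u then 0 else
        ew W u * (‖Gr A W w u‖ * (p u x * ‖Ym A W a u x‖))))) := by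
    rw [← Finset.sum_add_distrib, ← Finset.sum_add_distrib]
    refine Finset.sum_congr rfl fun w _ => ?_
    have h1 : ∑ u, ew W u * (‖Gr A W w u‖ * (p u x * ‖Ym A W a u x‖)) =
        (∑ u, (if ε2 ≤ kp A W w u then
        ew W u * (‖Gr A W w u‖ * (p u x * ‖Ym A W a u x‖)) else 0)) +
        ∑ u, (if ε2 ≤ kp A W w u then 0 else
        ew W u * (‖Gr A W w u‖ * (p u x * ‖Ym A W a u x‖))) := by
      rw [← Finset.sum_add_distrib]
      refine Finset.sum_congr rfl fun u _ => ?_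
      split_ifs <;> simp
    rw [h1]
    ring
  have hfirst : ∑ w, ew W w * (‖Tm A W a w x‖ * (1 / 2 * (p w x * ‖Ym A W a w x‖))) ≤
      1 / ε1 * JC A W a x + 1 / 16 * YnC A W a p x := by
    unfold JC YnC
    rw [Finset.mul_sum, Finset.mul_sum, ← Finset.sum_add_distrib]
    refine Finset.sum_le_sum fun w _ => ?_
    have hew := ew_pos hW w
    rw [← norm_Ym_sq]
    have h0 := hp0 w
    have h1 : ‖Tm A W a w x‖ * (1 / 2 * (p w x * ‖Ym A W a w x‖)) ≤
        p w x * ‖Tm A W a w x‖ ^ 2 + 1 / 16 * (p w x * ‖Ym A W a w x‖ ^ 2) := by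
      have h2 : 0 ≤ p w x * (‖Tm A W a w x‖ - ‖Ym A W a w x‖ / 4) ^ 2 := by positivity
      nlinarith
    have h3 : p w x * ‖Tm A W a w x‖ ^ 2 ≤ 1 / ε1 * (kp A W w x * ‖Tm A W a w x‖ ^ 2) := by
      by_cases hpw : p w x = 0
      · rw [hpw, zero_mul]
        have := kp_nonneg hA hW w x
        positivity
      · have h4 : p w x ≤ 1 / ε1 * kp A W w x := by
          have h5 := hp w hpw
          have h6 := hp1 w
          rw [one_div, inv_mul_eq_div, le_div_iff₀ hε1]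
          nlinarith
        calc p w x * ‖Tm A W a w x‖ ^ 2 ≤ (1 / ε1 * kp A W w x) * ‖Tm A W a w x‖ ^ 2 :=
              mul_le_mul_of_nonneg_right h4 (sq_nonneg _)
          _ = _ := by ring
    calc ew W w * (‖Tm A W a w x‖ * (1 / 2 * (p w x * ‖Ym A W a w x‖)))
        ≤ ew W w * (1 / ε1 * (kp A W w x * ‖Tm A W a w x‖ ^ 2) +
          1 / 16 * (p w x * ‖Ym A W a w x‖ ^ 2)) :=
          mul_le_mul_of_nonneg_left (by linarith) hew.le
      _ = _ := by ring
  have hstrong := strong_sum (a := a) hA hW hε1 hε2 x hp0 hp1 hp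
  have hweak := weak_sum (a := a) (ε2 := ε2) hA hW hε1 hθ x hp0 hp1 hp
  rw [hsplit] at hnorm
  have e1 : 4 / (ε1 * ε2) * LC A W a x * 8 = 32 / (ε1 * ε2) * LC A W a x := by ring
  have e2 : 1 / (2 * θ * ε1) * WC A W a p ε2 x * 8 = 4 / (θ * ε1) * WC A W a p ε2 x := by
    field_simp
    ring
  have e3 : 1 / ε1 * JC A W a x * 8 = 8 / ε1 * JC A W a x := by ring
  linarith

/-- **STATIC, deterministic half**: energy of the strong pairs -/
theorem static_det (hA : A.IsSymm) (hW : ∀ x, (W x).im < 0) {p : ι → ι → ℝ} {ε1 ε2 θ : ℝ}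
    (hε1 : 0 < ε1) (hε2 : 0 < ε2) (hθ : 0 < θ) (hp0 : ∀ u x, 0 ≤ p u x)
    (hp1 : ∀ u x, p u x ≤ 1) (hp : ∀ u x, p u x ≠ 0 → ε1 ≤ kp A W u x) :
    ∑ x, ∑ u, ew W x * ew W u * p u x * (KK A W u x * (a u - a x) ^ 2) ≤
      8 / ε1 * (∑ x, ∑ w, ew W x * ew W w * (kp A W w x * ‖Tm A W a w x‖ ^ 2)) +
      32 / (ε1 * ε2) * (∑ x, ∑ w, ew W x * ew W w * (‖Tm A W a w x‖ ^ 2 *
        ∑ u, ew W u * mm A W u * (kp A W w u * kp A W u x))) +
      θ * (∑ x, ∑ u, ew W x * ew W u * (KK A W u x * (a u - a x) ^ 2)) +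
      4 / (θ * ε1) * (∑ x, ∑ u, ew W x * ew W u * p u x * (KK A W u x * (a u - a x) ^ 2) *
        Pweak A W ε2 u) := by
  have hT : ∑ x, ew W x * ∑ w, ew W w * ‖Tm A W a w x‖ ^ 2 =
      1 / 4 * ∑ x, ∑ u, ew W x * ew W u * (KK A W u x * (a u - a x) ^ 2) := by
    have h := energy_identity (a := a) hA hW
    have h1 : ∑ x, ew W x * ∑ w, ew W w * ‖Tm A W a w x‖ ^ 2 =
        ∑ z, ∑ w, (-(W z).im) * (-(W w).im) * ‖Tm A W a z w‖ ^ 2 := by
      rw [Finset.sum_comm]
      refine Finset.sum_congr rfl fun x _ => ?_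
      rw [Finset.mul_sum]
      refine Finset.sum_congr rfl fun w _ => ?_
      unfold ew
      ring
    rw [h1, h]
    congr 1
    rw [Finset.sum_comm]
    refine Finset.sum_congr rfl fun x _ => Finset.sum_congr rfl fun u _ => ?_
    unfold ew
    ring
  have hcol : ∀ x, ew W x * YnC A W a p x ≤ ew W x * (8 / ε1 * JC A W a x +
      32 / (ε1 * ε2) * LC A W a x + 4 * θ * ∑ w, ew W w * ‖Tm A W a w x‖ ^ 2 +
      4 / (θ * ε1) * WC A W a p ε2 x) := fun x =>
    mul_le_mul_of_nonneg_left (static_col hA hW hε1 hε2 hθ x (fun u => hp0 u x)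
      (fun u => hp1 u x) (fun u => hp u x)) (ew_pos hW x).le
  have hsum := Finset.sum_le_sum fun x (_ : x ∈ Finset.univ) => hcol x
  calc ∑ x, ∑ u, ew W x * ew W u * p u x * (KK A W u x * (a u - a x) ^ 2)
      = ∑ x, ew W x * YnC A W a p x := by
        refine Finset.sum_congr rfl fun x _ => ?_
        unfold YnC
        rw [Finset.mul_sum]
        exact Finset.sum_congr rfl fun u _ => by ring
    _ ≤ _ := hsum
    _ = 8 / ε1 * (∑ x, ew W x * JC A W a x) + 32 / (ε1 * ε2) * (∑ x, ew W x * LC A W a x) +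
        4 * θ * (∑ x, ew W x * ∑ w, ew W w * ‖Tm A W a w x‖ ^ 2) +
        4 / (θ * ε1) * (∑ x, ew W x * WC A W a p ε2 x) := by
        rw [Finset.mul_sum, Finset.mul_sum, Finset.mul_sum (a := 4 * θ), Finset.mul_sum,
          ← Finset.sum_add_distrib, ← Finset.sum_add_distrib, ← Finset.sum_add_distrib]
        exact Finset.sum_congr rfl fun x _ => by ring
    _ = _ := by
        rw [hT]
        have f1 : ∑ x, ew W x * JC A W a x =
            ∑ x, ∑ w, ew W x * ew W w * (kp A W w x * ‖Tm A W a w x‖ ^ 2) := by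
          refine Finset.sum_congr rfl fun x _ => ?_
          unfold JC
          rw [Finset.mul_sum]
          exact Finset.sum_congr rfl fun u _ => by ring
        have f2 : ∑ x, ew W x * LC A W a x =
            ∑ x, ∑ w, ew W x * ew W w * (‖Tm A W a w x‖ ^ 2 *
              ∑ u, ew W u * mm A W u * (kp A W w u * kp A W u x)) := by
          refine Finset.sum_congr rfl fun x _ => ?_
          unfold LC
          rw [Finset.mul_sum]
          exact Finset.sum_congr rfl fun u _ => by ring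
        have f3 : ∑ x, ew W x * WC A W a p ε2 x =
            ∑ x, ∑ u, ew W x * ew W u * p u x * (KK A W u x * (a u - a x) ^ 2) *
              Pweak A W ε2 u := by
          refine Finset.sum_congr rfl fun x _ => ?_
          unfold WC
          rw [Finset.mul_sum]
          exact Finset.sum_congr rfl fun u _ => by ring
        rw [f1, f2, f3]
        ring

end P365L.T2
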