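import Vale.Agent.P365.T2.StrongB968
import Vale.Agent.P365.T2.StaticDet963

/-!
# P365 T2, row X-STAT: `J` and `Λ` of strong pairs are bounded by the loss, at one time, in the true
law (any product law with the ratio property at the good moving sites).

`e = -Im W`, `M` = moving sites, `S y` = good environments of the site `y` (ratio property `RP` with
constant `C`), `S` measurable.

* `Jst M S ε W = Σ_{z,w ∈ M} [W ∈ S w, ε ≤ κ_zw] e_z e_w κ_zw |T_zw|²`
* `Lst M S ε1 ε2 W = Σ_{z,x,u ∈ M} [W ∈ S u, ε2 ≤ κ_zu, ε1 ≤ κ_ux] e_z e_x |T_zx|² e_u m_u κ_zu κ_ux`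
* `Loss M W = Σ_{z ∈ M} e_z m_z μ_z²`
* `Bad M S W = Σ_{w ∈ M, W ∉ S w} Σ_z e_z e_w K_zw (a_z - a_w)²`

`J_le`: `E Jst ≤ (130 C/ε + 1/2) E Loss`.
`Lam_le`: `E Lst ≤ C' ((130·968·C/(ε1 ε2) + 1/2) E Loss + (1/4) E Bad)`, `C' = 114549248 C/ε1`.
-/

set_option autoImplicit false
set_option linter.all false

namespace P365L.T2.X968

open MeasureTheory ProbabilityTheory Set P365L P365L.Stat P365T1 Vale.Agent.P365.J376
open P365L.T2 (ew ew_pos)
open Complex hiding eta
open scoped ComplexConjugate Real ENNReal Classical Matrix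

variable {ι : Type*} [Fintype ι] [DecidableEq ι]
variable {A : Matrix ι ι ℝ} {a : ι → ℝ} {E : ℝ} {e : ι → ℝ}

/-! ### deterministic facts -/

theorem kap_eq_kp (W : ι → ℂ) (z w : ι) : kap A W z w = kp A W z w := rfl

theorem strong_mass (hA : A.IsSymm) {W : ι → ℂ} (hW : ∀ x, (W x).im < 0) {ε : ℝ} (hε : 0 < ε)
    (z : ι) (M : Finset ι) :
    ∑ w ∈ M, (if ε ≤ kap A W z w then ew W w * mm A W w else 0) ≤ 1 / ε := by
  rw [← Finset.sum_filter]
  refine sum_strong_le hA hW hε z _ fun u hu => ?_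
  have h := (Finset.mem_filter.1 hu).2
  rw [kap_symm hA] at h
  exact h

/-- row identity -/
theorem row_T (hA : A.IsSymm) {W : ι → ℂ} (hW : ∀ x, (W x).im < 0) (x : ι) :
    ∑ z, ew W z * ‖Tm A W a z x‖ ^ 2 = 1 / 4 * ∑ z, ew W z * (KK A W z x * (a z - a x) ^ 2) := by
  have h := congrFun (congrFun (Tm_inner (a := a) hA hW (Ym A W a)) x) x
  rw [← Tm_eq_UY hA hW, Matrix.smul_apply, Matrix.mul_apply, Matrix.mul_apply, smul_eq_mul] at h
  have e1 : ∀ w, ((Tm A W a)ᴴ * Ed W) x w * Tm A W a w x =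
      ((ew W w * ‖Tm A W a w x‖ ^ 2 : ℝ) : ℂ) := by
    intro w
    rw [Ed, Matrix.mul_diagonal, Matrix.conjTranspose_apply, ew, ← Complex.normSq_eq_norm_sq]
    push_cast
    rw [Complex.normSq_eq_conj_mul_self]
    simp only [RCLike.star_def]
    ring
  have e2 : ∀ w, ((Ym A W a)ᴴ * Ed W) x w * Ym A W a w x =
      ((ew W w * (KK A W w x * (a w - a x) ^ 2) : ℝ) : ℂ) := by
    intro w
    rw [← norm_Ym_sq, Ed, Matrix.mul_diagonal, Matrix.conjTranspose_apply, ew,
      ← Complex.normSq_eq_norm_sq]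
    push_cast
    rw [Complex.normSq_eq_conj_mul_self]
    simp only [RCLike.star_def]
    ring
  rw [Finset.sum_congr rfl fun w _ => e1 w, Finset.sum_congr rfl fun w _ => e2 w] at h
  have h2 : ((∑ z, ew W z * ‖Tm A W a z x‖ ^ 2 : ℝ) : ℂ) =
      ((1 / 4 * ∑ z, ew W z * (KK A W z x * (a z - a x) ^ 2) : ℝ) : ℂ) := by
    push_cast at h ⊢
    exact h
  exact_mod_cast h2

theorem norm_T_le (W : ι → ℂ) (z w : ι) :
    ‖Tm A W a z w‖ ^ 2 ≤ 2 * ‖Qm A W a z w‖ ^ 2 + 1 / 2 * (muf A W a w ^ 2 * KK A W z w) := by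
  have h1 : Tm A W a z w = Qm A W a z w + (I / 2) * (muf A W a w) * conj (Gr A W z w) := by
    rw [Qm]; ring
  have h2 : ‖(I / 2 : ℂ) * (muf A W a w) * conj (Gr A W z w)‖ ^ 2 =
      1 / 4 * (muf A W a w ^ 2 * KK A W z w) := by
    rw [norm_mul, norm_mul, mul_pow, mul_pow, Complex.norm_real, Real.norm_eq_abs, sq_abs,
      RCLike.norm_conj, KK]
    have : ‖(I / 2 : ℂ)‖ = 1 / 2 := by simp
    rw [this]
    ring
  have h3 := norm_add_le (Qm A W a z w) ((I / 2) * (muf A W a w) * conj (Gr A W z w))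
  rw [← h1] at h3
  have h4 := pow_le_pow_left₀ (norm_nonneg _) h3 2
  nlinarith [sq_nonneg (‖Qm A W a z w‖ - ‖(I / 2 : ℂ) * (muf A W a w) * conj (Gr A W z w)‖)]

/-! ### the functionals -/

/-- loss of the sites of `M` -/
noncomputable def Loss (A : Matrix ι ι ℝ) (a : ι → ℝ) (M : Finset ι) (W : ι → ℂ) : ℝ :=
  ∑ z ∈ M, ew W z * Ls A a z W

/-- strong pairs with good second site -/
noncomputable def Jst (A : Matrix ι ι ℝ) (a : ι → ℝ) (M : Finset ι) (S : ι → Set (ι → ℂ)) (ε : ℝ)
    (W : ι → ℂ) : ℝ :=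
  ∑ z ∈ M, ∑ w ∈ M, if W ∈ S w ∧ ε ≤ kap A W z w then
    ew W z * ew W w * (kap A W z w * ‖Tm A W a z w‖ ^ 2) else 0

/-- strong chains with good middle site -/
noncomputable def Lst (A : Matrix ι ι ℝ) (a : ι → ℝ) (M : Finset ι) (S : ι → Set (ι → ℂ))
    (ε1 ε2 : ℝ) (W : ι → ℂ) : ℝ :=
  ∑ z ∈ M, ∑ x ∈ M, ∑ u ∈ M, if W ∈ S u ∧ ε2 ≤ kap A W z u ∧ ε1 ≤ kap A W u x then
    ew W z * ew W x * ‖Tm A W a z x‖ ^ 2 * (ew W u * mm A W u * (kap A W z u * kap A W u x))
    else 0

/-- content of the bad sites of `M` -/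
noncomputable def Bad (A : Matrix ι ι ℝ) (a : ι → ℝ) (M : Finset ι) (S : ι → Set (ι → ℂ))
    (W : ι → ℂ) : ℝ :=
  ∑ w ∈ M, if W ∉ S w then ∑ z, ew W z * (ew W w * (KK A W z w * (a z - a w) ^ 2)) else 0

variable {ν : ι → Measure ℝ} [∀ i, IsProbabilityMeasure (ν i)]

/-- (S1), one pair -/
theorem S1_site (hA : A.IsSymm) (he : ∀ x, 0 < e x) {z w : ι} {ε : ℝ} {S : Set (ι → ℂ)}
    (hS : MeasurableSet S) {C : ℝ≥0∞} (h : RP A E e ν w S C) :
    ∫⁻ v, (S ∩ {W | ε ≤ kap A W z w}).indicator
        (fun W => ENNReal.ofReal (kap A W z w * ‖Qm A W a z w‖ ^ 2)) (WV E e v)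
          ∂(Measure.pi ν) ≤
      ENNReal.ofReal (130 / 4) * (C * ∫⁻ v, ENNReal.ofReal (mm A (WV E e v) w) *
        {W | ε / 2 ≤ kap A W z w}.indicator (fun W => ENNReal.ofReal (Ls A a z W)) (WV E e v)
          ∂(Measure.pi ν)) := by
  set Φ : (ι → ℂ) → ℝ≥0∞ :=
    {W | ε / 2 ≤ kap A W z w}.indicator (fun W => ENNReal.ofReal (Ls A a z W)) with hΦ
  have hΦm : Measurable Φ :=
    (measurable_LsW z).ennreal_ofReal.indicator
      (measurableSet_le measurable_const (measurable_kapW z w))
  refine le_trans ?_ (mul_le_mul_right (resampleE hA he ν hS h hΦm) _)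
  rw [← lintegral_const_mul]
  swap
  · exact (((measurable_mmW w).ennreal_ofReal.mul (measurable_hcE w hΦm)).indicator hS).comp
      (measurable_WV E e)
  refine lintegral_mono fun v => ?_
  set W := WV E e v with hWd
  have hW : ∀ x, (W x).im < 0 := WV_neg he v
  by_cases hc : W ∈ S ∩ {W | ε ≤ kap A W z w}
  · rw [Set.indicator_of_mem hc, Set.indicator_of_mem hc.1, ← mul_assoc,
      ← ENNReal.ofReal_mul (by norm_num)]
    refine T1E hA hW z w fun x _ => ?_
    have h1 := kap_kick (A := A) hA hW w z x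
    have h2 : ε ≤ kap A W z w := hc.2
    have h3 : kick A W w x ∈ {W | ε / 2 ≤ kap A W z w} := by
      show ε / 2 ≤ kap A (kick A W w x) z w
      linarith
    rw [hΦ, Set.indicator_of_mem h3]
  · rw [Set.indicator_of_notMem hc]
    exact zero_le

theorem meas_ew (x : ι) : Measurable fun W : ι → ℂ => ew W x := by
  unfold ew
  exact (Complex.measurable_im.comp (measurable_pi_apply x)).neg

theorem ew_WV (e v : ι → ℝ) (x : ι) : ew (WV E e v) x = e x := by
  rw [ew, WV_im, neg_neg]

theorem Ls_nn (hA : A.IsSymm) {W : ι → ℂ} (hW : ∀ x, (W x).im < 0) (z : ι) : 0 ≤ Ls A a z W :=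
  Ls_nonneg hA hW z

/-- (S1), summed: `Q`-part -/
theorem S1_sum (hA : A.IsSymm) (he : ∀ x, 0 < e x) {M : Finset ι} {ε : ℝ} (hε : 0 < ε)
    {S : ι → Set (ι → ℂ)} (hS : ∀ w, MeasurableSet (S w)) {C : ℝ≥0∞}
    (h : ∀ w ∈ M, RP A E e ν w (S w) C) :
    ∑ z ∈ M, ∑ w ∈ M, ENNReal.ofReal (e z * e w) *
      ∫⁻ v, (S w ∩ {W | ε ≤ kap A W z w}).indicator
        (fun W => ENNReal.ofReal (kap A W z w * ‖Qm A W a z w‖ ^ 2)) (WV E e v)
          ∂(Measure.pi ν) ≤
      ENNReal.ofReal (65 / ε) * (C * ∫⁻ v, ENNReal.ofReal (Loss A a M (WV E e v))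
          ∂(Measure.pi ν)) := by
  set Φ : ι → ι → (ι → ℂ) → ℝ≥0∞ := fun z w =>
    {W | ε / 2 ≤ kap A W z w}.indicator (fun W => ENNReal.ofReal (Ls A a z W)) with hΦ
  have hΦm : ∀ z w, Measurable (Φ z w) := fun z w =>
    (measurable_LsW z).ennreal_ofReal.indicator
      (measurableSet_le measurable_const (measurable_kapW z w))
  have hm0 : ∀ z w, Measurable fun v : ι → ℝ =>
      ENNReal.ofReal (mm A (WV E e v) w) * Φ z w (WV E e v) := fun z w =>
    ((measurable_mmW w).ennreal_ofReal.mul (hΦm z w)).comp (measurable_WV E e)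
  have hm : ∀ z w, Measurable fun v : ι → ℝ => ENNReal.ofReal (e z * e w) *
      (ENNReal.ofReal (mm A (WV E e v) w) * Φ z w (WV E e v)) := fun z w =>
    (hm0 z w).const_mul _
  calc _ ≤ ∑ z ∈ M, ∑ w ∈ M, ENNReal.ofReal (e z * e w) *
        (ENNReal.ofReal (130 / 4) * (C * ∫⁻ v, ENNReal.ofReal (mm A (WV E e v) w) *
          Φ z w (WV E e v) ∂(Measure.pi ν))) :=
        Finset.sum_le_sum fun z _ => Finset.sum_le_sum fun w hw =>
          mul_le_mul_right (S1_site hA he (hS w) (h w hw)) _
    _ = ENNReal.ofReal (130 / 4) * (C * ∫⁻ v, ∑ z ∈ M, ∑ w ∈ M, ENNReal.ofReal (e z * e w) *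
          (ENNReal.ofReal (mm A (WV E e v) w) * Φ z w (WV E e v)) ∂(Measure.pi ν)) := by
        rw [lintegral_finsetSum _ fun z _ => Finset.measurable_sum _ fun w _ => hm z w,
          Finset.mul_sum, Finset.mul_sum]
        refine Finset.sum_congr rfl fun z _ => ?_
        rw [lintegral_finsetSum _ fun w _ => hm z w, Finset.mul_sum, Finset.mul_sum]
        refine Finset.sum_congr rfl fun w _ => ?_
        rw [lintegral_const_mul _ (hm0 z w)]
        ring
    _ ≤ ENNReal.ofReal (130 / 4) * (C * ∫⁻ v, ENNReal.ofReal (2 / ε) *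
          ENNReal.ofReal (Loss A a M (WV E e v)) ∂(Measure.pi ν)) := by
        refine mul_le_mul_right (mul_le_mul_right (lintegral_mono fun v => ?_) _) _
        set W := WV E e v with hWd
        have hW : ∀ x, (W x).im < 0 := WV_neg he v
        have hL := fun z => Ls_nonneg (a := a) hA hW z
        have hmm := fun w => (mm_pos hA hW w).le
        have h1 : ∀ z w, ENNReal.ofReal (e z * e w) * (ENNReal.ofReal (mm A W w) * Φ z w W) =
            ENNReal.ofReal (e z * Ls A a z W *
              (if ε / 2 ≤ kap A W z w then ew W w * mm A W w else 0)) := by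
          intro z w
          have hez := (he z).le
          have hew := (he w).le
          by_cases hc : ε / 2 ≤ kap A W z w
          · have hc' : W ∈ {W | ε / 2 ≤ kap A W z w} := hc
            simp only [hΦ]
            rw [Set.indicator_of_mem hc', if_pos hc, hWd, ew_WV, ← hWd,
              ← ENNReal.ofReal_mul (hmm w), ← ENNReal.ofReal_mul (by positivity)]
            congr 1
            ring
          · have hc' : W ∉ {W | ε / 2 ≤ kap A W z w} := hc
            simp only [hΦ]
            rw [Set.indicator_of_notMem hc', if_neg hc, mul_zero, mul_zero, mul_zero,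
              ENNReal.ofReal_zero]
        have hnn : ∀ z w, 0 ≤ e z * Ls A a z W *
            (if ε / 2 ≤ kap A W z w then ew W w * mm A W w else 0) := by
          intro z w
          have h2 : 0 ≤ (if ε / 2 ≤ kap A W z w then ew W w * mm A W w else 0) := by
            split_ifs
            · exact mul_nonneg (ew_pos hW w).le (hmm w)
            · exact le_rfl
          exact mul_nonneg (mul_nonneg (he z).le (hL z)) h2
        simp only [h1]
        rw [← ENNReal.ofReal_mul (by positivity)]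
        have h3 : ∑ z ∈ M, ∑ w ∈ M, ENNReal.ofReal (e z * Ls A a z W *
            (if ε / 2 ≤ kap A W z w then ew W w * mm A W w else 0)) =
            ENNReal.ofReal (∑ z ∈ M, ∑ w ∈ M, e z * Ls A a z W *
              (if ε / 2 ≤ kap A W z w then ew W w * mm A W w else 0)) := by
          rw [ENNReal.ofReal_sum_of_nonneg fun z _ => Finset.sum_nonneg fun w _ => hnn z w]
          refine Finset.sum_congr rfl fun z _ => ?_
          rw [ENNReal.ofReal_sum_of_nonneg fun w _ => hnn z w]
        rw [h3]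
        refine ENNReal.ofReal_le_ofReal ?_
        rw [Loss, Finset.mul_sum]
        refine Finset.sum_le_sum fun z _ => ?_
        rw [← Finset.mul_sum]
        have h4 := strong_mass hA hW (half_pos hε) z M
        have h5 : ew W z = e z := by rw [hWd, ew_WV]
        rw [h5]
        have h6 : 1 / (ε / 2) = 2 / ε := by field_simp
        rw [h6] at h4
        calc e z * Ls A a z W * ∑ w ∈ M, (if ε / 2 ≤ kap A W z w then ew W w * mm A W w else 0)
            ≤ e z * Ls A a z W * (2 / ε) :=
              mul_le_mul_of_nonneg_left h4 (mul_nonneg (he z).le (hL z))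
          _ = 2 / ε * (e z * Ls A a z W) := by ring
    _ = ENNReal.ofReal (65 / ε) * (C * ∫⁻ v, ENNReal.ofReal (Loss A a M (WV E e v))
          ∂(Measure.pi ν)) := by
        have hLm : Measurable fun v : ι → ℝ => ENNReal.ofReal (Loss A a M (WV E e v)) := by
          have h7 : Measurable fun W : ι → ℂ => Loss A a M W := by
            unfold Loss
            exact Finset.measurable_sum _ fun z _ => (meas_ew z).mul (measurable_LsW z)
          exact (h7.comp (measurable_WV E e)).ennreal_ofReal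
        rw [lintegral_const_mul _ hLm]
        have h8 : ENNReal.ofReal (65 / ε) = ENNReal.ofReal (130 / 4) * ENNReal.ofReal (2 / ε) := by
          rw [← ENNReal.ofReal_mul (by norm_num)]
          congr 1
          ring
        rw [h8]
        ring

/-! ### real valued sums and `ofReal` -/

theorem measurable_Loss (M : Finset ι) : Measurable fun W : ι → ℂ => Loss A a M W := by
  unfold Loss
  exact Finset.measurable_sum _ fun z _ => (meas_ew z).mul (measurable_LsW z)

theorem Loss_nonneg (hA : A.IsSymm) {W : ι → ℂ} (hW : ∀ x, (W x).im < 0) (M : Finset ι) :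
    0 ≤ Loss A a M W :=
  Finset.sum_nonneg fun z _ => mul_nonneg (ew_pos hW z).le (Ls_nonneg hA hW z)

theorem measurable_QmW (z w : ι) : Measurable fun W : ι → ℂ => Qm A W a z w := by
  unfold Qm muf PP
  refine (measurable_TmW z w).sub (Measurable.mul ?_ ?_)
  · refine Measurable.const_mul (Complex.measurable_ofReal.comp ?_) _
    refine (Finset.measurable_sum _ fun y _ => ?_).sub_const _
    exact ((((Complex.measurable_im.comp (measurable_pi_apply y)).neg).mul
      (measurable_KKW w y)).div (measurable_mmW w)).mul_const _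
  · exact Complex.continuous_conj.measurable.comp (measurable_GrW z w)

/-- **(J)**: strong pairs with good second site are bounded by the loss -/
theorem J_le (hA : A.IsSymm) (he : ∀ x, 0 < e x) {M : Finset ι} {ε : ℝ} (hε : 0 < ε)
    {S : ι → Set (ι → ℂ)} (hS : ∀ w, MeasurableSet (S w)) {C : ℝ≥0∞}
    (h : ∀ w ∈ M, RP A E e ν w (S w) C) :
    ∫⁻ v, ENNReal.ofReal (Jst A a M S ε (WV E e v)) ∂(Measure.pi ν) ≤
      (ENNReal.ofReal (130 / ε) * C + ENNReal.ofReal (1 / 2)) *
        ∫⁻ v, ENNReal.ofReal (Loss A a M (WV E e v)) ∂(Measure.pi ν) := by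
  set F : ι → ι → (ι → ℂ) → ℝ≥0∞ := fun z w =>
    (S w ∩ {W | ε ≤ kap A W z w}).indicator
        (fun W => ENNReal.ofReal (kap A W z w * ‖Qm A W a z w‖ ^ 2)) with hF
  have hFm : ∀ z w, Measurable (F z w) := fun z w =>
    ((measurable_kapW z w).mul ((measurable_QmW z w).norm.pow_const 2)).ennreal_ofReal.indicator
      ((hS w).inter (measurableSet_le measurable_const (measurable_kapW z w)))
  have hFv : ∀ z w, Measurable fun v : ι → ℝ => ENNReal.ofReal (2 * (e z * e w)) *
      F z w (WV E e v) := fun z w => ((hFm z w).comp (measurable_WV E e)).const_mul _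
  have hpt : ∀ v : ι → ℝ, ENNReal.ofReal (Jst A a M S ε (WV E e v)) ≤
      ∑ z ∈ M, ∑ w ∈ M, ENNReal.ofReal (2 * (e z * e w)) * F z w (WV E e v) +
        ENNReal.ofReal (1 / 2) * ENNReal.ofReal (Loss A a M (WV E e v)) := by
    intro v
    set W := WV E e v with hWd
    have hW : ∀ x, (W x).im < 0 := WV_neg he v
    have hew : ∀ x, ew W x = e x := fun x => by rw [hWd, ew_WV]
    have hk0 := fun z w => kap_nonneg (A := A) hA hW z w
    have hk1 := fun z w => (kap_lt_one (A := A) hA hW z w).le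
    have hLs := fun z => Ls_nonneg (a := a) hA hW z
    set q : ι → ι → ℝ := fun z w => if W ∈ S w ∧ ε ≤ kap A W z w then
      2 * (e z * e w) * (kap A W z w * ‖Qm A W a z w‖ ^ 2) else 0 with hq
    have hq0 : ∀ z w, 0 ≤ q z w := by
      intro z w
      rw [hq]
      simp only
      split_ifs
      · have := he z; have := he w; have := hk0 z w; positivity
      · exact le_rfl
    have h1 : ∀ z w, ENNReal.ofReal (2 * (e z * e w)) * F z w W = ENNReal.ofReal (q z w) := by
      intro z w
      by_cases hc : W ∈ S w ∧ ε ≤ kap A W z w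
      · have hc' : W ∈ S w ∩ {W | ε ≤ kap A W z w} := hc
        simp only [hF, hq]
        rw [Set.indicator_of_mem hc', if_pos hc, ← ENNReal.ofReal_mul]
        have := he z; have := he w; positivity
      · have hc' : W ∉ S w ∩ {W | ε ≤ kap A W z w} := hc
        simp only [hF, hq]
        rw [Set.indicator_of_notMem hc', if_neg hc, mul_zero, ENNReal.ofReal_zero]
    simp only [h1]
    have h2 : ∑ z ∈ M, ∑ w ∈ M, ENNReal.ofReal (q z w) =
        ENNReal.ofReal (∑ z ∈ M, ∑ w ∈ M, q z w) := by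
      rw [ENNReal.ofReal_sum_of_nonneg fun z _ => Finset.sum_nonneg fun w _ => hq0 z w]
      refine Finset.sum_congr rfl fun z _ => ?_
      rw [ENNReal.ofReal_sum_of_nonneg fun w _ => hq0 z w]
    have hL0 := Loss_nonneg (a := a) hA hW M
    have hs0 : 0 ≤ ∑ z ∈ M, ∑ w ∈ M, q z w :=
      Finset.sum_nonneg fun z _ => Finset.sum_nonneg fun w _ => hq0 z w
    rw [h2, ← ENNReal.ofReal_mul (by norm_num), ← ENNReal.ofReal_add hs0 (by positivity)]
    refine ENNReal.ofReal_le_ofReal ?_
    -- real inequality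
    have h3 : ∀ z w, (if W ∈ S w ∧ ε ≤ kap A W z w then
        ew W z * ew W w * (kap A W z w * ‖Tm A W a z w‖ ^ 2) else 0) ≤
        q z w + 1 / 2 * (e w * muf A W a w ^ 2 * (ew W z * KK A W z w)) := by
      intro z w
      have h4 : 0 ≤ 1 / 2 * (e w * muf A W a w ^ 2 * (ew W z * KK A W z w)) := by
        have := he w; have := ew_pos hW z; have := KK_nonneg (A := A) (W := W) z w
        positivity
      rw [hq]
      simp only
      split_ifs
      · rw [hew z, hew w]
        have h5 := norm_T_le (A := A) (a := a) W z w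
        have h6 := hk0 z w
        have h7 := hk1 z w
        have hK := KK_nonneg (A := A) (W := W) z w
        have h8 : kap A W z w * ‖Tm A W a z w‖ ^ 2 ≤
            2 * (kap A W z w * ‖Qm A W a z w‖ ^ 2) +
              1 / 2 * (muf A W a w ^ 2 * KK A W z w) := by
          have h9 := mul_le_mul_of_nonneg_left h5 h6
          have h10 : kap A W z w * (1 / 2 * (muf A W a w ^ 2 * KK A W z w)) ≤
              1 * (1 / 2 * (muf A W a w ^ 2 * KK A W z w)) :=
            mul_le_mul_of_nonneg_right h7 (by positivity)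
          nlinarith
        have h11 : 0 ≤ e z * e w := mul_nonneg (he z).le (he w).le
        have h12 := mul_le_mul_of_nonneg_left h8 h11
        nlinarith
      · linarith
    have h4 : Jst A a M S ε W ≤ ∑ z ∈ M, ∑ w ∈ M,
        (q z w + 1 / 2 * (e w * muf A W a w ^ 2 * (ew W z * KK A W z w))) :=
      Finset.sum_le_sum fun z _ => Finset.sum_le_sum fun w _ => h3 z w
    refine h4.trans ?_
    simp only [Finset.sum_add_distrib]
    refine add_le_add le_rfl ?_
    rw [Finset.sum_comm, Loss, Finset.mul_sum]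
    refine Finset.sum_le_sum fun w _ => ?_
    rw [← Finset.mul_sum, ← Finset.mul_sum]
    have h5 : ∑ z ∈ M, ew W z * KK A W z w ≤ mm A W w := by
      rw [← sum_ew_KK hA hW w]
      exact Finset.sum_le_sum_of_subset_of_nonneg (Finset.subset_univ _) fun z _ _ =>
        mul_nonneg (ew_pos hW z).le (KK_nonneg _ _)
    rw [Ls_eq hA hW, hew w]
    have h6 : 0 ≤ e w * muf A W a w ^ 2 := mul_nonneg (he w).le (sq_nonneg _)
    nlinarith [mul_le_mul_of_nonneg_left h5 h6]
  calc ∫⁻ v, ENNReal.ofReal (Jst A a M S ε (WV E e v)) ∂(Measure.pi ν)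
      ≤ ∫⁻ v, (∑ z ∈ M, ∑ w ∈ M, ENNReal.ofReal (2 * (e z * e w)) * F z w (WV E e v) +
        ENNReal.ofReal (1 / 2) * ENNReal.ofReal (Loss A a M (WV E e v))) ∂(Measure.pi ν) :=
        lintegral_mono hpt
    _ = ∑ z ∈ M, ∑ w ∈ M, ENNReal.ofReal (2 * (e z * e w)) *
          ∫⁻ v, F z w (WV E e v) ∂(Measure.pi ν) +
        ENNReal.ofReal (1 / 2) * ∫⁻ v, ENNReal.ofReal (Loss A a M (WV E e v))
          ∂(Measure.pi ν) := by
        have hLv : Measurable fun v : ι → ℝ => ENNReal.ofReal (Loss A a M (WV E e v)) :=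
          ((measurable_Loss M).comp (measurable_WV E e)).ennreal_ofReal
        rw [lintegral_add_left
          (Finset.measurable_sum _ fun z _ => Finset.measurable_sum _ fun w _ => hFv z w),
          lintegral_finsetSum _ fun z _ => Finset.measurable_sum _ fun w _ => hFv z w,
          lintegral_const_mul _ hLv]
        congr 1
        refine Finset.sum_congr rfl fun z _ => ?_
        rw [lintegral_finsetSum _ fun w _ => hFv z w]
        refine Finset.sum_congr rfl fun w _ => ?_
        have hFv0 : Measurable fun v : ι → ℝ => F z w (WV E e v) :=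
          (hFm z w).comp (measurable_WV E e)
        rw [lintegral_const_mul _ hFv0]
    _ = ENNReal.ofReal 2 * ∑ z ∈ M, ∑ w ∈ M, ENNReal.ofReal (e z * e w) *
          ∫⁻ v, F z w (WV E e v) ∂(Measure.pi ν) +
        ENNReal.ofReal (1 / 2) * ∫⁻ v, ENNReal.ofReal (Loss A a M (WV E e v))
          ∂(Measure.pi ν) := by
        congr 1
        rw [Finset.mul_sum]
        refine Finset.sum_congr rfl fun z _ => ?_
        rw [Finset.mul_sum]
        refine Finset.sum_congr rfl fun w _ => ?_
        rw [ENNReal.ofReal_mul (by norm_num), mul_assoc]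
    _ ≤ ENNReal.ofReal 2 * (ENNReal.ofReal (65 / ε) * (C *
          ∫⁻ v, ENNReal.ofReal (Loss A a M (WV E e v)) ∂(Measure.pi ν))) +
        ENNReal.ofReal (1 / 2) * ∫⁻ v, ENNReal.ofReal (Loss A a M (WV E e v))
          ∂(Measure.pi ν) :=
        add_le_add (mul_le_mul_right (S1_sum hA he hε hS h) _) le_rfl
    _ = _ := by
        have h8 : ENNReal.ofReal (130 / ε) = ENNReal.ofReal 2 * ENNReal.ofReal (65 / ε) := by
          rw [← ENNReal.ofReal_mul (by norm_num)]
          congr 1
          ring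
        rw [h8]
        ring

/-! ### (S2) and the chains -/

/-- all strong pairs -/
noncomputable def Jall (A : Matrix ι ι ℝ) (a : ι → ℝ) (M : Finset ι) (ε : ℝ)
    (W : ι → ℂ) : ℝ :=
  ∑ z ∈ M, ∑ w ∈ M, if ε ≤ kap A W z w then
    ew W z * ew W w * (kap A W z w * ‖Tm A W a z w‖ ^ 2) else 0

theorem Jall_le (hA : A.IsSymm) {W : ι → ℂ} (hW : ∀ x, (W x).im < 0) (M : Finset ι)
    (S : ι → Set (ι → ℂ)) (ε : ℝ) :
    Jall A a M ε W ≤ Jst A a M S ε W + 1 / 4 * Bad A a M S W := by
  have hk0 := fun z w => kap_nonneg (A := A) hA hW z w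
  have hk1 := fun z w => (kap_lt_one (A := A) hA hW z w).le
  have h1 : Jall A a M ε W ≤ ∑ z ∈ M, ∑ w ∈ M, ((if W ∈ S w ∧ ε ≤ kap A W z w then
      ew W z * ew W w * (kap A W z w * ‖Tm A W a z w‖ ^ 2) else 0) +
      (if W ∉ S w then ew W w * (ew W z * ‖Tm A W a z w‖ ^ 2) else 0)) := by
    unfold Jall
    refine Finset.sum_le_sum fun z _ => Finset.sum_le_sum fun w _ => ?_
    have hz := ew_pos hW z
    have hw := ew_pos hW w
    have h0 : 0 ≤ ew W z * ew W w * (kap A W z w * ‖Tm A W a z w‖ ^ 2) := by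
      have := hk0 z w; positivity
    have h2 : ew W z * ew W w * (kap A W z w * ‖Tm A W a z w‖ ^ 2) ≤
        ew W w * (ew W z * ‖Tm A W a z w‖ ^ 2) := by
      have h3 : kap A W z w * ‖Tm A W a z w‖ ^ 2 ≤ 1 * ‖Tm A W a z w‖ ^ 2 :=
        mul_le_mul_of_nonneg_right (hk1 z w) (sq_nonneg _)
      have h4 := mul_le_mul_of_nonneg_left h3 (mul_pos hz hw).le
      nlinarith
    by_cases hS : W ∈ S w
    · by_cases hε : ε ≤ kap A W z w
      · rw [if_pos hε, if_pos ⟨hS, hε⟩, if_neg (not_not.2 hS), add_zero]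
      · rw [if_neg hε, if_neg (fun h => hε h.2), if_neg (not_not.2 hS), add_zero]
    · have hne : ¬ (W ∈ S w ∧ ε ≤ kap A W z w) := fun h => hS h.1
      rw [if_neg hne, if_pos hS, zero_add]
      by_cases hε : ε ≤ kap A W z w
      · rw [if_pos hε]; exact h2
      · rw [if_neg hε]; exact h0.trans h2
  refine h1.trans ?_
  simp only [Finset.sum_add_distrib]
  refine add_le_add le_rfl ?_
  rw [Finset.sum_comm, Bad, Finset.mul_sum]
  refine Finset.sum_le_sum fun w _ => ?_
  by_cases hS : W ∈ S w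
  · simp only [if_neg (not_not.2 hS), Finset.sum_const_zero, mul_zero, le_refl]
  · simp only [if_pos hS]
    rw [← Finset.mul_sum]
    have h2 : ∑ z ∈ M, ew W z * ‖Tm A W a z w‖ ^ 2 ≤ ∑ z, ew W z * ‖Tm A W a z w‖ ^ 2 :=
      Finset.sum_le_sum_of_subset_of_nonneg (Finset.subset_univ _) fun z _ _ =>
        mul_nonneg (ew_pos hW z).le (sq_nonneg _)
    rw [row_T hA hW w] at h2
    have h3 := mul_le_mul_of_nonneg_left h2 (ew_pos hW w).le
    refine h3.trans (le_of_eq ?_)
    rw [Finset.mul_sum, Finset.mul_sum, Finset.mul_sum]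
    refine Finset.sum_congr rfl fun z _ => ?_
    ring

theorem measurable_Jall (M : Finset ι) (ε : ℝ) : Measurable fun W : ι → ℂ => Jall A a M ε W := by
  unfold Jall
  refine Finset.measurable_sum _ fun z _ => Finset.measurable_sum _ fun w _ => ?_
  refine Measurable.ite (measurableSet_le measurable_const (measurable_kapW z w)) ?_
    measurable_const
  exact ((meas_ew z).mul (meas_ew w)).mul
    ((measurable_kapW z w).mul ((measurable_TmW z w).norm.pow_const 2))

theorem measurable_Bad (M : Finset ι) {S : ι → Set (ι → ℂ)} (hS : ∀ w, MeasurableSet (S w)) :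
    Measurable fun W : ι → ℂ => Bad A a M S W := by
  unfold Bad
  refine Finset.measurable_sum _ fun w _ => ?_
  refine Measurable.ite (hS w).compl ?_ measurable_const
  exact Finset.measurable_sum _ fun z _ => (meas_ew z).mul
    ((meas_ew w).mul ((measurable_KKW z w).mul_const _))

theorem Bad_nonneg {W : ι → ℂ} (hW : ∀ x, (W x).im < 0) (M : Finset ι)
    (S : ι → Set (ι → ℂ)) : 0 ≤ Bad A a M S W := by
  unfold Bad
  refine Finset.sum_nonneg fun w _ => ?_
  have h1 : 0 ≤ ∑ z, ew W z * (ew W w * (KK A W z w * (a z - a w) ^ 2)) :=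
    Finset.sum_nonneg fun z _ => mul_nonneg (ew_pos hW z).le
      (mul_nonneg (ew_pos hW w).le (mul_nonneg (KK_nonneg z w) (sq_nonneg _)))
  by_cases hS : W ∉ S w
  · rw [if_pos hS]; exact h1
  · rw [if_neg hS]

theorem Jst_nonneg (hA : A.IsSymm) {W : ι → ℂ} (hW : ∀ x, (W x).im < 0) (M : Finset ι)
    (S : ι → Set (ι → ℂ)) (ε : ℝ) : 0 ≤ Jst A a M S ε W := by
  unfold Jst
  refine Finset.sum_nonneg fun z _ => Finset.sum_nonneg fun w _ => ?_
  split_ifs
  · exact mul_nonneg (mul_nonneg (ew_pos hW z).le (ew_pos hW w).le)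
      (mul_nonneg (kap_nonneg hA hW z w) (sq_nonneg _))
  · exact le_rfl

/-- (S2), one triple -/
theorem S2_site (hA : A.IsSymm) (he : ∀ x, 0 < e x) {z x u : ι} {ε1 ε2 : ℝ} (hε1 : 0 ≤ ε1)
    (hε2 : 0 ≤ ε2) {S : Set (ι → ℂ)}
    (hS : MeasurableSet S) {C : ℝ≥0∞} (h : RP A E e ν u S C) :
    ∫⁻ v, (S ∩ {W | ε2 ≤ kap A W z u ∧ ε1 ≤ kap A W u x}).indicator
        (fun W => ENNReal.ofReal (mm A W u) *
          ENNReal.ofReal (kap A W z u * kap A W u x * ‖Tm A W a z x‖ ^ 2)) (WV E e v)
          ∂(Measure.pi ν) ≤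
      57274624 * (C * ∫⁻ v, ENNReal.ofReal (mm A (WV E e v) u) *
        {W | ε1 / 2 ≤ kap A W u x ∧ ε1 * ε2 / 968 ≤ kap A W z x}.indicator
          (fun W => ENNReal.ofReal (kap A W z x * ‖Tm A W a z x‖ ^ 2)) (WV E e v)
          ∂(Measure.pi ν)) := by
  set Φ : (ι → ℂ) → ℝ≥0∞ :=
    {W | ε1 / 2 ≤ kap A W u x ∧ ε1 * ε2 / 968 ≤ kap A W z x}.indicator
      (fun W => ENNReal.ofReal (kap A W z x * ‖Tm A W a z x‖ ^ 2)) with hΦ
  have hΦm : Measurable Φ :=
    ((measurable_kapW z x).mul ((measurable_TmW z x).norm.pow_const 2)).ennreal_ofReal.indicator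
      ((measurableSet_le measurable_const (measurable_kapW u x)).inter
        (measurableSet_le measurable_const (measurable_kapW z x)))
  refine le_trans ?_ (mul_le_mul_right (resampleE hA he ν hS h hΦm) _)
  have hm : Measurable fun v : ι → ℝ =>
      S.indicator (fun W => ENNReal.ofReal (mm A W u) * hcE A W u Φ) (WV E e v) :=
    (((measurable_mmW u).ennreal_ofReal.mul (measurable_hcE u hΦm)).indicator hS).comp
      (measurable_WV E e)
  rw [← lintegral_const_mul _ hm]
  refine lintegral_mono fun v => ?_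
  set W := WV E e v with hWd
  have hW : ∀ x, (W x).im < 0 := WV_neg he v
  by_cases hc : W ∈ S ∩ {W | ε2 ≤ kap A W z u ∧ ε1 ≤ kap A W u x}
  · rw [Set.indicator_of_mem hc, Set.indicator_of_mem hc.1, mul_left_comm]
    refine mul_le_mul_right (T2E hA hW u z x hΦm fun t _ _ h3 => ?_) _
    have h1 := kap_kick' (A := A) hA hW u x t
    obtain ⟨_, hc1, hc2⟩ := hc
    have h4 : kick A W u t ∈ {W | ε1 / 2 ≤ kap A W u x ∧ ε1 * ε2 / 968 ≤ kap A W z x} := by
      refine ⟨?_, ?_⟩
      · show ε1 / 2 ≤ kap A (kick A W u t) u x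
        linarith
      · show ε1 * ε2 / 968 ≤ kap A (kick A W u t) z x
        have h5 : ε1 * ε2 ≤ kap A W z u * kap A W u x := by
          rw [mul_comm ε1]
          exact mul_le_mul hc1 hc2 hε1 (kap_nonneg hA hW z u)
        linarith
    rw [hΦ, Set.indicator_of_mem h4]
  · rw [Set.indicator_of_notMem hc]
    exact zero_le

/-- **(L)**: strong chains with good middle site are bounded by the strong pairs -/
theorem Lst_le_Jall (hA : A.IsSymm) (he : ∀ x, 0 < e x) {M : Finset ι} {ε1 ε2 : ℝ}
    (hε1 : 0 < ε1) (hε2 : 0 < ε2)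
    {S : ι → Set (ι → ℂ)} (hS : ∀ w, MeasurableSet (S w)) {C : ℝ≥0∞}
    (h : ∀ w ∈ M, RP A E e ν w (S w) C) :
    ∫⁻ v, ENNReal.ofReal (Lst A a M S ε1 ε2 (WV E e v)) ∂(Measure.pi ν) ≤
      ENNReal.ofReal (114549248 / ε1) * (C *
        ∫⁻ v, ENNReal.ofReal (Jall A a M (ε1 * ε2 / 968) (WV E e v)) ∂(Measure.pi ν)) := by
  set F : ι → ι → ι → (ι → ℂ) → ℝ≥0∞ := fun z x u =>
    (S u ∩ {W | ε2 ≤ kap A W z u ∧ ε1 ≤ kap A W u x}).indicator
        (fun W => ENNReal.ofReal (mm A W u) *
          ENNReal.ofReal (kap A W z u * kap A W u x * ‖Tm A W a z x‖ ^ 2)) with hF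
  set Φ : ι → ι → ι → (ι → ℂ) → ℝ≥0∞ := fun z x u =>
    {W | ε1 / 2 ≤ kap A W u x ∧ ε1 * ε2 / 968 ≤ kap A W z x}.indicator
      (fun W => ENNReal.ofReal (kap A W z x * ‖Tm A W a z x‖ ^ 2)) with hΦ
  have hΦm : ∀ z x u, Measurable (Φ z x u) := fun z x u =>
    ((measurable_kapW z x).mul ((measurable_TmW z x).norm.pow_const 2)).ennreal_ofReal.indicator
      ((measurableSet_le measurable_const (measurable_kapW u x)).inter
        (measurableSet_le measurable_const (measurable_kapW z x)))
  have hFm : ∀ z x u, Measurable (F z x u) := fun z x u =>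
    ((measurable_mmW u).ennreal_ofReal.mul (((measurable_kapW z u).mul (measurable_kapW u x)).mul
      ((measurable_TmW z x).norm.pow_const 2)).ennreal_ofReal).indicator
      ((hS u).inter ((measurableSet_le measurable_const (measurable_kapW z u)).inter
        (measurableSet_le measurable_const (measurable_kapW u x))))
  have hFv0 : ∀ z x u, Measurable fun v : ι → ℝ => F z x u (WV E e v) := fun z x u =>
    (hFm z x u).comp (measurable_WV E e)
  have hFv : ∀ z x u, Measurable fun v : ι → ℝ => ENNReal.ofReal (e z * e x * e u) *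
      F z x u (WV E e v) := fun z x u => (hFv0 z x u).const_mul _
  have hPv0 : ∀ z x u, Measurable fun v : ι → ℝ =>
      ENNReal.ofReal (mm A (WV E e v) u) * Φ z x u (WV E e v) := fun z x u =>
    ((measurable_mmW u).ennreal_ofReal.mul (hΦm z x u)).comp (measurable_WV E e)
  have hPv : ∀ z x u, Measurable fun v : ι → ℝ => ENNReal.ofReal (e z * e x * e u) *
      (ENNReal.ofReal (mm A (WV E e v) u) * Φ z x u (WV E e v)) := fun z x u =>
    (hPv0 z x u).const_mul _
  -- Step 1: the left side is a sum of integrals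
  have hpt : ∀ v : ι → ℝ, ENNReal.ofReal (Lst A a M S ε1 ε2 (WV E e v)) =
      ∑ z ∈ M, ∑ x ∈ M, ∑ u ∈ M, ENNReal.ofReal (e z * e x * e u) * F z x u (WV E e v) := by
    intro v
    set W := WV E e v with hWd
    have hW : ∀ x, (W x).im < 0 := WV_neg he v
    have hew : ∀ x, ew W x = e x := fun x => by rw [hWd, ew_WV]
    have hk0 := fun z w => kap_nonneg (A := A) hA hW z w
    have hmm := fun z => (mm_pos (A := A) hA hW z).le
    set q : ι → ι → ι → ℝ := fun z x u =>
      if W ∈ S u ∧ ε2 ≤ kap A W z u ∧ ε1 ≤ kap A W u x then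
      ew W z * ew W x * ‖Tm A W a z x‖ ^ 2 * (ew W u * mm A W u * (kap A W z u * kap A W u x))
      else 0 with hq
    have hq0 : ∀ z x u, 0 ≤ q z x u := by
      intro z x u
      rw [hq]
      simp only
      split_ifs
      · have := ew_pos hW z; have := ew_pos hW x; have := ew_pos hW u
        have := hk0 z u; have := hk0 u x; have := hmm u
        positivity
      · exact le_rfl
    have h1 : ∀ z x u, ENNReal.ofReal (e z * e x * e u) * F z x u W =
        ENNReal.ofReal (q z x u) := by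
      intro z x u
      have := he z; have := he x; have := he u
      by_cases hc : W ∈ S u ∧ ε2 ≤ kap A W z u ∧ ε1 ≤ kap A W u x
      · have hc' : W ∈ S u ∩ {W | ε2 ≤ kap A W z u ∧ ε1 ≤ kap A W u x} := hc
        simp only [hF, hq]
        rw [Set.indicator_of_mem hc', if_pos hc, ← ENNReal.ofReal_mul (hmm u),
          ← ENNReal.ofReal_mul (by positivity), hew, hew, hew]
        congr 1
        ring
      · have hc' : W ∉ S u ∩ {W | ε2 ≤ kap A W z u ∧ ε1 ≤ kap A W u x} := hc
        simp only [hF, hq]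
        rw [Set.indicator_of_notMem hc', if_neg hc, mul_zero, ENNReal.ofReal_zero]
    simp only [h1]
    show ENNReal.ofReal (∑ z ∈ M, ∑ x ∈ M, ∑ u ∈ M, q z x u) = _
    rw [ENNReal.ofReal_sum_of_nonneg fun z _ => Finset.sum_nonneg fun x _ =>
      Finset.sum_nonneg fun u _ => hq0 z x u]
    refine Finset.sum_congr rfl fun z _ => ?_
    rw [ENNReal.ofReal_sum_of_nonneg fun x _ => Finset.sum_nonneg fun u _ => hq0 z x u]
    refine Finset.sum_congr rfl fun x _ => ?_
    rw [ENNReal.ofReal_sum_of_nonneg fun u _ => hq0 z x u]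
  simp only [hpt]
  -- Step 2: resample and sum over `u`
  calc ∫⁻ v, ∑ z ∈ M, ∑ x ∈ M, ∑ u ∈ M, ENNReal.ofReal (e z * e x * e u) * F z x u (WV E e v)
        ∂(Measure.pi ν)
      = ∑ z ∈ M, ∑ x ∈ M, ∑ u ∈ M, ENNReal.ofReal (e z * e x * e u) *
          ∫⁻ v, F z x u (WV E e v) ∂(Measure.pi ν) := by
        rw [lintegral_finsetSum _ fun z _ => Finset.measurable_sum _ fun x _ =>
          Finset.measurable_sum _ fun u _ => hFv z x u]
        refine Finset.sum_congr rfl fun z _ => ?_
        rw [lintegral_finsetSum _ fun x _ => Finset.measurable_sum _ fun u _ => hFv z x u]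
        refine Finset.sum_congr rfl fun x _ => ?_
        rw [lintegral_finsetSum _ fun u _ => hFv z x u]
        refine Finset.sum_congr rfl fun u _ => ?_
        rw [lintegral_const_mul _ (hFv0 z x u)]
    _ ≤ ∑ z ∈ M, ∑ x ∈ M, ∑ u ∈ M, ENNReal.ofReal (e z * e x * e u) *
          (57274624 * (C * ∫⁻ v, ENNReal.ofReal (mm A (WV E e v) u) * Φ z x u (WV E e v)
            ∂(Measure.pi ν))) :=
        Finset.sum_le_sum fun z _ => Finset.sum_le_sum fun x _ => Finset.sum_le_sum fun u hu =>
          mul_le_mul_right (S2_site hA he hε1.le hε2.le (hS u) (h u hu)) _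
    _ = 57274624 * (C * ∫⁻ v, ∑ z ∈ M, ∑ x ∈ M, ∑ u ∈ M, ENNReal.ofReal (e z * e x * e u) *
          (ENNReal.ofReal (mm A (WV E e v) u) * Φ z x u (WV E e v)) ∂(Measure.pi ν)) := by
        rw [lintegral_finsetSum _ fun z _ => Finset.measurable_sum _ fun x _ =>
          Finset.measurable_sum _ fun u _ => hPv z x u, Finset.mul_sum, Finset.mul_sum]
        refine Finset.sum_congr rfl fun z _ => ?_
        rw [lintegral_finsetSum _ fun x _ => Finset.measurable_sum _ fun u _ => hPv z x u,
          Finset.mul_sum, Finset.mul_sum]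
        refine Finset.sum_congr rfl fun x _ => ?_
        rw [lintegral_finsetSum _ fun u _ => hPv z x u, Finset.mul_sum, Finset.mul_sum]
        refine Finset.sum_congr rfl fun u _ => ?_
        rw [lintegral_const_mul _ (hPv0 z x u)]
        ring
    _ ≤ 57274624 * (C * ∫⁻ v, ENNReal.ofReal (2 / ε1) *
          ENNReal.ofReal (Jall A a M (ε1 * ε2 / 968) (WV E e v)) ∂(Measure.pi ν)) := by
        refine mul_le_mul_right (mul_le_mul_right (lintegral_mono fun v => ?_) _) _
        set W := WV E e v with hWd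
        have hW : ∀ x, (W x).im < 0 := WV_neg he v
        have hew : ∀ x, ew W x = e x := fun x => by rw [hWd, ew_WV]
        have hk0 := fun z w => kap_nonneg (A := A) hA hW z w
        have hmm := fun z => (mm_pos (A := A) hA hW z).le
        set j : ι → ι → ℝ := fun z x => if ε1 * ε2 / 968 ≤ kap A W z x then
          ew W z * ew W x * (kap A W z x * ‖Tm A W a z x‖ ^ 2) else 0 with hj
        have hj0 : ∀ z x, 0 ≤ j z x := by
          intro z x
          rw [hj]
          simp only
          split_ifs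
          · exact mul_nonneg (mul_nonneg (ew_pos hW z).le (ew_pos hW x).le)
              (mul_nonneg (hk0 z x) (sq_nonneg _))
          · exact le_rfl
        set mu : ι → ι → ℝ := fun x u => if ε1 / 2 ≤ kap A W x u then ew W u * mm A W u else 0
          with hmu
        have hmu0 : ∀ x u, 0 ≤ mu x u := by
          intro x u
          rw [hmu]
          simp only
          split_ifs
          · exact mul_nonneg (ew_pos hW u).le (hmm u)
          · exact le_rfl
        have h1 : ∀ z x u, ENNReal.ofReal (e z * e x * e u) *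
            (ENNReal.ofReal (mm A W u) * Φ z x u W) = ENNReal.ofReal (j z x * mu x u) := by
          intro z x u
          have := he z; have := he x; have := he u
          by_cases hc : ε1 / 2 ≤ kap A W u x ∧ ε1 * ε2 / 968 ≤ kap A W z x
          · have hc' : W ∈ {W | ε1 / 2 ≤ kap A W u x ∧ ε1 * ε2 / 968 ≤ kap A W z x} := hc
            have hc2 : ε1 / 2 ≤ kap A W x u := by rw [kap_symm hA]; exact hc.1
            simp only [hΦ, hj, hmu]
            rw [Set.indicator_of_mem hc', if_pos hc.2, if_pos hc2,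
              ← ENNReal.ofReal_mul (hmm u), ← ENNReal.ofReal_mul (by positivity), hew, hew, hew]
            congr 1
            ring
          · have hc' : W ∉ {W | ε1 / 2 ≤ kap A W u x ∧ ε1 * ε2 / 968 ≤ kap A W z x} := hc
            have h2 : j z x * mu x u = 0 := by
              by_cases h3 : ε1 * ε2 / 968 ≤ kap A W z x
              · have h4 : ¬ ε1 / 2 ≤ kap A W x u := by
                  rw [kap_symm hA]
                  exact fun h5 => hc ⟨h5, h3⟩
                simp only [hmu]
                rw [if_neg h4, mul_zero]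
              · simp only [hj]
                rw [if_neg h3, zero_mul]
            simp only [hΦ]
            rw [Set.indicator_of_notMem hc', h2, mul_zero, mul_zero, ENNReal.ofReal_zero]
        simp only [h1]
        have hjm : ∀ z x u, 0 ≤ j z x * mu x u := fun z x u => mul_nonneg (hj0 z x) (hmu0 x u)
        have h2 : ∑ z ∈ M, ∑ x ∈ M, ∑ u ∈ M, ENNReal.ofReal (j z x * mu x u) =
            ENNReal.ofReal (∑ z ∈ M, ∑ x ∈ M, ∑ u ∈ M, j z x * mu x u) := by
          rw [ENNReal.ofReal_sum_of_nonneg fun z _ => Finset.sum_nonneg fun x _ =>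
            Finset.sum_nonneg fun u _ => hjm z x u]
          refine Finset.sum_congr rfl fun z _ => ?_
          rw [ENNReal.ofReal_sum_of_nonneg fun x _ => Finset.sum_nonneg fun u _ => hjm z x u]
          refine Finset.sum_congr rfl fun x _ => ?_
          rw [ENNReal.ofReal_sum_of_nonneg fun u _ => hjm z x u]
        rw [h2, ← ENNReal.ofReal_mul (by positivity)]
        refine ENNReal.ofReal_le_ofReal ?_
        show _ ≤ 2 / ε1 * ∑ z ∈ M, ∑ x ∈ M, j z x
        rw [Finset.mul_sum]
        refine Finset.sum_le_sum fun z _ => ?_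
        rw [Finset.mul_sum]
        refine Finset.sum_le_sum fun x _ => ?_
        rw [← Finset.mul_sum]
        have h4 : ∑ u ∈ M, mu x u ≤ 1 / (ε1 / 2) := strong_mass hA hW (half_pos hε1) x M
        have h6 : 1 / (ε1 / 2) = 2 / ε1 := by field_simp
        rw [h6] at h4
        calc j z x * ∑ u ∈ M, mu x u ≤ j z x * (2 / ε1) :=
              mul_le_mul_of_nonneg_left h4 (hj0 z x)
          _ = 2 / ε1 * j z x := by ring
    _ = _ := by
        have hJv : Measurable fun v : ι → ℝ =>
            ENNReal.ofReal (Jall A a M (ε1 * ε2 / 968) (WV E e v)) :=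
          ((measurable_Jall M _).comp (measurable_WV E e)).ennreal_ofReal
        rw [lintegral_const_mul _ hJv]
        have h8 : ENNReal.ofReal (114549248 / ε1) = 57274624 * ENNReal.ofReal (2 / ε1) := by
          have h9 : (57274624 : ℝ≥0∞) = ENNReal.ofReal 57274624 := by norm_num
          rw [h9, ← ENNReal.ofReal_mul (by norm_num)]
          congr 1
          ring
        rw [h8]
        ring

/-- **strong chains are bounded by the loss and by the content of the bad sites** -/
theorem Lam_le (hA : A.IsSymm) (he : ∀ x, 0 < e x) {M : Finset ι} {ε1 ε2 : ℝ}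
    (hε1 : 0 < ε1) (hε2 : 0 < ε2)
    {S : ι → Set (ι → ℂ)} (hS : ∀ w, MeasurableSet (S w)) {C : ℝ≥0∞}
    (h : ∀ w ∈ M, RP A E e ν w (S w) C) :
    ∫⁻ v, ENNReal.ofReal (Lst A a M S ε1 ε2 (WV E e v)) ∂(Measure.pi ν) ≤
      ENNReal.ofReal (114549248 / ε1) * (C *
        ((ENNReal.ofReal (130 / (ε1 * ε2 / 968)) * C + ENNReal.ofReal (1 / 2)) *
          ∫⁻ v, ENNReal.ofReal (Loss A a M (WV E e v)) ∂(Measure.pi ν) +
          ENNReal.ofReal (1 / 4) *
            ∫⁻ v, ENNReal.ofReal (Bad A a M S (WV E e v)) ∂(Measure.pi ν))) := by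
  refine (Lst_le_Jall hA he hε1 hε2 hS h).trans ?_
  refine mul_le_mul_right (mul_le_mul_right ?_ _) _
  have hε' : 0 < ε1 * ε2 / 968 := by positivity
  refine le_trans ?_ (add_le_add (J_le hA he hε' hS h) le_rfl)
  have hBv : Measurable fun v : ι → ℝ => ENNReal.ofReal (Bad A a M S (WV E e v)) :=
    ((measurable_Bad M hS).comp (measurable_WV E e)).ennreal_ofReal
  rw [← lintegral_const_mul _ hBv, ← lintegral_add_right _ (hBv.const_mul _)]
  refine lintegral_mono fun v => ?_
  have hW : ∀ x, (WV E e v x).im < 0 := WV_neg he v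
  rw [← ENNReal.ofReal_mul (by norm_num), ← ENNReal.ofReal_add (Jst_nonneg hA hW M S _)
    (mul_nonneg (by norm_num) (Bad_nonneg hW M S))]
  exact ENNReal.ofReal_le_ofReal (Jall_le hA hW M S _)

end P365L.T2.X968
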