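import Vale.Agent.P365.Stat.T1
import Vale.Agent.P365.Stat.T2b

/-!
# P365 T2, row X-STAT, part A: the real kick circle at a site, deterministic statements

For a real symmetric `A` and an environment `W` in the lower half plane, `kick A W y x` is the
environment with `W y` replaced by `W y + t`, where `t = Re p + x Im p`, `p = -1/G_yy`.
The half circle average `hcE A W y Φ = ∫_{-1}^{1} Φ(kick x) dx/(1+x²)` does not depend on the law of
the potential at `y`.

* `kap_kick`: a real kick at `y` changes `κ_zy` by a factor two at most.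
* `T1E`: `κ_zw |Q_zw|² ≤ (130/4) m_w hcE_w[Ψ]` as soon as `Ψ ≥ |T_zz|²/m_z` on the kicks at `w`.
* `T2E`: `κ_zy κ_yw |T_zw|² ≤ C hcE_y[κ_zw |T_zw|² ; κ_zw ≥ c κ_zy κ_yw (old values)]`.
-/

set_option autoImplicit false
set_option linter.all false

namespace P365L.T2.X968

open MeasureTheory ProbabilityTheory Set P365L P365L.Stat
open Complex hiding eta
open scoped ComplexConjugate Real ENNReal

/-- the real kicks of half of the circle -/
noncomputable def tw (g : ℂ) (x : ℝ) : ℝ := -(g⁻¹).re + bet g * x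

theorem ss_tw (g : ℂ) (x : ℝ) : ss g (tw g x) = (bet g : ℂ) * ((x : ℂ) - I) := by
  apply Complex.ext
  · rw [ss_re, tw]; simp
  · rw [ss_im]; simp

/-- coefficient of `eta` -/
noncomputable def kq' (g : ℂ) : ℂ := g⁻¹ ^ 2 / (bet g : ℂ)

theorem th_tw {g : ℂ} (hg : 0 < g.im) (x : ℝ) :
    th g (tw g x : ℝ) = g⁻¹ - kq' g * eta x := by
  have hb : (bet g : ℂ) ≠ 0 := Complex.ofReal_ne_zero.2 (bet_pos hg).ne'
  have hx := sub_I_ne x
  rw [th_eq hg, ss_tw, kq', eta]
  field_simp

theorem norm_kq' {g : ℂ} (hg : 0 < g.im) : ‖kq' g‖ = 1 / g.im := by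
  have hne : g ≠ 0 := by rintro rfl; simp at hg
  have hb := bet_pos hg
  have h1 := im_eq_bet hg
  have hn : 0 < ‖g‖ := norm_pos_iff.2 hne
  rw [kq', norm_div, norm_pow, norm_inv, Complex.norm_real, Real.norm_eq_abs, abs_of_pos hb, h1]
  field_simp

variable {ι : Type*} [Fintype ι] [DecidableEq ι]
variable {A : Matrix ι ι ℝ} {W : ι → ℂ} {a : ι → ℝ}

/-- the environment after the kick -/
noncomputable def kick (A : Matrix ι ι ℝ) (W : ι → ℂ) (y : ι) (x : ℝ) : ι → ℂ :=
  Function.update W y (W y + ((tw (Gr A W y y) x : ℝ) : ℂ))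

theorem kick_neg (hW : ∀ x, (W x).im < 0) (y : ι) (x : ℝ) (z : ι) :
    (kick A W y x z).im < 0 := upd_neg_real hW y _ z

/-- half circle average -/
noncomputable def hcE (A : Matrix ι ι ℝ) (W : ι → ℂ) (y : ι) (Φ : (ι → ℂ) → ℝ≥0∞) : ℝ≥0∞ :=
  ∫⁻ x in Set.Ioc (-1 : ℝ) 1, Φ (kick A W y x) * ENNReal.ofReal (1 / (1 + x ^ 2))

/-! ### one real kick: `K_zy/m_y` is constant -/

theorem one_add_ne_real (hA : A.IsSymm) (hW : ∀ x, (W x).im < 0) (y : ι) (t : ℝ) :
    1 + (t : ℂ) * Gr A W y y ≠ 0 := by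
  refine one_add_ne hA hW y t ?_
  rw [Complex.add_im, Complex.ofReal_im, add_zero]
  exact hW y

theorem Gr_upd_col (hA : A.IsSymm) (hW : ∀ x, (W x).im < 0) (y : ι) (t : ℝ) (z : ι) :
    Gr A (Function.update W y (W y + (t : ℂ))) z y = Gr A W z y / (1 + (t : ℂ) * Gr A W y y) := by
  have ht : (W y + (t : ℂ)).im < 0 := by
    rw [Complex.add_im, Complex.ofReal_im, add_zero]
    exact hW y
  have hne := one_add_ne_real hA hW y t
  rw [Gr_upd hA hW y t ht z y, th]
  field_simp
  ring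

theorem KK_upd_col (hA : A.IsSymm) (hW : ∀ x, (W x).im < 0) (y : ι) (t : ℝ) (z : ι) :
    KK A (Function.update W y (W y + (t : ℂ))) z y * ‖1 + (t : ℂ) * Gr A W y y‖ ^ 2 =
      KK A W z y := by
  have hne := one_add_ne_real hA hW y t
  have hn : ‖1 + (t : ℂ) * Gr A W y y‖ ≠ 0 := norm_ne_zero_iff.2 hne
  rw [KK, Gr_upd_col hA hW, norm_div, KK]
  field_simp

theorem mm_upd_self (hA : A.IsSymm) (hW : ∀ x, (W x).im < 0) (y : ι) (t : ℝ) :
    mm A (Function.update W y (W y + (t : ℂ))) y * ‖1 + (t : ℂ) * Gr A W y y‖ ^ 2 =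
      mm A W y := by
  have hne := one_add_ne_real hA hW y t
  have hn : (0 : ℝ) < Complex.normSq (1 + (t : ℂ) * Gr A W y y) := Complex.normSq_pos.2 hne
  rw [mm, Gr_upd_col hA hW, mm, ← Complex.normSq_eq_norm_sq, Complex.div_im]
  simp only [Complex.add_im, Complex.one_im, Complex.mul_im, Complex.ofReal_im, zero_mul,
    add_zero, zero_add, Complex.add_re, Complex.one_re, Complex.mul_re, Complex.ofReal_re,
    sub_zero]
  have hn' := hn.ne'
  field_simp
  ring

/-- **a real kick at `y` changes `κ_zy` by a factor two at most** -/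
theorem kap_upd (hA : A.IsSymm) (hW : ∀ x, (W x).im < 0) (y : ι) (t : ℝ) (z : ι) :
    kap A W z y / 2 ≤ kap A (Function.update W y (W y + (t : ℂ))) z y := by
  set W' := Function.update W y (W y + (t : ℂ)) with hW'
  have hWn : ∀ x, (W' x).im < 0 := upd_neg_real hW y t
  have hne := one_add_ne_real hA hW y t
  set s : ℝ := ‖1 + (t : ℂ) * Gr A W y y‖ ^ 2 with hs
  have hs0 : 0 < s := pow_pos (norm_pos_iff.2 hne) 2
  have e1 : KK A W' z y * s = KK A W z y := KK_upd_col hA hW y t z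
  have e2 : mm A W' y * s = mm A W y := mm_upd_self hA hW y t
  have e3 := mm_upd_le hA hW y t z
  rw [← hW'] at e3
  have mz := mm_pos hA hW z
  have my := mm_pos hA hW y
  have mz' := mm_pos hA hWn z
  have my' := mm_pos hA hWn y
  have K0 := KK_nonneg (A := A) (W := W) z y
  have K0' := KK_nonneg (A := A) (W := W') z y
  -- multiply by s
  have h1 : mm A W' z * mm A W y ≤ mm A W z * mm A W y + KK A W z y := by
    calc mm A W' z * mm A W y ≤ (mm A W z + KK A W z y / mm A W y) * mm A W y :=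
          mul_le_mul_of_nonneg_right e3 my.le
      _ = mm A W z * mm A W y + KK A W z y := by field_simp
  have h2 : kap A W' z y = KK A W z y / (mm A W' z * mm A W y + KK A W z y) := by
    rw [kap, ← e1, ← e2]
    field_simp
  rw [h2, kap, div_div]
  have d1 : 0 < mm A W z * mm A W y + KK A W z y := by positivity
  have d2 : 0 < mm A W' z * mm A W y + KK A W z y := by positivity
  rw [div_le_div_iff₀ (by positivity) d2]
  nlinarith [mul_nonneg K0 K0, mul_nonneg K0 (mul_pos mz my).le,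
    mul_le_mul_of_nonneg_left h1 K0]

theorem kap_kick (hA : A.IsSymm) (hW : ∀ x, (W x).im < 0) (y z : ι) (x : ℝ) :
    kap A W z y / 2 ≤ kap A (kick A W y x) z y := kap_upd hA hW y _ z

theorem kap_kick' (hA : A.IsSymm) (hW : ∀ x, (W x).im < 0) (y z : ι) (x : ℝ) :
    kap A W y z / 2 ≤ kap A (kick A W y x) y z := by
  rw [kap_symm hA y z, kap_symm hA y z]
  exact kap_kick hA hW y z x

/-! ### `T` on the half circle -/

theorem Tm_kick (hA : A.IsSymm) (hW : ∀ x, (W x).im < 0) (y : ι) (x : ℝ) (z w : ι) :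
    Tm A (kick A W y x) a z w =
      (Tm A W a z w - (Gr A W y y)⁻¹ * Qm A W a z y * Gr A W y w
        - conj (Gr A W y y)⁻¹ * conj (Gr A W z y) * conj (Qm A W a w y)) +
        kq' (Gr A W y y) * Qm A W a z y * Gr A W y w * eta x +
        conj (kq' (Gr A W y y)) * conj (Gr A W z y) * conj (Qm A W a w y) * conj (eta x) := by
  rw [kick, Tm_upd_real hA hW y, th_tw (Gr_self_im_pos hA hW y), map_sub, map_mul]
  ring

/-- deterministic form of (T1) -/
theorem T1E (hA : A.IsSymm) (hW : ∀ x, (W x).im < 0) (z w : ι) {Φ : (ι → ℂ) → ℝ≥0∞}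
    (hΦ : ∀ x, x ∈ Set.Ioc (-1 : ℝ) 1 →
      ENNReal.ofReal (Ls A a z (kick A W w x)) ≤ Φ (kick A W w x)) :
    ENNReal.ofReal (kap A W z w * ‖Qm A W a z w‖ ^ 2) ≤
      ENNReal.ofReal (130 / 4 * mm A W w) * hcE A W w Φ := by
  have hmw : 0 < mm A W w := mm_pos hA hW w
  have hmz : 0 < mm A W z := mm_pos hA hW z
  have hK : 0 ≤ KK A W z w := KK_nonneg _ _
  have hg := Gr_self_im_pos hA hW w
  set Mz : ℝ := mm A W z + KK A W z w / mm A W w with hMz
  have hMz0 : 0 < Mz := by positivity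
  set β : ℂ := kq' (Gr A W w w) * Qm A W a z w * Gr A W w z with hβ
  set α : ℂ := Tm A W a z z - (Gr A W w w)⁻¹ * Qm A W a z w * Gr A W w z
        - conj (Gr A W w w)⁻¹ * conj (Gr A W z w) * conj (Qm A W a z w) with hα
  set b : ℂ := 2 * β with hb
  have hT : ∀ x, (Tm A (kick A W w x) a z z).re = α.re + (b.re * x - b.im) / (1 + x ^ 2) := by
    intro x
    have key : Tm A (kick A W w x) a z z = α + β * eta x + conj (β * eta x) := by
      rw [Tm_kick hA hW, hα, hβ, Gr_symm hA w z]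
      simp only [map_mul]
      ring
    have h2 : (2 * β * eta x).re = 2 * (β * eta x).re := by
      rw [mul_assoc, show (2 : ℂ) = ((2 : ℝ) : ℂ) by norm_num, Complex.re_ofReal_mul]
    rw [key, Complex.add_re, Complex.add_re, Complex.conj_re, ← mul_eta_re b x, hb, h2]
    ring
  have hbn : ‖b‖ ^ 2 = 4 * (KK A W z w * ‖Qm A W a z w‖ ^ 2) / mm A W w ^ 2 := by
    rw [hb, hβ, norm_mul, norm_mul, norm_mul, norm_kq' hg, Gr_symm hA w z]
    have e1 : (Gr A W w w).im = mm A W w := rfl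
    have e2 : KK A W z w = ‖Gr A W z w‖ ^ 2 := rfl
    have e3 : ‖(2 : ℂ)‖ = 2 := by norm_num
    rw [e1, e2, e3]
    field_simp
    ring
  set q : ℝ → ℝ := fun x =>
    (α.re + (b.re * x - b.im) / (1 + x ^ 2)) ^ 2 / (1 + x ^ 2) / Mz with hq
  have hq0 : ∀ x, 0 ≤ q x := fun x =>
    div_nonneg (div_nonneg (sq_nonneg _) (one_add_sq_pos x).le) hMz0.le
  have hcont : Continuous q := by
    refine Continuous.div_const ?_ _
    refine Continuous.div ?_ (by fun_prop) (fun x => (one_add_sq_pos x).ne')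
    refine Continuous.pow ?_ 2
    exact continuous_const.add (Continuous.div (by fun_prop) (by fun_prop)
      (fun x => (one_add_sq_pos x).ne'))
  have hint : (‖b‖ ^ 2 / 130) / Mz ≤ ∫ x in (-1 : ℝ)..1, q x := by
    have h1 := T0 α.re b.re b.im
    have h2 : ‖b‖ ^ 2 / 130 ≤ ∫ x in (-1 : ℝ)..1,
        (α.re + (b.re * x - b.im) / (1 + x ^ 2)) ^ 2 / (1 + x ^ 2) := by
      refine le_trans ?_ h1
      rw [← Complex.normSq_eq_norm_sq, Complex.normSq_apply]
      nlinarith [sq_nonneg α.re]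
    calc (‖b‖ ^ 2 / 130) / Mz
        ≤ (∫ x in (-1 : ℝ)..1, (α.re + (b.re * x - b.im) / (1 + x ^ 2)) ^ 2 / (1 + x ^ 2)) / Mz :=
          div_le_div_of_nonneg_right h2 hMz0.le
      _ = ∫ x in (-1 : ℝ)..1, q x := by rw [intervalIntegral.integral_div]
  have hlint : ENNReal.ofReal ((‖b‖ ^ 2 / 130) / Mz) ≤ hcE A W w Φ := by
    refine (ENNReal.ofReal_le_ofReal hint).trans ?_
    rw [intervalIntegral.integral_of_le (by norm_num : (-1 : ℝ) ≤ 1),
      ofReal_integral_eq_lintegral_ofReal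
        ((hcont.intervalIntegrable (-1) 1).1) (Filter.Eventually.of_forall fun x => hq0 x)]
    refine setLIntegral_mono' measurableSet_Ioc fun x hx => ?_
    have hxx := one_add_sq_pos x
    have hWk := kick_neg (A := A) hW w x
    have h3 : q x ≤ Ls A a z (kick A W w x) * (1 / (1 + x ^ 2)) := by
      have e1 : ‖Tm A (kick A W w x) a z z‖ ^ 2 =
          (α.re + (b.re * x - b.im) / (1 + x ^ 2)) ^ 2 := by
        rw [← hT x, Tm_self hA hWk, Complex.norm_real, Real.norm_eq_abs, sq_abs,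
          Complex.ofReal_re]
      have e2 : Ls A a z (kick A W w x) =
          (α.re + (b.re * x - b.im) / (1 + x ^ 2)) ^ 2 / mm A (kick A W w x) z := by
        rw [Ls, e1]
      rw [e2, hq]
      simp only
      rw [div_right_comm, mul_one_div]
      refine div_le_div_of_nonneg_right ?_ hxx.le
      refine div_le_div_of_nonneg_left (sq_nonneg _) (mm_pos hA hWk z) ?_
      exact mm_upd_le hA hW w _ z
    refine (ENNReal.ofReal_le_ofReal h3).trans ?_
    rw [ENNReal.ofReal_mul (Ls_nonneg hA hWk z)]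
    exact mul_le_mul_left (hΦ x hx) _
  have h4 : kap A W z w * ‖Qm A W a z w‖ ^ 2 =
      130 / 4 * mm A W w * ((‖b‖ ^ 2 / 130) / Mz) := by
    have h5 : mm A W w * Mz = mm A W z * mm A W w + KK A W z w := by
      rw [hMz]
      field_simp
    rw [hbn, kap, ← h5]
    field_simp
  rw [h4, ENNReal.ofReal_mul (by positivity)]
  exact mul_le_mul_right hlint _

/-! ### (T2) -/

theorem five_lint {F : ℝ → ℝ≥0∞} (hF : Measurable F) {m : ℝ} (hm : 0 ≤ m)
    (h : ∀ u : ℝ, 0 ≤ u → u ≤ 1 / 4 →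
      ∃ j : Fin 5, ENNReal.ofReal m ≤ F (-1 + 3 / 8 * ((j : ℕ) : ℝ) + u)) :
    ENNReal.ofReal (m / 4) ≤ ∫⁻ x in Set.Ioc (-1 : ℝ) 1, F x := by
  set f : ℝ → ℝ := fun x => (min (F x) (ENNReal.ofReal m)).toReal with hf
  have hfm : Measurable f := (hF.min measurable_const).ennreal_toReal
  have hf0 : ∀ x, 0 ≤ f x := fun x => ENNReal.toReal_nonneg
  have hfM : ∀ x, f x ≤ m := fun x => by
    have h1 : min (F x) (ENNReal.ofReal m) ≤ ENNReal.ofReal m := min_le_right _ _
    have h2 := ENNReal.toReal_mono ENNReal.ofReal_ne_top h1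
    rwa [ENNReal.toReal_ofReal hm] at h2
  have h1 := five_int hfm hf0 hfM (m := m) fun u h0 h1 => by
    obtain ⟨j, hj⟩ := h u h0 h1
    refine ⟨j, ?_⟩
    rw [hf]
    simp only
    rw [min_eq_right hj, ENNReal.toReal_ofReal hm]
  refine (ENNReal.ofReal_le_ofReal h1).trans ?_
  rw [intervalIntegral.integral_of_le (by norm_num : (-1 : ℝ) ≤ 1),
    ofReal_integral_eq_lintegral_ofReal ((ii_of_bdd hfm hf0 hfM (-1) 1).1)
      (Filter.Eventually.of_forall fun x => hf0 x)]
  refine lintegral_mono fun x => ?_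
  rw [hf]
  simp only
  rw [ENNReal.ofReal_toReal (ne_top_of_le_ne_top ENNReal.ofReal_ne_top (min_le_right _ _))]
  exact min_le_left _ _

/-- pointwise (T2) with the strength of the new pair -/
theorem T2_pt' (hA : A.IsSymm) (hW : ∀ x, (W x).im < 0) (y z w : ι) {u : ℝ} (h0 : 0 ≤ u)
    (h1 : u ≤ 1 / 4) : ∃ j : Fin 5,
      kap A W z y * kap A W y w * ‖Tm A W a z w‖ ^ 2 ≤
        7159328 * (kap A (Function.update W y (W y + (tj (Gr A W y y) j u : ℝ))) z w *
          ‖Tm A (Function.update W y (W y + (tj (Gr A W y y) j u : ℝ))) a z w‖ ^ 2) ∧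
      ‖Gr A W w w‖ ≤
        22 * ‖Gr A (Function.update W y (W y + (tj (Gr A W y y) j u : ℝ))) w w‖ ∧
      kap A W z y * kap A W y w ≤
        968 * kap A (Function.update W y (W y + (tj (Gr A W y y) j u : ℝ))) z w := by
  have hg := Gr_self_im_pos hA hW y
  obtain ⟨j, e1, e2, e3⟩ := five_good hg (Gr A W z w) (Gr A W z y * Gr A W y w) (Gr A W w w)
    (Gr A W w y * Gr A W y w) (Tm A W a z w) (Qm A W a z y * Gr A W y w)
    (conj (Gr A W z y) * conj (Qm A W a w y)) h0 h1
  have hsecond : ‖Gr A W w w‖ ≤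
        22 * ‖Gr A (Function.update W y (W y + (tj (Gr A W y y) j u : ℝ))) w w‖ := by
    have ht : (W y + ((tj (Gr A W y y) j u : ℝ) : ℂ)).im < 0 := by
      rw [Complex.add_im, Complex.ofReal_im, add_zero]
      exact hW y
    rw [Gr_upd hA hW y _ ht w w]
    have : Gr A W w w - th (Gr A W y y) ((tj (Gr A W y y) j u : ℝ) : ℂ) * Gr A W w y * Gr A W y w =
        Gr A W w w - th (Gr A W y y) ((tj (Gr A W y y) j u : ℝ) : ℂ) *
          (Gr A W w y * Gr A W y w) := by ring
    rw [this]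
    exact e2
  refine ⟨j, ?_⟩
  set τ : ℝ := tj (Gr A W y y) j u with hτ
  set W' := Function.update W y (W y + (τ : ℂ)) with hW'
  have hWn : ∀ x, (W' x).im < 0 := upd_neg_real hW y τ
  have ht : (W y + (τ : ℂ)).im < 0 := by
    rw [Complex.add_im, Complex.ofReal_im, add_zero]
    exact hW y
  have f1 : Gr A W' z w = Gr A W z w - th (Gr A W y y) (τ : ℂ) *
      (Gr A W z y * Gr A W y w) := by
    rw [hW', Gr_upd hA hW y _ ht z w]; ring
  have f3 : Tm A W' a z w = Tm A W a z w - th (Gr A W y y) (τ : ℂ) *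
      (Qm A W a z y * Gr A W y w) - conj (th (Gr A W y y) (τ : ℂ)) *
      (conj (Gr A W z y) * conj (Qm A W a w y)) := by
    rw [hW', Tm_upd_real hA hW y τ z w]; ring
  rw [← f1] at e1
  rw [← f3] at e3
  have my := mm_pos hA hW y
  have mz := mm_pos hA hW z
  have mw := mm_pos hA hW w
  have mz' := mm_pos hA hWn z
  have mw' := mm_pos hA hWn w
  have gz := mm_upd_le hA hW y τ z
  have gw := mm_upd_le hA hW y τ w
  rw [← hW'] at gz gw
  set kz := KK A W z y with hkz
  set kw := KK A W w y with hkw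
  have kz0 : 0 ≤ kz := KK_nonneg z y
  have kw0 : 0 ≤ kw := KK_nonneg w y
  set m := mm A W y with hm
  set K' := KK A W' z w with hK'
  have K'0 : 0 ≤ K' := KK_nonneg z w
  set D := (mm A W z + kz / m) * (mm A W w + kw / m) with hD
  have hDpos : 0 < D := by positivity
  have h_mm : mm A W' z * mm A W' w ≤ D := mul_le_mul gz gw mw'.le (by positivity)
  set Y := kz * kw / m ^ 2 with hY
  have hY0 : 0 ≤ Y := by positivity
  have hYD : Y ≤ D := by
    have : Y = (kz / m) * (kw / m) := by rw [hY]; field_simp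
    rw [this, hD]
    have a1 : 0 ≤ kz / m := by positivity
    have a2 : 0 ≤ kw / m := by positivity
    nlinarith
  have hK'Y : Y ≤ 484 * K' := by
    have e4 : (‖Gr A W z y * Gr A W y w‖ / (Gr A W y y).im) ^ 2 ≤ (22 * ‖Gr A W' z w‖) ^ 2 :=
      pow_le_pow_left₀ (by positivity) e1 2
    have e5 : (‖Gr A W z y * Gr A W y w‖ / (Gr A W y y).im) ^ 2 = Y := by
      rw [hY, hkz, hkw, hm, KK, KK, mm, norm_mul, Gr_symm hA y w, div_pow, mul_pow]
    rw [e5, mul_pow] at e4
    rw [hK', KK]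
    linarith
  have hkk : kap A W z y * kap A W y w = Y / D := by
    rw [kap, kap, ← hkz, KK_symm hA y w, ← hkw, ← hm, hY, hD]
    have b1 : mm A W z * m + kz ≠ 0 := by positivity
    have b2 : m * mm A W w + kw ≠ 0 := by positivity
    have b3 : mm A W z + kz / m = (mm A W z * m + kz) / m := by field_simp
    have b4 : mm A W w + kw / m = (m * mm A W w + kw) / m := by field_simp
    rw [b3, b4]
    field_simp
  have hk' : Y / D ≤ 968 * kap A W' z w := by
    rw [kap, ← hK']
    have hden : 0 < mm A W' z * mm A W' w + K' := by positivity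
    rw [mul_div_assoc', div_le_div_iff₀ hDpos hden]
    have c1 : Y * (mm A W' z * mm A W' w) ≤ 484 * K' * D :=
      mul_le_mul hK'Y h_mm (by positivity) (by positivity)
    have c2 : Y * K' ≤ D * K' := mul_le_mul_of_nonneg_right hYD K'0
    nlinarith [mul_nonneg hDpos.le K'0]
  have hT : ‖Tm A W a z w‖ ^ 2 ≤ 7396 * ‖Tm A W' a z w‖ ^ 2 := by
    have := pow_le_pow_left₀ (norm_nonneg _) e3 2
    rw [mul_pow] at this
    linarith
  have hkap0 := kap_nonneg hA hWn z w
  refine ⟨?_, hsecond, ?_⟩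
  · rw [hkk]
    calc Y / D * ‖Tm A W a z w‖ ^ 2
        ≤ (968 * kap A W' z w) * (7396 * ‖Tm A W' a z w‖ ^ 2) :=
          mul_le_mul hk' hT (by positivity) (by positivity)
      _ ≤ 7159328 * (kap A W' z w * ‖Tm A W' a z w‖ ^ 2) := by
          nlinarith [mul_nonneg hkap0 (sq_nonneg ‖Tm A W' a z w‖)]
  · rw [hkk]
    exact hk'

theorem measurable_kick (y : ι) : Measurable fun x : ℝ => kick A W y x := by
  unfold kick tw
  refine measurable_pi_lambda _ fun i => ?_
  by_cases hi : i = y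
  · subst hi
    simp only [Function.update_self]
    fun_prop
  · simp only [Function.update_of_ne hi]
    exact measurable_const

/-- **deterministic form of (T2)**: one kick at `y` creates `κ_zw` out of `κ_zy κ_yw`; the new pair is
at least as strong as the product, and `‖G_ww‖` does not drop by more than a factor `22`. -/
theorem T2E (hA : A.IsSymm) (hW : ∀ x, (W x).im < 0) (y z w : ι) {Φ : (ι → ℂ) → ℝ≥0∞}
    (hm : Measurable Φ)
    (hΦ : ∀ x, x ∈ Set.Icc (-1 : ℝ) 1 → ‖Gr A W w w‖ ≤ 22 * ‖Gr A (kick A W y x) w w‖ →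
      kap A W z y * kap A W y w ≤ 968 * kap A (kick A W y x) z w →
      ENNReal.ofReal (kap A (kick A W y x) z w * ‖Tm A (kick A W y x) a z w‖ ^ 2) ≤
        Φ (kick A W y x)) :
    ENNReal.ofReal (kap A W z y * kap A W y w * ‖Tm A W a z w‖ ^ 2) ≤
      57274624 * hcE A W y Φ := by
  set L : ℝ := kap A W z y * kap A W y w * ‖Tm A W a z w‖ ^ 2 with hL
  have hL0 : 0 ≤ L := mul_nonneg (mul_nonneg (kap_nonneg hA hW z y) (kap_nonneg hA hW y w))
    (sq_nonneg _)
  have hF : Measurable fun x : ℝ => Φ (kick A W y x) * ENNReal.ofReal (1 / (1 + x ^ 2)) :=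
    (hm.comp (measurable_kick y)).mul (by fun_prop)
  have h := five_lint hF (m := L / 7159328 / 2) (by positivity) fun u h0 h1 => by
    obtain ⟨j, e1, e2, e3⟩ := T2_pt' (a := a) hA hW y z w h0 h1
    refine ⟨j, ?_⟩
    set x : ℝ := -1 + 3 / 8 * ((j : ℕ) : ℝ) + u with hx
    have hk : Function.update W y (W y + (tj (Gr A W y y) j u : ℝ)) = kick A W y x := by
      rw [kick, tw, tj]
    rw [hk] at e1 e2 e3
    have hj := fin5_le j
    have hj0 : (0 : ℝ) ≤ ((j : ℕ) : ℝ) := Nat.cast_nonneg _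
    have hx1 : x ∈ Set.Icc (-1 : ℝ) 1 := by constructor <;> rw [hx] <;> linarith
    have hxx := one_add_sq_pos x
    have hx2 : 1 + x ^ 2 ≤ 2 := by nlinarith [hx1.1, hx1.2]
    have h5 : L / 7159328 / 2 ≤
        kap A (kick A W y x) z w * ‖Tm A (kick A W y x) a z w‖ ^ 2 * (1 / (1 + x ^ 2)) := by
      rw [mul_one_div, le_div_iff₀ hxx]
      have hL7 : 0 ≤ L / 7159328 / 2 := by positivity
      nlinarith [mul_le_mul_of_nonneg_left hx2 hL7]
    refine (ENNReal.ofReal_le_ofReal h5).trans ?_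
    rw [ENNReal.ofReal_mul (mul_nonneg (kap_nonneg hA (kick_neg hW y x) z w) (sq_nonneg _))]
    exact mul_le_mul_left (hΦ x hx1 e2 e3) _
  have h6 : ENNReal.ofReal L = 57274624 * ENNReal.ofReal (L / 7159328 / 2 / 4) := by
    have h7 : (57274624 : ℝ≥0∞) = ENNReal.ofReal 57274624 := by norm_num
    rw [h7, ← ENNReal.ofReal_mul (by norm_num)]
    congr 1
    ring
  rw [h6]
  exact mul_le_mul_right h _

/-! ### the kick circle does not depend on the starting point -/

theorem Gr_inv_upd (hA : A.IsSymm) (hW : ∀ x, (W x).im < 0) (y : ι) (t : ℝ) :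
    (Gr A (Function.update W y (W y + (t : ℂ))) y y)⁻¹ = (Gr A W y y)⁻¹ + (t : ℂ) := by
  have hne := one_add_ne_real hA hW y t
  have hG := Gr_self_ne_zero hA hW y
  rw [Gr_upd_col hA hW]
  field_simp

theorem kick_upd (hA : A.IsSymm) (hW : ∀ x, (W x).im < 0) (y : ι) (t x : ℝ) :
    kick A (Function.update W y (W y + (t : ℂ))) y x = kick A W y x := by
  have h := Gr_inv_upd hA hW y t
  unfold kick tw bet
  rw [h, Function.update_self, Function.update_idem]
  congr 1
  rw [Complex.add_re, Complex.add_im, Complex.ofReal_re, Complex.ofReal_im, add_zero]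
  push_cast
  ring

theorem hcE_upd (hA : A.IsSymm) (hW : ∀ x, (W x).im < 0) (y : ι) (t : ℝ)
    (Φ : (ι → ℂ) → ℝ≥0∞) :
    hcE A (Function.update W y (W y + (t : ℂ))) y Φ = hcE A W y Φ := by
  unfold hcE
  simp only [kick_upd hA hW y t]

end P365L.T2.X968
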