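import Vale.Agent.P365.T2.Strong968
import Vale.Agent.P365.T2.H862.GoodL

/-!
# P365 T2, row X-STAT: the ratio property of 862's good sites (edge laws)
-/

set_option autoImplicit false
set_option linter.all false

namespace P365L.T2.X968

open MeasureTheory ProbabilityTheory Set P365L P365L.Stat P365T1 Vale.Agent.P365.J376
open P365T2.H862
open Complex hiding eta
open scoped ComplexConjugate Real ENNReal

variable {ι : Type*} [Fintype ι] [DecidableEq ι]
variable {A : Matrix ι ι ℝ} {a : ι → ℝ} {E : ℝ} {e : ι → ℝ}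

/-- pole of `G_yy` in the variable `V_y` at energy `E` -/
noncomputable def pV (A : Matrix ι ι ℝ) (E : ℝ) (W : ι → ℂ) (y : ι) : ℂ :=
  (((W y).re + E : ℝ) : ℂ) - (Gr A W y y)⁻¹

/-- good environments of the site `y` -/
def SG (A : Matrix ι ι ℝ) (E lam : ℝ) (y : ι) : Set (ι → ℂ) := {W | pV A E W y ∈ GdL lam}

theorem measurableSet_SG (E lam : ℝ) (y : ι) : MeasurableSet (SG A E lam y) := by
  have h : Measurable fun W : ι → ℂ => pV A E W y := by
    unfold pV
    refine Measurable.sub ?_ (measurable_GrW y y).inv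
    exact Complex.measurable_ofReal.comp
      ((Complex.measurable_re.comp (measurable_pi_apply y)).add_const _)
  exact h (measurableSet_GdL lam)

theorem pV_im (hA : A.IsSymm) {W : ι → ℂ} (hW : ∀ x, (W x).im < 0) (E : ℝ) (y : ι) :
    (pV A E W y).im = bet (Gr A W y y) := by
  rw [pV, Complex.sub_im, Complex.ofReal_im, bet]
  ring

theorem pV_im_pos (hA : A.IsSymm) {W : ι → ℂ} (hW : ∀ x, (W x).im < 0) (E : ℝ) (y : ι) :
    0 < (pV A E W y).im := by
  rw [pV_im hA hW]
  exact bet_pos (Gr_self_im_pos hA hW y)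

/-- `m_y` on the line of `V_y` -/
theorem mm_line (hA : A.IsSymm) (he : ∀ x, 0 < e x) (v : ι → ℝ) (y : ι) (s : ℝ) :
    mm A (WV E e (Function.update v y s)) y =
      (pV A E (WV E e v) y).im * (1 / ‖(s : ℂ) - pV A E (WV E e v) y‖ ^ 2) := by
  have hW := WV_neg (E := E) he v
  set W := WV E e v with hWd
  have hg := Gr_self_im_pos hA hW y
  have hne := Gr_self_ne_zero hA hW y
  have h1 := mm_upd_self hA hW y (s - v y)
  rw [WV_upd, ← hWd]
  have h3 : 1 + ((s - v y : ℝ) : ℂ) * Gr A W y y =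
      Gr A W y y * ((s : ℂ) - pV A E W y) := by
    have h4 : ((W y).re : ℂ) = ((v y - E : ℝ) : ℂ) := by
      rw [hWd]; simp [WV]
    have h5 : pV A E W y = (v y : ℂ) - (Gr A W y y)⁻¹ := by
      rw [pV]
      push_cast
      rw [h4]
      push_cast
      ring
    rw [h5]
    push_cast
    field_simp
    ring
  rw [h3, norm_mul, mul_pow] at h1
  have h4 : mm A W y = bet (Gr A W y y) * ‖Gr A W y y‖ ^ 2 := im_eq_bet hg
  rw [h4] at h1
  rw [pV_im hA hW]
  have hn : 0 < ‖Gr A W y y‖ ^ 2 := pow_pos (norm_pos_iff.2 hne) 2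
  have hd : 0 < ‖(s : ℂ) - pV A E W y‖ ^ 2 := by
    refine pow_pos (norm_pos_iff.2 fun h => ?_) 2
    have h6 := pV_im_pos hA hW E y
    have h7 := congrArg Complex.im h
    rw [Complex.sub_im, Complex.ofReal_im, Complex.zero_im] at h7
    linarith
  rw [mul_one_div, eq_div_iff hd.ne']
  have h8 : mm A (Function.update W y (W y + ((s - v y : ℝ) : ℂ))) y *
      ‖(s : ℂ) - pV A E W y‖ ^ 2 * ‖Gr A W y y‖ ^ 2 =
      bet (Gr A W y y) * ‖Gr A W y y‖ ^ 2 := by
    calc _ = mm A (Function.update W y (W y + ((s - v y : ℝ) : ℂ))) y *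
        (‖Gr A W y y‖ ^ 2 * ‖(s : ℂ) - pV A E W y‖ ^ 2) := by ring
      _ = _ := h1
  exact mul_right_cancel₀ hn.ne' h8

/-- the kicks are the points `Re p + x Im p` -/
theorem kick_eq (hA : A.IsSymm) (he : ∀ x, 0 < e x) (v : ι → ℝ) (y : ι) (x : ℝ) :
    kick A (WV E e v) y x = WV E e (Function.update v y
      ((pV A E (WV E e v) y).re + (pV A E (WV E e v) y).im * x)) := by
  have hW := WV_neg (E := E) he v
  rw [WV_upd, kick, pV_im hA hW]
  congr 3
  have h4 : (WV E e v y).re = v y - E := by simp [WV]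
  rw [pV, Complex.sub_re, Complex.ofReal_re, h4, tw]
  ring

/-- **ratio property of the good sites** -/
theorem RP_edge (hA : A.IsSymm) (he : ∀ x, 0 < e x) {lam α β : ℝ} {ν : ι → Measure ℝ} {y : ι}
    (h : EdgeLaw lam α β (ν y)) :
    RP A E e ν y (SG A E lam y) (ENNReal.ofReal (CL lam α β)) := by
  intro v hv Φ hΦ
  have hW := WV_neg (E := E) he v
  set W := WV E e v with hWd
  set p := pV A E W y with hp
  have hpi : 0 < p.im := pV_im_pos hA hW E y
  obtain ⟨M, hM, h1, h2⟩ := h.good_lint hpi hv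
  have hmm : ∀ s : ℝ, ENNReal.ofReal (mm A (WV E e (Function.update v y s)) y) =
      ENNReal.ofReal p.im * ENNReal.ofReal (1 / ‖(s : ℂ) - p‖ ^ 2) := by
    intro s
    rw [mm_line hA he, ← hWd, ← hp, ENNReal.ofReal_mul hpi.le]
  have hup : Measurable fun s : ℝ => Function.update v y s := by
    have : Measurable fun q : (ι → ℝ) × ℝ => Function.update q.1 y q.2 := measurable_update'
    exact this.comp (measurable_const.prodMk measurable_id)
  have hPm : Measurable fun s : ℝ => Φ (WV E e (Function.update v y s)) :=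
    (hΦ.comp (measurable_WV E e)).comp hup
  have hdm : Measurable fun s : ℝ => ENNReal.ofReal (1 / ‖(s : ℂ) - p‖ ^ 2) := by
    have : Measurable fun s : ℝ => ‖(s : ℂ) - p‖ :=
      (Complex.measurable_ofReal.sub_const p).norm
    exact (measurable_const.div (this.pow_const 2)).ennreal_ofReal
  have h3 := h2 _ hPm
  have h4 : hcE A W y Φ ≤ ∫⁻ x in Set.Icc (-1 : ℝ) 1,
      Φ (WV E e (Function.update v y (p.re + p.im * x))) := by
    unfold hcE
    refine (lintegral_mono_set Set.Ioc_subset_Icc_self).trans (lintegral_mono fun x => ?_)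
    rw [hWd, kick_eq hA he, ← hWd, ← hp]
    refine mul_le_of_le_one_right' ?_
    rw [← ENNReal.ofReal_one]
    refine ENNReal.ofReal_le_ofReal ?_
    rw [div_le_one (one_add_sq_pos x)]
    nlinarith [sq_nonneg x]
  simp only [hmm]
  rw [lintegral_const_mul _ hdm]
  calc (ENNReal.ofReal p.im * ∫⁻ s, ENNReal.ofReal (1 / ‖(s : ℂ) - p‖ ^ 2) ∂(ν y)) * hcE A W y Φ
      ≤ ENNReal.ofReal p.im * (ENNReal.ofReal (CL lam α β) * M) *
          ∫⁻ x in Set.Icc (-1 : ℝ) 1,
            Φ (WV E e (Function.update v y (p.re + p.im * x))) := by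
        exact mul_le_mul' (mul_le_mul_right h1 _) h4
    _ = ENNReal.ofReal (CL lam α β) * (ENNReal.ofReal p.im * (M *
          ∫⁻ x in Set.Icc (-1 : ℝ) 1,
            Φ (WV E e (Function.update v y (p.re + p.im * x))))) := by ring
    _ ≤ ENNReal.ofReal (CL lam α β) * (ENNReal.ofReal p.im *
          ∫⁻ s, Φ (WV E e (Function.update v y s)) *
            ENNReal.ofReal (1 / ‖(s : ℂ) - p‖ ^ 2) ∂(ν y)) :=
        mul_le_mul_right (mul_le_mul_right h3 _) _
    _ = ENNReal.ofReal (CL lam α β) * ∫⁻ s, ENNReal.ofReal p.im *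
          ENNReal.ofReal (1 / ‖(s : ℂ) - p‖ ^ 2) * Φ (WV E e (Function.update v y s)) ∂(ν y) := by
        have hPd : Measurable fun s : ℝ => Φ (WV E e (Function.update v y s)) *
            ENNReal.ofReal (1 / ‖(s : ℂ) - p‖ ^ 2) := hPm.mul hdm
        rw [← lintegral_const_mul _ hPd]
        congr 1
        refine lintegral_congr fun s => ?_
        ring

end P365L.T2.X968
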