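import Vale.Agent.P365.T2.UpsBd844
import Vale.Agent.P365.Torus.Char

/-!
# P365-T2: the entropy drift on the torus (positions `2 phi N`), (helper844)
-/

set_option linter.all false

namespace P365T2.H844

open Finset P365L P365O
open scoped RealInnerProductSpace ComplexConjugate
open P365T2.H37 (wk HH HD rho)

variable {N : ℕ} [NeZero N]

/-- positions on the torus -/
noncomputable def posT (N : ℕ) (x : Tor N) : EuclideanSpace ℝ (Fin 4) :=
  fam (fun k x => 2 * phi N k x) x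

theorem tt_posT (x y : Tor N) : tt (posT N) x y = 4 * dsq x y := by
  have h : tt (posT N) x y = ∑ k, (2 * phi N k x - 2 * phi N k y) ^ 2 :=
    tt_fam (fun k x => 2 * phi N k x) x y
  rw [h, dsq, mul_sum]
  exact sum_congr rfl fun k _ => by ring

theorem tt_posT_cases (x y : Tor N) : tt (posT N) x y = 0 ∨ 1 ≤ tt (posT N) x y := by
  by_cases hxy : x = y
  · left
    subst hxy
    exact tt_self x
  · right
    rw [tt_posT]
    have h1 := dsq_ge x y
    have h2 : 1 ≤ nrm (x - y) := by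
      by_contra hlt
      have h0 : nrm (x - y) = 0 := by omega
      exact hxy (sub_eq_zero.1 (nrm_eq_zero.1 h0))
    have h3 : (1 : ℝ) ≤ (nrm (x - y) : ℝ) ^ 2 := by
      have : (1 : ℝ) ≤ nrm (x - y) := by exact_mod_cast h2
      nlinarith
    have hpi : Real.pi ≤ 4 := Real.pi_le_four
    have hpi0 := Real.pi_pos
    have h4 : (1 : ℝ) / 4 ≤ 4 / Real.pi ^ 2 := by
      rw [div_le_div_iff₀ (by norm_num) (by positivity)]
      nlinarith
    have h5 : 4 / Real.pi ^ 2 * 1 ≤ 4 / Real.pi ^ 2 * (nrm (x - y) : ℝ) ^ 2 :=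
      mul_le_mul_of_nonneg_left h3 (by positivity)
    linarith

theorem tt_posT_le {J : ℕ} (hJ : 8 * (N : ℝ) ^ 2 ≤ 4 ^ J) (x y : Tor N) :
    tt (posT N) x y ≤ 4 ^ J := by
  rw [tt_posT]
  have h1 := dsq_le x y
  have h2 : (nrm (x - y) : ℝ) ≤ N := by
    exact_mod_cast (nrm_le_half (x - y)).trans (Nat.div_le_self N 2)
  have h3 : (nrm (x - y) : ℝ) ^ 2 ≤ (N : ℝ) ^ 2 := by
    have : (0 : ℝ) ≤ nrm (x - y) := Nat.cast_nonneg _
    nlinarith
  linarith

variable {A : Matrix (Tor N) (Tor N) ℝ} {W : Tor N → ℂ}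

/-- the diffusivity of an environment, `Σ_k En (phi_k)` -/
noncomputable def DT (A : Matrix (Tor N) (Tor N) ℝ) (W : Tor N → ℂ) : ℝ := ∑ k, En A W (phi N k)

/-- the (om-weighted) loss of an environment -/
noncomputable def LT (A : Matrix (Tor N) (Tor N) ℝ) (W : Tor N → ℂ) (om : Tor N → ℝ) : ℝ :=
  ∑ v, om v * ((-(W v).im) * mm A W v) * ∑ k, muf A W (phi N k) v ^ 2

/-- static share of the energy -/
noncomputable def ZT (A : Matrix (Tor N) (Tor N) ℝ) (W : Tor N → ℂ) (om : Tor N → ℝ) : ℝ :=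
  ∑ v, (1 - om v) * ∑ y, TT A W v y * dsq v y

theorem En_smul (f : Tor N → ℝ) (c : ℝ) : En A W (fun x => c * f x) = c ^ 2 * En A W f := by
  unfold En
  rw [mul_sum]
  refine sum_congr rfl fun x _ => ?_
  rw [mul_sum]
  exact sum_congr rfl fun y _ => by ring

theorem muf_smul (f : Tor N → ℝ) (c : ℝ) (x : Tor N) :
    muf A W (fun x => c * f x) x = c * muf A W f x := by
  unfold muf
  rw [mul_sub, mul_sum]
  congr 1
  exact sum_congr rfl fun y _ => by ring

theorem sum_pr_Vr_T (hA : A.IsSymm) (hW : ∀ x, (W x).im < 0) :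
    ∑ v, pr (TT A W) v * Vr (posT N) (TT A W) v = 4 * DT A W := by
  have h := sum_pr_Vr_fam (A := A) (W := W) hA hW (fun k x => 2 * phi N k x)
  have e : ∑ v, pr (TT A W) v * Vr (posT N) (TT A W) v =
      ∑ v, pr (TT A W) v * Vr (fam fun k x => 2 * phi N k x) (TT A W) v := rfl
  rw [e, h, DT, mul_sum]
  refine sum_congr rfl fun k _ => ?_
  rw [En_smul]
  norm_num

theorem pr_Vr_T (hA : A.IsSymm) (hW : ∀ x, (W x).im < 0) (v : Tor N) :
    pr (TT A W) v * Vr (posT N) (TT A W) v = 4 * ∑ y, TT A W v y * dsq v y := by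
  rw [pr_Vr (pr_TT_pos hA hW) v, mul_sum]
  refine sum_congr rfl fun y _ => ?_
  rw [tt_posT, dsq_comm]
  ring

theorem mur_T (hA : A.IsSymm) (hW : ∀ x, (W x).im < 0) (v : Tor N) :
    ‖mur (posT N) (TT A W) v‖ ^ 2 = 4 * ∑ k, muf A W (phi N k) v ^ 2 := by
  have h := mur_fam (A := A) (W := W) hA hW (fun k x => 2 * phi N k x) v
  have e : mur (posT N) (TT A W) v = mur (fam fun k x => 2 * phi N k x) (TT A W) v := rfl
  rw [e, h, mul_sum]
  refine sum_congr rfl fun k _ => ?_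
  rw [muf_smul]
  ring

/-- the truncated entropy of an environment of the torus -/
noncomputable def UpsT (A : Matrix (Tor N) (Tor N) ℝ) (W : Tor N → ℂ) (T : ℝ) (J : ℕ) : ℝ :=
  Ups (posT N) A W (Real.exp (-T)) J

/-- its gain -/
noncomputable def PosT (A : Matrix (Tor N) (Tor N) ℝ) (W : Tor N → ℂ) (T : ℝ) (J : ℕ) : ℝ :=
  Pos (posT N) (TT A W) (Real.exp (-T)) J

theorem abs_UpsT_le (hA : A.IsSymm) (hW : ∀ x, (W x).im < 0) {T : ℝ} (hT : 0 ≤ T) {J : ℕ}
    (hJ : 8 * (N : ℝ) ^ 2 ≤ 4 ^ J) : |UpsT A W T J| ≤ 4 * (T + 2) * DT A W := by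
  have h := abs_Ups_le (Φ := posT N) hA hW hT (J := J) (tt_posT_le hJ)
  rw [sum_pr_Vr_T hA hW] at h
  unfold UpsT
  linarith

/-- **the pointwise generator drift of the entropy on the torus** -/
theorem ups_gen_T (hA : A.IsSymm) (hW : ∀ x, (W x).im < 0) {T : ℝ} (hT : 0 ≤ T) {J : ℕ}
    (hJ1 : 1 ≤ J) (hJ : 8 * (N : ℝ) ^ 2 ≤ 4 ^ J) {om : Tor N → ℝ} (ho : ∀ x, 0 ≤ om x)
    (ho1 : ∀ x, om x ≤ 1) :
    (1 / 2) * PosT A W T J - 260 * DT A W -
      8 * (T + 2) * (Real.sqrt (DT A W) * Real.sqrt (LT A W om)) -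
      4 * (T + 2) * ZT A W om ≤
    -∑ y, om y * ∑ x, ∑ k ∈ range (J + 2), LLU (posT N) A W (Real.exp (-T)) J k y x := by
  have h := ups_gen (Φ := posT N) hA hW hT hJ1 tt_posT_cases (tt_posT_le hJ) ho ho1
  refine le_trans ?_ h
  rw [sum_pr_Vr_T hA hW]
  have hp := pr_TT_pos (A := A) (W := W) hA hW
  have hQ0 := TT_nonneg (A := A) (W := W) hW
  have h1 : ∑ v, om v * pr (TT A W) v * Vr (posT N) (TT A W) v ≤ 4 * DT A W := by
    rw [← sum_pr_Vr_T hA hW]
    refine sum_le_sum fun v _ => ?_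
    refine mul_le_mul_of_nonneg_right ?_ (Vr_nonneg hQ0 hp v)
    exact mul_le_of_le_one_left (hp v).le (ho1 v)
  have h2 : ∑ v, om v * pr (TT A W) v * ‖mur (posT N) (TT A W) v‖ ^ 2 = 4 * LT A W om := by
    unfold LT
    rw [mul_sum]
    refine sum_congr rfl fun v _ => ?_
    rw [mur_T hA hW, pr_TT hA hW]
    ring
  have h3 : ∑ v, (1 - om v) * pr (TT A W) v * Vr (posT N) (TT A W) v = 4 * ZT A W om := by
    unfold ZT
    rw [mul_sum]
    refine sum_congr rfl fun v _ => ?_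
    rw [mul_assoc, pr_Vr_T hA hW]
    ring
  rw [h2, h3]
  have h4 : Real.sqrt (∑ v, om v * pr (TT A W) v * Vr (posT N) (TT A W) v) ≤
      2 * Real.sqrt (DT A W) := by
    refine (Real.sqrt_le_sqrt h1).trans (le_of_eq ?_)
    rw [show (4 : ℝ) * DT A W = 2 ^ 2 * DT A W by norm_num, Real.sqrt_mul (by norm_num),
      Real.sqrt_sq (by norm_num)]
  have h5 : Real.sqrt (4 * LT A W om) = 2 * Real.sqrt (LT A W om) := by
    rw [show (4 : ℝ) * LT A W om = 2 ^ 2 * LT A W om by norm_num, Real.sqrt_mul (by norm_num),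
      Real.sqrt_sq (by norm_num)]
  rw [h5]
  have h6 : Real.sqrt (∑ v, om v * pr (TT A W) v * Vr (posT N) (TT A W) v) *
      (2 * Real.sqrt (LT A W om)) ≤ 2 * Real.sqrt (DT A W) * (2 * Real.sqrt (LT A W om)) :=
    mul_le_mul_of_nonneg_right h4 (by positivity)
  have h7 := mul_le_mul_of_nonneg_left h6 (by linarith : (0 : ℝ) ≤ 2 * (T + 2))
  unfold PosT
  nlinarith [h7]

end P365T2.H844
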